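import Vale.Agent.P281Z.Hm.Defs
import Mathlib.Analysis.Calculus.MeanValue
import Mathlib.Analysis.SpecialFunctions.Log.Deriv

/-!
# P281Z, Wirtinger calculus for vector valued functions
-/

set_option linter.unusedSectionVars false

open scoped Topology ComplexConjugate
open Filter Set Complex

noncomputable section

namespace Vale.Agent.P281Z.Hm

open Vale.Agent.P284Z (levi)

variable {E F G H : Type} [NormedAddCommGroup E] [NormedSpace ℝ E] [NormedSpace ℂ E]
  [NormedAddCommGroup F] [NormedSpace ℝ F] [NormedSpace ℂ F]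
  [NormedAddCommGroup G] [NormedSpace ℝ G] [NormedSpace ℂ G]
  [NormedAddCommGroup H] [NormedSpace ℝ H] [NormedSpace ℂ H]
  {f g : E → F} {z u v : E}

theorem wd_congr (h : f =ᶠ[𝓝 z] g) (v : E) : wd v f z = wd v g z := by
  rw [wd, wd, h.fderiv_eq]

theorem wb_congr (h : f =ᶠ[𝓝 z] g) (v : E) : wb v f z = wb v g z := by
  rw [wb, wb, h.fderiv_eq]

theorem wd_congr_ev (h : f =ᶠ[𝓝 z] g) (v : E) : wd v f =ᶠ[𝓝 z] wd v g :=
  h.eventuallyEq_nhds.mono fun _ hx => wd_congr hx v

theorem wb_congr_ev (h : f =ᶠ[𝓝 z] g) (v : E) : wb v f =ᶠ[𝓝 z] wb v g :=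
  h.eventuallyEq_nhds.mono fun _ hx => wb_congr hx v

@[simp] theorem wd_const (c : F) (v z : E) : wd v (fun _ => c) z = 0 := by simp [wd]

@[simp] theorem wb_const (c : F) (v z : E) : wb v (fun _ => c) z = 0 := by simp [wb]

theorem fderiv_eq_wd (f : E → F) (z v : E) : fderiv ℝ f z v = wd v f z + wb v f z := by
  rw [wd, wb, ← smul_add, sub_add_add_cancel, ← two_smul ℂ, smul_smul]
  simp

theorem wd_add (hf : DifferentiableAt ℝ f z) (hg : DifferentiableAt ℝ g z) (v : E) :
    wd v (fun x => f x + g x) z = wd v f z + wd v g z := by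
  simp only [wd, fderiv_fun_add hf hg, _root_.add_apply]
  module

theorem wb_add (hf : DifferentiableAt ℝ f z) (hg : DifferentiableAt ℝ g z) (v : E) :
    wb v (fun x => f x + g x) z = wb v f z + wb v g z := by
  simp only [wb, fderiv_fun_add hf hg, _root_.add_apply]
  module

theorem wd_neg (f : E → F) (v z : E) : wd v (fun x => -f x) z = -wd v f z := by
  simp only [wd, fderiv_fun_neg, _root_.neg_apply]
  module

theorem wb_neg (f : E → F) (v z : E) : wb v (fun x => -f x) z = -wb v f z := by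
  simp only [wb, fderiv_fun_neg, _root_.neg_apply]
  module

theorem wd_sub (hf : DifferentiableAt ℝ f z) (hg : DifferentiableAt ℝ g z) (v : E) :
    wd v (fun x => f x - g x) z = wd v f z - wd v g z := by
  simp only [wd, fderiv_fun_sub hf hg, _root_.sub_apply]
  module

theorem wb_sub (hf : DifferentiableAt ℝ f z) (hg : DifferentiableAt ℝ g z) (v : E) :
    wb v (fun x => f x - g x) z = wb v f z - wb v g z := by
  simp only [wb, fderiv_fun_sub hf hg, _root_.sub_apply]
  module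

theorem wd_sum {ι : Type*} (s : Finset ι) {f : ι → E → F} (hf : ∀ i ∈ s, DifferentiableAt ℝ (f i) z)
    (v : E) : wd v (fun x => ∑ i ∈ s, f i x) z = ∑ i ∈ s, wd v (f i) z := by
  simp only [wd, fderiv_fun_sum hf, _root_.sum_apply, Finset.smul_sum,
    ← Finset.sum_sub_distrib]

theorem wb_sum {ι : Type*} (s : Finset ι) {f : ι → E → F} (hf : ∀ i ∈ s, DifferentiableAt ℝ (f i) z)
    (v : E) : wb v (fun x => ∑ i ∈ s, f i x) z = ∑ i ∈ s, wb v (f i) z := by
  simp only [wb, fderiv_fun_sum hf, _root_.sum_apply, Finset.smul_sum,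
    ← Finset.sum_add_distrib]

theorem fderiv_lin (L : F →L[ℝ] G) (hf : DifferentiableAt ℝ f z) (v : E) :
    fderiv ℝ (fun x => L (f x)) z v = L (fderiv ℝ f z v) := by
  have := (L.hasFDerivAt.comp z hf.hasFDerivAt).fderiv
  exact congrArg (fun A => A v) this

/-- real linear maps which are complex linear -/
theorem wd_lin (L : F →L[ℝ] G) (hL : ∀ (c : ℂ) x, L (c • x) = c • L x)
    (hf : DifferentiableAt ℝ f z) (v : E) : wd v (fun x => L (f x)) z = L (wd v f z) := by
  rw [wd, wd, fderiv_lin L hf, fderiv_lin L hf, hL, map_sub, hL]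

theorem wb_lin (L : F →L[ℝ] G) (hL : ∀ (c : ℂ) x, L (c • x) = c • L x)
    (hf : DifferentiableAt ℝ f z) (v : E) : wb v (fun x => L (f x)) z = L (wb v f z) := by
  rw [wb, wb, fderiv_lin L hf, fderiv_lin L hf, hL, map_add, hL]

/-- real linear maps which are antilinear -/
theorem wd_anti (L : F →L[ℝ] G) (hL : ∀ (c : ℂ) x, L (c • x) = conj c • L x)
    (hf : DifferentiableAt ℝ f z) (v : E) : wd v (fun x => L (f x)) z = L (wb v f z) := by
  rw [wd, wb, fderiv_lin L hf, fderiv_lin L hf, hL, map_add, hL]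
  simp only [map_inv₀, map_ofNat, conj_I, neg_smul, sub_eq_add_neg]

theorem wb_anti (L : F →L[ℝ] G) (hL : ∀ (c : ℂ) x, L (c • x) = conj c • L x)
    (hf : DifferentiableAt ℝ f z) (v : E) : wb v (fun x => L (f x)) z = L (wd v f z) := by
  rw [wd, wb, fderiv_lin L hf, fderiv_lin L hf, hL, map_sub, hL]
  simp only [map_inv₀, map_ofNat, conj_I, neg_smul, sub_neg_eq_add]

theorem fderiv_bil (B : F →L[ℝ] G →L[ℝ] H) {g : E → G} (hf : DifferentiableAt ℝ f z)
    (hg : DifferentiableAt ℝ g z) (v : E) : fderiv ℝ (fun x => B (f x) (g x)) z v =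
      B (fderiv ℝ f z v) (g z) + B (f z) (fderiv ℝ g z v) := by
  rw [B.fderiv_of_bilinear hf hg]
  simp [add_comm]

/-- the product rule -/
theorem wd_bil (B : F →L[ℝ] G →L[ℝ] H) (h1 : ∀ (c : ℂ) x y, B (c • x) y = c • B x y)
    (h2 : ∀ (c : ℂ) x y, B x (c • y) = c • B x y) {g : E → G} (hf : DifferentiableAt ℝ f z)
    (hg : DifferentiableAt ℝ g z) (v : E) :
    wd v (fun x => B (f x) (g x)) z = B (wd v f z) (g z) + B (f z) (wd v g z) := by
  simp only [wd, fderiv_bil B hf hg, h1, h2, map_sub, _root_.sub_apply]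
  module

theorem wb_bil (B : F →L[ℝ] G →L[ℝ] H) (h1 : ∀ (c : ℂ) x y, B (c • x) y = c • B x y)
    (h2 : ∀ (c : ℂ) x y, B x (c • y) = c • B x y) {g : E → G} (hf : DifferentiableAt ℝ f z)
    (hg : DifferentiableAt ℝ g z) (v : E) :
    wb v (fun x => B (f x) (g x)) z = B (wb v f z) (g z) + B (f z) (wb v g z) := by
  simp only [wb, fderiv_bil B hf hg, h1, h2, map_add, _root_.add_apply]
  module

theorem wd_addv (f : E → F) (z u v : E) : wd (u + v) f z = wd u f z + wd v f z := by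
  simp only [wd, smul_add, map_add]
  module

theorem wb_addv (f : E → F) (z u v : E) : wb (u + v) f z = wb u f z + wb v f z := by
  simp only [wb, smul_add, map_add]
  module

section tower
variable [IsScalarTower ℝ ℂ E] [IsScalarTower ℝ ℂ F] [IsScalarTower ℝ ℂ G] [IsScalarTower ℝ ℂ H]

theorem rsmul (r : ℝ) (x : F) : r • x = (r : ℂ) • x := RCLike.real_smul_eq_coe_smul (K := ℂ) r x

theorem csmul (c : ℂ) (x : F) : c • x = c.re • x + c.im • I • x := by
  conv_lhs => rw [← re_add_im c, add_smul, mul_smul, ← rsmul, ← rsmul]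

theorem wd_smulv (c : ℂ) (f : E → F) (z v : E) : wd (c • v) f z = c • wd v f z := by
  have e : I • c • v = c.re • I • v + c.im • (-v) := by
    rw [smul_comm, csmul c, smul_smul I I, I_mul_I, neg_one_smul]
  rw [wd, wd, e, csmul c v]
  simp only [map_add, map_smul, map_neg]
  simp only [rsmul]
  conv_rhs => rw [← re_add_im c]
  match_scalars
  · ring
  · linear_combination (c.im * 2⁻¹ : ℂ) * I_mul_I

theorem wb_smulv (c : ℂ) (f : E → F) (z v : E) : wb (c • v) f z = conj c • wb v f z := by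
  have e : I • c • v = c.re • I • v + c.im • (-v) := by
    rw [smul_comm, csmul c, smul_smul I I, I_mul_I, neg_one_smul]
  have e' : conj c = c.re - c.im * I := by apply Complex.ext <;> simp
  rw [wb, wb, e, csmul c v, e']
  simp only [map_add, map_smul, map_neg]
  simp only [rsmul]
  match_scalars
  · ring
  · linear_combination (c.im * 2⁻¹ : ℂ) * I_mul_I

@[simp] theorem wd_zerov (f : E → F) (z : E) : wd 0 f z = 0 := by simp [wd]

@[simp] theorem wb_zerov (f : E → F) (z : E) : wb 0 f z = 0 := by simp [wb]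

theorem wd_sumv {ι : Type*} (s : Finset ι) (c : ι → ℂ) (v : ι → E) (f : E → F) (z : E) :
    wd (∑ i ∈ s, c i • v i) f z = ∑ i ∈ s, c i • wd (v i) f z := by
  classical
  induction s using Finset.induction_on with
  | empty => simp
  | insert a s ha ih => rw [Finset.sum_insert ha, Finset.sum_insert ha, wd_addv, wd_smulv, ih]

theorem wb_sumv {ι : Type*} (s : Finset ι) (c : ι → ℂ) (v : ι → E) (f : E → F) (z : E) :
    wb (∑ i ∈ s, c i • v i) f z = ∑ i ∈ s, conj (c i) • wb (v i) f z := by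
  classical
  induction s using Finset.induction_on with
  | empty => simp
  | insert a s ha ih => rw [Finset.sum_insert ha, Finset.sum_insert ha, wb_addv, wb_smulv, ih]

theorem wd_clm (L : F →L[ℂ] G) (hf : DifferentiableAt ℝ f z) (v : E) :
    wd v (fun x => L (f x)) z = L (wd v f z) :=
  wd_lin (L.restrictScalars ℝ) (fun c x => L.map_smul c x) hf v

theorem wb_clm (L : F →L[ℂ] G) (hf : DifferentiableAt ℝ f z) (v : E) :
    wb v (fun x => L (f x)) z = L (wb v f z) :=
  wb_lin (L.restrictScalars ℝ) (fun c x => L.map_smul c x) hf v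

theorem wd_const_smul (c : ℂ) (hf : DifferentiableAt ℝ f z) (v : E) :
    wd v (fun x => c • f x) z = c • wd v f z := wd_clm (c • ContinuousLinearMap.id ℂ F) hf v

theorem wb_const_smul (c : ℂ) (hf : DifferentiableAt ℝ f z) (v : E) :
    wb v (fun x => c • f x) z = c • wb v f z := wb_clm (c • ContinuousLinearMap.id ℂ F) hf v

theorem wd_smul {a : E → ℂ} (ha : DifferentiableAt ℝ a z) (hf : DifferentiableAt ℝ f z) (v : E) :
    wd v (fun x => a x • f x) z = wd v a z • f z + a z • wd v f z :=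
  wd_bil (ContinuousLinearMap.lsmul ℝ ℂ) (fun c x y => mul_smul c x y)
    (fun c x y => smul_comm x c y) ha hf v

theorem wb_smul {a : E → ℂ} (ha : DifferentiableAt ℝ a z) (hf : DifferentiableAt ℝ f z) (v : E) :
    wb v (fun x => a x • f x) z = wb v a z • f z + a z • wb v f z :=
  wb_bil (ContinuousLinearMap.lsmul ℝ ℂ) (fun c x y => mul_smul c x y)
    (fun c x y => smul_comm x c y) ha hf v

theorem fderiv_hol (hf : DifferentiableAt ℂ f z) (v : E) : fderiv ℝ f z v = fderiv ℂ f z v := by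
  rw [hf.fderiv_restrictScalars ℝ]
  rfl

theorem wd_hol (hf : DifferentiableAt ℂ f z) (v : E) : wd v f z = fderiv ℂ f z v := by
  rw [wd, fderiv_hol hf, fderiv_hol hf, map_smul, smul_smul, I_mul_I]
  module

theorem wb_hol (hf : DifferentiableAt ℂ f z) (v : E) : wb v f z = 0 := by
  rw [wb, fderiv_hol hf, fderiv_hol hf, map_smul, smul_smul, I_mul_I]
  module

/-- the equations of Cauchy and Riemann -/
theorem hol_of_wb (hf : DifferentiableAt ℝ f z) (h : ∀ v, wb v f z = 0) :
    DifferentiableAt ℂ f z := by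
  have e : ∀ v, fderiv ℝ f z v = wd v f z := fun v => by rw [fderiv_eq_wd, h, add_zero]
  refine (differentiableAt_iff_restrictScalars ℝ hf).2
    ⟨⟨⟨⟨fderiv ℝ f z, map_add _⟩, fun c v => ?_⟩, (fderiv ℝ f z).continuous⟩, rfl⟩
  simp only [e, wd_smulv, RingHom.id_apply]

/-- the chain rule for a holomorphic inner map -/
theorem wd_comp {f : G → F} {g : E → G} (hf : DifferentiableAt ℝ f (g z))
    (hg : DifferentiableAt ℂ g z) (v : E) :
    wd v (fun x => f (g x)) z = wd (fderiv ℂ g z v) f (g z) := by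
  have := fderiv_comp z hf (hg.restrictScalars ℝ)
  rw [wd, wd, show (fun x => f (g x)) = f ∘ g from rfl, this]
  simp only [ContinuousLinearMap.comp_apply, fderiv_hol hg, map_smul]

theorem wb_comp {f : G → F} {g : E → G} (hf : DifferentiableAt ℝ f (g z))
    (hg : DifferentiableAt ℂ g z) (v : E) :
    wb v (fun x => f (g x)) z = wb (fderiv ℂ g z v) f (g z) := by
  have := fderiv_comp z hf (hg.restrictScalars ℝ)
  rw [wb, wb, show (fun x => f (g x)) = f ∘ g from rfl, this]
  simp only [ContinuousLinearMap.comp_apply, fderiv_hol hg, map_smul]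

theorem an_fderiv [CompleteSpace F] (hf : AnalyticAt ℝ f z) (v : E) :
    AnalyticAt ℝ (fun x => fderiv ℝ f x v) z :=
  ((ContinuousLinearMap.apply ℝ F v).analyticAt _).comp hf.fderiv

theorem an_csmul (c : ℂ) (hf : AnalyticAt ℝ f z) : AnalyticAt ℝ (fun x => c • f x) z :=
  (((c • ContinuousLinearMap.id ℂ F).restrictScalars ℝ).analyticAt _).comp hf

theorem an_wd [CompleteSpace F] (hf : AnalyticAt ℝ f z) (v : E) : AnalyticAt ℝ (wd v f) z :=
  an_csmul _ ((an_fderiv hf v).sub (an_csmul _ (an_fderiv hf _)))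

theorem an_wb [CompleteSpace F] (hf : AnalyticAt ℝ f z) (v : E) : AnalyticAt ℝ (wb v f) z :=
  an_csmul _ ((an_fderiv hf v).add (an_csmul _ (an_fderiv hf _)))

theorem diff_fd (hf : ContDiffAt ℝ 2 f z) : DifferentiableAt ℝ (fderiv ℝ f) z :=
  (hf.fderiv_right (m := 1) (by norm_num)).differentiableAt one_ne_zero

theorem fderiv_wd (hf : ContDiffAt ℝ 2 f z) (u v : E) : fderiv ℝ (wd v f) z u =
    (2⁻¹ : ℂ) • (fderiv ℝ (fderiv ℝ f) z u v - I • fderiv ℝ (fderiv ℝ f) z u (I • v)) := by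
  let L : (E →L[ℝ] F) →L[ℝ] F := (((2⁻¹ : ℂ) • ContinuousLinearMap.id ℂ F).restrictScalars ℝ).comp
    (ContinuousLinearMap.apply ℝ F v - ((I • ContinuousLinearMap.id ℂ F).restrictScalars ℝ).comp
      (ContinuousLinearMap.apply ℝ F (I • v)))
  exact congrArg (fun A => A u) (L.hasFDerivAt.comp z (diff_fd hf).hasFDerivAt).fderiv

theorem fderiv_wb (hf : ContDiffAt ℝ 2 f z) (u v : E) : fderiv ℝ (wb v f) z u =
    (2⁻¹ : ℂ) • (fderiv ℝ (fderiv ℝ f) z u v + I • fderiv ℝ (fderiv ℝ f) z u (I • v)) := by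
  let L : (E →L[ℝ] F) →L[ℝ] F := (((2⁻¹ : ℂ) • ContinuousLinearMap.id ℂ F).restrictScalars ℝ).comp
    (ContinuousLinearMap.apply ℝ F v + ((I • ContinuousLinearMap.id ℂ F).restrictScalars ℝ).comp
      (ContinuousLinearMap.apply ℝ F (I • v)))
  exact congrArg (fun A => A u) (L.hasFDerivAt.comp z (diff_fd hf).hasFDerivAt).fderiv

theorem snd_symm (hf : ContDiffAt ℝ 2 f z) (u v : E) :
    fderiv ℝ (fderiv ℝ f) z u v = fderiv ℝ (fderiv ℝ f) z v u :=
  hf.isSymmSndFDerivAt (by simp) u v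

theorem wd_wb_comm (hf : ContDiffAt ℝ 2 f z) (u v : E) : wd u (wb v f) z = wb v (wd u f) z := by
  rw [wd, wb, fderiv_wb hf, fderiv_wb hf, fderiv_wd hf, fderiv_wd hf, snd_symm hf v u,
    snd_symm hf v (I • u), snd_symm hf (I • v) u, snd_symm hf (I • v) (I • u)]
  module

theorem wd_wd_comm (hf : ContDiffAt ℝ 2 f z) (u v : E) : wd u (wd v f) z = wd v (wd u f) z := by
  rw [wd, wd, fderiv_wd hf, fderiv_wd hf, fderiv_wd hf, fderiv_wd hf, snd_symm hf v u,
    snd_symm hf v (I • u), snd_symm hf (I • v) u, snd_symm hf (I • v) (I • u)]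
  module

theorem wb_wb_comm (hf : ContDiffAt ℝ 2 f z) (u v : E) : wb u (wb v f) z = wb v (wb u f) z := by
  rw [wb, wb, fderiv_wb hf, fderiv_wb hf, fderiv_wb hf, fderiv_wb hf, snd_symm hf v u,
    snd_symm hf v (I • u), snd_symm hf (I • v) u, snd_symm hf (I • v) (I • u)]
  module

theorem an_c2 [CompleteSpace F] (hf : AnalyticAt ℝ f z) : ContDiffAt ℝ 2 f z := hf.contDiffAt

/-- the complex Hessian of a real function -/
theorem wb_wd_ofReal {a : E → ℝ} (ha : ContDiffAt ℝ 2 a z) (v : E) :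
    wb v (wd v fun x => (a x : ℂ)) z = ((levi a z v / 4 : ℝ) : ℂ) := by
  have h2 : ContDiffAt ℝ 2 (fun x => (a x : ℂ)) z := ofRealCLM.contDiff.contDiffAt.comp z ha
  have e : fderiv ℝ (fun x => (a x : ℂ)) =ᶠ[𝓝 z] fun x => ofRealCLM.comp (fderiv ℝ a x) :=
    (ha.eventually (by simp)).mono fun x hx =>
      (ofRealCLM.hasFDerivAt.comp x (hx.differentiableAt two_ne_zero).hasFDerivAt).fderiv
  have e2 : ∀ s t, fderiv ℝ (fderiv ℝ fun x => (a x : ℂ)) z s t =
      ((fderiv ℝ (fderiv ℝ a) z s t : ℝ) : ℂ) := fun s t => by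
    rw [e.fderiv_eq]
    have := ((ContinuousLinearMap.compL ℝ E ℝ ℂ ofRealCLM).hasFDerivAt.comp z
      (P284Z.diff_fderiv ha).hasFDerivAt).fderiv
    exact congrArg (fun A => A s t) this
  rw [wb, fderiv_wd h2, fderiv_wd h2, e2, e2, e2, e2, levi, P284Z.hess_symm ha v (I • v)]
  simp only [smul_eq_mul]
  push_cast
  linear_combination (-(4⁻¹ : ℂ) * (fderiv ℝ (fderiv ℝ a) z (I • v) (I • v) : ℝ)) * I_mul_I

theorem levi_eq {a : E → ℝ} (ha : ContDiffAt ℝ 2 a z) (v : E) :
    levi a z v = 4 * (wb v (wd v fun x => (a x : ℂ)) z).re := by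
  rw [wb_wd_ofReal ha, ofReal_re]
  ring

theorem levi_congr {a b : E → ℝ} (h : a =ᶠ[𝓝 z] b) (v : E) : levi a z v = levi b z v := by
  rw [levi, levi, h.fderiv.fderiv_eq]

theorem wb_ofReal {a : E → ℝ} (ha : DifferentiableAt ℝ a z) (v : E) :
    wb v (fun x => (a x : ℂ)) z = conj (wd v (fun x => (a x : ℂ)) z) := by
  have := wb_anti (conjCLE : ℂ →L[ℝ] ℂ) (fun c x => map_mul conj c x)
    (f := fun x => (a x : ℂ)) (ofRealCLM.differentiableAt.comp z ha) v
  simpa using this

theorem wd_log {a : E → ℝ} (ha : DifferentiableAt ℝ a z) (h0 : a z ≠ 0) (v : E) :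
    wd v (fun x => (Real.log (a x) : ℂ)) z = (a z : ℂ)⁻¹ * wd v (fun x => (a x : ℂ)) z := by
  have e : ∀ t, fderiv ℝ (fun x => (Real.log (a x) : ℂ)) z t =
      (a z : ℂ)⁻¹ * fderiv ℝ (fun x => (a x : ℂ)) z t := fun t => by
    have h1 := (ofRealCLM.hasFDerivAt.comp z (ha.hasFDerivAt.log h0)).fderiv
    have h2 := (ofRealCLM.hasFDerivAt.comp z ha.hasFDerivAt).fderiv
    rw [show (fun x => (Real.log (a x) : ℂ)) = ofRealCLM ∘ fun x => Real.log (a x) from rfl, h1,
      show (fun x => (a x : ℂ)) = ofRealCLM ∘ a from rfl, h2]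
    simp
  rw [wd, wd, e, e]
  simp only [smul_eq_mul]
  ring

theorem wb_inv {a : E → ℂ} (ha : DifferentiableAt ℝ a z) (h0 : a z ≠ 0) (v : E) :
    wb v (fun x => (a x)⁻¹) z = -((a z)⁻¹ * wb v a z * (a z)⁻¹) := by
  have e : (fun x => (a x)⁻¹ • a x) =ᶠ[𝓝 z] fun _ => 1 :=
    (ha.continuousAt.eventually_ne h0).mono fun x hx => inv_mul_cancel₀ hx
  have := wb_congr e v
  rw [wb_smul (ha.fun_inv h0) ha, wb_const] at this
  simp only [smul_eq_mul] at this
  field_simp
  field_simp at this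
  linear_combination this

/-- the Levi form of a logarithm -/
theorem levi_log {a : E → ℝ} (ha : ContDiffAt ℝ 2 a z) (h0 : a z ≠ 0) (v : E) :
    levi (fun x => Real.log (a x)) z v =
      levi a z v / a z - 4 * ‖wd v (fun x => (a x : ℂ)) z‖ ^ 2 / a z ^ 2 := by
  have h2 : ContDiffAt ℝ 2 (fun x => (a x : ℂ)) z := ofRealCLM.contDiff.contDiffAt.comp z ha
  have d1 := h2.differentiableAt two_ne_zero
  have e : wd v (fun x => (Real.log (a x) : ℂ)) =ᶠ[𝓝 z]
      fun y => (a y : ℂ)⁻¹ • wd v (fun x => (a x : ℂ)) y :=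
    ((ha.eventually (by simp)).and (ha.continuousAt.eventually_ne h0)).mono fun x hx =>
      wd_log (hx.1.differentiableAt two_ne_zero) hx.2 v
  have d2 : DifferentiableAt ℝ (wd v fun x => (a x : ℂ)) z := by
    have := diff_fd h2
    unfold wd
    fun_prop
  have h0' : (a z : ℂ) ≠ 0 := ofReal_ne_zero.2 h0
  rw [levi_eq (ha.log h0), wb_congr e, wb_smul (d1.fun_inv h0') d2, wb_inv d1 h0', wb_wd_ofReal ha,
    wb_ofReal (ha.differentiableAt two_ne_zero)]
  set c := wd v (fun x => (a x : ℂ)) z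
  have : -((a z : ℂ)⁻¹ * conj c * (a z : ℂ)⁻¹) • c + (a z : ℂ)⁻¹ • ((levi a z v / 4 : ℝ) : ℂ) =
      ((levi a z v / 4 / a z - ‖c‖ ^ 2 / a z ^ 2 : ℝ) : ℂ) := by
    push_cast
    rw [← conj_mul']
    simp only [smul_eq_mul]
    field_simp
    ring
  rw [this, ofReal_re]
  ring

theorem levi_neg (a : E → ℝ) (z v : E) : levi (fun x => -a x) z v = -levi a z v := by
  have e : fderiv ℝ (fun x => -a x) = fun x => -fderiv ℝ a x := funext fun x => fderiv_fun_neg
  rw [levi, levi, e, fderiv_fun_neg]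
  simp only [_root_.neg_apply]
  ring

theorem levi_add {a b : E → ℝ} (ha : ContDiffAt ℝ 2 a z) (hb : ContDiffAt ℝ 2 b z) (v : E) :
    levi (fun x => a x + b x) z v = levi a z v + levi b z v := by
  have e : fderiv ℝ (fun x => a x + b x) =ᶠ[𝓝 z] fun x => fderiv ℝ a x + fderiv ℝ b x :=
    ((ha.eventually (by simp)).and (hb.eventually (by simp))).mono fun x hx =>
      fderiv_fun_add (hx.1.differentiableAt two_ne_zero) (hx.2.differentiableAt two_ne_zero)
  rw [levi, levi, levi, e.fderiv_eq, fderiv_fun_add (P284Z.diff_fderiv ha) (P284Z.diff_fderiv hb)]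
  simp only [_root_.add_apply]
  ring

theorem levi_const (c : ℝ) (z v : E) : levi (fun _ => c) z v = 0 := by simp [levi]

/-- the Levi form of a composite with a holomorphic map -/
theorem levi_comp {a : G → ℝ} {g : E → G} [CompleteSpace G] (ha : ContDiffAt ℝ 2 a (g z))
    (hg : AnalyticAt ℂ g z) (v : E) :
    levi (fun x => a (g x)) z v = levi a (g z) (fderiv ℂ g z v) := by
  have h2 : ContDiffAt ℝ 2 (fun x => (a x : ℂ)) (g z) :=
    ofRealCLM.contDiff.contDiffAt.comp _ ha
  have hg2 : ContDiffAt ℝ 2 g z := (hg.restrictScalars (𝕜 := ℝ)).contDiffAt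
  set A : G → ℂ := fun x => (a x : ℂ)
  let L : (G →L[ℝ] ℂ) →L[ℝ] G →L[ℝ] ℂ := (2⁻¹ : ℂ) • (ContinuousLinearMap.id ℝ _ -
    I • (ContinuousLinearMap.compL ℝ G G ℂ).flip
      ((I • ContinuousLinearMap.id ℂ G).restrictScalars ℝ))
  have hL : ∀ y t, L (fderiv ℝ A y) t = wd t A y := fun y t => by simp [L, wd]
  have e : wd v (fun x => A (g x)) =ᶠ[𝓝 z] fun x => L (fderiv ℝ A (g x)) (fderiv ℂ g x v) :=
    ((hg.continuousAt.eventually (h2.eventually (by simp))).and hg.eventually_analyticAt).mono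
      fun x hx => (wd_comp (hx.1.differentiableAt two_ne_zero) hx.2.differentiableAt v).trans
        (hL _ _).symm
  have hv : DifferentiableAt ℂ (fun x => fderiv ℂ g x v) z :=
    (((ContinuousLinearMap.apply ℂ G v).analyticAt _).comp hg.fderiv).differentiableAt
  have hA : DifferentiableAt ℝ (fun x => fderiv ℝ A (g x)) z :=
    (diff_fd h2).comp z (hg2.differentiableAt two_ne_zero)
  have hw : DifferentiableAt ℝ (wd (fderiv ℂ g z v) A) (g z) := by
    have := diff_fd h2
    unfold wd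
    fun_prop
  rw [levi_eq (a := fun x => a (g x)) (ha.comp z hg2), levi_eq ha, ← wb_comp hw hg.differentiableAt]
  congr 2
  refine (wb_congr e v).trans ?_
  have k : ∀ t, fderiv ℝ (fun x => L (fderiv ℝ A (g x)) (fderiv ℂ g x v)) z t =
      fderiv ℝ (fun x => wd (fderiv ℂ g z v) A (g x)) z t +
        wd (fderiv ℂ (fun x => fderiv ℂ g x v) z t) A (g z) := fun t => by
    have k1 := (((L.hasFDerivAt.comp z hA.hasFDerivAt).clm_apply
      (hv.restrictScalars ℝ).hasFDerivAt).fderiv)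
    have k2 := (((L.hasFDerivAt.comp z hA.hasFDerivAt).clm_apply
      (hasFDerivAt_const (fderiv ℂ g z v) z)).fderiv)
    simp only [← hL]
    rw [show (fun x => L (fderiv ℝ A (g x)) (fderiv ℂ g x v)) =
      fun x => (L ∘ fun x => fderiv ℝ A (g x)) x (fderiv ℂ g x v) from rfl, k1,
      show (fun x => L (fderiv ℝ A (g x)) (fderiv ℂ g z v)) =
      fun x => (L ∘ fun x => fderiv ℝ A (g x)) x (fderiv ℂ g z v) from rfl, k2]
    simp [fderiv_hol hv, add_comm]
  rw [wb, wb, k, k, (fderiv ℂ (fun x => fderiv ℂ g x v) z).map_smul, wd_smulv]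
  simp only [smul_eq_mul]
  linear_combination (2⁻¹ * wd (fderiv ℂ (fun x => fderiv ℂ g x v) z v) A (g z) : ℂ) * I_mul_I

/-- vanishing derivatives -/
theorem ev_const (h : ∀ᶠ x in 𝓝 z, DifferentiableAt ℝ f x ∧ ∀ v, wd v f x = 0 ∧ wb v f x = 0) :
    ∀ᶠ x in 𝓝 z, f x = f z := by
  obtain ⟨r, hr, hb⟩ := Metric.nhds_basis_ball.eventually_iff.1 h
  filter_upwards [Metric.ball_mem_nhds z hr] with x hx
  refine Metric.isOpen_ball.is_const_of_fderiv_eq_zero (𝕜 := ℝ) (convex_ball z r).isPreconnected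
    (fun y hy => (hb hy).1.differentiableWithinAt) (fun y hy => ?_) hx (Metric.mem_ball_self hr)
  ext v
  rw [fderiv_eq_wd, ((hb hy).2 v).1, ((hb hy).2 v).2, add_zero]
  rfl

end tower

end Vale.Agent.P281Z.Hm
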