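import Vale.Agent.P281Z.Hm.Defs

/-!
# P281Z, divisors with simple normal crossings: components and coordinates
-/

open scoped Topology
open Filter Set

noncomputable section

namespace Vale.Agent.P281Z.Hm.Snc

variable {p : ℕ} {Y : Type} [TopologicalSpace Y] [ChartedSpace (Fin p → ℂ) Y] (S : Snc p Y)
  {y : Y} {l : Fin S.r} {i : Fin p}

theorem mem_K : i ∈ S.K y ↔ ∃ l, S.lab y l = some i ∧ y ∈ S.G l := by
  simp only [K, Finset.mem_filter, Finset.mem_univ, true_and]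

theorem mem_G : y ∈ S.G l ↔ ∃ i, S.lab y l = some i ∧ chartAt (Fin p → ℂ) y y i = 0 :=
  (S.snc y l).self_of_nhds

theorem zero_K (hi : i ∈ S.K y) : chartAt (Fin p → ℂ) y y i = 0 := by
  obtain ⟨l, h1, h2⟩ := S.mem_K.1 hi
  obtain ⟨j, h3, h4⟩ := S.mem_G.1 h2
  rwa [Option.some.inj (h1.symm.trans h3)]

theorem exists_lab (h : y ∈ S.G l) : ∃ i ∈ S.K y, S.lab y l = some i :=
  (S.mem_G.1 h).imp fun _ h' => ⟨S.mem_K.2 ⟨l, h'.1, h⟩, h'.1⟩

theorem ab_of_lab (h : y ∈ S.G l) (e : S.lab y l = some i) (z : Fin p → ℂ) :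
    S.ab y l z = ‖z i‖ := by
  rw [ab, if_pos h, e]
  rfl

theorem ab_of_not (h : y ∉ S.G l) (z : Fin p → ℂ) : S.ab y l z = 1 := if_neg h

theorem K_eq_empty (h : y ∈ S.U) : S.K y = ∅ :=
  Finset.eq_empty_of_forall_notMem fun _ hi => (S.mem_K.1 hi).elim fun l hl => h l hl.2

theorem K_eq_single (h : y ∈ S.G0 l) (e : S.lab y l = some i) : S.K y = {i} := by
  refine Finset.eq_singleton_iff_unique_mem.2 ⟨S.mem_K.2 ⟨l, e, h.1⟩, fun j hj => ?_⟩
  obtain ⟨l', h1, h2⟩ := S.mem_K.1 hj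
  obtain rfl : l' = l := not_not.1 fun c => h.2 l' c h2
  exact Option.some.inj (h1.symm.trans e)

/-- products over the components are products over the coordinates -/
theorem prod_eq {M : Type} [CommMonoid M] (y : Y) {F : Fin S.r → M} {F' : Fin p → M}
    (h1 : ∀ l, y ∉ S.G l → F l = 1) (h2 : ∀ l i, y ∈ S.G l → S.lab y l = some i → F l = F' i) :
    ∏ l, F l = ∏ i ∈ S.K y, F' i := by
  classical
  rw [← Finset.prod_filter_of_ne (p := fun l => y ∈ S.G l)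
    fun l _ h => not_not.1 fun c => h (h1 l c)]
  have h3 : ∀ l ∈ Finset.univ.filter fun l => y ∈ S.G l, ∃ i ∈ S.K y, S.lab y l = some i :=
    fun l hl => S.exists_lab (Finset.mem_filter.1 hl).2
  choose c hc hc' using h3
  refine Finset.prod_bij c hc (fun l hl l' hl' e => S.inj y l l' _ (hc' l hl) (e ▸ hc' l' hl'))
    (fun i hi => ?_) fun l hl => h2 l _ (Finset.mem_filter.1 hl).2 (hc' l hl)
  obtain ⟨l, a, b⟩ := S.mem_K.1 hi
  have hl : l ∈ Finset.univ.filter fun l => y ∈ S.G l := Finset.mem_filter.2 ⟨Finset.mem_univ l, b⟩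
  exact ⟨l, hl, Option.some.inj ((hc' l hl).symm.trans a)⟩

theorem prod_ab' {M : Type} [CommMonoid M] (y : Y) (z : Fin p → ℂ) {F : Fin S.r → ℝ → M}
    {F' : Fin p → ℝ → M} (h1 : ∀ l, F l 1 = 1)
    (h2 : ∀ l i, y ∈ S.G l → S.lab y l = some i → F l = F' i) :
    ∏ l, F l (S.ab y l z) = ∏ i ∈ S.K y, F' i ‖z i‖ :=
  S.prod_eq y (fun l h => by rw [S.ab_of_not h, h1]) fun l i h e => by
    rw [S.ab_of_lab h e, h2 l i h e]

theorem prod_ab {M : Type} [CommMonoid M] (y : Y) (z : Fin p → ℂ) (F : ℝ → M) (h : F 1 = 1) :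
    ∏ l, F (S.ab y l z) = ∏ i ∈ S.K y, F ‖z i‖ :=
  S.prod_ab' y z (F := fun _ => F) (F' := fun _ => F) (fun _ => h) fun _ _ _ _ => rfl

/-- near `y` only the components through `y` appear -/
theorem ev_cut (y : Y) : ∀ᶠ y' in 𝓝 y, ∀ l,
    y' ∈ S.G l ↔ y ∈ S.G l ∧ ∃ i, S.lab y l = some i ∧ chartAt (Fin p → ℂ) y y' i = 0 := by
  have hc : ContinuousAt (chartAt (Fin p → ℂ) y) y :=
    (chartAt (Fin p → ℂ) y).continuousAt (mem_chart_source _ y)
  have h : ∀ᶠ y' in 𝓝 y, ∀ i, chartAt (Fin p → ℂ) y y i ≠ 0 → chartAt (Fin p → ℂ) y y' i ≠ 0 :=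
    eventually_all.2 fun i => eventually_imp_distrib_left.2 fun h =>
      (continuousAt_pi.1 hc i).eventually_ne h
  filter_upwards [h, eventually_all.2 (S.snc y)] with y' a b l
  refine (b l).trans ⟨fun ⟨i, c, d⟩ => ⟨S.mem_G.2 ⟨i, c, not_not.1 fun e => a i e d⟩, i, c, d⟩,
    fun c => c.2⟩

theorem ev_U (y : Y) : ∀ᶠ y' in 𝓝 y, y' ∈ S.U ↔ ∀ i ∈ S.K y, chartAt (Fin p → ℂ) y y' i ≠ 0 := by
  filter_upwards [S.ev_cut y] with y' h
  refine ⟨fun a i hi e => ?_, fun a l b => ?_⟩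
  · obtain ⟨l, c, d⟩ := S.mem_K.1 hi
    exact a l ((h l).2 ⟨d, i, c, e⟩)
  · obtain ⟨c, i, d, e⟩ := (h l).1 b
    exact a i (S.mem_K.2 ⟨l, d, c⟩) e

theorem isOpen_U : IsOpen S.U :=
  isOpen_iff_mem_nhds.2 fun y hy => (S.ev_cut y).mono fun _ h l b => hy l ((h l).1 b).1

end Vale.Agent.P281Z.Hm.Snc
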