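import Vale.Agent.P281Z.Hm.Sk
import Vale.Agent.P281Z.Hm.Snc
import Vale.Agent.P284Z.F0.Cov

/-!
# P281Z, splitting the components of the divisor into connected ones (CONN)
-/

open scoped Topology
open Filter Set Metric

noncomputable section

namespace Vale.Agent.P281Z.Hm

open Vale.Agent.P284Z (preconn_glue preconn_diff)

namespace ConnH

variable {p : ℕ}

theorem model {c : Fin p → ℂ} {ρ : ℝ} (hρ : 0 < ρ) {i : Fin p} (hi : c i = 0) (D : Finset (Fin p))
    {T : Set (Fin p → ℂ)} (hT : ∀ z ∈ ball c ρ, z ∈ T ↔ z i = 0 ∧ ∀ j ∈ D, j ≠ i → z j ≠ 0) :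
    IsPreconnected (ball c ρ ∩ T) ∧ c ∈ closure (ball c ρ ∩ T) := by
  let Z : Fin p → Set ℂ := fun j => {t | j ∈ D ∧ t = 0}
  have hZ : ∀ j, (Z j).Countable := fun j => (countable_singleton 0).mono fun _ h => h.2
  have e : ball c ρ ∩ T = Set.pi univ fun j => if j = i then {0} else ball (c j) ρ \ Z j := by
    ext z
    refine ⟨fun h j _ => ?_, fun h => ?_⟩
    · have h1 := (hT z h.1).1 h.2
      beta_reduce
      split_ifs with k
      · exact k ▸ h1.1
      · exact ⟨(dist_pi_lt_iff hρ).1 h.1 j, fun a => h1.2 j a.1 k a.2⟩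
    · have h1 : z i = 0 := by simpa using h i (mem_univ i)
      have h2 : ∀ j, j ≠ i → z j ∈ ball (c j) ρ \ Z j := fun j k => by
        simpa only [if_neg k] using h j (mem_univ j)
      have h3 : z ∈ ball c ρ := (dist_pi_lt_iff hρ).2 fun j => by
        rcases eq_or_ne j i with rfl | k
        · rwa [h1, hi, dist_self]
        · exact (h2 j k).1
      exact ⟨h3, (hT z h3).2 ⟨h1, fun j a k b => (h2 j k).2 ⟨a, b⟩⟩⟩
  rw [e, closure_pi_set]
  refine ⟨isPreconnected_univ_pi fun j => ?_, fun j _ => ?_⟩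
  · split_ifs
    exacts [isPreconnected_singleton,
      preconn_diff isOpen_ball (convex_ball _ _).isPreconnected (hZ j)]
  · beta_reduce
    split_ifs with k
    · exact subset_closure (k ▸ hi)
    · exact ((hZ j).dense_compl ℂ).open_subset_closure_inter isOpen_ball (mem_ball_self hρ)

variable {Y : Type} [TopologicalSpace Y] [ChartedSpace (Fin p → ℂ) Y] (S : Snc p Y)

/-- the local structure of a component -/
theorem loc {y : Y} {l : Fin S.r} (h : y ∈ S.G l) : ∃ O ∈ 𝓝 y, IsPreconnected (O ∩ S.G l) ∧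
    IsPreconnected (O ∩ S.G0 l) ∧ y ∈ closure (O ∩ S.G0 l) := by
  set e := chartAt (Fin p → ℂ) y with he
  have hy : y ∈ e.source := mem_chart_source _ y
  obtain ⟨ρ, hρ, hb⟩ := Metric.eventually_nhds_iff_ball.1
    (((e.tendsto_symm hy).eventually (S.ev_cut y)).and (e.open_target.mem_nhds (e.map_source hy)))
  have cut : ∀ z ∈ ball (e y) ρ, ∀ l,
      e.symm z ∈ S.G l ↔ y ∈ S.G l ∧ ∃ i, S.lab y l = some i ∧ z i = 0 := fun z hz l => by
    have := (hb z hz).1 l
    rwa [← he, e.right_inv (hb z hz).2] at this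
  obtain ⟨i, hi, hl⟩ := S.exists_lab h
  have c1 : ∀ z ∈ ball (e y) ρ, e.symm z ∈ S.G l ↔ z i = 0 := fun z hz => by
    simp only [cut z hz, h, hl, true_and, Option.some.injEq, exists_eq_left']
  have m1 := model hρ (S.zero_K hi) ∅ (T := e.symm ⁻¹' S.G l) fun z hz => by simpa using c1 z hz
  have m2 := model hρ (S.zero_K hi) (S.K y) (T := e.symm ⁻¹' S.G0 l) fun z hz =>
    and_congr (c1 z hz) ⟨fun a j hj k b => by
      obtain ⟨l', d, d'⟩ := S.mem_K.1 hj
      exact a l' (fun k' => k (Option.some.inj ((k' ▸ d).symm.trans hl)))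
        ((cut z hz l').2 ⟨d', j, d, b⟩), fun a l' k b => by
      obtain ⟨d', j, d, b⟩ := (cut z hz l').1 b
      exact a j (S.mem_K.2 ⟨l', d, d'⟩) (fun k' => k (S.inj y l' l i (k' ▸ d) hl)) b⟩
  have hc : ∀ T, ContinuousOn e.symm (ball (e y) ρ ∩ T) := fun T =>
    e.continuousOn_symm.mono fun z hz => (hb z hz.1).2
  have hO := e.symm.image_mem_nhds (e.map_source hy) (ball_mem_nhds _ hρ)
  rw [e.left_inv hy] at hO
  refine ⟨_, hO, ?_, ?_, ?_⟩
  · exact image_inter_preimage _ _ _ ▸ m1.1.image _ (hc _)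
  · exact image_inter_preimage _ _ _ ▸ m2.1.image _ (hc _)
  · have := mem_closure_image (e.continuousAt_symm (e.map_source hy)) m2.2
    rwa [e.left_inv hy, image_inter_preimage] at this

theorem ev_comp (y : Y) (l : Fin S.r) :
    ∀ᶠ y' in 𝓝 y, y' ∈ S.G l → y ∈ S.G l ∧ y' ∈ connectedComponentIn (S.G l) y := by
  by_cases h : y ∈ S.G l
  · obtain ⟨O, hO, h1, -⟩ := loc S h
    exact mem_of_superset hO fun y' a b => ⟨h, h1.subset_connectedComponentIn
      ⟨mem_of_mem_nhds hO, h⟩ inter_subset_right ⟨a, b⟩⟩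
  · exact (S.ev_cut y).mono fun y' a b => absurd ((a l).1 b).1 h

theorem fin_comp [CompactSpace Y] :
    {a : Fin S.r × Set Y | ∃ y ∈ S.G a.1, a.2 = connectedComponentIn (S.G a.1) y}.Finite := by
  have h : ∀ l, ∃ t : Finset Y, ∀ y ∈ S.G l, ∃ x ∈ t,
      connectedComponentIn (S.G l) y = connectedComponentIn (S.G l) x := fun l => by
    obtain ⟨t, ht⟩ := CompactSpace.elim_nhds_subcover _ fun y => ev_comp S y l
    refine ⟨t, fun y hy => ?_⟩
    obtain ⟨x, hx, k⟩ := mem_iUnion₂.1 (ht.ge (mem_univ y))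
    exact ⟨x, hx, (connectedComponentIn_eq (k hy).2).symm⟩
  choose t ht using h
  refine (finite_iUnion fun l => (t l).finite_toSet.image
    fun x => (l, connectedComponentIn (S.G l) x)).subset ?_
  rintro ⟨l, Z⟩ ⟨y, hy, e⟩
  obtain ⟨x, hx, k⟩ := ht l y hy
  exact mem_iUnion.2 ⟨l, x, hx, Prod.ext rfl (e.trans k).symm⟩

end ConnH

open ConnH in
/-- **CONN** -/
theorem stConn : StConn := by
  classical
  intro p Y _ _ _ _ S
  obtain ⟨r, ⟨E⟩⟩ := (fin_comp S).to_subtype.exists_equiv_fin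
  let a : Fin r → Fin S.r × Set Y := fun k => (E.symm k).1
  have h1 : ∀ k, ∀ y ∈ (a k).2, y ∈ S.G (a k).1 ∧ (a k).2 = connectedComponentIn (S.G (a k).1) y :=
    fun k y hy => by
      obtain ⟨x, -, e⟩ := (E.symm k).2
      exact ⟨connectedComponentIn_subset _ _ (e ▸ hy), e.trans (connectedComponentIn_eq (e ▸ hy))⟩
  have h2 : ∀ k k' y, y ∈ (a k).2 → y ∈ (a k').2 → (a k).1 = (a k').1 → k = k' :=
    fun k k' y b b' e => E.symm.injective (Subtype.ext (Prod.ext e
      ((h1 k y b).2.trans (e ▸ (h1 k' y b').2.symm))))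
  have h3 : ∀ l, ∀ y ∈ S.G l, ∃ k, (a k).1 = l ∧ y ∈ (a k).2 := fun l y hy =>
    ⟨E ⟨(l, connectedComponentIn (S.G l) y), y, hy, rfl⟩, by
      simp only [a, E.symm_apply_apply, true_and]
      exact mem_connectedComponentIn hy⟩
  refine ⟨⟨r, fun k => (a k).2, fun y k => if y ∈ (a k).2 then S.lab y (a k).1 else none,
    fun y k k' i b b' => ?_, fun y k => ?_⟩, ?_, fun k => ?_, fun k => ⟨_, fun y hy => (h1 k y hy).1⟩⟩
  · split_ifs at b b' with c c'
    exact h2 k k' y c c' (S.inj y _ _ i b b')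
  · filter_upwards [ev_comp S y (a k).1, S.snc y (a k).1] with y' b c
    split_ifs with d
    · exact ⟨fun k' => c.1 (h1 k y' k').1, fun k' => (h1 k y d).2 ▸ (b (c.2 k')).2⟩
    · refine ⟨fun k' => absurd ?_ d, fun ⟨_, k', _⟩ => absurd k' (by simp)⟩
      obtain ⟨b1, b2⟩ := b (h1 k y' k').1
      rw [(h1 k y' k').2, ← connectedComponentIn_eq b2]
      exact mem_connectedComponentIn b1
  · ext y
    refine ⟨fun b l c => ?_, fun b k c => b _ (h1 k y c).1⟩
    obtain ⟨k, -, d⟩ := h3 l y c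
    exact b k d
  · have e : {y | y ∈ (a k).2 ∧ ∀ k', k' ≠ k → y ∉ (a k').2} = (a k).2 ∩ S.G0 (a k).1 := by
      ext y
      refine and_congr_right fun b => ⟨fun c => ⟨(h1 k y b).1, fun l d d' => ?_⟩, fun c k' d d' => ?_⟩
      · obtain ⟨k', rfl, f⟩ := h3 l y d'
        exact c k' (fun g => d (g ▸ rfl)) f
      · exact c.2 _ (fun g => d (h2 k' k y d' b g)) (h1 k' y d').1
    have h4 : ∀ y ∈ (a k).2, ∃ O ∈ 𝓝 y, IsPreconnected (O ∩ ((a k).2 ∩ S.G0 (a k).1)) ∧
        y ∈ closure (O ∩ ((a k).2 ∩ S.G0 (a k).1)) := fun y hy => by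
      obtain ⟨O, hO, b, c⟩ := loc S (h1 k y hy).1
      have d : O ∩ S.G (a k).1 ⊆ (a k).2 := (h1 k y hy).2 ▸ b.subset_connectedComponentIn
        ⟨mem_of_mem_nhds hO, (h1 k y hy).1⟩ inter_subset_right
      refine ⟨O, hO, ?_⟩
      rwa [show O ∩ ((a k).2 ∩ S.G0 (a k).1) = O ∩ S.G0 (a k).1 from Set.ext fun x =>
        ⟨fun f => ⟨f.1, f.2.2⟩, fun f => ⟨f.1, d ⟨f.1, f.2.1⟩, f.2⟩⟩]
    obtain ⟨x, -, ex⟩ := (E.symm k).2
    refine (congrArg IsPreconnected e).mpr (preconn_glue (U := (a k).2)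
      ((congrArg IsPreconnected ex).mpr isPreconnected_connectedComponentIn)
      inter_subset_left (fun y hy => ?_) fun y hy => (h4 y hy).imp fun O b => ⟨b.1, b.2.1⟩)
    obtain ⟨O, -, -, c⟩ := h4 y hy
    exact closure_mono inter_subset_right c

end Vale.Agent.P281Z.Hm
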