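import Vale.Agent.P281Z.Hm.Defs
import Mathlib.Analysis.Matrix.Order
import Mathlib.Analysis.InnerProductSpace.PiL2

/-!
# P281Z, polarised gradings: algebra
-/

set_option linter.unusedSectionVars false

open scoped Topology ComplexOrder ComplexConjugate InnerProductSpace
open Filter Set Matrix Complex

noncomputable section

namespace Vale.Agent.P281Z.Hm

section cz
variable {l m n : Type}

theorem cz_mul [Fintype m] (A : Matrix l m ℤ) (B : Matrix m n ℤ) : cz (A * B) = cz A * cz B :=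
  Matrix.map_mul (f := Int.castRingHom ℂ)

@[simp] theorem cz_one [DecidableEq n] : cz (1 : Matrix n n ℤ) = 1 :=
  Matrix.map_one _ Int.cast_zero Int.cast_one

theorem cz_sub (A B : Matrix m n ℤ) : cz (A - B) = cz A - cz B := by ext; simp [cz]

theorem cz_inj {A B : Matrix m n ℤ} (h : cz A = cz B) : A = B := by
  ext i j
  exact Int.cast_injective (α := ℂ) (congrFun (congrFun h i) j)

theorem cz_pow [Fintype n] [DecidableEq n] (A : Matrix n n ℤ) (k : ℕ) : cz (A ^ k) = cz A ^ k :=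
  map_pow (Int.castRingHom ℂ).mapMatrix A k

theorem cz_det [Fintype n] [DecidableEq n] (A : Matrix n n ℤ) : (cz A).det = (A.det : ℂ) :=
  ((Int.castRingHom ℂ).map_det A).symm

theorem cz_ct (A : Matrix m n ℤ) : (cz A)ᴴ = cz Aᵀ := by ext; simp [cz]

end cz

variable {n : Type} [Fintype n] [DecidableEq n]

/-- the adjoint for the metric `H` -/
def ad (H A : Mx n) : Mx n := H⁻¹ * Aᴴ * H

section pd
variable {H : Mx n}

theorem exists_sq (h : H.PosDef) : ∃ S : Mx n, S.det ≠ 0 ∧ H = Sᴴ * S := by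
  open scoped MatrixOrder in
  obtain ⟨S, hS, e⟩ := CStarAlgebra.isStrictlyPositive_iff_eq_star_mul_self.mp h.isStrictlyPositive
  exact ⟨S, ((isUnit_iff_isUnit_det S).1 hS).ne_zero, e⟩

theorem pd_det (h : H.PosDef) : IsUnit H.det := (isUnit_iff_isUnit_det H).1 h.isUnit

theorem eq_ad (h : H.PosDef) {A B : Mx n} (e : H * B = Aᴴ * H) : B = ad H A := by
  rw [ad, Matrix.mul_assoc, ← e, nonsing_inv_mul_cancel_left _ _ (pd_det h)]

theorem mul_ad (h : H.PosDef) (A : Mx n) : H * ad H A = Aᴴ * H := by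
  rw [ad, Matrix.mul_assoc, mul_nonsing_inv_cancel_left _ _ (pd_det h)]

theorem ad_ad (h : H.PosDef) (A : Mx n) : ad H (ad H A) = A := by
  refine (eq_ad h ?_).symm
  have := congrArg conjTranspose (mul_ad h A)
  rw [conjTranspose_mul, conjTranspose_mul, conjTranspose_conjTranspose, h.1.eq] at this
  exact this.symm

theorem ad_mul (h : H.PosDef) (A B : Mx n) : ad H (A * B) = ad H B * ad H A := by
  refine (eq_ad h ?_).symm
  rw [← Matrix.mul_assoc, mul_ad h, Matrix.mul_assoc, mul_ad h, conjTranspose_mul, Matrix.mul_assoc]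

theorem ad_add (H A B : Mx n) : ad H (A + B) = ad H A + ad H B := by
  simp [ad, Matrix.mul_add, Matrix.add_mul]

theorem ad_sub (H A B : Mx n) : ad H (A - B) = ad H A - ad H B := by
  simp [ad, Matrix.mul_sub, Matrix.sub_mul]

theorem ad_neg (H A : Mx n) : ad H (-A) = -ad H A := by simp [ad]

theorem ad_smul (H : Mx n) (c : ℂ) (A : Mx n) : ad H (c • A) = conj c • ad H A := by simp [ad]

theorem ad_one (h : H.PosDef) : ad H 1 = 1 := (eq_ad h (by simp)).symm

@[simp] theorem ad_zero (H : Mx n) : ad H 0 = 0 := by simp [ad]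

/-- vectors with the metric `H` -/
theorem exists_isoV (h : H.PosDef) : ∃ L : (n → ℂ) ≃ₗ[ℂ] EuclideanSpace ℂ n,
    ∀ s t, ⟪L s, L t⟫_ℂ = star s ⬝ᵥ H *ᵥ t := by
  obtain ⟨S, hS, rfl⟩ := exists_sq h
  refine ⟨(S.toLinearEquiv' (invertibleOfIsUnitDet S hS.isUnit)).trans
    (WithLp.linearEquiv 2 ℂ _).symm, fun s t => ?_⟩
  change ⟪WithLp.toLp 2 (S *ᵥ s), WithLp.toLp 2 (S *ᵥ t)⟫_ℂ = _
  rw [EuclideanSpace.inner_toLp_toLp, ← mulVec_mulVec, dotProduct_mulVec, ← star_mulVec,
    dotProduct_comm]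

/-- matrices with the Hilbert-Schmidt product of `H` -/
theorem exists_isoM (h : H.PosDef) : ∃ L : Mx n →ₗ[ℂ] EuclideanSpace ℂ (n × n),
    Function.Injective L ∧ ∀ A B, ⟪L B, L A⟫_ℂ = trace (A * ad H B) := by
  obtain ⟨S, hS, rfl⟩ := exists_sq h
  have hu := hS.isUnit
  have hu' : IsUnit Sᴴ.det := by rw [det_conjTranspose]; exact hu.star
  let L : Mx n →ₗ[ℂ] EuclideanSpace ℂ (n × n) :=
    { toFun := fun A => WithLp.toLp 2 fun q => (S * A * S⁻¹) q.1 q.2
      map_add' := fun A B => by ext q; simp [Matrix.mul_add, Matrix.add_mul]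
      map_smul' := fun c A => by ext q; simp }
  refine ⟨L, (injective_iff_map_eq_zero L).2 fun A hA => ?_, fun A B => ?_⟩
  · have e : S * A * S⁻¹ = 0 := by
      ext i j
      exact congrArg (fun x : EuclideanSpace ℂ (n × n) => x (i, j)) hA
    have := congrArg (fun X => S⁻¹ * (X * S)) e
    simpa [nonsing_inv_mul_cancel_right _ _ hu, nonsing_inv_mul_cancel_left _ _ hu] using this
  · have e : trace (A * ad (Sᴴ * S) B) = trace ((S * A * S⁻¹) * (S * B * S⁻¹)ᴴ) := by
      rw [ad, Matrix.mul_inv_rev, conjTranspose_mul, conjTranspose_mul, conjTranspose_nonsing_inv]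
      simp only [← Matrix.mul_assoc]
      rw [trace_mul_comm _ S]
      simp only [← Matrix.mul_assoc]
    rw [e]
    change ⟪WithLp.toLp 2 _, WithLp.toLp 2 _⟫_ℂ = _
    rw [EuclideanSpace.inner_toLp_toLp]
    simp only [dotProduct, trace, diag_apply, Matrix.mul_apply (M := S * A * S⁻¹),
      conjTranspose_apply, Fintype.sum_prod_type, Pi.star_apply]

theorem hs_nonneg (h : H.PosDef) (A : Mx n) : 0 ≤ (trace (A * ad H A)).re := by
  obtain ⟨L, -, hL⟩ := exists_isoM h
  rw [← hL]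
  exact inner_self_nonneg (𝕜 := ℂ)

theorem hs_im (h : H.PosDef) (A : Mx n) : (trace (A * ad H A)).im = 0 := by
  obtain ⟨L, -, hL⟩ := exists_isoM h
  rw [← hL]
  exact inner_self_im (𝕜 := ℂ) _

theorem hs_eq_zero (h : H.PosDef) {A : Mx n} (e : (trace (A * ad H A)).re = 0) : A = 0 := by
  obtain ⟨L, hi, hL⟩ := exists_isoM h
  rw [← hL] at e
  refine hi (Eq.trans ?_ (map_zero L).symm)
  have := inner_self_eq_norm_sq (𝕜 := ℂ) (L A)
  exact norm_eq_zero.1 (pow_eq_zero_iff two_ne_zero |>.1 (this.symm.trans e))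

theorem hs_cs (h : H.PosDef) (A B : Mx n) :
    ‖trace (A * ad H B)‖ ^ 2 ≤ (trace (A * ad H A)).re * (trace (B * ad H B)).re := by
  obtain ⟨L, -, hL⟩ := exists_isoM h
  rw [← hL, ← hL, ← hL]
  have a := inner_self_eq_norm_sq (𝕜 := ℂ) (L A)
  have b := inner_self_eq_norm_sq (𝕜 := ℂ) (L B)
  rw [RCLike.re_to_complex] at a b
  rw [a, b, ← mul_pow, mul_comm]
  exact pow_le_pow_left₀ (norm_nonneg _) (norm_inner_le_norm _ _) 2

theorem hn_nonneg (h : H.PosDef) (s : n → ℂ) : 0 ≤ hn H s := h.posSemidef.re_dotProduct_nonneg s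

theorem hn_pos (h : H.PosDef) {s : n → ℂ} (hs : s ≠ 0) : 0 < hn H s := h.re_dotProduct_pos hs

theorem hn_ofReal (h : H.IsHermitian) (s : n → ℂ) : (hn H s : ℂ) = star s ⬝ᵥ H *ᵥ s :=
  Complex.ext rfl (h.im_star_dotProduct_mulVec_self s).symm

theorem hn_smul (H : Mx n) (c : ℂ) (s : n → ℂ) : hn H (c • s) = ‖c‖ ^ 2 * hn H s := by
  rw [hn, hn, star_smul, mulVec_smul, smul_dotProduct, dotProduct_smul, smul_smul, smul_eq_mul,
    star_def, conj_mul', ← ofReal_pow, re_ofReal_mul]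

theorem hn_conj {k : Type} [Fintype k] [DecidableEq k] (H : Mx n) (B : Matrix n k ℂ) (s : k → ℂ) :
    hn (Bᴴ * H * B) s = hn H (B *ᵥ s) := by
  rw [hn, hn, star_mulVec, ← dotProduct_mulVec, mulVec_mulVec, mulVec_mulVec]

theorem dot_ad (h : H.PosDef) (A : Mx n) (s t : n → ℂ) :
    star (A *ᵥ s) ⬝ᵥ H *ᵥ t = star s ⬝ᵥ H *ᵥ (ad H A *ᵥ t) := by
  rw [mulVec_mulVec, mul_ad h, star_mulVec, ← dotProduct_mulVec, mulVec_mulVec]

theorem hn_cs (h : H.PosDef) (s t : n → ℂ) : ‖star s ⬝ᵥ H *ᵥ t‖ ^ 2 ≤ hn H s * hn H t := by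
  obtain ⟨L, hL⟩ := exists_isoV h
  rw [hn, hn, ← hL, ← hL, ← hL]
  have a := inner_self_eq_norm_sq (𝕜 := ℂ) (L s)
  have b := inner_self_eq_norm_sq (𝕜 := ℂ) (L t)
  rw [RCLike.re_to_complex] at a b
  rw [a, b, ← mul_pow]
  exact pow_le_pow_left₀ (norm_nonneg _) (norm_inner_le_norm _ _) 2

/-- the operator norm is at most the Hilbert-Schmidt norm -/
theorem hn_mulVec_le (h : H.PosDef) (A : Mx n) (s : n → ℂ) :
    hn H (A *ᵥ s) ≤ (trace (A * ad H A)).re * hn H s := by
  set t := A *ᵥ s with ht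
  let B : Mx n := vecMulVec t (star s ᵥ* H)
  have hB : ad H B = vecMulVec s (star t ᵥ* H) := by
    refine (eq_ad h ?_).symm
    rw [conjTranspose_vecMulVec, vecMulVec_mul, mul_vecMulVec, star_vecMul, star_star, h.1.eq]
  have e1 : trace (A * ad H B) = hn H t := by
    rw [hB, mul_vecMulVec, trace_vecMulVec, hn_ofReal h.1, dotProduct_comm,
      dotProduct_mulVec (star t) H t]
  have e2 : trace (B * ad H B) = (hn H s * hn H t : ℝ) := by
    rw [hB, vecMulVec_mul_vecMulVec, trace_vecMulVec, dotProduct_smul, ofReal_mul, hn_ofReal h.1,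
      hn_ofReal h.1, dotProduct_comm t, dotProduct_mulVec (star t) H t, dotProduct_mulVec (star s) H s,
      smul_eq_mul]
  have := hs_cs h A B
  rw [e1, e2, ofReal_re, norm_real, Real.norm_eq_abs, sq_abs] at this
  rcases (hn_nonneg h t).eq_or_lt with h0 | h0
  · rw [← h0]
    exact mul_nonneg (hs_nonneg h A) (hn_nonneg h s)
  · exact le_of_mul_le_mul_right (by nlinarith) h0

end pd

namespace Hs
variable {Q : Mx n} {w : ℕ} {π : Gr n} (h : Hs Q w π)
include h

theorem idem (q : ℕ) : π q * π q = π q := by rw [h.orth, if_pos rfl]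

theorem sum_mul (c : ℕ → ℂ) (q : ℕ) :
    (∑ j ∈ Finset.range (w + 1), c j • π j) * π q = c q • π q := by
  simp only [Finset.sum_mul, smul_mul_assoc, h.orth, smul_ite, smul_zero, Finset.sum_ite_eq']
  split_ifs with hq
  · rfl
  · rw [h.top q (by simpa using hq), smul_zero]

theorem mul_sum (c : ℕ → ℂ) (q : ℕ) :
    π q * (∑ j ∈ Finset.range (w + 1), c j • π j) = c q • π q := by
  simp only [Finset.mul_sum, mul_smul_comm, h.orth, smul_ite, smul_zero]
  rw [Finset.sum_ite_eq]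
  split_ifs with hq
  · rfl
  · rw [h.top q (by simpa using hq), smul_zero]

theorem J_mul (q : ℕ) : gJ w π * π q = (q : ℂ) • π q := h.sum_mul _ q
theorem mul_J (q : ℕ) : π q * gJ w π = (q : ℂ) • π q := h.mul_sum _ q
theorem C_mul (q : ℕ) : gC w π * π q = (-1 : ℂ) ^ q • π q := h.sum_mul _ q
theorem mul_C (q : ℕ) : π q * gC w π = (-1 : ℂ) ^ q • π q := h.mul_sum _ q

theorem F_eq (k : ℕ) :
    gF w π k = ∑ j ∈ Finset.range (w + 1), (if k ≤ j then (1 : ℂ) else 0) • π j := by
  simp only [ite_smul, one_smul, zero_smul, ← Finset.sum_filter, gF]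
  refine Finset.sum_congr ?_ fun _ _ => rfl
  ext j
  simp [and_comm]

theorem F_mul (k q : ℕ) : gF w π k * π q = if k ≤ q then π q else 0 := by
  rw [h.F_eq, h.sum_mul]
  split_ifs <;> simp

theorem mul_F (k q : ℕ) : π q * gF w π k = if k ≤ q then π q else 0 := by
  rw [h.F_eq, h.mul_sum]
  split_ifs <;> simp

theorem ext_right {m : Type} {A B : Matrix m n ℂ} (e : ∀ q ≤ w, A * π q = B * π q) : A = B := by
  rw [← Matrix.mul_one A, ← Matrix.mul_one B, ← h.sum, Matrix.mul_sum, Matrix.mul_sum]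
  exact Finset.sum_congr rfl fun q hq => e q (Nat.lt_succ_iff.1 (Finset.mem_range.1 hq))

theorem ext_left {m : Type} {A B : Matrix n m ℂ} (e : ∀ q ≤ w, π q * A = π q * B) : A = B := by
  rw [← Matrix.one_mul A, ← Matrix.one_mul B, ← h.sum, Matrix.sum_mul, Matrix.sum_mul]
  exact Finset.sum_congr rfl fun q hq => e q (Nat.lt_succ_iff.1 (Finset.mem_range.1 hq))

theorem C_C : gC w π * gC w π = 1 := h.ext_right fun q _ => by
  rw [Matrix.mul_assoc, h.C_mul, mul_smul_comm, h.C_mul, smul_smul, ← mul_pow]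
  simp

theorem J_C : gJ w π * gC w π = gC w π * gJ w π := h.ext_right fun q _ => by
  rw [Matrix.mul_assoc, Matrix.mul_assoc, h.C_mul, h.J_mul, mul_smul_comm, mul_smul_comm, h.C_mul,
    h.J_mul, smul_comm]

theorem F_F (k k' : ℕ) : gF w π k * gF w π k' = gF w π (max k k') := h.ext_right fun q _ => by
  rw [Matrix.mul_assoc, h.F_mul, h.F_mul]
  by_cases a : k' ≤ q <;> by_cases b : k ≤ q <;> simp [a, b, h.F_mul]

theorem F_idem (k : ℕ) : gF w π k * gF w π k = gF w π k := by rw [h.F_F, max_self]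

theorem F_zero : gF w π 0 = 1 := h.ext_right fun q _ => by simp [h.F_mul]

theorem F_top {k : ℕ} (hk : w < k) : gF w π k = 0 := by simp [gF, Finset.Icc_eq_empty_of_lt hk]

theorem F_sub (q : ℕ) : π q = gF w π q - gF w π (q + 1) := h.ext_right fun j _ => by
  rw [Matrix.sub_mul, h.F_mul, h.F_mul, h.orth]
  rcases lt_trichotomy q j with a | rfl | a
  · simp [a.ne, a.le, Nat.succ_le_of_lt a]
  · simp
  · simp [a.ne', not_le.2 a, not_le.2 (a.trans (Nat.lt_succ_self q))]

theorem Q_sum (c : ℕ → ℂ) (hc : ∀ j, conj (c j) = c j) (s : Finset ℕ) :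
    Q * (∑ j ∈ s, c j • π j) = (∑ j ∈ s, c j • π j)ᴴ * Q := by
  simp only [Finset.mul_sum, conjTranspose_sum, Finset.sum_mul, conjTranspose_smul, mul_smul_comm,
    smul_mul_assoc, h.adj, star_def, hc]

theorem Q_J : Q * gJ w π = (gJ w π)ᴴ * Q := h.Q_sum _ (fun j => by simp) _
theorem Q_C : Q * gC w π = (gC w π)ᴴ * Q := h.Q_sum _ (fun j => by simp) _

theorem Q_F (k : ℕ) : Q * gF w π k = (gF w π k)ᴴ * Q := by
  rw [h.F_eq]
  exact h.Q_sum _ (fun j => by split_ifs <;> simp) _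

theorem H_C : gH Q w π * gC w π = Q := by rw [gH, Matrix.mul_assoc, h.C_C, Matrix.mul_one]

theorem herm : Q.IsHermitian := by
  have e := h.pos.1.eq
  rw [gH, h.Q_C, conjTranspose_mul, conjTranspose_conjTranspose, ← h.Q_C] at e
  have := congrArg (· * gC w π) e
  simp only [Matrix.mul_assoc, h.C_C, Matrix.mul_one] at this
  exact this

theorem det_H : IsUnit (gH Q w π).det := pd_det h.pos

theorem det_Q : IsUnit Q.det := isUnit_of_mul_isUnit_left (det_mul Q _ ▸ h.det_H)

theorem H_π (q : ℕ) : gH Q w π * π q = (π q)ᴴ * gH Q w π := by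
  rw [gH, Matrix.mul_assoc, h.C_mul, ← Matrix.mul_assoc, ← h.adj, Matrix.mul_assoc, h.mul_C]

theorem ad_π (q : ℕ) : ad (gH Q w π) (π q) = π q := (eq_ad h.pos (h.H_π q)).symm

theorem H_J : gH Q w π * gJ w π = (gJ w π)ᴴ * gH Q w π := by
  rw [gH, Matrix.mul_assoc, ← h.J_C, ← Matrix.mul_assoc, h.Q_J, Matrix.mul_assoc]

theorem ad_J : ad (gH Q w π) (gJ w π) = gJ w π := (eq_ad h.pos h.H_J).symm

theorem ad_F (k : ℕ) : ad (gH Q w π) (gF w π k) = gF w π k := by
  refine (eq_ad h.pos ?_).symm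
  simp only [gF, Finset.mul_sum, conjTranspose_sum, Finset.sum_mul, h.H_π]

theorem H_top {s : n → ℂ} {q : ℕ} (hs : π q *ᵥ s = s) :
    gH Q w π *ᵥ s = (-1 : ℂ) ^ q • (Q *ᵥ s) := by
  conv_lhs => rw [← hs, mulVec_mulVec, gH, Matrix.mul_assoc, h.C_mul, mul_smul_comm, smul_mulVec,
    ← mulVec_mulVec, hs]

/-- the components of an eigenvector of `ad J` -/
theorem comp {A : Mx n} {c : ℂ} (e : gJ w π * A - A * gJ w π = c • A) {q q' : ℕ}
    (hq : (q : ℂ) - q' ≠ c) : π q * A * π q' = 0 := by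
  have := congrArg (fun X => π q * X * π q') e
  simp only [Matrix.mul_sub, Matrix.sub_mul, ← Matrix.mul_assoc, h.mul_J] at this
  rw [Matrix.mul_assoc _ (gJ w π), h.J_mul] at this
  simp only [smul_mul_assoc, mul_smul_comm, ← sub_smul] at this
  exact (smul_eq_zero.1 (by rw [sub_smul, this, sub_self])).resolve_left (sub_ne_zero.2 hq)

theorem shift {A : Mx n} {q q' : ℕ} (h1 : ∀ j, j ≠ q' → π q * A * π j = 0)
    (h2 : ∀ j, j ≠ q → π j * A * π q' = 0) : π q * A = A * π q' := by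
  have a : π q * A = π q * A * π q' := h.ext_right fun j _ => by
    rw [Matrix.mul_assoc _ (π q'), h.orth]
    split_ifs with e
    · rw [e]
    · rw [h1 j (Ne.symm e), Matrix.mul_zero]
  have b : A * π q' = π q * A * π q' := h.ext_left fun j _ => by
    rw [← Matrix.mul_assoc, ← Matrix.mul_assoc, ← Matrix.mul_assoc, h.orth]
    split_ifs with e
    · rw [e]
    · rw [h2 j e, Matrix.zero_mul, Matrix.zero_mul]
  rw [a, b]

theorem comm_π {A : Mx n} (e : gJ w π * A - A * gJ w π = 0) (q : ℕ) : Commute A (π q) := by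
  have e' : gJ w π * A - A * gJ w π = (0 : ℂ) • A := by rwa [zero_smul]
  refine (h.shift (fun j hj => h.comp e' ?_) fun j hj => h.comp e' ?_).symm <;>
    rw [sub_ne_zero] <;> exact_mod_cast by omega

section low
variable {A : Mx n} (e : gJ w π * A - A * gJ w π = -A)
include e

theorem low (q : ℕ) : π q * A = A * π (q + 1) := by
  have e' : gJ w π * A - A * gJ w π = (-1 : ℂ) • A := by rwa [neg_one_smul]
  refine h.shift (fun j hj => h.comp e' fun a => hj ?_) fun j hj => h.comp e' fun a => hj ?_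
  · exact_mod_cast (by linear_combination -a : (j : ℂ) = q + 1)
  · exact_mod_cast (by push_cast at a; linear_combination a : (j : ℂ) = q)

theorem low_zero : A * π 0 = 0 := h.ext_left fun j _ => by
  rw [← Matrix.mul_assoc, h.low e, Matrix.mul_assoc, h.orth, if_neg (Nat.succ_ne_zero j),
    Matrix.mul_zero, Matrix.mul_zero]

theorem low_C : gC w π * A = -(A * gC w π) := h.ext_left fun j _ => by
  rw [← Matrix.mul_assoc, h.mul_C, Matrix.mul_neg, ← Matrix.mul_assoc, smul_mul_assoc, h.low e,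
    Matrix.mul_assoc, h.mul_C, mul_smul_comm, pow_succ, mul_neg_one, neg_smul, neg_neg]

theorem low_ad : gJ w π * ad (gH Q w π) A - ad (gH Q w π) A * gJ w π = ad (gH Q w π) A := by
  have := congrArg (ad (gH Q w π)) e
  rw [ad_sub, ad_mul h.pos, ad_mul h.pos, h.ad_J, ad_neg] at this
  rw [← neg_sub, this, neg_neg]

end low

theorem up {A : Mx n} (e : gJ w π * A - A * gJ w π = A) (q : ℕ) : π (q + 1) * A = A * π q := by
  have e' : gJ w π * A - A * gJ w π = (1 : ℂ) • A := by rwa [one_smul]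
  refine h.shift (fun j hj => h.comp e' fun a => hj ?_) fun j hj => h.comp e' fun a => hj ?_
  · exact_mod_cast (by push_cast at a; linear_combination -a : (j : ℂ) = q)
  · exact_mod_cast (by linear_combination a : (j : ℂ) = q + 1)

theorem up_zero {A : Mx n} (e : gJ w π * A - A * gJ w π = A) : π 0 * A = 0 :=
  h.ext_right fun j _ => by
    rw [Matrix.mul_assoc, ← h.up e, ← Matrix.mul_assoc, h.orth, if_neg (Nat.succ_ne_zero j).symm,
      Matrix.zero_mul, Matrix.zero_mul]

theorem up_C {A : Mx n} (e : gJ w π * A - A * gJ w π = A) : gC w π * A = -(A * gC w π) :=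
  h.ext_right fun j _ => by
    rw [Matrix.mul_assoc, ← h.up e, ← Matrix.mul_assoc, h.C_mul, Matrix.neg_mul, Matrix.mul_assoc,
      h.C_mul, mul_smul_comm, ← h.up e, smul_mul_assoc, pow_succ, mul_neg_one, neg_smul]

theorem tr_π (q : ℕ) : 0 ≤ (trace (π q)).re := by
  have := hs_nonneg h.pos (π q)
  rwa [h.ad_π, h.idem] at this

theorem tr_JJ : (trace (gJ w π * ad (gH Q w π) (gJ w π))).re ≤ kap w n := by
  have e : gJ w π * gJ w π = ∑ q ∈ Finset.range (w + 1), ((q : ℝ) ^ 2 : ℝ) • π q := by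
    conv_lhs => rw [← Matrix.mul_one (_ * _), ← h.sum, Finset.mul_sum]
    refine Finset.sum_congr rfl fun q _ => ?_
    rw [Matrix.mul_assoc, h.J_mul, mul_smul_comm, h.J_mul, smul_smul, ← Complex.coe_smul]
    push_cast
    rw [sq]
  have e1 : ∑ q ∈ Finset.range (w + 1), (trace (π q)).re = Fintype.card n := by
    rw [← re_sum, ← trace_sum, h.sum, trace_one, natCast_re]
  rw [h.ad_J, e, trace_sum, re_sum, kap, ← e1, Finset.mul_sum]
  refine le_trans (Finset.sum_le_sum fun q hq => ?_) (le_add_of_nonneg_right zero_le_one)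
  rw [trace_smul, smul_re, smul_eq_mul]
  have : (q : ℝ) ≤ w := by exact_mod_cast Nat.lt_succ_iff.1 (Finset.mem_range.1 hq)
  exact mul_le_mul_of_nonneg_right (by gcongr) (h.tr_π q)

/-- the curvature inequality -/
theorem low_curv {A : Mx n} (e : gJ w π * A - A * gJ w π = -A) :
    (trace (A * ad (gH Q w π) A)).re ^ 2 ≤ kap w n *
      (trace ((ad (gH Q w π) A * A - A * ad (gH Q w π) A) *
        ad (gH Q w π) (ad (gH Q w π) A * A - A * ad (gH Q w π) A))).re := by
  set B := ad (gH Q w π) A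
  have e1 : trace ((B * A - A * B) * ad (gH Q w π) (gJ w π)) = trace (A * B) := by
    have e2 : A = A * gJ w π - gJ w π * A := by rw [← neg_sub, e, neg_neg]
    conv_rhs => rw [e2]
    rw [h.ad_J, Matrix.sub_mul, Matrix.sub_mul, trace_sub, trace_sub, Matrix.mul_assoc B,
      trace_mul_comm B, trace_mul_comm (A * B), ← Matrix.mul_assoc]
  have := hs_cs h.pos (B * A - A * B) (gJ w π)
  rw [e1] at this
  refine le_trans ?_ (this.trans ?_)
  · rw [← sq_abs]
    exact pow_le_pow_left₀ (abs_nonneg _) (abs_re_le_norm _) 2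
  · rw [mul_comm]
    exact mul_le_mul_of_nonneg_right h.tr_JJ (hs_nonneg h.pos _)

end Hs

theorem kap_pos (w : ℕ) (n : Type) [Fintype n] : 0 < kap w n := by
  unfold kap
  positivity

end Vale.Agent.P281Z.Hm
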