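import Vale.Agent.P281Z.Hm.Calc
import Mathlib.LinearAlgebra.Matrix.Charpoly.Coeff
import Mathlib.Analysis.Analytic.Polynomial

/-!
# P281Z, Wirtinger calculus for matrix valued functions
-/

set_option linter.unusedSectionVars false

open scoped Matrix.Norms.Operator Topology ComplexConjugate
open Filter Set Matrix Complex

noncomputable section

namespace Vale.Agent.P281Z.Hm

variable {l m n : Type} [Fintype l] [Fintype m] [Fintype n]

/-- an entry -/
def entL (i : m) (j : n) : Matrix m n ℂ →L[ℂ] ℂ :=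
  LinearMap.toContinuousLinearMap (Matrix.entryLinearMap ℂ ℂ i j)

@[simp] theorem entL_apply (i : m) (j : n) (A : Matrix m n ℂ) : entL i j A = A i j := rfl

section an
variable {𝕜 : Type} [NontriviallyNormedField 𝕜] [NormedAlgebra 𝕜 ℂ]
  {E : Type} [NormedAddCommGroup E] [NormedSpace 𝕜 E] {z : E}

theorem an_ent {f : E → Matrix m n ℂ} (hf : AnalyticAt 𝕜 f z) (i : m) (j : n) :
    AnalyticAt 𝕜 (fun x => f x i j) z := (((entL i j).restrictScalars 𝕜).analyticAt _).comp hf

theorem an_of {f : E → Matrix m n ℂ} (hf : ∀ i j, AnalyticAt 𝕜 (fun x => f x i j) z) :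
    AnalyticAt 𝕜 f z := by
  classical
  have e : f = fun x => ∑ i, ∑ j, f x i j • Matrix.single i j (1 : ℂ) := by
    funext x
    conv_lhs => rw [matrix_eq_sum_single (f x)]
    simp [smul_single]
  rw [e]
  exact Finset.analyticAt_fun_sum _ fun i _ => Finset.analyticAt_fun_sum _ fun j _ =>
    (hf i j).smul analyticAt_const

theorem an_mul {f : E → Matrix l m ℂ} {g : E → Matrix m n ℂ} (hf : AnalyticAt 𝕜 f z)
    (hg : AnalyticAt 𝕜 g z) : AnalyticAt 𝕜 (fun x => f x * g x) z :=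
  an_of fun i j => by
    simp only [Matrix.mul_apply]
    exact Finset.analyticAt_fun_sum _ fun k _ => (an_ent hf i k).mul (an_ent hg k j)

theorem an_crd {s : E → n → ℂ} (hs : AnalyticAt 𝕜 s z) (i : n) : AnalyticAt 𝕜 (fun x => s x i) z :=
  analyticAt_pi_iff.1 hs i

theorem an_mulVec {f : E → Matrix m n ℂ} {s : E → n → ℂ} (hf : AnalyticAt 𝕜 f z)
    (hs : AnalyticAt 𝕜 s z) : AnalyticAt 𝕜 (fun x => f x *ᵥ s x) z :=
  AnalyticAt.pi fun i => by
    simp only [mulVec, dotProduct]
    exact Finset.analyticAt_fun_sum _ fun k _ => (an_ent hf i k).mul (an_crd hs k)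

theorem an_dot {s t : E → n → ℂ} (hs : AnalyticAt 𝕜 s z) (ht : AnalyticAt 𝕜 t z) :
    AnalyticAt 𝕜 (fun x => s x ⬝ᵥ t x) z := by
  simp only [dotProduct]
  exact Finset.analyticAt_fun_sum _ fun k _ => (an_crd hs k).mul (an_crd ht k)

theorem an_trace {f : E → Matrix n n ℂ} (hf : AnalyticAt 𝕜 f z) :
    AnalyticAt 𝕜 (fun x => trace (f x)) z := by
  simp only [trace, diag_apply]
  exact Finset.analyticAt_fun_sum _ fun k _ => an_ent hf k k

theorem an_msmul (c : ℂ) {f : E → Matrix m n ℂ} (hf : AnalyticAt 𝕜 f z) :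
    AnalyticAt 𝕜 (fun x => c • f x) z := an_of fun i j => analyticAt_const.mul (an_ent hf i j)

variable [DecidableEq n]

theorem an_det {f : E → Matrix n n ℂ} (hf : AnalyticAt 𝕜 f z) :
    AnalyticAt 𝕜 (fun x => (f x).det) z := by
  simp only [det_apply']
  exact Finset.analyticAt_fun_sum _ fun σ _ => analyticAt_const.mul
    (Finset.analyticAt_fun_prod _ fun i _ => an_ent hf _ _)

theorem an_adj {f : E → Matrix n n ℂ} (hf : AnalyticAt 𝕜 f z) :
    AnalyticAt 𝕜 (fun x => (f x).adjugate) z :=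
  an_of fun i j => by
    simp only [adjugate_apply]
    refine an_det (an_of fun a b => ?_)
    simp only [updateRow_apply]
    split_ifs
    exacts [analyticAt_const, an_ent hf _ _]

theorem an_inv {f : E → Matrix n n ℂ} (hf : AnalyticAt 𝕜 f z) (h0 : (f z).det ≠ 0) :
    AnalyticAt 𝕜 (fun x => (f x)⁻¹) z := by
  simp only [Matrix.inv_def, Ring.inverse_eq_inv']
  exact ((an_det hf).inv h0).smul (an_adj hf)

end an

variable {E : Type} [NormedAddCommGroup E] [NormedSpace ℝ E] {z : E}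

theorem an_conj {a : E → ℂ} (ha : AnalyticAt ℝ a z) : AnalyticAt ℝ (fun x => conj (a x)) z :=
  ((conjCLE : ℂ →L[ℝ] ℂ).analyticAt _).comp ha

theorem an_ct {f : E → Matrix m n ℂ} (hf : AnalyticAt ℝ f z) : AnalyticAt ℝ (fun x => (f x)ᴴ) z :=
  an_of fun i j => an_conj (an_ent hf j i)

theorem an_star {s : E → n → ℂ} (hs : AnalyticAt ℝ s z) : AnalyticAt ℝ (fun x => star (s x)) z :=
  AnalyticAt.pi fun i => an_conj (an_crd hs i)

theorem an_re {a : E → ℂ} (ha : AnalyticAt ℝ a z) : AnalyticAt ℝ (fun x => (a x).re) z :=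
  (reCLM.analyticAt _).comp ha

theorem an_ofReal {a : E → ℝ} (ha : AnalyticAt ℝ a z) : AnalyticAt ℝ (fun x => (a x : ℂ)) z :=
  (ofRealCLM.analyticAt _).comp ha

theorem an_hn [DecidableEq n] {H : E → Mx n} {s : E → n → ℂ} (hH : AnalyticAt ℝ H z)
    (hs : AnalyticAt ℝ s z) : AnalyticAt ℝ (fun x => hn (H x) (s x)) z :=
  an_re (an_dot (an_star hs) (an_mulVec hH hs))

theorem df_ent {f : E → Matrix m n ℂ} (hf : DifferentiableAt ℝ f z) (i : m) (j : n) :
    DifferentiableAt ℝ (fun x => f x i j) z :=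
  ((entL i j).restrictScalars ℝ).differentiableAt.comp z hf

theorem df_of {f : E → Matrix m n ℂ} (hf : ∀ i j, DifferentiableAt ℝ (fun x => f x i j) z) :
    DifferentiableAt ℝ f z := by
  classical
  have e : f = fun x => ∑ i, ∑ j, f x i j • Matrix.single i j (1 : ℂ) := by
    funext x
    conv_lhs => rw [matrix_eq_sum_single (f x)]
    simp [smul_single]
  rw [e]
  exact DifferentiableAt.fun_sum fun i _ => DifferentiableAt.fun_sum fun j _ =>
    (hf i j).smul_const _

theorem df_crd {s : E → n → ℂ} (hs : DifferentiableAt ℝ s z) (i : n) :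
    DifferentiableAt ℝ (fun x => s x i) z := differentiableAt_pi.1 hs i

theorem df_conj {a : E → ℂ} (ha : DifferentiableAt ℝ a z) :
    DifferentiableAt ℝ (fun x => conj (a x)) z :=
  (conjCLE : ℂ →L[ℝ] ℂ).differentiableAt.comp z ha

theorem df_mul {f : E → Matrix l m ℂ} {g : E → Matrix m n ℂ} (hf : DifferentiableAt ℝ f z)
    (hg : DifferentiableAt ℝ g z) : DifferentiableAt ℝ (fun x => f x * g x) z :=
  df_of fun i j => by
    simp only [Matrix.mul_apply]
    exact DifferentiableAt.fun_sum fun k _ => (df_ent hf i k).fun_mul (df_ent hg k j)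

theorem df_mulVec {f : E → Matrix m n ℂ} {s : E → n → ℂ} (hf : DifferentiableAt ℝ f z)
    (hs : DifferentiableAt ℝ s z) : DifferentiableAt ℝ (fun x => f x *ᵥ s x) z :=
  differentiableAt_pi.2 fun i => by
    simp only [mulVec, dotProduct]
    exact DifferentiableAt.fun_sum fun k _ => (df_ent hf i k).fun_mul (df_crd hs k)

theorem df_dot {s t : E → n → ℂ} (hs : DifferentiableAt ℝ s z) (ht : DifferentiableAt ℝ t z) :
    DifferentiableAt ℝ (fun x => s x ⬝ᵥ t x) z := by
  simp only [dotProduct]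
  exact DifferentiableAt.fun_sum fun k _ => (df_crd hs k).fun_mul (df_crd ht k)

theorem df_trace {f : E → Matrix n n ℂ} (hf : DifferentiableAt ℝ f z) :
    DifferentiableAt ℝ (fun x => trace (f x)) z := by
  simp only [trace, diag_apply]
  exact DifferentiableAt.fun_sum fun k _ => df_ent hf k k

theorem df_msmul (c : ℂ) {f : E → Matrix m n ℂ} (hf : DifferentiableAt ℝ f z) :
    DifferentiableAt ℝ (fun x => c • f x) z := df_of fun i j => (df_ent hf i j).const_mul c

theorem df_ct {f : E → Matrix m n ℂ} (hf : DifferentiableAt ℝ f z) :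
    DifferentiableAt ℝ (fun x => (f x)ᴴ) z := df_of fun i j => df_conj (df_ent hf j i)

theorem df_star {s : E → n → ℂ} (hs : DifferentiableAt ℝ s z) :
    DifferentiableAt ℝ (fun x => star (s x)) z :=
  differentiableAt_pi.2 fun i => df_conj (df_crd hs i)

theorem df_det [DecidableEq n] {f : E → Matrix n n ℂ} (hf : DifferentiableAt ℝ f z) :
    DifferentiableAt ℝ (fun x => (f x).det) z :=
  (an_det (𝕜 := ℝ) (f := id) analyticAt_id).differentiableAt.comp z hf

theorem df_inv [DecidableEq n] {f : E → Matrix n n ℂ} (hf : DifferentiableAt ℝ f z)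
    (h0 : (f z).det ≠ 0) : DifferentiableAt ℝ (fun x => (f x)⁻¹) z :=
  (an_inv (𝕜 := ℝ) (f := id) analyticAt_id h0).differentiableAt.comp z hf

variable [NormedSpace ℂ E] [IsScalarTower ℝ ℂ E]

theorem wd_ent {f : E → Matrix m n ℂ} (hf : DifferentiableAt ℝ f z) (v : E) (i : m) (j : n) :
    wd v f z i j = wd v (fun x => f x i j) z := (wd_clm (entL i j) hf v).symm

theorem wb_ent {f : E → Matrix m n ℂ} (hf : DifferentiableAt ℝ f z) (v : E) (i : m) (j : n) :
    wb v f z i j = wb v (fun x => f x i j) z := (wb_clm (entL i j) hf v).symm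

theorem wd_crd {s : E → n → ℂ} (hs : DifferentiableAt ℝ s z) (v : E) (i : n) :
    wd v s z i = wd v (fun x => s x i) z :=
  (wd_clm (ContinuousLinearMap.proj (R := ℂ) (φ := fun _ : n => ℂ) i) hs v).symm

theorem wb_crd {s : E → n → ℂ} (hs : DifferentiableAt ℝ s z) (v : E) (i : n) :
    wb v s z i = wb v (fun x => s x i) z :=
  (wb_clm (ContinuousLinearMap.proj (R := ℂ) (φ := fun _ : n => ℂ) i) hs v).symm

theorem wd_cmul {a b : E → ℂ} (ha : DifferentiableAt ℝ a z) (hb : DifferentiableAt ℝ b z) (v : E) :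
    wd v (fun x => a x * b x) z = wd v a z * b z + a z * wd v b z := wd_smul ha hb v

theorem wb_cmul {a b : E → ℂ} (ha : DifferentiableAt ℝ a z) (hb : DifferentiableAt ℝ b z) (v : E) :
    wb v (fun x => a x * b x) z = wb v a z * b z + a z * wb v b z := wb_smul ha hb v

theorem wd_conj {a : E → ℂ} (ha : DifferentiableAt ℝ a z) (v : E) :
    wd v (fun x => conj (a x)) z = conj (wb v a z) :=
  wd_anti (conjCLE : ℂ →L[ℝ] ℂ) (fun c x => map_mul conj c x) ha v

theorem wb_conj {a : E → ℂ} (ha : DifferentiableAt ℝ a z) (v : E) :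
    wb v (fun x => conj (a x)) z = conj (wd v a z) :=
  wb_anti (conjCLE : ℂ →L[ℝ] ℂ) (fun c x => map_mul conj c x) ha v

theorem wd_mul {f : E → Matrix l m ℂ} {g : E → Matrix m n ℂ} (hf : DifferentiableAt ℝ f z)
    (hg : DifferentiableAt ℝ g z) (v : E) :
    wd v (fun x => f x * g x) z = wd v f z * g z + f z * wd v g z := by
  ext i j
  rw [wd_ent (df_mul hf hg)]
  simp only [Matrix.add_apply, Matrix.mul_apply, wd_ent hf, wd_ent hg, ← Finset.sum_add_distrib]
  rw [wd_sum _ fun k _ => (df_ent hf i k).fun_mul (df_ent hg k j)]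
  exact Finset.sum_congr rfl fun k _ => wd_cmul (df_ent hf i k) (df_ent hg k j) v

theorem wb_mul {f : E → Matrix l m ℂ} {g : E → Matrix m n ℂ} (hf : DifferentiableAt ℝ f z)
    (hg : DifferentiableAt ℝ g z) (v : E) :
    wb v (fun x => f x * g x) z = wb v f z * g z + f z * wb v g z := by
  ext i j
  rw [wb_ent (df_mul hf hg)]
  simp only [Matrix.add_apply, Matrix.mul_apply, wb_ent hf, wb_ent hg, ← Finset.sum_add_distrib]
  rw [wb_sum _ fun k _ => (df_ent hf i k).fun_mul (df_ent hg k j)]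
  exact Finset.sum_congr rfl fun k _ => wb_cmul (df_ent hf i k) (df_ent hg k j) v

theorem wd_mul_const {f : E → Matrix l m ℂ} (hf : DifferentiableAt ℝ f z) (B : Matrix m n ℂ)
    (v : E) : wd v (fun x => f x * B) z = wd v f z * B := by
  rw [wd_mul hf (differentiableAt_const B), wd_const, Matrix.mul_zero, add_zero]

theorem wb_mul_const {f : E → Matrix l m ℂ} (hf : DifferentiableAt ℝ f z) (B : Matrix m n ℂ)
    (v : E) : wb v (fun x => f x * B) z = wb v f z * B := by
  rw [wb_mul hf (differentiableAt_const B), wb_const, Matrix.mul_zero, add_zero]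

theorem wd_const_mul (B : Matrix l m ℂ) {g : E → Matrix m n ℂ} (hg : DifferentiableAt ℝ g z)
    (v : E) : wd v (fun x => B * g x) z = B * wd v g z := by
  rw [wd_mul (differentiableAt_const B) hg, wd_const, Matrix.zero_mul, zero_add]

theorem wb_const_mul (B : Matrix l m ℂ) {g : E → Matrix m n ℂ} (hg : DifferentiableAt ℝ g z)
    (v : E) : wb v (fun x => B * g x) z = B * wb v g z := by
  rw [wb_mul (differentiableAt_const B) hg, wb_const, Matrix.zero_mul, zero_add]

theorem wd_dot {s t : E → n → ℂ} (hs : DifferentiableAt ℝ s z) (ht : DifferentiableAt ℝ t z)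
    (v : E) : wd v (fun x => s x ⬝ᵥ t x) z = wd v s z ⬝ᵥ t z + s z ⬝ᵥ wd v t z := by
  simp only [dotProduct, wd_crd hs, wd_crd ht, ← Finset.sum_add_distrib]
  rw [wd_sum _ fun k _ => (df_crd hs k).fun_mul (df_crd ht k)]
  exact Finset.sum_congr rfl fun k _ => wd_cmul (df_crd hs k) (df_crd ht k) v

theorem wd_mulVec {f : E → Matrix m n ℂ} {s : E → n → ℂ} (hf : DifferentiableAt ℝ f z)
    (hs : DifferentiableAt ℝ s z) (v : E) :
    wd v (fun x => f x *ᵥ s x) z = wd v f z *ᵥ s z + f z *ᵥ wd v s z := by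
  ext i
  rw [wd_crd (df_mulVec hf hs)]
  simp only [Pi.add_apply, mulVec, dotProduct, wd_ent hf, wd_crd hs, ← Finset.sum_add_distrib]
  rw [wd_sum _ fun k _ => (df_ent hf i k).fun_mul (df_crd hs k)]
  exact Finset.sum_congr rfl fun k _ => wd_cmul (df_ent hf i k) (df_crd hs k) v

theorem wd_ct {f : E → Matrix m n ℂ} (hf : DifferentiableAt ℝ f z) (v : E) :
    wd v (fun x => (f x)ᴴ) z = (wb v f z)ᴴ := by
  ext i j
  rw [wd_ent (df_ct hf), conjTranspose_apply, wb_ent hf]
  exact wd_conj (df_ent hf j i) v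

theorem wd_star {s : E → n → ℂ} (hs : DifferentiableAt ℝ s z) (v : E) :
    wd v (fun x => star (s x)) z = star (wb v s z) := by
  ext i
  rw [wd_crd (df_star hs), Pi.star_apply, wb_crd hs]
  exact wd_conj (df_crd hs i) v

theorem wd_trace {f : E → Matrix n n ℂ} (hf : DifferentiableAt ℝ f z) (v : E) :
    wd v (fun x => trace (f x)) z = trace (wd v f z) := by
  simp only [trace, diag_apply, wd_ent hf]
  exact wd_sum _ (fun k _ => df_ent hf k k) v

theorem wb_dot {s t : E → n → ℂ} (hs : DifferentiableAt ℝ s z) (ht : DifferentiableAt ℝ t z)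
    (v : E) : wb v (fun x => s x ⬝ᵥ t x) z = wb v s z ⬝ᵥ t z + s z ⬝ᵥ wb v t z := by
  simp only [dotProduct, wb_crd hs, wb_crd ht, ← Finset.sum_add_distrib]
  rw [wb_sum _ fun k _ => (df_crd hs k).fun_mul (df_crd ht k)]
  exact Finset.sum_congr rfl fun k _ => wb_cmul (df_crd hs k) (df_crd ht k) v

theorem wb_mulVec {f : E → Matrix m n ℂ} {s : E → n → ℂ} (hf : DifferentiableAt ℝ f z)
    (hs : DifferentiableAt ℝ s z) (v : E) :
    wb v (fun x => f x *ᵥ s x) z = wb v f z *ᵥ s z + f z *ᵥ wb v s z := by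
  ext i
  rw [wb_crd (df_mulVec hf hs)]
  simp only [Pi.add_apply, mulVec, dotProduct, wb_ent hf, wb_crd hs, ← Finset.sum_add_distrib]
  rw [wb_sum _ fun k _ => (df_ent hf i k).fun_mul (df_crd hs k)]
  exact Finset.sum_congr rfl fun k _ => wb_cmul (df_ent hf i k) (df_crd hs k) v

theorem wb_ct {f : E → Matrix m n ℂ} (hf : DifferentiableAt ℝ f z) (v : E) :
    wb v (fun x => (f x)ᴴ) z = (wd v f z)ᴴ := by
  ext i j
  rw [wb_ent (df_ct hf), conjTranspose_apply, wd_ent hf]
  exact wb_conj (df_ent hf j i) v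

theorem wb_star {s : E → n → ℂ} (hs : DifferentiableAt ℝ s z) (v : E) :
    wb v (fun x => star (s x)) z = star (wd v s z) := by
  ext i
  rw [wb_crd (df_star hs), Pi.star_apply, wd_crd hs]
  exact wb_conj (df_crd hs i) v

theorem wb_trace {f : E → Matrix n n ℂ} (hf : DifferentiableAt ℝ f z) (v : E) :
    wb v (fun x => trace (f x)) z = trace (wb v f z) := by
  simp only [trace, diag_apply, wb_ent hf]
  exact wb_sum _ (fun k _ => df_ent hf k k) v

theorem wd_msmul (c : ℂ) {f : E → Matrix m n ℂ} (hf : DifferentiableAt ℝ f z) (v : E) :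
    wd v (fun x => c • f x) z = c • wd v f z := wd_const_smul c hf v

theorem wb_msmul (c : ℂ) {f : E → Matrix m n ℂ} (hf : DifferentiableAt ℝ f z) (v : E) :
    wb v (fun x => c • f x) z = c • wb v f z := wb_const_smul c hf v

/-- the form with the product topology on matrices -/
theorem wd_mhol {f : E → Matrix m n ℂ} (hf : DifferentiableAt ℂ f z) (v : E) :
    wd v f z = fderiv ℂ f z v := wd_hol hf v

theorem wb_mhol {f : E → Matrix m n ℂ} (hf : DifferentiableAt ℂ f z) (v : E) : wb v f z = 0 :=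
  wb_hol hf v

theorem mfderiv_eq (f : E → Matrix m n ℂ) (z v : E) : fderiv ℝ f z v = wd v f z + wb v f z :=
  fderiv_eq_wd f z v

variable [DecidableEq n]

theorem wd_minv {f : E → Matrix n n ℂ} (hf : DifferentiableAt ℝ f z) (h0 : (f z).det ≠ 0) (v : E) :
    wd v (fun x => (f x)⁻¹) z = -((f z)⁻¹ * wd v f z * (f z)⁻¹) := by
  have e : (fun x => (f x)⁻¹ * f x) =ᶠ[𝓝 z] fun _ => 1 :=
    ((df_det hf).continuousAt.eventually_ne h0).mono fun x hx => nonsing_inv_mul _ hx.isUnit
  have := wd_congr e v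
  rw [wd_mul (df_inv hf h0) hf, wd_const] at this
  have h := congrArg (· * (f z)⁻¹) this
  simp only [Matrix.add_mul, Matrix.zero_mul, mul_nonsing_inv_cancel_right _ _ h0.isUnit] at h
  exact eq_neg_of_add_eq_zero_left h

theorem wb_minv {f : E → Matrix n n ℂ} (hf : DifferentiableAt ℝ f z) (h0 : (f z).det ≠ 0) (v : E) :
    wb v (fun x => (f x)⁻¹) z = -((f z)⁻¹ * wb v f z * (f z)⁻¹) := by
  have e : (fun x => (f x)⁻¹ * f x) =ᶠ[𝓝 z] fun _ => 1 :=
    ((df_det hf).continuousAt.eventually_ne h0).mono fun x hx => nonsing_inv_mul _ hx.isUnit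
  have := wb_congr e v
  rw [wb_mul (df_inv hf h0) hf, wb_const] at this
  have h := congrArg (· * (f z)⁻¹) this
  simp only [Matrix.add_mul, Matrix.zero_mul, mul_nonsing_inv_cancel_right _ _ h0.isUnit] at h
  exact eq_neg_of_add_eq_zero_left h

theorem fderiv_det {f : E → Matrix n n ℂ} (hf : DifferentiableAt ℝ f z) (h0 : (f z).det ≠ 0)
    (t : E) : fderiv ℝ (fun x => (f x).det) z t = (f z).det * trace ((f z)⁻¹ * fderiv ℝ f z t) := by
  set A := f z with hA
  set B := fderiv ℝ f z t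
  have hd : DifferentiableAt ℝ (fun X : Matrix n n ℂ => X.det) A :=
    (an_det (𝕜 := ℝ) (f := id) analyticAt_id).differentiableAt
  have e0 : fderiv ℝ (fun x => (f x).det) z t = fderiv ℝ (fun X : Matrix n n ℂ => X.det) A B :=
    congrArg (fun L => L t) (fderiv_comp z hd hf)
  have hl : HasDerivAt (fun r : ℝ => A + r • B) ((1 : ℝ) • B) 0 :=
    ((hasDerivAt_id (0 : ℝ)).smul_const B).const_add A
  have hd' : DifferentiableAt ℝ (fun X : Matrix n n ℂ => X.det) (A + (0 : ℝ) • B) := by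
    rwa [zero_smul, add_zero]
  have h1 := hd'.hasFDerivAt.comp_hasDerivAt (0 : ℝ) hl
  rw [zero_smul, add_zero, one_smul] at h1
  obtain ⟨P, hP⟩ : ∃ P : Polynomial ℂ, ∀ t : ℂ, (1 + t • (A⁻¹ * B)).det =
      1 + trace (A⁻¹ * B) * t + P.eval t * t ^ 2 := ⟨_, fun t => det_one_add_smul t _⟩
  have h2 := (((((hasDerivAt_id (0 : ℂ)).const_mul (trace (A⁻¹ * B))).const_add 1).add
    ((P.hasDerivAt 0).mul (hasDerivAt_pow 2 (0 : ℂ)))).const_mul A.det).comp_ofReal
  have e : ((fun X : Matrix n n ℂ => X.det) ∘ fun r : ℝ => A + r • B) =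
      fun r : ℝ => A.det * (1 + trace (A⁻¹ * B) * r + P.eval (r : ℂ) * (r : ℂ) ^ 2) :=
    funext fun r => by
      rw [← hP, ← det_mul, Matrix.mul_add, Matrix.mul_one, Matrix.mul_smul,
        mul_nonsing_inv_cancel_left _ _ h0.isUnit, ← rsmul]
      rfl
  rw [e] at h1
  refine (e0.trans (h1.unique h2)).trans ?_
  simp

theorem wd_det {f : E → Matrix n n ℂ} (hf : DifferentiableAt ℝ f z) (h0 : (f z).det ≠ 0) (v : E) :
    wd v (fun x => (f x).det) z = (f z).det * trace ((f z)⁻¹ * wd v f z) := by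
  have e : wd v f z = (2⁻¹ : ℂ) • (fderiv ℝ f z v - I • fderiv ℝ f z (I • v)) := rfl
  rw [e, wd, fderiv_det hf h0, fderiv_det hf h0]
  simp only [Matrix.mul_smul, Matrix.mul_sub, trace_smul, trace_sub, smul_eq_mul]
  ring

theorem wb_det {f : E → Matrix n n ℂ} (hf : DifferentiableAt ℝ f z) (h0 : (f z).det ≠ 0) (v : E) :
    wb v (fun x => (f x).det) z = (f z).det * trace ((f z)⁻¹ * wb v f z) := by
  have e : wb v f z = (2⁻¹ : ℂ) • (fderiv ℝ f z v + I • fderiv ℝ f z (I • v)) := rfl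
  rw [e, wb, fderiv_det hf h0, fderiv_det hf h0]
  simp only [Matrix.mul_smul, Matrix.mul_add, trace_smul, trace_add, smul_eq_mul]
  ring

theorem wd_single {p : ℕ} (j : Fin p) (f : (Fin p → ℂ) → ℂ) (z : Fin p → ℂ) :
    wd (Pi.single j 1) f z = P272.K.dz j f z := by
  rw [wd, P272.K.dz, ← Pi.single_smul, smul_eq_mul, smul_eq_mul, smul_eq_mul, mul_one]
  ring

theorem wb_single {p : ℕ} (j : Fin p) (f : (Fin p → ℂ) → ℂ) (z : Fin p → ℂ) :
    wb (Pi.single j 1) f z = P272.K.dzb j f z := by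
  rw [wb, P272.K.dzb, ← Pi.single_smul, smul_eq_mul, smul_eq_mul, smul_eq_mul, mul_one]
  ring

end Vale.Agent.P281Z.Hm
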