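import Vale.Agent.P281Z.Hm.Sk
import Vale.Agent.P281Z.Hm.MCalc
import Vale.Agent.P281Z.Hm.Alg

/-!
# P281Z, the basic identities of a variation
-/

set_option linter.unusedSectionVars false

open scoped Matrix.Norms.Operator Topology ComplexOrder ComplexConjugate
open Filter Set Matrix Complex

noncomputable section

namespace Vale.Agent.P281Z.Hm

variable {n : Type} [Fintype n] [DecidableEq n] {E : Type} [NormedAddCommGroup E]
  [NormedSpace ℝ E] [NormedSpace ℂ E] [IsScalarTower ℝ ℂ E] {Q : Mx n} {w : ℕ} {π : E → Gr n}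
  {z : E}

theorem th_add (w : ℕ) (π : E → Gr n) (z u v : E) : th w π z (u + v) = th w π z u + th w π z v :=
  wd_addv _ z u v

theorem th_smul (w : ℕ) (π : E → Gr n) (z : E) (c : ℂ) (v : E) :
    th w π z (c • v) = c • th w π z v := wd_smulv c _ z v

theorem ts_add (w : ℕ) (π : E → Gr n) (z u v : E) :
    ts w π z (u + v) = ts w π z u + ts w π z v := by rw [ts, ts, ts, wb_addv, neg_add]

theorem ts_smul (w : ℕ) (π : E → Gr n) (z : E) (c : ℂ) (v : E) :
    ts w π z (c • v) = conj c • ts w π z v := by rw [ts, ts, wb_smulv, smul_neg]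

/-- the Higgs field as a linear map -/
def thL (w : ℕ) (π : E → Gr n) (z : E) : E →ₗ[ℂ] Mx n where
  toFun := th w π z
  map_add' := th_add w π z
  map_smul' := th_smul w π z

theorem th_congr {π' : E → Gr n} (e : π =ᶠ[𝓝 z] π') (w : ℕ) (v : E) : th w π z v = th w π' z v :=
  wd_congr (e.mono fun _ hx => by simp only [hx]) v

theorem ts_congr {π' : E → Gr n} (e : π =ᶠ[𝓝 z] π') (w : ℕ) (v : E) : ts w π z v = ts w π' z v :=
  congrArg Neg.neg (wb_congr (e.mono fun _ hx => by simp only [hx]) v)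

theorem omH_congr {π' : E → Gr n} (e : π =ᶠ[𝓝 z] π') (w : ℕ) (v : E) :
    omH w π z v = omH w π' z v := by rw [omH, omH, omB, omB, th_congr e, ts_congr e]

namespace LVAt
variable (h : LVAt Q w π z)
include h

theorem hs0 : Hs Q w (π z) := h.hs.self_of_nhds

theorem low (v : E) : gJ w (π z) * th w π z v - th w π z v * gJ w (π z) = -th w π z v :=
  h.tr.self_of_nhds v

theorem ev : ∀ᶠ x in 𝓝 z, LVAt Q w π x := by
  have a : ∀ᶠ x in 𝓝 z, ∀ q ∈ Finset.range (w + 1), AnalyticAt ℝ (fun y => π y q) x :=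
    (Finset.eventually_all _).2 fun q _ => (h.an q).eventually_analyticAt
  filter_upwards [a, h.hs.eventually_nhds, h.tr.eventually_nhds] with x h1 h2 h3
  refine ⟨fun q => ?_, h2, h3⟩
  by_cases hq : q < w + 1
  · exact h1 q (Finset.mem_range.2 hq)
  · exact (analyticAt_const (v := (0 : Mx n))).congr
      (h2.mono fun y hy => (hy.top q (by omega)).symm)

theorem congr {π' : E → Gr n} (e : π =ᶠ[𝓝 z] π') : LVAt Q w π' z := by
  refine ⟨fun q => (h.an q).congr (e.mono fun x hx => by simp only [hx]),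
    (h.hs.and e).mono fun x hx => hx.2 ▸ hx.1, ?_⟩
  filter_upwards [h.tr, e.eventually_nhds] with x h1 h2 v
  rw [← th_congr h2, ← h2.self_of_nhds]
  exact h1 v

theorem an_sum (c : ℕ → ℂ) (s : Finset ℕ) : AnalyticAt ℝ (fun x => ∑ q ∈ s, c q • π x q) z :=
  Finset.analyticAt_fun_sum _ fun q _ => an_msmul _ (h.an q)

theorem an_J : AnalyticAt ℝ (fun x => gJ w (π x)) z := h.an_sum _ _
theorem an_C : AnalyticAt ℝ (fun x => gC w (π x)) z := h.an_sum _ _

theorem an_F (k : ℕ) : AnalyticAt ℝ (fun x => gF w (π x) k) z :=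
  Finset.analyticAt_fun_sum _ fun q _ => h.an q

theorem an_H : AnalyticAt ℝ (fun x => gH Q w (π x)) z := an_mul analyticAt_const h.an_C

theorem an_th (v : E) : AnalyticAt ℝ (fun x => th w π x v) z := an_wd h.an_J v

theorem an_ts (v : E) : AnalyticAt ℝ (fun x => ts w π x v) z := (an_wb h.an_J v).neg

theorem an_omB (u v : E) : AnalyticAt ℝ (fun x => omB w π x u v) z :=
  an_trace (an_mul (h.an_th u) (h.an_ts v))

theorem an_omH (v : E) : AnalyticAt ℝ (fun x => omH w π x v) z := an_re (h.an_omB v v)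

theorem Q_ts (v : E) : Q * ts w π z v = -((th w π z v)ᴴ * Q) := by
  have d := h.an_J.differentiableAt
  have := wb_congr (h.hs.mono fun x hx => hx.Q_J) v
  rw [wb_const_mul Q d, wb_mul_const (df_ct d), wb_ct d] at this
  rw [ts, Matrix.mul_neg, this, th]

theorem adj (v : E) : gH Q w (π z) * ts w π z v = (th w π z v)ᴴ * gH Q w (π z) := by
  have e := congrArg conjTranspose (h.hs0.low_C (h.low v))
  rw [conjTranspose_neg, conjTranspose_mul, conjTranspose_mul] at e
  conv_lhs => rw [gH, h.hs0.Q_C, Matrix.mul_assoc, h.Q_ts, Matrix.mul_neg, ← Matrix.mul_assoc,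
    ← Matrix.neg_mul, ← e, Matrix.mul_assoc, ← h.hs0.Q_C]
  rfl

theorem ts_eq (v : E) : ts w π z v = ad (gH Q w (π z)) (th w π z v) := eq_ad h.hs0.pos (h.adj v)

theorem up (v : E) : gJ w (π z) * ts w π z v - ts w π z v * gJ w (π z) = ts w π z v := by
  rw [h.ts_eq]
  exact h.hs0.low_ad (h.low v)

end LVAt

/-- the derivative of a projector is determined by the derivative of the grading operator -/
theorem Hs.der {Q : Mx n} {π : Gr n} (h : Hs Q w π) {q : ℕ} {c : ℂ} {A D B : Mx n}
    (hB : gJ w π * B - B * gJ w π = c • B) (hc : c ≠ 0) (hA : A = -c • B)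
    (e1 : A * π q + gJ w π * D = (q : ℂ) • D) (e2 : D * gJ w π + π q * A = (q : ℂ) • D)
    (e3 : D * π q + π q * D = D) : D = B * π q - π q * B := by
  have s1 : D * π q = B * π q := h.ext_left fun j _ => by
    have := congrArg (fun X => π j * X * π q) e1
    simp only [Matrix.mul_add, Matrix.add_mul, ← Matrix.mul_assoc, h.mul_J, hA, mul_smul_comm,
      smul_mul_assoc] at this
    rw [Matrix.mul_assoc _ (π q), h.idem] at this
    rw [← Matrix.mul_assoc, ← Matrix.mul_assoc]
    by_cases a : (j : ℂ) - q = c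
    · refine smul_right_injective _ hc ?_
      simp only
      linear_combination (norm := module) this - (a : (j : ℂ) - q = c) • (π j * D * π q)
    · rw [h.comp hB a, smul_zero, zero_add] at this
      rw [h.comp hB a]
      by_cases b : j = q
      · have := congrArg (fun X => π q * X * π q) e3
        simp only [Matrix.mul_add, Matrix.add_mul, ← Matrix.mul_assoc, h.idem] at this
        rw [Matrix.mul_assoc _ (π q), h.idem] at this
        rw [b]
        exact add_eq_left.1 this
      · have e : ((j : ℂ) - q) • (π j * D * π q) = 0 := by rw [sub_smul, this, sub_self]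
        exact (smul_eq_zero.1 e).resolve_left (sub_ne_zero.2 (Nat.cast_injective.ne b))
  have s2 : π q * D = -(π q * B) := h.ext_right fun j _ => by
    have := congrArg (fun X => π q * X * π j) e2
    simp only [Matrix.mul_add, Matrix.add_mul, ← Matrix.mul_assoc, h.idem, hA, mul_smul_comm,
      smul_mul_assoc] at this
    rw [Matrix.mul_assoc _ (gJ w π), h.J_mul, mul_smul_comm] at this
    rw [Matrix.neg_mul]
    by_cases a : (q : ℂ) - j = c
    · refine smul_right_injective _ hc ?_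
      simp only
      linear_combination (norm := module) -this - (a : (q : ℂ) - j = c) • (π q * D * π j)
    · rw [h.comp hB a, smul_zero, add_zero] at this
      rw [h.comp hB a, neg_zero]
      by_cases b : j = q
      · have := congrArg (fun X => π q * X * π q) e3
        simp only [Matrix.mul_add, Matrix.add_mul, ← Matrix.mul_assoc, h.idem] at this
        rw [Matrix.mul_assoc _ (π q), h.idem] at this
        rw [b]
        exact add_eq_left.1 this
      · have e : ((j : ℂ) - q) • (π q * D * π j) = 0 := by rw [sub_smul, this, sub_self]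
        exact (smul_eq_zero.1 e).resolve_left (sub_ne_zero.2 (Nat.cast_injective.ne b))
  rw [← e3, s1, s2, sub_eq_add_neg]

namespace LVAt
variable (h : LVAt Q w π z)
include h

theorem dπ (v : E) (q : ℕ) :
    wd v (fun x => π x q) z = th w π z v * π z q - π z q * th w π z v := by
  have d := h.an_J.differentiableAt
  have d' := (h.an q).differentiableAt
  have e1 := wd_congr (h.hs.mono fun x hx => hx.J_mul q) v
  have e2 := wd_congr (h.hs.mono fun x hx => hx.mul_J q) v
  have e3 := wd_congr (h.hs.mono fun x hx => hx.idem q) v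
  rw [wd_mul d d', wd_msmul _ d'] at e1
  rw [wd_mul d' d, wd_msmul _ d'] at e2
  rw [wd_mul d' d'] at e3
  exact h.hs0.der (c := -1) (by rw [h.low, neg_one_smul]) (by simp) (by simp [th]) e1 e2 e3

theorem bπ (v : E) (q : ℕ) :
    wb v (fun x => π x q) z = ts w π z v * π z q - π z q * ts w π z v := by
  have d := h.an_J.differentiableAt
  have d' := (h.an q).differentiableAt
  have e1 := wb_congr (h.hs.mono fun x hx => hx.J_mul q) v
  have e2 := wb_congr (h.hs.mono fun x hx => hx.mul_J q) v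
  have e3 := wb_congr (h.hs.mono fun x hx => hx.idem q) v
  rw [wb_mul d d', wb_msmul _ d'] at e1
  rw [wb_mul d' d, wb_msmul _ d'] at e2
  rw [wb_mul d' d'] at e3
  exact h.hs0.der (c := 1) (by rw [h.up, one_smul]) (by simp) (by simp [ts]) e1 e2 e3

theorem dsum (v : E) (c : ℕ → ℂ) (s : Finset ℕ) : wd v (fun x => ∑ q ∈ s, c q • π x q) z =
    th w π z v * (∑ q ∈ s, c q • π z q) - (∑ q ∈ s, c q • π z q) * th w π z v := by
  rw [wd_sum _ fun q _ => df_msmul (c q) (h.an q).differentiableAt, Finset.mul_sum, Finset.sum_mul,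
    ← Finset.sum_sub_distrib]
  refine Finset.sum_congr rfl fun q _ => ?_
  rw [wd_msmul _ (h.an q).differentiableAt, h.dπ, smul_sub, mul_smul_comm, smul_mul_assoc]

theorem bsum (v : E) (c : ℕ → ℂ) (s : Finset ℕ) : wb v (fun x => ∑ q ∈ s, c q • π x q) z =
    ts w π z v * (∑ q ∈ s, c q • π z q) - (∑ q ∈ s, c q • π z q) * ts w π z v := by
  rw [wb_sum _ fun q _ => df_msmul (c q) (h.an q).differentiableAt, Finset.mul_sum, Finset.sum_mul,
    ← Finset.sum_sub_distrib]
  refine Finset.sum_congr rfl fun q _ => ?_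
  rw [wb_msmul _ (h.an q).differentiableAt, h.bπ, smul_sub, mul_smul_comm, smul_mul_assoc]

theorem dF (v : E) (k : ℕ) : wd v (fun x => gF w (π x) k) z = th w π z v * π z k := by
  have e := h.dsum v (fun _ => 1) (Finset.Icc k w)
  simp only [one_smul] at e
  refine Eq.trans e (h.hs0.ext_right fun j _ => ?_)
  change (_ * gF w (π z) k - gF w (π z) k * _) * _ = _
  rw [Matrix.sub_mul, Matrix.mul_assoc, Matrix.mul_assoc, Matrix.mul_assoc, h.hs0.F_mul, h.hs0.orth]
  rcases j with _ | j
  · rw [h.hs0.low_zero (h.low v)]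
    by_cases a : k = 0 <;> simp [a, h.hs0.low_zero (h.low v)]
  · rw [← h.hs0.low (h.low v), ← Matrix.mul_assoc, h.hs0.F_mul]
    rcases lt_trichotomy k (j + 1) with a | rfl | a
    · rw [if_pos a.le, if_pos (Nat.lt_succ_iff.1 a), if_neg a.ne, h.hs0.low (h.low v), sub_self,
        Matrix.mul_zero]
    · simp
    · rw [if_neg (not_le.2 a), if_neg (by omega), if_neg a.ne']
      simp

theorem bF (v : E) (k : ℕ) : wb v (fun x => gF w (π x) k) z = -(π z k * ts w π z v) := by
  have d := (h.an_F k).differentiableAt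
  have := wb_congr (h.hs.mono fun x hx => hx.Q_F k) v
  rw [wb_const_mul Q d, wb_mul_const (df_ct d), wb_ct d, h.dF, conjTranspose_mul,
    Matrix.mul_assoc, ← neg_neg (_ * Q), ← h.Q_ts, Matrix.mul_neg, ← Matrix.mul_assoc,
    ← h.hs0.adj, Matrix.mul_assoc, ← Matrix.mul_neg] at this
  have e := congrArg (Q⁻¹ * ·) this
  simpa only [nonsing_inv_mul_cancel_left _ _ h.hs0.det_Q] using e

theorem dH (v : E) :
    wd v (fun x => gH Q w (π x)) z = (-2 : ℂ) • (gH Q w (π z) * th w π z v) := by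
  have e : wd v (fun x => gC w (π x)) z = _ * gC w (π z) - gC w (π z) * _ := h.dsum v _ _
  unfold gH
  rw [wd_const_mul Q h.an_C.differentiableAt, e, Matrix.mul_assoc, ← mul_smul_comm,
    h.hs0.low_C (h.low v)]
  congr 1
  module

theorem bH (v : E) :
    wb v (fun x => gH Q w (π x)) z = (-2 : ℂ) • (gH Q w (π z) * ts w π z v) := by
  have e : wb v (fun x => gC w (π x)) z = _ * gC w (π z) - gC w (π z) * _ := h.bsum v _ _
  unfold gH
  rw [wb_const_mul Q h.an_C.differentiableAt, e, Matrix.mul_assoc, ← mul_smul_comm,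
    h.hs0.up_C (h.up v)]
  congr 1
  module

theorem dts_eq (u v : E) : wd u (fun x => ts w π x v) z = -wb v (fun x => th w π x u) z := by
  unfold ts th
  rw [wd_neg, wd_wb_comm (an_c2 h.an_J)]

theorem d_low (u v : E) : th w π z u * th w π z v + gJ w (π z) * wd u (fun x => th w π x v) z -
    (wd u (fun x => th w π x v) z * gJ w (π z) + th w π z v * th w π z u) =
      -wd u (fun x => th w π x v) z := by
  have d := h.an_J.differentiableAt
  have d' := (h.an_th v).differentiableAt
  have := wd_congr (h.tr.mono fun x hx => hx v) u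
  rwa [wd_sub (df_mul d d') (df_mul d' d), wd_mul d d', wd_mul d' d, wd_neg] at this

theorem cth (u v : E) : th w π z u * th w π z v = th w π z v * th w π z u := by
  have a := h.d_low u v
  have b := h.d_low v u
  have e : wd u (fun x => th w π x v) z = wd v (fun x => th w π x u) z :=
    wd_wd_comm (an_c2 h.an_J) u v
  rw [e] at a
  refine smul_right_injective _ (two_ne_zero (α := ℂ)) ?_
  simp only
  linear_combination (norm := module) a - b

theorem dth (u v : E) : gJ w (π z) * wd u (fun x => th w π x v) z -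
    wd u (fun x => th w π x v) z * gJ w (π z) = -wd u (fun x => th w π x v) z := by
  have a := h.d_low u v
  rw [h.cth u v] at a
  linear_combination (norm := module) a

theorem cts (u v : E) : ts w π z u * ts w π z v = ts w π z v * ts w π z u := by
  rw [h.ts_eq, h.ts_eq, ← ad_mul h.hs0.pos, ← ad_mul h.hs0.pos, h.cth]

theorem bth (u v : E) :
    wb u (fun x => th w π x v) z = ts w π z u * th w π z v - th w π z v * ts w π z u := by
  have d := h.an_J.differentiableAt
  have d' := (h.an_th v).differentiableAt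
  have d'' := (h.an_ts u).differentiableAt
  have a := wb_congr (h.tr.mono fun x hx => hx v) u
  have b := wd_congr (h.ev.mono fun x hx => hx.up u) v
  rw [wb_sub (df_mul d d') (df_mul d' d), wb_mul d d', wb_mul d' d, wb_neg] at a
  rw [wd_sub (df_mul d d'') (df_mul d'' d), wd_mul d d'', wd_mul d'' d, h.dts_eq] at b
  have e : wb u (fun x => gJ w (π x)) z = -ts w π z u := (neg_neg _).symm
  have e' : wd v (fun x => gJ w (π x)) z = th w π z v := rfl
  rw [e] at a
  rw [e'] at b
  simp only [Matrix.mul_neg, Matrix.neg_mul] at a b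
  refine smul_right_injective _ (two_ne_zero (α := ℂ)) ?_
  simp only
  linear_combination (norm := module) a + b

theorem dts (u v : E) :
    wd u (fun x => ts w π x v) z = th w π z u * ts w π z v - ts w π z v * th w π z u := by
  rw [h.dts_eq, h.bth, neg_sub]

theorem bts (u v : E) : gH Q w (π z) * wb u (fun x => ts w π x v) z =
    (wd u (fun x => th w π x v) z)ᴴ * gH Q w (π z) := by
  have d' := (h.an_th v).differentiableAt
  have a := wb_congr (h.ev.mono fun x hx => hx.Q_ts v) u
  rw [wb_const_mul Q (h.an_ts v).differentiableAt, wb_neg, wb_mul_const (df_ct d'), wb_ct d'] at a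
  have e := congrArg conjTranspose (h.hs0.low_C (h.dth u v))
  rw [conjTranspose_neg, conjTranspose_mul, conjTranspose_mul] at e
  conv_lhs => rw [gH, h.hs0.Q_C, Matrix.mul_assoc, a, Matrix.mul_neg, ← Matrix.mul_assoc,
    ← Matrix.neg_mul, ← e, Matrix.mul_assoc, ← h.hs0.Q_C]
  rfl

theorem id : Id Q w π z :=
  ⟨h.adj, h.up, h.dπ, h.bπ, h.dH, h.bH, h.bth, h.dts, h.cth, h.cts, h.dth, h.bts⟩

end LVAt

theorem stId : StId := fun _ _ _ _ _ _ _ _ _ _ _ _ h => h.id

theorem LnAt.ev {ψ : E → n → ℂ} (h : LnAt w π ψ z) : ∀ᶠ x in 𝓝 z, LnAt w π ψ x := by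
  filter_upwards [h.an.eventually_analyticAt, h.an.continuousAt.eventually_ne h.ne,
    h.top.eventually_nhds, h.one.eventually_nhds] with x a b c d using ⟨a, b, c, d⟩

section glob
variable {p : ℕ} {Y : Type} [TopologicalSpace Y] [ChartedSpace (Fin p → ℂ) Y] {U : Set Y}
  {C : Cv Y U}

theorem Cv.lift_const (x : C.X) (z : E) : C.Lift p (fun _ : E => x) z :=
  ⟨.of_forall fun _ => continuousAt_const, analyticAt_const⟩

namespace GV
variable (V : GV p C n)

theorem hs (x : C.X) : Hs V.Q V.w (V.gr x) := (V.lv ℂ _ 0 (Cv.lift_const x 0)).hs0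

theorem r_mul (g g' : C.Γ) : cz (V.ρ (g * g')) = cz (V.ρ g) * cz (V.ρ g') := by
  rw [map_mul, cz_mul]

theorem r_one : cz (V.ρ 1) = 1 := by rw [map_one, cz_one]

theorem r_inv_mul (g : C.Γ) : cz (V.ρ g⁻¹) * cz (V.ρ g) = 1 := by
  rw [← r_mul, inv_mul_cancel, r_one]

theorem r_mul_inv (g : C.Γ) : cz (V.ρ g) * cz (V.ρ g⁻¹) = 1 := by
  rw [← r_mul, mul_inv_cancel, r_one]

theorem gr_smul (g : C.Γ) (x : C.X) (q : ℕ) :
    V.gr (g • x) q = cz (V.ρ g) * V.gr x q * cz (V.ρ g⁻¹) := by
  rw [← V.eqv, Matrix.mul_assoc, r_mul_inv, Matrix.mul_one]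

theorem sum_eqv (c : ℕ → ℂ) (s : Finset ℕ) (g : C.Γ) (x : C.X) :
    (∑ q ∈ s, c q • V.gr (g • x) q) * cz (V.ρ g) = cz (V.ρ g) * ∑ q ∈ s, c q • V.gr x q := by
  simp only [Finset.sum_mul, Finset.mul_sum, smul_mul_assoc, mul_smul_comm, V.eqv]

theorem J_eqv (g : C.Γ) (x : C.X) :
    gJ V.w (V.gr (g • x)) * cz (V.ρ g) = cz (V.ρ g) * gJ V.w (V.gr x) := V.sum_eqv _ _ g x

theorem C_eqv (g : C.Γ) (x : C.X) :
    gC V.w (V.gr (g • x)) * cz (V.ρ g) = cz (V.ρ g) * gC V.w (V.gr x) := V.sum_eqv _ _ g x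

theorem H_eqv (g : C.Γ) (x : C.X) :
    (cz (V.ρ g))ᴴ * gH V.Q V.w (V.gr (g • x)) * cz (V.ρ g) = gH V.Q V.w (V.gr x) := by
  rw [gH, gH, Matrix.mul_assoc, Matrix.mul_assoc, V.C_eqv, ← Matrix.mul_assoc, ← Matrix.mul_assoc,
    V.pQ]

theorem norm_det (g : C.Γ) : ‖(cz (V.ρ g)).det‖ = 1 := by
  have e := congrArg det (show V.ρ g * V.ρ g⁻¹ = 1 by rw [← map_mul, mul_inv_cancel, map_one])
  rw [det_mul, det_one] at e
  rw [cz_det]
  rcases Int.eq_one_or_neg_one_of_mul_eq_one e with a | a <;> simp [a]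

end GV

namespace Ln
variable {V : GV p C n} {Lb : P285.H281.FD.Bd Y} (L : Ln V Lb)

theorem norm_lam (g : C.Γ) : ‖L.lam g‖ = 1 := norm_eq_one_of_pow_eq_one (L.pow g) L.hm.ne'

theorem h_smul {i : Lb.ι} (g : C.Γ) {x : C.X} (hx : C.π x ∈ Lb.U i) : L.h i (g • x) = L.h i x := by
  rw [h, h, L.eqv i g x hx, hn_smul, L.norm_lam, ← hn_conj, V.H_eqv, one_pow, one_mul]

theorem hY_eq {i : Lb.ι} {x : C.X} (hx : C.π x ∈ Lb.U i) : L.hY i (C.π x) = L.h i x := by
  have e : ∃ x', C.π x' = C.π x := ⟨x, rfl⟩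
  obtain ⟨g, hg⟩ := C.tr x e.choose e.choose_spec.symm
  rw [hY, dif_pos e, hg, L.h_smul g hx]

theorem h_pos {i : Lb.ι} {x : C.X} (hx : C.π x ∈ Lb.U i) : 0 < L.h i x :=
  hn_pos (V.hs x).pos (L.ln i ℂ _ 0 (Cv.lift_const x 0) hx).ne

theorem hY_nonneg (i : Lb.ι) (y : Y) : 0 ≤ L.hY i y := by
  rw [hY]
  split_ifs
  exacts [hn_nonneg (V.hs _).pos _, le_rfl]

theorem hY_ch {i j : Lb.ι} {y : Y} (hi : y ∈ Lb.U i) (hj : y ∈ Lb.U j) :
    L.hY j y = ‖Lb.g i j y‖ ^ 2 * L.hY i y := by
  rw [hY, hY]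
  split_ifs with e
  · have a := e.choose_spec
    rw [h, h, L.ch i j _ (a.symm ▸ hi) (a.symm ▸ hj), hn_smul, a]
  · rw [mul_zero]

end Ln

end glob

end Vale.Agent.P281Z.Hm
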