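import Vale.Agent.P281Z.Hm.Max
import Vale.Agent.P281Z.Hm.Id

/-!
# P281Z, abstract variations: the untwisted frame (FR)
-/

open scoped Matrix.Norms.Operator Topology
open Filter Set Matrix Complex

noncomputable section

namespace Vale.Agent.P281Z.Hm

open DescH LiftH MaxH

namespace FrH

variable {n : Type} [Fintype n] [DecidableEq n] {p : ℕ} {K : Finset (Fin p)} {Q : Mx n} {w a : ℕ}
  {π : (Fin p → ℂ) → Gr n} {T : Fin p → Matrix n n ℤ} {N : Fin p → Mx n}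

theorem pow_card {A : Mx n} (h : IsNilpotent A) : A ^ Fintype.card n = 0 := by
  have h1 := aeval_self_charpoly A
  rwa [sub_eq_zero.1 (isNilpotent_charpoly_sub_pow_of_isNilpotent h).eq_zero, map_pow,
    Polynomial.aeval_X] at h1

/-- the twist -/
def tw (K : Finset (Fin p)) (N : Fin p → Mx n) (ζ : Fin p → ℂ) : Mx n :=
  IsNilpotent.exp (∑ i ∈ K, ζ i • N i)

section un
variable (h : Un K Q T a N)
include h

theorem nil (ζ : Fin p → ℂ) : IsNilpotent (∑ i ∈ K, ζ i • N i) :=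
  Commute.isNilpotent_sum (fun i hi => (h.nil i hi).smul _) fun i j hi hj =>
    ((h.comm i hi j hj).smul_left _).smul_right _

theorem tw_eq (ζ : Fin p → ℂ) : tw K N ζ = ∑ j ∈ Finset.range (Fintype.card n),
    (j.factorial : ℂ)⁻¹ • (∑ i ∈ K, ζ i • N i) ^ j := by
  rw [tw, IsNilpotent.exp_eq_sum (pow_card (nil h ζ))]
  refine Finset.sum_congr rfl fun j _ => ?_
  rw [← Rat.cast_smul_eq_qsmul ℂ]
  simp

theorem tw_add (ζ ζ' : Fin p → ℂ) : tw K N (ζ + ζ') = tw K N ζ * tw K N ζ' := by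
  rw [tw, tw, tw, ← IsNilpotent.exp_add_of_commute (Commute.sum_left _ _ _ fun i hi =>
    Commute.sum_right _ _ _ fun j hj => ((h.comm i hi j hj).smul_left _).smul_right _)
    (nil h ζ) (nil h ζ'), ← Finset.sum_add_distrib]
  simp only [Pi.add_apply, add_smul]

omit h in
theorem tw_zero : tw K N 0 = 1 := by simp [tw]

theorem tw_neg (ζ : Fin p → ℂ) (s : n → ℂ) : tw K N (-ζ) *ᵥ (tw K N ζ *ᵥ s) = s := by
  rw [mulVec_mulVec, ← tw_add h, neg_add_cancel, tw_zero, one_mulVec]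

theorem tw_neg' (ζ : Fin p → ℂ) (s : n → ℂ) : tw K N ζ *ᵥ (tw K N (-ζ) *ᵥ s) = s := by
  simpa using tw_neg h (-ζ) s

theorem tw_single {i : Fin p} (hi : i ∈ K) : tw K N (Pi.single i (a : ℂ)) = cz (T i) ^ a := by
  rw [← h.exp i hi, tw, Finset.sum_eq_single_of_mem i hi fun j _ k => by simp [k],
    Pi.single_eq_same]

theorem tw_an (ζ : Fin p → ℂ) : AnalyticAt ℂ (tw K N) ζ := by
  rw [funext (tw_eq h)]
  refine Finset.analyticAt_fun_sum _ fun j _ => an_msmul _ (AnalyticAt.fun_pow ?_ j)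
  exact Finset.analyticAt_fun_sum _ fun i _ =>
    ((ContinuousLinearMap.proj (R := ℂ) (φ := fun _ : Fin p => ℂ) i).analyticAt ζ).smul
      analyticAt_const

theorem tw_le : ∃ B : ℝ, 0 ≤ B ∧ ∀ (ζ : Fin p → ℂ) (t : ℝ), 1 ≤ t → (∀ i ∈ K, ‖ζ i‖ ≤ t) →
    ‖tw K N ζ‖ ≤ B * t ^ Fintype.card n := by
  refine ⟨∑ j ∈ Finset.range (Fintype.card n), ‖(j.factorial : ℂ)⁻¹‖ *
    (‖(1 : Mx n)‖ * (∑ i ∈ K, ‖N i‖) ^ j), by positivity, fun ζ t ht hζ => ?_⟩
  have h1 : ‖∑ i ∈ K, ζ i • N i‖ ≤ (∑ i ∈ K, ‖N i‖) * t := by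
    rw [Finset.sum_mul]
    refine norm_sum_le_of_le _ fun i hi => ?_
    rw [norm_smul, mul_comm]
    exact mul_le_mul_of_nonneg_left (hζ i hi) (norm_nonneg _)
  have h2 : ∀ j : ℕ, ‖(∑ i ∈ K, ζ i • N i) ^ j‖ ≤ ‖(1 : Mx n)‖ * ((∑ i ∈ K, ‖N i‖) * t) ^ j :=
    fun j => by
      induction j with
      | zero => simp
      | succ j ih =>
        rw [pow_succ, pow_succ, ← mul_assoc]
        exact (norm_mul_le _ _).trans (mul_le_mul ih h1 (norm_nonneg _) (by positivity))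
  rw [tw_eq h, Finset.sum_mul]
  refine norm_sum_le_of_le _ fun j hj => ?_
  rw [norm_smul, mul_assoc, mul_assoc]
  refine mul_le_mul_of_nonneg_left ((h2 j).trans ?_) (norm_nonneg _)
  rw [mul_pow]
  gcongr
  exact (Finset.mem_range.1 hj).le

end un

theorem le_pl {ζ : Fin p → ℂ} (h : ζ ∈ Dm K) : 1 ≤ pl K ζ ∧ ∀ i ∈ K, 1 + (ζ i).im ≤ pl K ζ := by
  have h1 : ∀ i ∈ K, 1 ≤ 1 + (ζ i).im := fun i hi => le_add_of_nonneg_right (h.1 i hi).le
  refine ⟨Finset.one_le_prod h1, fun i hi => ?_⟩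
  rw [pl, ← Finset.mul_prod_erase _ _ hi]
  exact le_mul_of_one_le_right (zero_le_one.trans (h1 i hi))
    (Finset.one_le_prod fun j hj => h1 j (Finset.mem_of_mem_erase hj))

theorem pl_le (K : Finset (Fin p)) (M : ℕ) : ∃ c : ℝ, 0 ≤ c ∧ ∀ ζ ∈ Dm K,
    pl K ζ ^ M ≤ c * Real.exp (∑ i ∈ K, (ζ i).im) := by
  refine ⟨∏ _i ∈ K, (M.factorial * Real.exp 1), by positivity, fun ζ h => ?_⟩
  rw [pl, ← Finset.prod_pow, Real.exp_sum, ← Finset.prod_mul_distrib]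
  refine Finset.prod_le_prod (fun i hi => by have := h.1 i hi; positivity) fun i hi => ?_
  have := Real.pow_div_factorial_le_exp (1 + (ζ i).im) (by have := h.1 i hi; positivity) M
  rwa [div_le_iff₀' (by positivity), Real.exp_add, ← mul_assoc] at this

/-- the Hodge norm in the twisted frame -/
theorem grow (hG : StGrow) (hv : ∀ ζ ∈ Dm K, LVAt Q w π ζ) (h : Un K Q T a N) {η : ℝ} (hη : 0 < η)
    (R : ℝ) : ∃ (B : ℝ) (M : ℕ), 0 < B ∧ ∀ ζ ∈ St K R η, ∀ s,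
      hn (gH Q w (π ζ)) (tw K N ζ *ᵥ s) ≤ B * pl K ζ ^ M * ‖s‖ ^ 2 ∧
      ‖s‖ ^ 2 ≤ B * pl K ζ ^ M * hn (gH Q w (π ζ)) (tw K N ζ *ᵥ s) := by
  obtain ⟨B, M, hB⟩ := (hG n p K Q w π hv η hη).2 R
  obtain ⟨A, A0, hA⟩ := tw_le h
  refine ⟨(|B| + 1) * ((A * (|R| + 1) ^ Fintype.card n) ^ 2 + 1), M + Fintype.card n * 2,
    by positivity, fun ζ hζ s => ?_⟩
  have hD := In_sub hη hζ.1
  obtain ⟨l1, l2⟩ := le_pl hD
  have t1 : 1 ≤ (|R| + 1) * pl K ζ := by nlinarith [abs_nonneg R]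
  have t2 : ∀ i ∈ K, ‖ζ i‖ ≤ (|R| + 1) * pl K ζ := fun i hi => by
    have := norm_le_abs_re_add_abs_im (ζ i)
    rw [abs_of_pos (hD.1 i hi)] at this
    nlinarith [abs_nonneg R, le_abs_self R, hζ.2 i hi, l2 i hi]
  have e : ∀ (ξ : Fin p → ℂ) (s : n → ℂ), (∀ i ∈ K, ‖ξ i‖ ≤ (|R| + 1) * pl K ζ) →
      ‖tw K N ξ *ᵥ s‖ ^ 2 ≤ ((A * (|R| + 1) ^ Fintype.card n) ^ 2 + 1) *
        pl K ζ ^ (Fintype.card n * 2) * ‖s‖ ^ 2 := fun ξ s k => by
    refine (pow_le_pow_left₀ (norm_nonneg _) ((linfty_opNorm_mulVec _ _).trans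
      (mul_le_mul_of_nonneg_right (hA ξ _ t1 k) (norm_nonneg _))) 2).trans ?_
    rw [mul_pow, mul_pow (|R| + 1), ← mul_assoc, mul_pow, pow_mul]
    gcongr
    exact le_add_of_nonneg_right zero_le_one
  have b : B * pl K ζ ^ M ≤ (|B| + 1) * pl K ζ ^ M :=
    mul_le_mul_of_nonneg_right (by linarith [le_abs_self B]) (by positivity)
  have h0 := hn_nonneg (hv ζ hD).hs0.pos (tw K N ζ *ᵥ s)
  obtain ⟨c1, c2⟩ := hB ζ hζ (tw K N ζ *ᵥ s)
  constructor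
  · refine (c1.trans (mul_le_mul b (e ζ s t2) (by positivity) (by positivity))).trans_eq ?_
    ring
  · have := e (-ζ) (tw K N ζ *ᵥ s) fun i hi => by simpa using t2 i hi
    rw [tw_neg h] at this
    refine (this.trans (mul_le_mul_of_nonneg_left (c2.trans (mul_le_mul_of_nonneg_right b h0))
      (by positivity))).trans_eq ?_
    ring

theorem norm_mon (β : Fin p → ℤ) (ζ : Fin p → ℂ) : ‖∏ i ∈ K, ex K a ζ i ^ β i‖ ^ 2 =
    Real.exp (-4 * Real.pi * ∑ i ∈ K, β i / (a : ℝ) * (ζ i).im) := by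
  rw [norm_prod, ← Finset.prod_pow, Finset.mul_sum, Real.exp_sum]
  refine Finset.prod_congr rfl fun i hi => ?_
  rw [norm_zpow, ex, if_pos hi, norm_e, ← Real.rpow_intCast, ← Real.exp_mul, ← Real.exp_nat_mul]
  congr 1
  push_cast
  ring

theorem iter {ψ : (Fin p → ℂ) → n → ℂ} {lam : Fin p → ℂ} {i : Fin p} (hi : i ∈ K)
    (h : ∀ ζ ∈ Dm K, ψ (ζ + Pi.single i 1) = lam i • (cz (T i) *ᵥ ψ ζ)) {ζ : Fin p → ℂ}
    (hζ : ζ ∈ Dm K) (k : ℕ) : ζ + Pi.single i (k : ℂ) ∈ Dm K ∧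
      ψ (ζ + Pi.single i (k : ℂ)) = lam i ^ k • (cz (T i) ^ k *ᵥ ψ ζ) := by
  induction k with
  | zero => simpa using hζ
  | succ k ih =>
    rw [Nat.cast_succ, Pi.single_add, ← add_assoc, h _ ih.1, ih.2, mulVec_smul, smul_smul,
      mulVec_mulVec, ← pow_succ', ← pow_succ']
    exact ⟨add_mem ih.1 hi, rfl⟩

end FrH

open FrH in
theorem stFr (hG : StGrow) : StFr := by
  intro n _ _ p K Q w π T a N ψ lam hv h hl
  obtain ⟨C, A, hC⟩ := hl.mod
  have a0 : (0 : ℝ) < a := Nat.cast_pos.2 h.pos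
  obtain ⟨M, hM⟩ := exists_nat_ge ((A + 1) * a / (4 * Real.pi))
  rw [div_le_iff₀ (by positivity), ← le_div_iff₀ a0] at hM
  obtain ⟨φ₀, h1, h2⟩ := stDesc n p K a (fun ζ => tw K N (-ζ) *ᵥ ψ ζ) M h.pos
    (fun ζ hζ => an_mulVec ((tw_an h _).comp analyticAt_id.neg) (hl.ln ζ hζ).an)
    (fun i hi ζ hζ => by
      rw [(iter hi (hl.eqv i hi) hζ a).2, hl.pow i hi, one_smul, ← tw_single h hi, mulVec_mulVec,
        ← tw_add h, neg_add, neg_add_cancel_right])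
    fun η hη => by
      obtain ⟨B, m, B0, hB⟩ := grow hG hv.lv h hη a
      obtain ⟨c, c0, hc⟩ := pl_le K m
      refine ⟨√(B * c * |C|), fun ζ hζ => Real.le_sqrt_of_sq_le ?_⟩
      have hD := In_sub hη hζ.1
      have e1 := (hB ζ hζ (tw K N (-ζ) *ᵥ ψ ζ)).2
      rw [tw_neg' h] at e1
      have e2 := norm_mon (K := K) (a := a) (fun _ => (M : ℤ)) ζ
      simp only [zpow_natCast, Int.cast_natCast, ← Finset.mul_sum] at e2
      have e3 : 0 ≤ ∑ i ∈ K, (ζ i).im := Finset.sum_nonneg fun i hi => (hD.1 i hi).le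
      rw [norm_smul, mul_pow, e2]
      set s := ∑ i ∈ K, (ζ i).im
      calc _ ≤ Real.exp (-4 * Real.pi * (M / a * s)) *
            (B * (c * Real.exp s) * (|C| * Real.exp (A * s))) := by
            refine mul_le_mul_of_nonneg_left (e1.trans (mul_le_mul
              (mul_le_mul_of_nonneg_left (hc ζ hD) B0.le) ((hC ζ hD).trans ?_)
              (hn_nonneg (hv.lv ζ hD).hs0.pos _) (by positivity))) (Real.exp_pos _).le
            exact mul_le_mul_of_nonneg_right (le_abs_self C) (Real.exp_pos _).le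
        _ = B * c * |C| * Real.exp ((A + 1 - M * (4 * Real.pi) / a) * s) := by
            rw [show (A + 1 - M * (4 * Real.pi) / a) * s =
              -4 * Real.pi * (M / a * s) + s + A * s by ring, Real.exp_add, Real.exp_add]
            ring
        _ ≤ _ := mul_le_of_le_one_right (by positivity)
            (Real.exp_le_one_iff.2 (mul_nonpos_of_nonpos_of_nonneg (by linarith) e3))
  have h3 : ∀ ζ, ∏ i ∈ K, ex K a ζ i ^ M ≠ 0 := fun ζ =>
    Finset.prod_ne_zero_iff.2 fun i hi => pow_ne_zero _ (ex_ne ζ hi)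
  obtain ⟨β, φ, b1, b2, b3⟩ := stDiv n p K φ₀ h1 ⟨_, (mem_dm h.pos).1 (bp_mem K), fun e => by
    rw [h2 _ (bp_mem K), smul_eq_zero_iff_right (h3 _)] at e
    exact (hl.ln _ (bp_mem K)).ne (by rw [← tw_neg' h (bp K) (ψ _), e, mulVec_zero])⟩
  refine ⟨fun i => β i - M, φ, b1, fun ζ hζ => ?_, b3⟩
  have e := congrArg (tw K N ζ *ᵥ ·) ((h2 ζ hζ).symm.trans (b2 _ ((mem_dm h.pos).1 hζ)))
  simp only [mulVec_smul, tw_neg' h] at e
  rw [Finset.prod_congr rfl fun i hi => zpow_sub₀ (ex_ne ζ hi) _ _, Finset.prod_div_distrib,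
    div_eq_inv_mul, mul_smul]
  simp only [zpow_natCast]
  rw [eq_inv_smul_iff₀ (h3 ζ)]
  exact e

end Vale.Agent.P281Z.Hm
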