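import Vale.Agent.P281Z.Hm.ModM
import Vale.Agent.P281Z.Hm.Fr

/-!
# P281Z: exponential growth spreads, sections of a variation on the model (MODB)
-/

open scoped Matrix.Norms.Operator Topology
open Filter Set Matrix Complex

noncomputable section

namespace Vale.Agent.P281Z.Hm

open DescH LiftH MaxH FrH

namespace MB

variable {p : ℕ} {K : Finset (Fin p)} {a : ℕ}

/-- move one real part to the strip -/
theorem shift (ha : 0 < a) {j : Fin p} (hj : j ∈ K) {ζ : Fin p → ℂ} (hζ : ζ ∈ Db K j) :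
    ∃ η > (0 : ℝ), ∃ R : ℝ, ∀ P : (Fin p → ℂ) → Prop, (∀ᶠ x in toB j ζ, P x) →
      ∀ᶠ x in toB j ζ, ∃ x' ∈ St K R η, P x' ∧ ex K a x = ex K a x' ∧ (x' j).im = (x j).im ∧
        ∑ i ∈ K, (x' i).im ≤ K.card * ((x j).im + R) := by
  obtain ⟨η, hη, -, h1⟩ := ex_In hζ
  have a0 : (0 : ℝ) < a := Nat.cast_pos.2 ha
  refine ⟨η / 2, half_pos hη, ‖ζ‖ + η / 2 + a, fun P hP => eventually_comap.2 ?_⟩
  filter_upwards [eventually_comap.1 hP,
    tendsto_fst.eventually (Metric.ball_mem_nhds _ (half_pos hη)),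
    tendsto_snd.eventually (eventually_ge_atTop (η / 2))] with y b c d x hx
  subst hx
  have h2 : ∀ i, i ≠ j → ‖x i - ζ i‖ ≤ η / 2 := fun i hi => by
    simpa [hi] using (norm_le_pi_norm _ i).trans (mem_ball_iff_norm.1 c).le
  have h3 : ∀ i, i ≠ j → ‖x i‖ ≤ ‖ζ‖ + η / 2 := fun i hi => by
    linarith [h2 i hi, norm_sub_norm_le (x i) (ζ i), norm_le_pi_norm ζ i]
  have h4 : (x j - (⌊(x j).re / a⌋ : ℤ) * a).im = (x j).im := by simp
  have h5 : η / 2 ≤ (x j).im := d
  refine ⟨Function.update x j (x j - (⌊(x j).re / a⌋ : ℤ) * a),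
    ⟨⟨fun i hi => ?_, fun i hi => ?_⟩, fun i hi => ?_⟩, b _ (by simp), ?_, by simp, ?_⟩
  · rcases eq_or_ne i j with rfl | e
    · rwa [Function.update_self, h4]
    · have h6 := h1.1 i hi
      have h7 := abs_le.1 ((abs_im_le_norm _).trans (h2 i e))
      rw [Function.update_of_ne e] at h6 ⊢
      rw [sub_im] at h7
      linarith
  · have e : i ≠ j := fun e => hi (e ▸ hj)
    have h6 := h1.2 i hi
    rw [Function.update_of_ne e] at h6 ⊢
    linarith [h2 i e, norm_sub_norm_le (x i) (ζ i)]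
  · rcases eq_or_ne i j with rfl | e
    · have h6 := Int.sub_floor_div_mul_nonneg (x i).re a0
      have h7 := Int.sub_floor_div_mul_lt (x i).re a0
      have h8 : (x i - (⌊(x i).re / a⌋ : ℤ) * a).re = (x i).re - ⌊(x i).re / a⌋ * a := by simp
      rw [Function.update_self, h8, abs_of_nonneg h6]
      linarith [norm_nonneg ζ]
    · rw [Function.update_of_ne e]
      linarith [abs_re_le_norm (x i), h3 i e]
  · rw [MM.ex_upd hj, mul_sub, sub_div, ← mul_assoc,
      mul_div_cancel_right₀ _ (Nat.cast_ne_zero.2 ha.ne'), exp_sub, mul_comm _ ((_ : ℤ) : ℂ),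
      exp_int_mul_two_pi_mul_I, div_one, ← MM.ex_upd hj, Function.update_eq_self]
  · rw [← nsmul_eq_mul]
    refine Finset.sum_le_card_nsmul _ _ _ fun i _ => ?_
    rcases eq_or_ne i j with rfl | e
    · rw [Function.update_self, h4]
      linarith [norm_nonneg ζ]
    · rw [Function.update_of_ne e]
      linarith [im_le_norm (x i), h3 i e]

end MB

theorem stModB (hG : StGrow) : StModB := by
  intro n _ _ p K Q w π T a N ψ lam hv h hψ he hl hb η hη
  have per : ∀ i ∈ K, ∀ ζ ∈ Dm K, tw K N (-(ζ + Pi.single i (a : ℂ))) *ᵥ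
      ψ (ζ + Pi.single i (a : ℂ)) = tw K N (-ζ) *ᵥ ψ ζ := fun i hi ζ hζ => by
    rw [(iter hi (he i hi) hζ a).2, hl i hi, one_smul, ← tw_single h hi, mulVec_mulVec,
      ← tw_add h, neg_add, neg_add_cancel_right]
  obtain ⟨A, hA⟩ := stModM n p K a (fun ζ => tw K N (-ζ) *ᵥ ψ ζ) h.pos
    (fun ζ hζ => an_mulVec ((tw_an h _).comp analyticAt_id.neg) (hψ ζ hζ)) per fun j hj => by
      obtain ⟨ζ, hζ, B, A, hb⟩ := hb j hj
      obtain ⟨η, hη, R, hR⟩ := MB.shift h.pos hj hζ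
      obtain ⟨B₁, m, B0, hB⟩ := grow hG hv.lv h hη R
      obtain ⟨c, c0, hc⟩ := pl_le K m
      refine ⟨ζ, hζ, √(B₁ * c * |B| * Real.exp (K.card * R)), (A + K.card) / 2, ?_⟩
      filter_upwards [hR _ hb] with x ⟨x', h1, h2, h3, h4, h5⟩
      have hD := In_sub hη h1.1
      have e1 := (hB x' h1 (tw K N (-x') *ᵥ ψ x')).2
      rw [tw_neg' h] at e1
      rw [per_eq (G := fun ζ => tw K N (-ζ) *ᵥ ψ ζ) h.pos per hD h3]
      refine le_of_sq_le_sq (e1.trans ?_) (by positivity)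
      rw [mul_pow, Real.sq_sqrt (by positivity), ← Real.exp_nat_mul]
      rw [h4] at h2
      calc _ ≤ B₁ * (c * Real.exp (K.card * ((x j).im + R))) * (|B| * Real.exp (A * (x j).im)) := by
            refine mul_le_mul (mul_le_mul_of_nonneg_left ((hc x' hD).trans ?_) B0.le) (h2.trans ?_)
              (hn_nonneg (hv.lv x' hD).hs0.pos _) (by positivity)
            · gcongr
            · exact mul_le_mul_of_nonneg_right (le_abs_self B) (Real.exp_pos _).le
        _ = _ := by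
            rw [show ((2 : ℕ) : ℝ) * ((A + K.card) / 2 * (x j).im) =
              A * (x j).im + K.card * (x j).im by push_cast; ring, mul_add, Real.exp_add,
              Real.exp_add]
            ring
  obtain ⟨B, hB⟩ := hA η hη
  obtain ⟨B₁, m, B0, hB₁⟩ := grow hG hv.lv h hη 1
  obtain ⟨c, c0, hc⟩ := pl_le K m
  refine ⟨B₁ * c * B ^ 2, 2 * A + 1, fun ζ hζ => ?_⟩
  have e1 := (hB₁ ζ hζ (tw K N (-ζ) *ᵥ ψ ζ)).1
  rw [tw_neg' h] at e1
  refine (e1.trans (mul_le_mul (mul_le_mul_of_nonneg_left (hc ζ (In_sub hη hζ.1)) B0.le)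
    (pow_le_pow_left₀ (norm_nonneg _) (hB ζ hζ.1) 2) (by positivity) (by positivity))).trans_eq ?_
  rw [add_mul, two_mul, add_mul, one_mul, Real.exp_add, Real.exp_add]
  ring

end Vale.Agent.P281Z.Hm
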