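import Vale.Agent.P281Z.Hm.Cpt
import Vale.Agent.P281Z.Hm.Alg

/-!
# P281Z, powers of the local monodromies commute (COMM)
-/

open scoped Matrix.Norms.Operator
open Set

noncomputable section

namespace Vale.Agent.P281Z.Hm

/-- **COMM** -/
theorem stComm : StComm := by
  intro p Y _ _ U C n _ _ V hs
  obtain ⟨x₀⟩ : Nonempty C.X := inferInstance
  have hB : ∀ q, ‖V.gr x₀ q‖ ≤ ∑ q ∈ Finset.range (V.w + 1), ‖V.gr x₀ q‖ := fun q => by
    by_cases hq : V.w < q
    · rw [(hs x₀).top q hq, norm_zero]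
      positivity
    · exact Finset.single_le_sum (f := fun q => ‖V.gr x₀ q‖) (fun _ _ => norm_nonneg _)
        (Finset.mem_range.2 (by omega))
  have hF : (V.ρ '' (MulAction.toPermHom C.Γ C.X).ker).Finite := by
    refine (stProp n V.Q V.w (∑ q ∈ Finset.range (V.w + 1), ‖V.gr x₀ q‖)).subset ?_
    rintro _ ⟨k, hk, rfl⟩
    refine ⟨V.pQ k, _, _, hs x₀, hs x₀, fun q => ⟨hB q, hB q⟩, fun q => ?_⟩
    have := V.eqv k x₀ q
    rwa [show k • x₀ = x₀ from DFunLike.congr_fun hk x₀] at this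
  refine ⟨hF.toFinset.card.factorial, Nat.factorial_pos _, fun g g' h => ?_⟩
  have h0 : Commute (MulAction.toPermHom C.Γ C.X g) (MulAction.toPermHom C.Γ C.X g') := by
    rw [Commute, SemiconjBy, ← map_mul, ← map_mul]
    exact Equiv.ext h
  have key : ∀ i d : ℕ, V.ρ (g ^ i * g' * (g' * g ^ i)⁻¹) =
      V.ρ (g ^ (i + d) * g' * (g' * g ^ (i + d))⁻¹) → Commute (V.ρ g ^ d) (V.ρ g') := by
    intro i d e
    have e1 := congrArg (fun A => V.ρ (g ^ i)⁻¹ * A * V.ρ (g' * g ^ (i + d))) e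
    simp only [← map_mul] at e1
    rw [Commute, SemiconjBy, ← map_pow, ← map_mul, ← map_mul]
    refine (congrArg V.ρ ?_).trans (e1.symm.trans (congrArg V.ρ ?_)) <;> group
  obtain ⟨i, hi, j, hj, hij, e⟩ := Finset.exists_ne_map_eq_of_card_lt_of_maps_to
    (s := Finset.range (hF.toFinset.card + 1)) (t := hF.toFinset) (by simp)
    (f := fun i => V.ρ (g ^ i * g' * (g' * g ^ i)⁻¹)) fun i _ => hF.mem_toFinset.2 ⟨_, by
      rw [SetLike.mem_coe, MonoidHom.mem_ker, map_mul, map_inv, mul_inv_eq_one, map_mul, map_mul,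
        map_pow]
      exact h0.pow_left i, rfl⟩
  wlog hlt : i < j generalizing i j
  · exact this j hj i hi hij.symm e.symm (by omega)
  obtain ⟨d, rfl⟩ := Nat.exists_eq_add_of_le hlt.le
  obtain ⟨c, hc⟩ := Nat.dvd_factorial (m := d) (n := hF.toFinset.card) (by omega)
    (by have := Finset.mem_range.1 hj; omega)
  rw [← cz_pow, ← cz_pow, Commute, SemiconjBy, ← cz_mul, ← cz_mul]
  refine congrArg cz (Commute.pow_right ?_ _)
  rw [hc, pow_mul]
  exact (key i d e).pow_left c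

end Vale.Agent.P281Z.Hm
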