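import Vale.Agent.P281Z.Hm.Desc
import Vale.Agent.P281Z.Hm.MCalc
import Vale.Agent.P281Z.Hm.Alg

/-!
# P281Z, the expansion of the norm at a boundary component (EXP)
-/

set_option linter.unusedSectionVars false

open scoped Matrix.Norms.Operator Topology ComplexConjugate
open Filter Set Matrix Complex Function

noncomputable section

namespace Vale.Agent.P281Z.Hm

namespace ExpH

variable {n : Type} [Fintype n] [DecidableEq n] {p : ℕ} {K : Finset (Fin p)} {Q : Mx n}
  {T : Fin p → Matrix n n ℤ} {a w : ℕ} {N : Fin p → Mx n} {b : Fin p}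

theorem nil_pow {A : Mx n} (h : IsNilpotent A) : A ^ Fintype.card n = 0 := by
  have h1 := (Matrix.isNilpotent_charpoly_sub_pow_of_isNilpotent h).eq_zero
  have h2 := Matrix.aeval_self_charpoly A
  rwa [sub_eq_zero.1 h1, map_pow, Polynomial.aeval_X] at h2

theorem exp_eq {A : Mx n} (h : IsNilpotent A) : IsNilpotent.exp A =
    ∑ k ∈ Finset.range (Fintype.card n + 1), ((k.factorial : ℂ))⁻¹ • A ^ k := by
  rw [IsNilpotent.exp_eq_sum (k := Fintype.card n + 1) (by rw [pow_succ, nil_pow h, zero_mul])]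
  refine Finset.sum_congr rfl fun k _ => ?_
  rw [← Rat.cast_smul_eq_qsmul ℂ]
  simp

theorem exp_adj {A B : Mx n} (hA : IsNilpotent A) (hB : IsNilpotent B) (h : Aᴴ * Q = Q * B) :
    (IsNilpotent.exp A)ᴴ * Q = Q * IsNilpotent.exp B := by
  have h1 : ∀ k, (A ^ k)ᴴ * Q = Q * B ^ k := fun k => by
    induction k with
    | zero => simp
    | succ k ih => rw [pow_succ, conjTranspose_mul, Matrix.mul_assoc, ih, ← Matrix.mul_assoc, h,
        pow_succ', Matrix.mul_assoc]
  rw [exp_eq hA, exp_eq hB, conjTranspose_sum, Finset.sum_mul, Finset.mul_sum]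
  refine Finset.sum_congr rfl fun k _ => ?_
  rw [conjTranspose_smul, smul_mul_assoc, h1, mul_smul_comm]
  simp

theorem nil_sum (h : Un K Q T a N) {S : Finset (Fin p)} (hS : S ⊆ K) (c : Fin p → ℂ) :
    IsNilpotent (∑ i ∈ S, c i • N i) :=
  Commute.isNilpotent_sum (fun i hi => (h.nil i (hS hi)).smul _) fun i j hi hj =>
    ((h.comm i (hS hi) j (hS hj)).smul_left _).smul_right _

theorem gram (h : Un K Q T a N) (hb : b ∈ K) (ζ : Fin p → ℂ) :
    (IsNilpotent.exp (∑ i ∈ K, ζ i • N i))ᴴ * Q * IsNilpotent.exp (∑ i ∈ K, ζ i • N i) =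
      ∑ j ∈ Finset.range (Fintype.card n + 1), (((ζ b).im ^ j / j.factorial : ℝ) : ℂ) •
        (Q * ((2 * I) • N b) ^ j *
          IsNilpotent.exp (∑ i ∈ K.erase b, (2 * I * (ζ i).im) • N i)) := by
  have h1 : (∑ i ∈ K, ζ i • N i)ᴴ * Q = Q * ∑ i ∈ K, (-conj (ζ i)) • N i := by
    rw [conjTranspose_sum, Finset.sum_mul, Finset.mul_sum]
    refine Finset.sum_congr rfl fun i hi => ?_
    rw [conjTranspose_smul, smul_mul_assoc, h.skew i hi, mul_smul_comm, smul_neg, neg_smul]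
    rfl
  have h2 : ∑ i ∈ K, (-conj (ζ i)) • N i + ∑ i ∈ K, ζ i • N i =
      (2 * I * (ζ b).im) • N b + ∑ i ∈ K.erase b, (2 * I * (ζ i).im) • N i := by
    rw [Finset.add_sum_erase K (fun i => (2 * I * (ζ i).im) • N i) hb, ← Finset.sum_add_distrib]
    refine Finset.sum_congr rfl fun i _ => ?_
    rw [← add_smul, neg_add_eq_sub, sub_conj]
    congr 1
    push_cast
    ring
  rw [exp_adj (nil_sum h subset_rfl _) (nil_sum h subset_rfl _) h1, Matrix.mul_assoc,
    ← IsNilpotent.exp_add_of_commute (Commute.sum_left _ _ _ fun i hi => Commute.sum_right _ _ _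
      fun j hj => ((h.comm i hi j hj).smul_left _).smul_right _) (nil_sum h subset_rfl _)
      (nil_sum h subset_rfl _), h2, IsNilpotent.exp_add_of_commute (Commute.sum_right _ _ _
      fun j hj => ((h.comm b hb j (Finset.mem_of_mem_erase hj)).smul_left _).smul_right _)
      ((h.nil b hb).smul _) (nil_sum h (K.erase_subset b) _), exp_eq ((h.nil b hb).smul _),
    Finset.sum_mul, Finset.mul_sum]
  refine Finset.sum_congr rfl fun j _ => ?_
  simp only [smul_pow, smul_mul_assoc, mul_smul_comm, smul_smul, Matrix.mul_assoc]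
  congr 1
  push_cast
  ring

theorem hn_sum {ι : Type} (S : Finset ι) (c : ι → ℝ) (M : ι → Mx n) (s : n → ℂ) :
    hn (∑ j ∈ S, (c j : ℂ) • M j) s = ∑ j ∈ S, c j * hn (M j) s := by
  simp only [hn, sum_mulVec, dotProduct_sum, re_sum, smul_mulVec, dotProduct_smul, smul_eq_mul,
    re_ofReal_mul]

theorem expand (h : Un K Q T a N) (hb : b ∈ K) {π : Gr n} (hπ : Hs Q w π) {s : n → ℂ}
    {ζ : Fin p → ℂ} (ht : π w *ᵥ (IsNilpotent.exp (∑ i ∈ K, ζ i • N i) *ᵥ s) =
      IsNilpotent.exp (∑ i ∈ K, ζ i • N i) *ᵥ s) :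
    hn (gH Q w π) (IsNilpotent.exp (∑ i ∈ K, ζ i • N i) *ᵥ s) =
      ∑ j ∈ Finset.range (Fintype.card n + 1), (ζ b).im ^ j * cf K Q w N b j s ζ := by
  have h1 : ∀ v, π w *ᵥ v = v → hn (gH Q w π) v = (-1) ^ w * hn Q v := fun v hv => by
    rw [hn, hn, hπ.H_top hv, dotProduct_smul, smul_eq_mul, ← re_ofReal_mul]
    push_cast
    rfl
  rw [h1 _ ht, ← hn_conj, gram h hb, hn_sum, Finset.mul_sum]
  refine Finset.sum_congr rfl fun j _ => ?_
  rw [cf]
  ring

theorem an_cf (h : Un K Q T a N) (j : ℕ) (z : (n → ℂ) × (Fin p → ℂ)) :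
    AnalyticAt ℝ (fun x : (n → ℂ) × (Fin p → ℂ) => cf K Q w N b j x.1 x.2) z := by
  simp only [cf, exp_eq (nil_sum h (K.erase_subset b) _)]
  refine (analyticAt_const.mul (an_hn (an_mul analyticAt_const (Finset.analyticAt_fun_sum _
    fun k _ => an_msmul _ (AnalyticAt.pow (Finset.analyticAt_fun_sum _ fun i _ => ?_) k)))
    analyticAt_fst)).div_const
  exact (analyticAt_const.mul (an_ofReal ((imCLM.analyticAt _).comp
    (an_crd analyticAt_snd i)))).smul analyticAt_const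

theorem cf_upd (j : ℕ) (s : n → ℂ) (ζ : Fin p → ℂ) (t : ℂ) :
    cf K Q w N b j s (update ζ b t) = cf K Q w N b j s ζ := by
  rw [cf, cf, Finset.sum_congr rfl fun i hi => by rw [update_of_ne (Finset.ne_of_mem_erase hi)]]

theorem cf_big (h : Un K Q T a N) (hb : b ∈ K) {j : ℕ} (hj : Fintype.card n ≤ j) (s : n → ℂ)
    (ζ : Fin p → ℂ) : cf K Q w N b j s ζ = 0 := by
  rw [cf, pow_eq_zero_of_le hj (nil_pow ((h.nil b hb).smul _))]
  simp [hn]

theorem hn_le (M : Mx n) (s : n → ℂ) : |hn M s| ≤ Fintype.card n * (‖s‖ * (‖M‖ * ‖s‖)) := by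
  refine (abs_re_le_norm _).trans ((norm_sum_le _ _).trans ?_)
  rw [← nsmul_eq_mul, ← Finset.card_univ]
  refine Finset.sum_le_card_nsmul _ _ _ fun i _ => ?_
  rw [norm_mul, Pi.star_apply, norm_star]
  exact mul_le_mul (norm_le_pi_norm s i) ((norm_le_pi_norm _ i).trans (linfty_opNorm_mulVec M s))
    (norm_nonneg _) (norm_nonneg _)

theorem exp_le {A : Mx n} (h : IsNilpotent A) {c P : ℝ} (hc : 0 ≤ c) (hP : 1 ≤ P)
    (hA : ‖A‖ ≤ c * P) : ‖IsNilpotent.exp A‖ ≤ (∑ k ∈ Finset.range (Fintype.card n + 1),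
      ‖((k.factorial : ℂ))⁻¹‖ * (‖(1 : Mx n)‖ * c ^ k)) * P ^ Fintype.card n := by
  have h1 : ∀ k, ‖A ^ k‖ ≤ ‖(1 : Mx n)‖ * (c * P) ^ k := fun k => by
    induction k with
    | zero => simp
    | succ k ih =>
      rw [pow_succ, pow_succ, ← mul_assoc]
      exact (norm_mul_le _ _).trans (mul_le_mul ih hA (norm_nonneg _) (by positivity))
  rw [exp_eq h, Finset.sum_mul]
  refine (norm_sum_le _ _).trans (Finset.sum_le_sum fun k hk => ?_)
  rw [norm_smul, mul_assoc, mul_assoc]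
  refine mul_le_mul_of_nonneg_left ((h1 k).trans ?_) (norm_nonneg _)
  rw [mul_pow]
  have := pow_le_pow_right₀ hP (Nat.lt_succ_iff.1 (Finset.mem_range.1 hk))
  gcongr

theorem cf_le (h : Un K Q T a N) (j : ℕ) (R : ℝ) : ∃ B : ℝ, ∀ s ζ, ‖s‖ ≤ R →
    (∀ i ∈ K.erase b, 0 ≤ (ζ i).im) →
    |cf K Q w N b j s ζ| ≤ B * pl (K.erase b) ζ ^ Fintype.card n := by
  refine ⟨Fintype.card n * (R * (‖Q * ((2 * I) • N b) ^ j‖ *
    (∑ k ∈ Finset.range (Fintype.card n + 1), ‖((k.factorial : ℂ))⁻¹‖ *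
      (‖(1 : Mx n)‖ * (∑ i ∈ K.erase b, 2 * ‖N i‖) ^ k)) * R)), fun s ζ hs hζ => ?_⟩
  have h1 : ∀ i ∈ K.erase b, 1 ≤ 1 + (ζ i).im := fun i hi => le_add_of_nonneg_right (hζ i hi)
  have hP : 1 ≤ pl (K.erase b) ζ := Finset.one_le_prod h1
  have h2 : ∀ i ∈ K.erase b, (ζ i).im ≤ pl (K.erase b) ζ := fun i hi => by
    have := Finset.prod_le_prod_of_subset_of_one_le (f := fun i => 1 + (ζ i).im)
      (Finset.singleton_subset_iff.2 hi) (fun k hk => by
        rw [Finset.mem_singleton.1 hk]; exact zero_le_one.trans (h1 i hi)) fun k hk _ => h1 k hk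
    rw [Finset.prod_singleton] at this
    exact (le_add_of_nonneg_left zero_le_one).trans this
  have h3 := exp_le (nil_sum h (K.erase_subset b) fun i => 2 * I * (ζ i).im)
    (c := ∑ i ∈ K.erase b, 2 * ‖N i‖) (by positivity) hP (by
      rw [Finset.sum_mul]
      refine (norm_sum_le _ _).trans (Finset.sum_le_sum fun i hi => ?_)
      rw [norm_smul, norm_mul, norm_mul, norm_I, norm_real, Real.norm_of_nonneg (hζ i hi)]
      have := mul_le_mul_of_nonneg_left (h2 i hi) (norm_nonneg (N i))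
      simp only [Complex.norm_ofNat]
      linarith)
  have hR := (norm_nonneg s).trans hs
  rw [cf, abs_div, abs_mul, abs_neg_one_pow, one_mul]
  refine (div_le_self (abs_nonneg _) ?_).trans ((hn_le _ _).trans ?_)
  · rw [Nat.abs_cast]
    exact Nat.one_le_cast.2 j.factorial_pos
  · have h4 := (norm_mul_le (Q * ((2 * I) • N b) ^ j) _).trans
      (mul_le_mul_of_nonneg_left h3 (norm_nonneg _))
    refine (mul_le_mul_of_nonneg_left (mul_le_mul hs (mul_le_mul h4 hs (norm_nonneg _)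
      ((norm_nonneg _).trans h4)) (by positivity) hR) (by positivity)).trans_eq ?_
    ring

theorem ex_upd (ζ : Fin p → ℂ) (t : ℂ) :
    update (ex K a (update ζ b t)) b 0 = update (ex K a ζ) b 0 := by
  funext i
  by_cases hi : i = b
  · simp [hi]
  · simp [ex, hi]

theorem norm_upd (σ : Fin p → ℂ) : ‖update σ b 0‖ ≤ ‖σ‖ := by
  refine (pi_norm_le_iff_of_nonneg (norm_nonneg _)).2 fun i => ?_
  by_cases hi : i = b
  · simp [hi]
  · rw [update_of_ne hi]
    exact norm_le_pi_norm σ i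

theorem mem_ball (ha : 0 < a) {ζ : Fin p → ℂ} (hζ : ζ ∈ Db K b) :
    update (ex K a ζ) b 0 ∈ Metric.ball (0 : Fin p → ℂ) 1 := by
  rw [← ex_upd ζ I, mem_ball_zero_iff]
  exact (norm_upd _).trans_lt (mem_ball_zero_iff.1 ((DescH.mem_dm ha).1 hζ))

theorem an_upd (ζ : Fin p → ℂ) : AnalyticAt ℂ (fun x => update (ex K a x) b (0 : ℂ)) ζ := by
  refine AnalyticAt.pi fun i => ?_
  by_cases hi : i = b
  · simpa [hi] using analyticAt_const
  · simp only [update_of_ne hi, ex]
    have h1 : AnalyticAt ℂ (fun x : Fin p → ℂ => x i) ζ := an_crd analyticAt_id i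
    split_ifs
    · exact ((analyticAt_const.mul h1).div_const).cexp'
    · exact h1

theorem norm_sub (hb : b ∈ K) (x : Fin p → ℂ) :
    ‖ex K a x - update (ex K a x) b 0‖ = Real.exp (-(2 * Real.pi / a * (x b).im)) := by
  have e : ex K a x - update (ex K a x) b 0 = Pi.single b (ex K a x b) := by
    funext i
    by_cases hi : i = b <;> simp [hi]
  rw [e, Pi.norm_single, ex, if_pos hb, DescH.norm_e]

theorem in_le (ha : 0 < a) {η : ℝ} (hη : 0 < η) : ∃ r < 1, ∀ ζ ∈ In K η, ‖ex K a ζ‖ ≤ r := by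
  have hc : 0 < 2 * Real.pi / a := by positivity
  refine ⟨max (Real.exp (-(2 * Real.pi / a * η))) (1 - η), max_lt
    (Real.exp_lt_one_iff.2 (neg_lt_zero.2 (mul_pos hc hη))) (by linarith), fun ζ hζ => ?_⟩
  refine (pi_norm_le_iff_of_nonneg (le_max_of_le_left (Real.exp_pos _).le)).2 fun i => ?_
  unfold ex
  split_ifs with hi
  · rw [DescH.norm_e]
    exact le_max_of_le_left (Real.exp_le_exp.2 (neg_le_neg
      (mul_le_mul_of_nonneg_left (hζ.1 i hi) hc.le)))
  · exact le_max_of_le_right (hζ.2 i hi)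

section lim

variable {ζ : Fin p → ℂ} {φ : (Fin p → ℂ) → n → ℂ}

theorem t_upd : Tendsto (fun x => update x b 0) (toB b ζ) (𝓝 (update ζ b 0)) :=
  tendsto_fst.comp tendsto_comap

theorem t_im : Tendsto (fun x => (x b).im) (toB b ζ) atTop := tendsto_snd.comp tendsto_comap

theorem ev_db (hζ : ζ ∈ Db K b) : ∀ᶠ x in toB b ζ, x ∈ Db K b := by
  have h1 : IsOpen (Db K b) :=
    (TorH.dm_open K).preimage (continuous_id.update b continuous_const)
  filter_upwards [t_upd.eventually (h1.mem_nhds (by simpa [Db] using hζ))] with x hx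
  simpa [Db] using hx

theorem ev_dm (hb : b ∈ K) (hζ : ζ ∈ Db K b) : ∀ᶠ x in toB b ζ, x ∈ Dm K := by
  filter_upwards [ev_db hζ, t_im.eventually_gt_atTop 0] with x h1 h2
  refine ⟨fun i hi => ?_, fun i hi => ?_⟩
  · by_cases e : i = b
    · rwa [e]
    · simpa [e] using h1.1 i hi
  · simpa [ne_of_mem_of_not_mem hb hi |>.symm] using h1.2 i hi

theorem t_sig : Tendsto (fun x => update (ex K a x) b (0 : ℂ)) (toB b ζ)
    (𝓝 (update (ex K a ζ) b 0)) := by
  have := ((an_upd (K := K) (a := a) (b := b) (update ζ b 0)).continuousAt.tendsto).comp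
    (t_upd (b := b) (ζ := ζ))
  simpa only [comp_def, ex_upd] using this

theorem t_exp (ha : 0 < a) (j : ℕ) : Tendsto
    (fun x => (x b).im ^ j * Real.exp (-(2 * Real.pi / a * (x b).im))) (toB b ζ) (𝓝 0) := by
  have := (tendsto_rpow_mul_exp_neg_mul_atTop_nhds_zero j (2 * Real.pi / a)
    (by positivity)).comp (t_im (b := b) (ζ := ζ))
  simpa only [comp_def, Real.rpow_natCast, neg_mul] using this

theorem t_ex (ha : 0 < a) (hb : b ∈ K) :
    Tendsto (ex K a) (toB b ζ) (𝓝 (update (ex K a ζ) b 0)) := by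
  have h1 : Tendsto (fun x => ex K a x - update (ex K a x) b 0) (toB b ζ) (𝓝 0) := by
    rw [tendsto_zero_iff_norm_tendsto_zero]
    simpa only [norm_sub hb, pow_zero, one_mul] using t_exp ha 0
  simpa using h1.add (t_sig (K := K) (a := a))

theorem an_h (h : Un K Q T a N) (hφ : AnalyticOnNhd ℂ φ (Metric.ball 0 1)) (hζ : ζ ∈ Db K b)
    (j : ℕ) (t : Fin p → ℂ) : AnalyticAt ℝ (fun z : (Fin p → ℂ) × (Fin p → ℂ) =>
      cf K Q w N b j (φ z.1) z.2) (update (ex K a ζ) b 0, t) :=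
  AnalyticAt.comp (f := fun z : (Fin p → ℂ) × (Fin p → ℂ) => (φ z.1, z.2)) (an_cf h j _)
    ((AnalyticAt.comp (f := Prod.fst) ((hφ _ (mem_ball h.pos hζ)).restrictScalars (𝕜 := ℝ))
      analyticAt_fst).prod analyticAt_snd)

theorem t_cf (h : Un K Q T a N) (hb : b ∈ K) (hφ : AnalyticOnNhd ℂ φ (Metric.ball 0 1))
    (hζ : ζ ∈ Db K b) (j : ℕ) : Tendsto (fun x => cf K Q w N b j (φ (ex K a x)) x) (toB b ζ)
      (𝓝 (cf0 K Q w a N φ b j ζ)) := by
  have := (an_h (w := w) h hφ hζ j (update ζ b 0)).continuousAt.tendsto.comp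
    ((t_ex h.pos hb).prodMk_nhds t_upd)
  simpa only [comp_def, cf_upd, cf0] using this

theorem t_big (h : Un K Q T a N) (hb : b ∈ K) (hφ : AnalyticOnNhd ℂ φ (Metric.ball 0 1))
    (hζ : ζ ∈ Db K b) {j : ℕ} (h0 : ∀ x ∈ Db K b, cf0 K Q w a N φ b j x = 0) (m : ℕ) :
    Tendsto (fun x => (x b).im ^ m * cf K Q w N b j (φ (ex K a x)) x) (toB b ζ) (𝓝 0) := by
  obtain ⟨L, t, ht, hL⟩ := (an_h (w := w) h hφ hζ j (update ζ b 0)).contDiffAt.exists_lipschitzOnWith
  have h1 := (t_exp (b := b) (ζ := ζ) h.pos m).const_mul (L : ℝ)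
  rw [mul_zero] at h1
  refine squeeze_zero_norm' ?_ h1
  filter_upwards [((t_ex h.pos hb).prodMk_nhds t_upd).eventually ht,
    (t_sig.prodMk_nhds t_upd).eventually ht, ev_db hζ, t_im.eventually_ge_atTop 0]
    with x e1 e2 e3 e4
  have h2 := hL.dist_le_mul _ e1 _ e2
  simp only [cf_upd] at h2
  rw [show cf K Q w N b j (φ (update (ex K a x) b 0)) x = 0 from h0 x e3, dist_zero_right,
    Prod.dist_eq, dist_self, dist_eq_norm, norm_sub hb, max_eq_left (Real.exp_pos _).le] at h2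
  rw [norm_mul, Real.norm_of_nonneg (pow_nonneg e4 m), mul_left_comm]
  exact mul_le_mul_of_nonneg_left h2 (pow_nonneg e4 m)

end lim

end ExpH

open ExpH

theorem stExp (hL : StLow) : StExp := by
  intro n _ _ p K Q w π T a N ψ lam β φ h b hb
  have h1 : ∀ ζ ∈ Dm K, hn (gH Q w (π ζ)) (vf K a N φ ζ) =
      ∑ j ∈ Finset.range (Fintype.card n + 1), (ζ b).im ^ j * cf K Q w N b j (φ (ex K a ζ)) ζ :=
    fun ζ hζ => expand h.un hb (h.bv.lv ζ hζ).hs.self_of_nhds
      ((hL n p K Q w π T a N ψ lam β φ h).1 ζ hζ).1.top.self_of_nhds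
  refine ⟨h1, fun j ζ hζ => ?_, fun j η hη => ?_, fun k hk ζ hζ => ?_⟩
  · exact AnalyticAt.comp (f := fun x => (update (ex K a x) b (0 : ℂ), x))
      (an_h h.un h.fr.an hζ j ζ) (((an_upd ζ).restrictScalars (𝕜 := ℝ)).prod analyticAt_id)
  · obtain ⟨r, hr, h2⟩ := in_le (K := K) h.un.pos hη
    obtain ⟨R, hR⟩ := (isCompact_closedBall (0 : Fin p → ℂ) r).exists_bound_of_continuousOn
      (h.fr.an.continuousOn.mono (Metric.closedBall_subset_ball hr))
    obtain ⟨B, hB⟩ := cf_le (w := w) (b := b) h.un j R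
    refine ⟨B, _, fun ζ hζ => hB _ ζ (hR _ ?_) fun i hi => hη.le.trans ?_⟩
    · rw [← ex_upd ζ (η * I), mem_closedBall_zero_iff]
      exact (norm_upd _).trans (h2 _ hζ)
    · simpa [Finset.ne_of_mem_erase hi] using hζ.1 i (Finset.mem_of_mem_erase hi)
  · have h2 : cf0 K Q w a N φ b k ζ = ∑ j ∈ Finset.range (Fintype.card n + 1),
        if j = k then cf0 K Q w a N φ b k ζ else 0 := by
      rw [Finset.sum_ite_eq']
      split_ifs with e
      · rfl
      · exact cf_big h.un hb (by simp at e; omega) _ _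
    rw [h2]
    refine (tendsto_finsetSum (f := fun j x => (x b).im ^ j * cf K Q w N b j (φ (ex K a x)) x /
      (x b).im ^ k) _ fun j _ => ?_).congr' ?_
    · rcases lt_trichotomy j k with e | rfl | e
      · have := ((tendsto_pow_div_pow_atTop_zero e).comp t_im).mul
          (t_cf (w := w) h.un hb h.fr.an hζ j)
        rw [zero_mul] at this
        rw [if_neg e.ne]
        exact this.congr fun x => by simp only [Function.comp_apply]; ring
      · rw [if_pos rfl]
        refine (t_cf h.un hb h.fr.an hζ j).congr' ?_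
        filter_upwards [t_im.eventually_gt_atTop 0] with x hx
        rw [mul_div_cancel_left₀ _ (pow_ne_zero j hx.ne')]
      · rw [if_neg e.ne']
        refine (t_big h.un hb h.fr.an hζ (hk j e) (j - k)).congr' ?_
        filter_upwards [t_im.eventually_gt_atTop 0] with x hx
        rw [pow_sub₀ _ hx.ne' e.le]
        ring
    · filter_upwards [ev_dm hb hζ] with x hx
      rw [h1 x hx, Finset.sum_div]

end Vale.Agent.P281Z.Hm
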