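import Vale.Agent.P281Z.Hm.Sk

/-!
# P281Z: local sections of the covering and lifts
-/

open scoped Topology Manifold ContDiff
open Filter Set

noncomputable section

namespace Vale.Agent.P281Z.Hm

namespace Br

variable {p : ℕ} {Y : Type} [TopologicalSpace Y] [ChartedSpace (Fin p → ℂ) Y]
  {U : Set Y} (C : Cv Y U)

theorem trans [IsManifold 𝓘(ℂ, Fin p → ℂ) ω Y] (y y' : Y) {z : Fin p → ℂ}
    (h : z ∈ (chartAt (Fin p → ℂ) y).target)
    (h' : (chartAt (Fin p → ℂ) y).symm z ∈ (chartAt (Fin p → ℂ) y').source) :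
    AnalyticAt ℂ (fun s => chartAt (Fin p → ℂ) y' ((chartAt (Fin p → ℂ) y).symm s)) z := by
  have k := (contDiffGroupoid ω 𝓘(ℂ, Fin p → ℂ)).compatible (chart_mem_atlas (Fin p → ℂ) y)
    (chart_mem_atlas (Fin p → ℂ) y')
  rw [contDiffGroupoid, mem_groupoid_of_pregroupoid] at k
  have k1 : ContDiffOn ℂ ω (fun s => chartAt (Fin p → ℂ) y' ((chartAt (Fin p → ℂ) y).symm s))
      ((chartAt (Fin p → ℂ) y).symm ≫ₕ chartAt (Fin p → ℂ) y').source := by
    simpa [contDiffPregroupoid, Function.comp_def] using k.1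
  exact (k1.contDiffAt ((OpenPartialHomeomorph.open_source _).mem_nhds ⟨h, h'⟩)).analyticAt

theorem change [IsManifold 𝓘(ℂ, Fin p → ℂ) ω Y] {E : Type} [NormedAddCommGroup E] [NormedSpace ℂ E]
    {f : E → Y} {t : E} {y y' : Y} (hf : ContinuousAt f t)
    (h : f t ∈ (chartAt (Fin p → ℂ) y).source) (h' : f t ∈ (chartAt (Fin p → ℂ) y').source)
    (ha : AnalyticAt ℂ (fun s => chartAt (Fin p → ℂ) y (f s)) t) :
    AnalyticAt ℂ (fun s => chartAt (Fin p → ℂ) y' (f s)) t := by
  refine ((trans y y' ((chartAt _ y).map_source h) (by rwa [(chartAt _ y).left_inv h])).comp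
    (f := fun s => chartAt (Fin p → ℂ) y (f s)) ha).congr ?_
  filter_upwards [hf.eventually_mem ((chartAt _ y).open_source.mem_nhds h)] with s hs
  exact congrArg _ ((chartAt _ y).left_inv hs)

theorem loc : IsLocalHomeomorph C.π := fun x => C.cov.isLocalHomeomorphOn x (C.mem x)

theorem sec (y : Y) (x : C.X) (hx : C.π x ∈ (chartAt (Fin p → ℂ) y).source) :
    ∃ σ : (Fin p → ℂ) → C.X, C.Br y σ (chartAt (Fin p → ℂ) y (C.π x)) ∧
      σ (chartAt (Fin p → ℂ) y (C.π x)) = x ∧
      ∀ᶠ x' in 𝓝 x, σ (chartAt (Fin p → ℂ) y (C.π x')) = x' := by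
  obtain ⟨e, h1, h2⟩ := loc C x
  set c := chartAt (Fin p → ℂ) y
  have h3 : ∀ᶠ x' in 𝓝 x, e.symm (c.symm (c (C.π x'))) = x' := by
    filter_upwards [e.open_source.mem_nhds h1,
      (loc C).continuous.continuousAt.eventually_mem (c.open_source.mem_nhds hx)] with x' a b
    rw [c.left_inv b, h2, e.left_inv a]
  refine ⟨fun s => e.symm (c.symm s), ?_, h3.self_of_nhds, h3⟩
  filter_upwards [c.open_target.mem_nhds (c.map_source hx),
    (c.continuousAt_symm (c.map_source hx)).eventually_mem (e.open_target.mem_nhds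
      (by rw [c.left_inv hx, h2]; exact e.map_source h1))] with s a b
  exact ⟨(e.continuousAt_symm b).comp (c.continuousAt_symm a), a, by rw [h2, e.right_inv b]⟩

end Br

open Br in
theorem stBr : StBr := by
  intro p Y _ _ _ U C _
  have hc := (loc C).continuous
  have hz := fun x : C.X => ((chartAt (Fin p → ℂ) (C.π x)).continuousAt
    (mem_chart_source _ _)).comp hc.continuousAt
  refine ⟨hc, sec C, fun y σ z h => ⟨h.mono fun _ h => h.1, ?_⟩,
    fun E _ _ f t y σ h1 h2 h3 h4 => ?_, fun g x h => ?_, fun F u h => ?_, fun F _ _ u h x hx => ?_⟩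
  · refine (trans y _ h.self_of_nhds.2.1 (by
      rw [← h.self_of_nhds.2.2]; exact mem_chart_source _ (C.π (σ z)))).congr ?_
    filter_upwards [h] with s hs
    rw [hs.2.2]
  · have k1 := hc.continuousAt.comp h1.1.self_of_nhds
    have k2 := k1.eventually_mem ((chartAt (Fin p → ℂ) y).open_source.mem_nhds h2)
    have k3 := change k1 (mem_chart_source _ _) h2 h1.2
    obtain ⟨e, k4, k5⟩ := loc C (f t)
    refine ⟨k3, ?_, ?_⟩
    · filter_upwards [h1.1.eventually_nhds, k2, k3.eventually_analyticAt] with s a b c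
      exact ⟨a, change (hc.continuousAt.comp a.self_of_nhds) b (mem_chart_source _ _) c⟩
    · filter_upwards [k2, k3.continuousAt.eventually h3,
        h1.1.self_of_nhds.eventually_mem (e.open_source.mem_nhds k4),
        (h3.self_of_nhds.1.tendsto.comp k3.continuousAt).eventually_mem
          (e.open_source.mem_nhds (h4.symm ▸ k4 :))] with s a b c d
      refine e.injOn c d ?_
      rw [← k5]
      exact (b.2.2.trans ((chartAt _ y).left_inv a)).symm
  · exact fun x' => congrArg Subtype.val (congrFun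
      (C.cov.isCoveringMap_restrictPreimage.eq_of_comp_eq
        (g₁ := fun x => ⟨g • x, C.mem _⟩) (g₂ := fun x => ⟨x, C.mem _⟩)
        ((C.csm g).subtype_mk _) (continuous_id.subtype_mk _)
        (funext fun x => Subtype.ext (C.inv g x)) x (Subtype.ext h)) x')
  · refine IsLocallyConstant.apply_eq_of_preconnectedSpace
      ((IsLocallyConstant.iff_eventually_eq u).2 fun x => ?_)
    obtain ⟨σ, k1, k2, k3⟩ := sec (p := p) C _ x (mem_chart_source _ _)
    filter_upwards [k3, (hz x).eventually (h _ σ _ k1)] with x' a b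
    exact (congrArg u a).symm.trans (b.trans (congrArg u k2))
  · refine fun x' => Eventually.self_of_nhds (p := fun x => u x = 0) ((IsClopen.eq_univ
      ⟨isClosed_of_closure_subset fun x hx => ?_, isOpen_setOfPred_eventually_nhds⟩
      ⟨x, hx⟩).ge trivial)
    obtain ⟨σ, k1, -, k3⟩ := sec (p := p) C _ x (mem_chart_source _ _)
    obtain ⟨r, hr, k4⟩ := Metric.eventually_nhds_iff_ball.1 (k1.eventually_nhds.mono (h _ σ))
    have k5 := (hz x).eventually_mem (Metric.ball_mem_nhds _ hr)
    obtain ⟨x', a, b, c, d⟩ := ((mem_closure_iff_frequently.1 hx).and_eventually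
      (k3.and (k5.and ((hz x).eventually k1)))).exists
    have k6 := AnalyticOnNhd.eqOn_zero_of_preconnected_of_eventuallyEq_zero k4
      (convex_ball _ _).isPreconnected c
      (d.1.eventually (p := fun x => u x = 0) (b.symm ▸ a :))
    filter_upwards [k3, k5] with w l1 l2
    rw [← l1]
    exact k6 l2

end Vale.Agent.P281Z.Hm
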