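import Vale.Agent.P281Z.Hm.Desc
import Vale.Agent.P281Z.Hm.Snc
import Vale.Agent.P281Z.Hm.Br

/-!
# P281Z, lifts of punctured polydiscs (LIFT)
-/

open scoped Topology Manifold ContDiff
open Filter Set Metric Complex

noncomputable section

namespace Vale.Agent.P281Z.Hm

open TorH DescH

namespace LiftH

variable {p : ℕ} {K : Finset (Fin p)}

theorem dm_convex (K : Finset (Fin p)) : Convex ℝ (Dm K) := by
  have e : Dm K = Set.pi univ fun i => if i ∈ K then {t : ℂ | 0 < t.im} else ball 0 1 := by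
    ext ζ
    refine ⟨fun h i _ => ?_, fun h => ⟨fun i hi => ?_, fun i hi => ?_⟩⟩
    · beta_reduce
      split_ifs with hi
      exacts [h.1 i hi, mem_ball_zero_iff.2 (h.2 i hi)]
    · simpa [hi] using h i (mem_univ i)
    · simpa [hi] using h i (mem_univ i)
  rw [e]
  refine convex_pi fun i _ => ?_
  split_ifs
  exacts [convex_halfSpace_im_gt 0, convex_ball _ _]

/-- a base point -/
def bp (K : Finset (Fin p)) : Fin p → ℂ := fun i => if i ∈ K then I else 0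

theorem bp_mem (K : Finset (Fin p)) : bp K ∈ Dm K :=
  ⟨fun i hi => by simp [bp, hi], fun i hi => by simp [bp, hi]⟩

theorem add_mem {ζ : Fin p → ℂ} (hζ : ζ ∈ Dm K) {i : Fin p} (hi : i ∈ K) :
    ζ + Pi.single i 1 ∈ Dm K := by
  have h := upd_add ζ i (ζ i) 1
  rw [Function.update_eq_self] at h
  exact h ▸ upd_mem hζ hi (by simpa using hζ.1 i hi)

theorem ex_add (ζ : Fin p → ℂ) {i : Fin p} (hi : i ∈ K) :
    ex K 1 (ζ + Pi.single i 1) = ex K 1 ζ := by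
  funext j
  rcases eq_or_ne j i with rfl | h
  · simp [ex, hi, mul_add, exp_add]
  · simp [ex, h]

theorem ex_ne {a : ℕ} (ζ : Fin p → ℂ) {i : Fin p} (hi : i ∈ K) : ex K a ζ i ≠ 0 := by
  rw [ex, if_pos hi]
  exact exp_ne_zero _

theorem ex_an (a : ℕ) (ζ : Fin p → ℂ) : AnalyticAt ℂ (ex K a) ζ :=
  P268.analyticAt_of_differentiableOn isOpen_univ
    (fun x _ => (differentiableAt_pi.2 (ex_diff x)).differentiableWithinAt) (mem_univ ζ)

theorem lb_self (a : ℕ) (ζ : Fin p → ℂ) : lb K a ζ (ex K a ζ) (ex K a ζ) = ζ := by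
  funext i
  unfold lb
  split_ifs with hi
  · simp [div_self (ex_ne ζ hi)]
  · rw [ex, if_neg hi]

theorem pt_mem {ρ : ℝ} (hρ : 0 < ρ) (c : Fin p → ℂ) {w : Fin p → ℂ} (hw : w ∈ ball 0 1) :
    c + (ρ : ℂ) • w ∈ ball c ρ := by
  rw [mem_ball_iff_norm, add_sub_cancel_left, norm_smul, norm_real, Real.norm_of_nonneg hρ.le]
  exact mul_lt_of_lt_one_right hρ (mem_ball_zero_iff.1 hw)

theorem pt_inv {ρ : ℝ} (hρ : 0 < ρ) (c z : Fin p → ℂ) :
    c + (ρ : ℂ) • ((ρ : ℂ)⁻¹ • (z - c)) = z := by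
  rw [smul_inv_smul₀ (ofReal_ne_zero.2 hρ.ne'), add_sub_cancel]

variable {Y : Type} [TopologicalSpace Y] [ChartedSpace (Fin p → ℂ) Y]

/-- uniqueness of lifts -/
theorem uniq {U : Set Y} (C : Cv Y U) {A : Type} [TopologicalSpace A] {s : Set A}
    (hs : IsPreconnected s) {f f' : A → C.X} (hf : ContinuousOn f s) (hf' : ContinuousOn f' s)
    (e : ∀ a ∈ s, C.π (f a) = C.π (f' a)) {a : A} (ha : a ∈ s) (e₀ : f a = f' a) : EqOn f f' s :=
  fun _ hb => congrArg Subtype.val (C.cov.isCoveringMap_restrictPreimage.eqOn_of_comp_eqOn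
    (g₁ := fun a => ⟨f a, C.mem _⟩) (g₂ := fun a => ⟨f' a, C.mem _⟩) hs
    (Topology.IsInducing.subtypeVal.continuousOn_iff.2 hf)
    (Topology.IsInducing.subtypeVal.continuousOn_iff.2 hf') (fun a ha => Subtype.ext (e a ha)) ha
    (Subtype.ext e₀) hb)

variable {S : Snc p Y} {C : Cv Y S.U}

/-- existence of the lifts -/
theorem exists_bdl (C : Cv Y S.U) (y : Y) {O : Set Y} (hO : O ∈ 𝓝 y) : ∃ ρ f g, BdL S C y ρ f g ∧
    ∀ z ∈ ball (chartAt (Fin p → ℂ) y y) ρ, (chartAt (Fin p → ℂ) y).symm z ∈ O := by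
  classical
  set e := chartAt (Fin p → ℂ) y with he
  have hy : y ∈ e.source := mem_chart_source _ y
  obtain ⟨ρ, hρ, h⟩ := Metric.eventually_nhds_iff_ball.1
    (((e.tendsto_symm hy).eventually ((S.ev_cut y).and hO)).and
      (e.open_target.mem_nhds (e.map_source hy)))
  have cut : ∀ z ∈ ball (e y) ρ, ∀ l,
      e.symm z ∈ S.G l ↔ y ∈ S.G l ∧ ∃ i, S.lab y l = some i ∧ z i = 0 := fun z hz l => by
    have := (h z hz).1.1 l
    rwa [← he, e.right_inv (h z hz).2] at this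
  have hm : ∀ ζ ∈ Dm (S.K y), e y + (ρ : ℂ) • ex (S.K y) 1 ζ ∈ ball (e y) ρ := fun ζ hζ =>
    pt_mem hρ _ ((mem_dm one_pos).1 hζ)
  have hc : Continuous fun ζ : Fin p → ℂ => e y + (ρ : ℂ) • ex (S.K y) 1 ζ :=
    continuous_const.add ((continuous_iff_continuousAt.2 fun ζ =>
      (ex_an 1 ζ).continuousAt).const_smul (ρ : ℂ))
  let m : C(Dm (S.K y), Y) := ⟨fun ζ => e.symm (e y + (ρ : ℂ) • ex (S.K y) 1 ζ),
    e.continuousOn_symm.comp_continuous (hc.comp continuous_subtype_val) fun ζ =>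
      (h _ (hm ζ ζ.2)).2⟩
  have hU : ∀ ζ, m ζ ∈ S.U := fun ζ l hl => by
    obtain ⟨a, i, b, c⟩ := (cut _ (hm ζ ζ.2) l).1 hl
    have hi := S.mem_K.2 ⟨l, b, a⟩
    rw [Pi.add_apply, he, S.zero_K hi, zero_add, Pi.smul_apply, smul_eq_mul] at c
    exact mul_ne_zero (ofReal_ne_zero.2 hρ.ne') (ex_ne _ hi) c
  have := (dm_convex (S.K y)).contractibleSpace ⟨_, bp_mem _⟩
  have := (dm_open (S.K y)).locallyPathConnectedSpace
  obtain ⟨x₀, h₀⟩ := C.surj _ (hU ⟨_, bp_mem _⟩)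
  obtain ⟨F, ⟨-, hF⟩, -⟩ := C.cov.existsUnique_continuousMap_lifts m h₀ hU
  let f : (Fin p → ℂ) → C.X := fun ζ => if h : ζ ∈ Dm (S.K y) then F ⟨ζ, h⟩ else x₀
  have f1 : ∀ ζ (hζ : ζ ∈ Dm (S.K y)), f ζ = F ⟨ζ, hζ⟩ := fun ζ hζ => dif_pos hζ
  have fc : ContinuousOn f (Dm (S.K y)) :=
    continuousOn_iff_continuous_domRestrict.2 (F.continuous.congr fun ζ => (f1 ζ ζ.2).symm)
  have fe : ∀ ζ ∈ Dm (S.K y), C.π (f ζ) = e.symm (e y + (ρ : ℂ) • ex (S.K y) 1 ζ) := fun ζ hζ =>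
    (congrArg C.π (f1 ζ hζ)).trans (congrFun hF ⟨ζ, hζ⟩)
  have fa : ∀ i ∈ S.K y, ∀ ζ ∈ Dm (S.K y), C.π (f ζ) = C.π (f (ζ + Pi.single i 1)) :=
    fun i hi ζ hζ => by rw [fe _ hζ, fe _ (add_mem hζ hi), ex_add ζ hi]
  choose! g hg using fun i hi => C.tr _ _ (fa i hi _ (bp_mem _))
  refine ⟨ρ, f, g, ⟨hρ, fun z hz => (h z hz).2, cut, fc, fe, fun i hi ζ hζ => ?_⟩,
    fun z hz => (h z hz).1.2⟩
  exact uniq C (dm_convex _).isPreconnected (f := fun ζ => f (ζ + Pi.single i 1))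
    (f' := fun ζ => g i • f ζ) (fc.comp (by fun_prop) fun ζ hζ => add_mem hζ hi)
    ((C.csm (g i)).comp_continuousOn fc) (fun ζ hζ => by rw [C.inv, fa i hi ζ hζ]) (bp_mem _)
    (hg i hi) hζ

variable {y : Y} {ρ : ℝ} {f : (Fin p → ℂ) → C.X} {g : Fin p → C.Γ}

theorem tgt (h : BdL S C y ρ f g) {ζ : Fin p → ℂ} (hζ : ζ ∈ Dm (S.K y)) :
    chartAt (Fin p → ℂ) y y + (ρ : ℂ) • ex (S.K y) 1 ζ ∈ (chartAt (Fin p → ℂ) y).target :=
  h.sub (pt_mem h.pos _ ((mem_dm one_pos).1 hζ))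

theorem src (h : BdL S C y ρ f g) {ζ : Fin p → ℂ} (hζ : ζ ∈ Dm (S.K y)) :
    C.π (f ζ) ∈ (chartAt (Fin p → ℂ) y).source :=
  h.eq ζ hζ ▸ (chartAt (Fin p → ℂ) y).map_target (tgt h hζ)

theorem crd (h : BdL S C y ρ f g) {ζ : Fin p → ℂ} (hζ : ζ ∈ Dm (S.K y)) :
    chartAt (Fin p → ℂ) y (C.π (f ζ)) = chartAt (Fin p → ℂ) y y + (ρ : ℂ) • ex (S.K y) 1 ζ := by
  rw [h.eq ζ hζ, (chartAt (Fin p → ℂ) y).right_inv (tgt h hζ)]

/-- the lift covers a punctured neighbourhood -/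
theorem cover (h : BdL S C y ρ f g) {η : ℝ} (h1 : η < 1) :
    ∀ᶠ y' in 𝓝 y, y' ∈ S.U → ∃ ζ ∈ St (S.K y) 1 η, C.π (f ζ) = y' := by
  set e := chartAt (Fin p → ℂ) y with he
  have hy : y ∈ e.source := mem_chart_source _ y
  have hw : Tendsto (fun y' => ‖(ρ : ℂ)⁻¹ • (e y' - e y)‖) (𝓝 y) (𝓝 0) := by
    simpa using (((e.continuousAt hy).tendsto.sub_const (e y)).const_smul (ρ : ℂ)⁻¹).norm
  filter_upwards [S.ev_U y, e.open_source.mem_nhds hy, hw.eventually (gt_mem_nhds one_pos),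
    hw.eventually (gt_mem_nhds (sub_pos.2 h1)),
    hw.eventually (gt_mem_nhds (Real.exp_pos (-(2 * Real.pi / (1 : ℕ) * η))))] with y' a b c d k hU
  have h0 : ∀ i ∈ S.K y, ((ρ : ℂ)⁻¹ • (e y' - e y)) i ≠ 0 := fun i hi => by
    rw [Pi.smul_apply, Pi.sub_apply, he, S.zero_K hi, sub_zero, smul_eq_mul]
    exact mul_ne_zero (inv_ne_zero (ofReal_ne_zero.2 h.pos.ne')) (a.1 hU i hi)
  have e1 := ex_lb one_pos ex_zero h0
  refine ⟨_, by simpa using lb_st one_pos h0 k.le d.le, ?_⟩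
  rw [h.eq _ ((mem_dm one_pos).2 (e1.symm ▸ mem_ball_zero_iff.2 c)), e1, pt_inv h.pos, e.left_inv b]

end LiftH

open LiftH in
/-- **LIFT** -/
theorem stLift : StLift := by
  intro p Y _ _ _ S C
  obtain ⟨hπ, hσ, hL, -, hfix, -⟩ := stBr p Y S.U C S.isOpen_U
  refine ⟨S.isOpen_U, fun y O hO => exists_bdl C y hO, fun y ρ f g h =>
    ⟨fun ζ hζ => ?_, fun i hi j hj x => ?_, fun η _ h1 => cover h h1⟩⟩
  · obtain ⟨σ, h1, h2, h3⟩ := hσ y (f ζ) (src h hζ)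
    have hD := (dm_open (S.K y)).mem_nhds hζ
    have fc : ∀ᶠ x in 𝓝 ζ, ContinuousAt f x :=
      (eventually_mem_nhds_iff.2 hD).mono fun x hx => h.cont.continuousAt hx
    have hs : ∀ᶠ x in 𝓝 ζ, x ∈ Dm (S.K y) ∧
        σ (chartAt (Fin p → ℂ) y y + (ρ : ℂ) • ex (S.K y) 1 x) = f x := by
      filter_upwards [hD, fc.self_of_nhds.eventually h3] with x a b
      exact ⟨a, crd h a ▸ b⟩
    refine ⟨⟨fc, ?_⟩, ?_⟩
    · have h4 := (hL y σ _ h1).2
      rw [h2, crd h hζ] at h4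
      exact (h4.comp (f := fun x => chartAt (Fin p → ℂ) y y + (ρ : ℂ) • ex (S.K y) 1 x)
        (analyticAt_const.add ((ex_an 1 ζ).const_smul (c := (ρ : ℂ))))).congr
        (hs.mono fun x hx => by simp only [Function.comp, hx.2])
    · have hw : Tendsto (fun x => (ρ : ℂ)⁻¹ • (chartAt (Fin p → ℂ) y (C.π x) -
          chartAt (Fin p → ℂ) y y)) (𝓝 (f ζ)) (𝓝 (ex (S.K y) 1 ζ)) := by
        have := (((((chartAt (Fin p → ℂ) y).continuousAt (src h hζ)).comp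
          hπ.continuousAt).tendsto.sub_const (chartAt (Fin p → ℂ) y y)).const_smul (ρ : ℂ)⁻¹)
        rwa [Function.comp_apply, crd h hζ, add_sub_cancel_left,
          inv_smul_smul₀ (ofReal_ne_zero.2 h.pos.ne')] at this
      have hl := (lb_diff (a := 1) (c := ζ) fun i hi => ex_ne (K := S.K y) (a := 1) ζ hi).continuousAt
      rw [ContinuousAt, lb_self] at hl
      have h0 : ∀ᶠ w in 𝓝 (ex (S.K y) 1 ζ), ∀ i ∈ S.K y, w i ≠ 0 :=
        (eventually_all_finset _).2 fun i hi =>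
          (continuous_apply i).continuousAt.eventually_ne (ex_ne ζ hi)
      filter_upwards [h3, (hl.comp hw).eventually hs, hw.eventually h0] with x a b c
      refine ⟨_, b.1, ?_⟩
      rw [← b.2, Function.comp_apply, ex_lb one_pos (fun _ _ => rfl) c, pt_inv h.pos, a]
  · have e1 := h.mono j hj _ (add_mem (bp_mem _) hi)
    have e2 := h.mono i hi _ (add_mem (bp_mem _) hj)
    rw [h.mono i hi _ (bp_mem _), add_right_comm, e2, h.mono j hj _ (bp_mem _), ← mul_smul,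
      ← mul_smul] at e1
    have e3 := hfix ((g j * g i)⁻¹ * (g i * g j)) _ (by rw [mul_smul, e1, inv_smul_smul]) x
    rwa [mul_smul, inv_smul_eq_iff] at e3

end Vale.Agent.P281Z.Hm
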