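import Vale.Agent.P281Z.Hm.Br
import Vale.Agent.P281Z.Hm.Snc
import Vale.Agent.P277Z.Hir.IA

/-!
# P281Z, local equations in two charts differ by a unit (UNIT)
-/

open scoped Topology Manifold ContDiff
open Filter Set

noncomputable section

namespace Vale.Agent.P281Z.Hm

open Vale.Agent.P277Z.Hir in
/-- division of a coordinate function by a coordinate function of another chart -/
theorem UnitH.div {p : ℕ} {Y : Type} [TopologicalSpace Y] [ChartedSpace (Fin p → ℂ) Y]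
    [IsManifold 𝓘(ℂ, Fin p → ℂ) ω Y] {y y' q : Y} {i i' : Fin p}
    (h : q ∈ (chartAt (Fin p → ℂ) y).source) (h' : q ∈ (chartAt (Fin p → ℂ) y').source)
    (h0 : chartAt (Fin p → ℂ) y' q i' = 0)
    (hz : ∀ᶠ x in 𝓝 q, chartAt (Fin p → ℂ) y' x i' = 0 → chartAt (Fin p → ℂ) y x i = 0) :
    ∃ u : Y → ℂ, ContinuousAt u q ∧
      ∀ᶠ x in 𝓝 q, chartAt (Fin p → ℂ) y x i = chartAt (Fin p → ℂ) y' x i' * u x := by
  set e := chartAt (Fin p → ℂ) y
  set e' := chartAt (Fin p → ℂ) y'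
  have hF : AnalyticAt ℂ (fun s => e (e'.symm s) i) (e' q) :=
    analyticAt_pi_iff.1 (Br.trans y' y (e'.map_source h') (by rwa [e'.left_inv h'])) i
  obtain ⟨g, hg, hg'⟩ := IH.hadamard (l := ContinuousLinearMap.proj (R := ℂ) (φ := fun _ => ℂ) i')
    (Pi.single i' 1) h0 hF
  have h1 : ∀ᶠ s in 𝓝 (e' q), s i' = 0 → e (e'.symm s) i = 0 := by
    filter_upwards [(e'.tendsto_symm h').eventually hz, e'.open_target.mem_nhds (e'.map_source h')]
      with s a b
    rwa [e'.right_inv b] at a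
  refine ⟨fun x => g (e' x), hg.continuousAt.comp (e'.continuousAt h'), ?_⟩
  filter_upwards [(e'.continuousAt h').eventually ((IH.tendsto_pj
    (l := ContinuousLinearMap.proj (R := ℂ) (φ := fun _ => ℂ) i') (Pi.single i' 1) h0).eventually h1),
    e'.open_source.mem_nhds h'] with x a b
  have h2 := hg' (e' x)
  rwa [a (by simp [IH.pj]), sub_zero, e'.left_inv b] at h2

/-- **UNIT** -/
theorem stUnit : StUnit := by
  intro p Y _ _ _ S y y' l hy h
  by_cases h' : y' ∈ S.G l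
  · obtain ⟨h1, i, h2, h3⟩ := h.self_of_nhds.1 h'
    obtain ⟨i', h4, h5⟩ := S.mem_G.1 h'
    have h6 : ∀ᶠ x in 𝓝 y', (x ∈ S.G l ↔ chartAt (Fin p → ℂ) y x i = 0) ∧
        (x ∈ S.G l ↔ chartAt (Fin p → ℂ) y' x i' = 0) := by
      filter_upwards [h, S.snc y' l] with x a b
      simpa only [h1, h2, h4, true_and, Option.some.injEq, exists_eq_left'] using And.intro a b
    obtain ⟨u, hu, e⟩ := UnitH.div hy (mem_chart_source _ y') h5
      (h6.mono fun x a b => a.1.1 (a.2.2 b))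
    obtain ⟨u', hu', e'⟩ := UnitH.div (mem_chart_source _ y') hy h3
      (h6.mono fun x a b => a.2.1 (a.1.2 b))
    rcases (𝓝[(S.G l)ᶜ] y').eq_or_neBot with hb | hb
    · exact ⟨1, one_pos, fun _ => hb ▸ tendsto_bot, fun c => absurd h' c⟩
    have h7 : ∀ᶠ x in 𝓝[(S.G l)ᶜ] y', u x * u' x = 1 ∧
        ‖u x‖ = S.ab y l (chartAt (Fin p → ℂ) y x) / S.ab y' l (chartAt (Fin p → ℂ) y' x) := by
      filter_upwards [self_mem_nhdsWithin, mem_nhdsWithin_of_mem_nhds ((h6.and e).and e')]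
        with x a ⟨⟨b, c⟩, d⟩
      have k : chartAt (Fin p → ℂ) y' x i' ≠ 0 := fun k => a (b.2.2 k)
      refine ⟨mul_left_cancel₀ k (by rw [← mul_assoc, ← c, ← d, mul_one]), ?_⟩
      rw [S.ab_of_lab h1 h2, S.ab_of_lab h' h4, c, norm_mul,
        mul_div_cancel_left₀ _ (norm_ne_zero_iff.2 k)]
    have h8 : u y' * u' y' = 1 := tendsto_nhds_unique_of_eventuallyEq
      ((hu.mul hu').tendsto.mono_left nhdsWithin_le_nhds) tendsto_const_nhds (h7.mono fun _ a => a.1)
    exact ⟨‖u y'‖, norm_pos_iff.2 (left_ne_zero_of_mul_eq_one h8), fun _ =>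
      (hu.norm.tendsto.mono_left nhdsWithin_le_nhds).congr' (h7.mono fun _ a => a.2),
      fun c => absurd h' c⟩
  · by_cases h1 : y ∈ S.G l
    · obtain ⟨i, -, h2⟩ := S.exists_lab h1
      refine ⟨‖chartAt (Fin p → ℂ) y y' i‖, norm_pos_iff.2 fun k =>
        h' (h.self_of_nhds.2 ⟨h1, i, h2, k⟩), fun c => absurd c h', fun _ => ?_⟩
      simp only [S.ab_of_lab h1 h2]
      exact (continuousAt_pi.1 ((chartAt (Fin p → ℂ) y).continuousAt hy) i).norm
    · refine ⟨1, one_pos, fun c => absurd c h', fun _ => ?_⟩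
      simp only [S.ab_of_not h1]
      exact tendsto_const_nhds

end Vale.Agent.P281Z.Hm
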