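import Vale.Agent.P281Z.Hm.Id
import Vale.Agent.P281Z.Hm.Lift
import Vale.Agent.P281Z.Hm.Unit
import Vale.Agent.P281Z.Hm.Conn

/-!
# P281Z, small global lemmas
-/

set_option linter.unusedSectionVars false

open scoped Matrix.Norms.Operator Topology Manifold ContDiff ComplexOrder
open Filter Set Matrix

noncomputable section

namespace Vale.Agent.P281Z.Hm

namespace Gl

/-- change of the local equation -/
theorem tr {X : Type} {F : Filter X} {u a a' : X → ℝ} {κ c s : ℝ} {k : ℕ}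
    (h : Tendsto (fun x => u x / (a x ^ s * (-Real.log (a x)) ^ k)) F (𝓝 κ))
    (h1 : Tendsto (fun x => a x / a' x) F (𝓝 c)) (hc : 0 < c) (h2 : Tendsto a' F (𝓝[>] 0)) :
    Tendsto (fun x => u x / (a' x ^ s * (-Real.log (a' x)) ^ k)) F (𝓝 (κ * c ^ s)) := by
  have h3 := Real.tendsto_log_nhdsGT_zero.comp h2
  have h4 : Tendsto (fun x => 1 + Real.log (a x / a' x) / Real.log (a' x)) F (𝓝 (1 + 0)) :=
    tendsto_const_nhds.add ((h1.log hc.ne').div_atBot h3)
  have h5 := (h.mul (h1.rpow_const (p := s) (Or.inl hc.ne'))).mul (h4.pow k)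
  rw [add_zero, one_pow, mul_one] at h5
  refine h5.congr' ?_
  filter_upwards [h1.eventually (lt_mem_nhds hc), h2.eventually self_mem_nhdsWithin,
    h3.eventually (eventually_lt_atBot 0), h4.eventually (lt_mem_nhds (by simp : (0 : ℝ) < 1 + 0))]
    with x b1 b2 b3 b4
  have b5 : 0 < a x := (div_pos_iff_of_pos_right b2).1 b1
  have b6 : Real.log (a' x) ≠ 0 := ne_of_lt b3
  have b7 : 1 + Real.log (a x / a' x) / Real.log (a' x) = Real.log (a x) / Real.log (a' x) := by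
    rw [Real.log_div b5.ne' (ne_of_gt b2)]
    field_simp
    ring
  rw [b7] at b4 ⊢
  have b8 : Real.log (a x) ≠ 0 := fun e => by simp [e] at b4
  have b9 := (Real.rpow_pos_of_pos b5 s).ne'
  have b10 := (Real.rpow_pos_of_pos b2 s).ne'
  rw [Real.div_rpow b5.le (le_of_lt b2), ← neg_div_neg_eq (Real.log (a x)), div_pow]
  have b11 := pow_ne_zero k (neg_ne_zero.2 b8)
  have b12 := pow_ne_zero k (neg_ne_zero.2 b6)
  field_simp

/-- the power of the logarithm is determined by the limit -/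
theorem uniq {X : Type} {F : Filter X} [NeBot F] {u u' a g : X → ℝ} {κ κ' γ s : ℝ} {k k' : ℕ}
    (h : Tendsto (fun x => u x / (a x ^ s * (-Real.log (a x)) ^ k)) F (𝓝 κ))
    (h' : Tendsto (fun x => u' x / (a x ^ s * (-Real.log (a x)) ^ k')) F (𝓝 κ'))
    (hκ : 0 < κ) (hκ' : 0 < κ') (hg : Tendsto g F (𝓝 γ)) (hγ : 0 < γ)
    (e : ∀ᶠ x in F, u' x = g x * u x) (h2 : Tendsto a F (𝓝[>] 0)) : k = k' := by
  have h3 := tendsto_neg_atBot_atTop.comp (Real.tendsto_log_nhdsGT_zero.comp h2)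
  have h4 : Tendsto (fun x => (-Real.log (a x)) ^ ((k : ℤ) - k')) F (𝓝 (κ' / (γ * κ))) := by
    refine (h'.div (hg.mul h) (mul_pos hγ hκ).ne').congr' ?_
    filter_upwards [e, h2.eventually self_mem_nhdsWithin, h3.eventually (eventually_gt_atTop 0),
      (hg.mul h).eventually (lt_mem_nhds (mul_pos hγ hκ))] with x b1 b2 b3 b4
    have b5 := (Real.rpow_pos_of_pos b2 s).ne'
    have b6 : -Real.log (a x) ≠ 0 := ne_of_gt b3
    have b7 : g x * u x ≠ 0 := fun c => by rw [← mul_div_assoc, c] at b4; simp at b4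
    rw [Pi.div_apply, b1, zpow_sub₀ b6, zpow_natCast, zpow_natCast, ← mul_div_assoc]
    have b8 := pow_ne_zero k b6
    have b9 := pow_ne_zero k' b6
    generalize g x * u x = r at b7 ⊢
    field_simp
  rcases lt_trichotomy k k' with c | c | c
  · have := (tendsto_zpow_atTop_zero (𝕜 := ℝ) (n := (k : ℤ) - k') (by omega)).comp h3
    exact absurd (tendsto_nhds_unique h4 this) (div_pos hκ' (mul_pos hγ hκ)).ne'
  · exact c
  · have := (tendsto_zpow_atTop_atTop (α := ℝ) (n := (k : ℤ) - k') (by omega)).comp h3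
    exact absurd h4 (not_tendsto_nhds_of_tendsto_atTop this _)

variable {p : ℕ} {Y : Type} [TopologicalSpace Y] [ChartedSpace (Fin p → ℂ) Y]

theorem cont_g {Lb : P285.H281.FD.Bd Y} (h : P285.H281.FD.IsLB p Lb) {i j : Lb.ι} {y : Y}
    (hi : y ∈ Lb.U i) (hj : y ∈ Lb.U j) : ContinuousAt (Lb.g i j) y := by
  have e := mem_chart_source (Fin p → ℂ) y
  refine ((h.holo i j _ y ⟨chart_mem_atlas _ y, e⟩ hi hj).continuousAt.comp
    ((chartAt (Fin p → ℂ) y).continuousAt e)).congr ?_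
  filter_upwards [chart_source_mem_nhds (Fin p → ℂ) y] with x hx
  exact congrArg _ ((chartAt (Fin p → ℂ) y).left_inv hx)

variable {S : Snc p Y}

theorem neBot_U [IsManifold 𝓘(ℂ, Fin p → ℂ) ω Y] (C : Cv Y S.U) (y : Y) : NeBot (𝓝[S.U] y) := by
  refine mem_closure_iff_nhdsWithin_neBot.1 (mem_closure_iff_nhds.2 fun O hO => ?_)
  obtain ⟨ρ, f, g, h, hO'⟩ := LiftH.exists_bdl C y hO
  refine ⟨C.π (f (LiftH.bp (S.K y))), ?_, C.mem _⟩
  rw [h.eq _ (LiftH.bp_mem _)]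
  exact hO' _ (LiftH.pt_mem h.pos _ ((DescH.mem_dm one_pos).1 (LiftH.bp_mem _)))

theorem ab_zero {y : Y} {l : Fin S.r} (h : y ∈ S.G l) :
    Tendsto (fun x => S.ab y l (chartAt (Fin p → ℂ) y x)) (𝓝[S.U] y) (𝓝[>] 0) := by
  obtain ⟨i, hi, e⟩ := S.exists_lab h
  simp only [S.ab_of_lab h e]
  refine tendsto_nhdsWithin_iff.2 ⟨?_, ?_⟩
  · have := (continuousAt_pi.1 ((chartAt (Fin p → ℂ) y).continuousAt (mem_chart_source _ y)) i).norm
    rw [ContinuousAt, S.zero_K hi, norm_zero] at this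
    exact this.mono_left nhdsWithin_le_nhds
  · filter_upwards [self_mem_nhdsWithin, mem_nhdsWithin_of_mem_nhds (S.ev_U y)] with x a b
    exact norm_pos_iff.2 (b.1 a i hi)

theorem chart_U {y y' : Y} (h : y' ∈ (chartAt (Fin p → ℂ) y).source) :
    Tendsto (chartAt (Fin p → ℂ) y) (𝓝[S.U] y')
      (𝓝[{x | (chartAt (Fin p → ℂ) y).symm x ∈ S.U}] (chartAt (Fin p → ℂ) y y')) := by
  refine tendsto_nhdsWithin_iff.2 ⟨((chartAt (Fin p → ℂ) y).continuousAt h).mono_left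
    nhdsWithin_le_nhds, ?_⟩
  filter_upwards [self_mem_nhdsWithin, mem_nhdsWithin_of_mem_nhds
    ((chartAt (Fin p → ℂ) y).open_source.mem_nhds h)] with x a b
  rwa [(chartAt (Fin p → ℂ) y).left_inv b]

end Gl

variable {p : ℕ} {Y : Type} [TopologicalSpace Y] [ChartedSpace (Fin p → ℂ) Y] {U : Set Y}
  {C : Cv Y U} {n : Type} [Fintype n] [DecidableEq n]

/-- the elements which preserve all the gradings -/
def GV.Hg (V : GV p C n) : Subgroup C.Γ where
  carrier := {g | ∀ x q, Commute (cz (V.ρ g)) (V.gr x q)}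
  mul_mem' ha hb x q := by rw [V.r_mul]; exact (ha x q).mul_left (hb x q)
  one_mem' x q := by rw [V.r_one]; exact Commute.one_left _
  inv_mem' {g} ha x q := by
    have := congrArg (fun A => cz (V.ρ g⁻¹) * A * cz (V.ρ g⁻¹)) (ha x q).eq
    simp only [← Matrix.mul_assoc, V.r_inv_mul, Matrix.one_mul] at this
    rw [Matrix.mul_assoc _ (cz (V.ρ g)), V.r_mul_inv, Matrix.mul_one] at this
    exact this.symm

theorem GV.hg_normal (V : GV p C n) : V.Hg.Normal := ⟨fun g hg k x q => by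
  have e : V.gr x q = cz (V.ρ k) * V.gr (k⁻¹ • x) q * cz (V.ρ k⁻¹) := by
    rw [← V.gr_smul, smul_inv_smul]
  rw [Commute, SemiconjBy, V.r_mul, V.r_mul, e]
  simp only [← Matrix.mul_assoc]
  rw [Matrix.mul_assoc _ (cz (V.ρ k⁻¹)) (cz (V.ρ k)), Matrix.mul_assoc _ (cz (V.ρ k⁻¹)) (cz (V.ρ k)),
    V.r_inv_mul, Matrix.mul_one, Matrix.mul_one, Matrix.mul_assoc _ (cz (V.ρ g)), (hg _ q).eq,
    ← Matrix.mul_assoc]⟩

theorem GV.hg_ker (V : GV p C n) (g : C.Γ) (h : ∀ x : C.X, g • x = x) : g ∈ V.Hg := fun x q => by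
  have := V.eqv g x q
  rw [h] at this
  exact this.symm

/-- the identity theorem for eigenvectors -/
theorem Ln.scal [IsManifold 𝓘(ℂ, Fin p → ℂ) ω Y] {V : GV p C n} {Lb : P285.H281.FD.Bd Y}
    (L : Ln V Lb) (hU : IsOpen U) {A : Mx n} {t : Lb.ι} {x₀ : C.X} (ht : C.π x₀ ∈ Lb.U t)
    (h : ∀ᶠ x in 𝓝 x₀, A *ᵥ L.ψ t x = 0) (i : Lb.ι) (x : C.X) (hi : C.π x ∈ Lb.U i) :
    A *ᵥ L.ψ i x = 0 := by
  obtain ⟨hc, -, hL, -, -, -, hid⟩ := stBr p Y U C hU
  choose j hj using L.lb.cover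
  have pd : (1 : Mx n).PosDef := PosDef.one
  have ne : ∀ i x, C.π x ∈ Lb.U i → L.ψ i x ≠ 0 := fun i x hx =>
    (L.ln i ℂ _ 0 (Cv.lift_const x 0) hx).ne
  have e : ∀ i x, C.π x ∈ Lb.U i → hn 1 (A *ᵥ L.ψ (j (C.π x)) x) / hn 1 (L.ψ (j (C.π x)) x) =
      hn 1 (A *ᵥ L.ψ i x) / hn 1 (L.ψ i x) := fun i x hx => by
    rw [L.ch i _ x hx (hj _), mulVec_smul, hn_smul, hn_smul, mul_div_mul_left]
    exact pow_ne_zero _ (norm_ne_zero_iff.2 (L.lb.ne_zero _ _ _ hx (hj _)))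
  have k := hid ℝ (fun x => hn 1 (A *ᵥ L.ψ (j (C.π x)) x) / hn 1 (L.ψ (j (C.π x)) x))
    (fun y σ z hσ => by
      have a := (L.ln _ _ σ z (hL y σ z hσ) (hj _)).an.restrictScalars (𝕜 := ℝ)
      have o : ∀ B : Mx n, AnalyticAt ℝ (fun _ : Fin p → ℂ => B) z := fun _ => analyticAt_const
      refine ((an_hn (o 1) (an_mulVec (o A) a)).div (an_hn (o 1) a)
        (hn_pos pd (ne _ _ (hj _))).ne').congr ?_
      filter_upwards [(hc.continuousAt.comp hσ.self_of_nhds.1).eventually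
        ((L.lb.isOpen _).mem_nhds (hj _))] with s hs
      exact (e _ _ hs).symm) x₀ (by
      filter_upwards [h, hc.continuousAt.eventually ((L.lb.isOpen t).mem_nhds ht)] with s a b
      rw [e t s b, a]
      simp [hn]) x
  rw [e i x hi, div_eq_zero_iff, or_iff_left (hn_pos pd (ne i x hi)).ne'] at k
  exact not_not.1 fun c => (hn_pos pd c).ne' k

end Vale.Agent.P281Z.Hm
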