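import Vale.Agent.P281Z.Hm.Sk

/-!
# P281Z: logarithms of unipotent matrices
-/

open Matrix IsNilpotent

noncomputable section

namespace Vale.Agent.P281Z.Hm

namespace Lg

theorem exp_two {A : Type} [Ring A] [Module ℚ A] {Y : A} (h : IsNilpotent Y) :
    ∃ s, Commute Y s ∧ exp Y = 1 + Y + s * Y ^ 2 := by
  obtain ⟨k, hk⟩ := h
  refine ⟨∑ i ∈ Finset.range k, ((i + 2).factorial : ℚ)⁻¹ • Y ^ i,
    Commute.sum_right _ _ _ fun i _ => (Commute.self_pow Y i).smul_right _, ?_⟩
  rw [exp_eq_sum (pow_eq_zero_of_le (Nat.le_add_right k 2) hk), Finset.sum_range_succ',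
    Finset.sum_range_succ', Finset.sum_mul]
  simp only [smul_mul_assoc, ← pow_add]
  simp [add_comm, add_left_comm, add_assoc]

theorem log_comm {R : Type} [CommRing R] [Module ℚ R] {X : R} (hX : IsNilpotent X) :
    ∃ L, IsNilpotent L ∧ exp L = 1 + X := by
  have h : ∀ k, ∃ L r, IsNilpotent L ∧ exp L = 1 + X + X ^ (k + 1) * r := fun k => by
    induction k with
    | zero => exact ⟨0, -1, .zero, by simp⟩
    | succ k ih =>
      obtain ⟨L, r, h1, h2⟩ := ih
      have h3 : IsNilpotent (-(X ^ (k + 1) * r)) :=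
        ((Commute.all _ _).isNilpotent_mul_right (hX.pow_succ k)).neg
      obtain ⟨s, -, h4⟩ := exp_two h3
      refine ⟨_, -r - X ^ k * r ^ 2 + (1 + X + X ^ (k + 1) * r) * X ^ k * r ^ 2 * s,
        (Commute.all _ _).isNilpotent_add h1 h3, ?_⟩
      rw [exp_add_of_commute (Commute.all _ _) h1 h3, h2, h4]
      ring
  obtain ⟨k, hk⟩ := hX
  obtain ⟨L, r, h1, h2⟩ := h k
  exact ⟨L, h1, by rw [h2, _root_.pow_succ, hk, zero_mul, zero_mul, add_zero]⟩

open scoped IsMulCommutative in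
/-- the logarithm of a unipotent element -/
theorem exists_log {A : Type} [Ring A] [Algebra ℚ A] {U : A} (hU : IsNilpotent (U - 1)) :
    ∃ L, IsNilpotent L ∧ exp L = U ∧ ∀ z, Commute z U → Commute z L := by
  obtain ⟨L, h1, h2⟩ := log_comm (R := Algebra.adjoin ℚ {U - 1})
    (X := ⟨U - 1, Algebra.self_mem_adjoin_singleton _ _⟩) (hU.imp fun k hk => Subtype.ext hk)
  refine ⟨L, h1.map (Subalgebra.val _), (map_exp h1 (Subalgebra.val _)).symm.trans ?_,
    fun z hz => Algebra.commute_of_mem_adjoin_singleton_of_commute L.2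
      (hz.sub_right (Commute.one_right z))⟩
  rw [h2]
  exact add_sub_cancel _ _

theorem skew {A : Type} [Ring A] [Algebra ℚ A] [StarRing A] {L Q : A} (hL : IsNilpotent L)
    (h : star (exp L) * Q * exp L = Q) : star L * Q = -(Q * L) := by
  obtain ⟨k, hk⟩ := id hL
  have hk' : star L ^ k = 0 := by rw [← star_pow, hk, star_zero]
  have h1 := (LinearMap.isNilpotent_mulLeft_iff (R := ℚ) _).2 ⟨k, hk'⟩
  have h2 := (LinearMap.isNilpotent_mulRight_iff (R := ℚ) _).2 hL
  have h3 := (LinearMap.commute_mulLeft_right (R := ℚ) _ _).isNilpotent_add h1 h2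
  obtain ⟨s, h4, h5⟩ := exp_two h3
  have h6 : exp (LinearMap.mulRight ℚ L) Q = Q * exp L := by
    rw [exp_eq_sum (k := k) (by rw [LinearMap.pow_mulRight, hk, LinearMap.mulRight_zero_eq_zero]),
      exp_eq_sum hk]
    simp [Finset.mul_sum]
  have h7 : ∀ M, exp (LinearMap.mulLeft ℚ (star L)) M = star (exp L) * M := fun M => by
    rw [exp_eq_sum (k := k) (by rw [LinearMap.pow_mulLeft, hk', LinearMap.mulLeft_zero_eq_zero]),
      exp_eq_sum hk]
    simp [Finset.sum_mul]
  set D := LinearMap.mulLeft ℚ (star L) + LinearMap.mulRight ℚ L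
  have h8 : exp D Q = Q := by
    rw [exp_add_of_commute (LinearMap.commute_mulLeft_right _ _) h1 h2, Module.End.mul_apply, h6,
      h7, ← mul_assoc, h]
  have h9 : (1 + s * D) (D Q) = (1 + s * D) 0 := by
    rw [h5] at h8
    simpa [pow_two, add_assoc] using h8
  exact eq_neg_of_add_eq_zero_left (((Module.End.isUnit_iff _).1
    (h4.symm.isNilpotent_mul_left h3).isUnit_one_add).1 h9)

end Lg

theorem stLog : StLog := by
  intro n _ _ p K Q T a ha h1 h2 h3
  choose! L k1 k2 k3 using fun i hi => Lg.exists_log (h1 i hi)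
  have h4 : (a : ℂ) ≠ 0 := Nat.cast_ne_zero.2 ha.ne'
  refine ⟨fun i => (a : ℂ)⁻¹ • L i, ha, fun i hi => (k1 i hi).smul _,
    fun i hi => by rw [smul_inv_smul₀ h4, k2 i hi], fun i hi j hj =>
      ((k3 j hj _ (k3 i hi _ (h2 j hj i hi)).symm).smul_left _).smul_right _,
    fun i hi => (k3 i hi _ (Commute.self_pow _ _)).symm.smul_left _, fun i hi => ?_⟩
  have h5 : ∀ m, star (cz (T i) ^ m) * Q * cz (T i) ^ m = Q := fun m => by
    induction m with
    | zero => simp
    | succ m ih =>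
      rw [_root_.pow_succ, star_mul, ← mul_assoc, mul_assoc (star (cz (T i))),
        mul_assoc (star (cz (T i))), ih]
      exact h3 i hi
  have h6 : (L i)ᴴ * Q = -(Q * L i) := Lg.skew (k1 i hi) (by rw [k2 i hi, h5])
  simp [h6]

end Vale.Agent.P281Z.Hm
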