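import Vale.Agent.P281Z.Hm.Sk
import Vale.Agent.P284Z.F0.Ball

/-!
# P281Z, the maximum principle across the boundary (TOR)
-/

open scoped Topology
open Filter Set Complex

noncomputable section

namespace Vale.Agent.P281Z.Hm

open Vale.Agent.P284Z (Psh LB psh_re)

namespace TorH

/-- one variable -/
theorem one {v : ℂ → ℝ} {a : ℝ} (ha : 0 < a) (hc : ContinuousOn v {t | 0 < t.im})
    (hp : Psh v {t | 0 < t.im}) (per : ∀ t : ℂ, 0 < t.im → v (t + a) = v t)
    (gr : ∀ δ > (0 : ℝ), ∃ B : ℝ, ∀ t : ℂ, 1 ≤ t.im → v t ≤ B + δ * t.im) {η : ℝ} (hη : 0 < η)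
    {c : ℝ} (hb : ∀ x ∈ Icc (0 : ℝ) a, v (x + η * I) ≤ c) {t : ℂ} (ht : η ≤ t.im) : v t ≤ c := by
  have key : ∀ δ > (0 : ℝ), v t - δ * t.im ≤ c - δ * η := fun δ hδ => by
    obtain ⟨B, hB⟩ := gr (δ / 2) (half_pos hδ)
    let g : ℂ → ℝ := fun s => v s + (δ * I * s).re
    have hg : ∀ s, g s = v s - δ * s.im := fun s => by simp [g, sub_eq_add_neg]
    have hd : DifferentiableOn ℂ (fun s : ℂ => δ * I * s) {t | 0 < t.im} := by fun_prop
    have gc : ContinuousOn g {t | 0 < t.im} := hc.add (by fun_prop)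
    have gp : Psh g {t | 0 < t.im} :=
      hp.add (psh_re (isOpen_lt continuous_const continuous_im) hd) (.of_cont hc)
        (Vale.Agent.P284Z.lb_re hd)
    obtain ⟨Y, hY1, hY2, hY3⟩ : ∃ Y : ℝ, 1 ≤ Y ∧ t.im < Y ∧ B - δ / 2 * Y < g t := by
      refine ⟨max (max 1 (t.im + 1)) ((B - g t + 1) / (δ / 2)), ?_, ?_, ?_⟩
      · exact (le_max_left _ _).trans (le_max_left _ _)
      · exact (lt_add_one _).trans_le ((le_max_right _ _).trans (le_max_left _ _))
      · have := (div_le_iff₀' (half_pos hδ)).1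
          (le_max_right (max 1 (t.im + 1)) ((B - g t + 1) / (δ / 2)))
        linarith
    have top : ∀ s : ℂ, Y ≤ s.im → g s < g t := fun s hs => by
      have := hB s (hY1.trans hs)
      have h2 := mul_le_mul_of_nonneg_left hs (half_pos hδ).le
      rw [hg s]
      linarith
    have red : ∀ s : ℂ, 0 < s.im → ∃ s' : ℂ, s'.re ∈ Icc (0 : ℝ) a ∧ s'.im = s.im ∧ g s' = g s :=
      fun s hs => by
        have hper : Function.Periodic (fun x : ℝ => v (x + s.im * I)) a := fun x => by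
          refine Eq.trans (congrArg v ?_) (per (x + s.im * I) (by simpa using hs))
          push_cast
          ring
        obtain ⟨y, hy, e⟩ := hper.exists_mem_Ico₀ ha s.re
        rw [re_add_im] at e
        refine ⟨y + s.im * I, by simpa using Ico_subset_Icc_self hy, by simp, ?_⟩
        rw [hg, hg, e]
        simp
    obtain ⟨s₀, h₀, hm⟩ := ((isCompact_Icc (a := (0 : ℝ)) (b := a)).reProdIm
      (isCompact_Icc (a := η) (b := Y))).exists_isMaxOn
      ⟨η * I, by simpa [mem_reProdIm] using ⟨ha.le, ht.trans hY2.le⟩⟩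
      (gc.mono fun s hs => hη.trans_le hs.2.1)
    have low : ∀ s : ℂ, η ≤ s.im → s.im ≤ Y → g s ≤ g s₀ := fun s h1 h2 => by
      obtain ⟨s', e1, e2, e3⟩ := red s (hη.trans_le h1)
      exact e3 ▸ hm ⟨e1, show s'.im ∈ Icc η Y from e2 ▸ ⟨h1, h2⟩⟩
    have ht0 := low t ht hY2.le
    have all : ∀ s : ℂ, η ≤ s.im → g s ≤ g s₀ := fun s h1 =>
      (le_total s.im Y).elim (low s h1) fun h2 => (top s h2).le.trans ht0
    have sub : {s : ℂ | η < s.im} ⊆ {t | 0 < t.im} := fun s hs => hη.trans hs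
    have e0 : s₀.im = η := by
      refine (h₀.2.1.eq_or_lt.resolve_right fun hlt => ?_).symm
      have := (gp.mono sub).eq_of_max (.of_cont (gc.mono sub))
        (isOpen_lt continuous_const continuous_im) (convex_halfSpace_im_gt η).isPreconnected hlt
        (fun s hs => all s (le_of_lt hs)) (Y * I) (by simpa using ht.trans_lt hY2)
      exact ((top (Y * I) (by simp)).trans_le ht0).ne this
    have := hb s₀.re h₀.1
    rw [← e0, re_add_im] at this
    rw [hg, hg, e0] at ht0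
    linarith
  refine le_of_forall_pos_le_add fun ε hε => ?_
  have h1 : 0 < t.im - η + 1 := by linarith
  have h2 := key (ε / (t.im - η + 1)) (div_pos hε h1)
  have h3 := div_mul_cancel₀ ε h1.ne'
  have h4 := div_pos hε h1
  nlinarith

variable {p : ℕ} {K : Finset (Fin p)}

theorem dm_open (K : Finset (Fin p)) : IsOpen (Dm K) := by
  have e : Dm K = (⋂ i ∈ K, {ζ | 0 < (ζ i).im}) ∩ ⋂ i ∈ Kᶜ, {ζ : Fin p → ℂ | ‖ζ i‖ < 1} := by
    ext ζ
    simp [Dm]
  rw [e]
  exact (isOpen_biInter_finset fun i _ => isOpen_lt continuous_const (by fun_prop)).inter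
    (isOpen_biInter_finset fun i _ => isOpen_lt (by fun_prop) continuous_const)

theorem upd_mem {ζ : Fin p → ℂ} (hζ : ζ ∈ Dm K) {j : Fin p} (hj : j ∈ K) {t : ℂ} (ht : 0 < t.im) :
    Function.update ζ j t ∈ Dm K := by
  refine ⟨fun i hi => ?_, fun i hi => ?_⟩
  · rcases eq_or_ne i j with rfl | h
    · rwa [Function.update_self]
    · rw [Function.update_of_ne h]
      exact hζ.1 i hi
  · rw [Function.update_of_ne fun h : i = j => hi (h ▸ hj)]
    exact hζ.2 i hi

theorem upd_add (ζ : Fin p → ℂ) (j : Fin p) (s t : ℂ) :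
    Function.update ζ j s + Pi.single j t = Function.update ζ j (s + t) := by
  funext i
  rcases eq_or_ne i j with rfl | h
  · simp
  · simp [h]

/-- one coordinate -/
theorem step {a : ℕ} {u : (Fin p → ℂ) → ℝ} (ha : 0 < a) (hc : ContinuousOn u (Dm K))
    (hp : Psh u (Dm K)) {j : Fin p} (hj : j ∈ K)
    (per : ∀ ζ ∈ Dm K, u (ζ + Pi.single j (a : ℂ)) = u ζ) {ζ : Fin p → ℂ} (hζ : ζ ∈ Dm K)
    (gr : ∀ ε > (0 : ℝ), ∃ ζ' ∈ Dm K, dist ζ' ζ < ε ∧ ∀ δ > (0 : ℝ), ∃ B : ℝ,
      ∀ t : ℂ, 1 ≤ t.im → u (Function.update ζ' j t) ≤ B + δ * t.im) {η : ℝ} (hη : 0 < η)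
    (h : η ≤ (ζ j).im) : ∃ x ∈ Icc (0 : ℝ) a, u ζ ≤ u (Function.update ζ j (x + η * I)) := by
  have him : ∀ x : ℝ, 0 < (x + η * I : ℂ).im := fun x => by simpa using hη
  have ca : ∀ ζ ∈ Dm K, ContinuousAt u ζ := fun ζ hζ => hc.continuousAt ((dm_open K).mem_nhds hζ)
  have cu : Continuous fun q : (Fin p → ℂ) × ℝ => Function.update q.1 j (q.2 + η * I) :=
    continuous_fst.update j (by fun_prop)
  have c2 : ∀ x : ℝ, ContinuousAt
      (fun q : (Fin p → ℂ) × ℝ => u (Function.update q.1 j (q.2 + η * I))) (ζ, x) := fun x =>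
    ContinuousAt.comp (f := fun q : (Fin p → ℂ) × ℝ => Function.update q.1 j (q.2 + η * I))
      (ca _ (upd_mem hζ hj (him x))) cu.continuousAt
  obtain ⟨x₀, h₀, hm⟩ := (isCompact_Icc (a := (0 : ℝ)) (b := a)).exists_isMaxOn
    (f := fun x : ℝ => u (Function.update ζ j (x + η * I))) ⟨0, le_rfl, Nat.cast_nonneg a⟩
    fun x _ => ((c2 x).comp (f := fun x : ℝ => (ζ, x)) (by fun_prop)).continuousWithinAt
  refine ⟨x₀, h₀, not_lt.1 fun hlt => ?_⟩
  obtain ⟨c, h1, h2⟩ := exists_between hlt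
  have E1 : ∀ᶠ ζ' in 𝓝 ζ, c < u (Function.update ζ' j (ζ j)) := by
    have : ContinuousAt (fun ζ' : Fin p → ℂ => u (Function.update ζ' j (ζ j))) ζ :=
      ContinuousAt.comp (f := fun ζ' : Fin p → ℂ => Function.update ζ' j (ζ j))
        (ca _ (upd_mem hζ hj (hζ.1 j hj))) (continuous_id.update j continuous_const).continuousAt
    exact this.eventually (lt_mem_nhds (by simpa only [Function.update_eq_self] using h2))
  have E2 : ∀ᶠ ζ' in 𝓝 ζ, ∀ x ∈ Icc (0 : ℝ) a, u (Function.update ζ' j (x + η * I)) < c :=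
    isCompact_Icc.eventually_forall_of_forall_eventually fun x hx =>
      (c2 x).eventually (gt_mem_nhds ((hm hx).trans_lt h1))
  obtain ⟨ε, hε, hE⟩ := Metric.eventually_nhds_iff.1 (E1.and E2)
  obtain ⟨ζ', hζ', hd, hg⟩ := gr ε hε
  have c3 : Continuous fun t : ℂ => Function.update ζ' j t := by fun_prop
  refine (hE hd).1.not_ge (one (v := fun t => u (Function.update ζ' j t)) (a := a)
    (Nat.cast_pos.2 ha) (hc.comp c3.continuousOn fun t ht => upd_mem hζ' hj ht) ?_ (fun t ht => ?_)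
    hg hη (fun x hx => ((hE hd).2 x hx).le) h)
  · have e : ∀ t : ℂ, Function.update ζ' j 0 + ContinuousLinearMap.single ℂ (fun _ => ℂ) j t =
        Function.update ζ' j t := fun t => (upd_add ζ' j 0 t).trans (by rw [zero_add])
    have := hp.affine (Function.update ζ' j 0) (ContinuousLinearMap.single ℂ (fun _ => ℂ) j)
    simp only [e] at this
    exact this.mono fun t ht => upd_mem hζ' hj ht
  · rw [← upd_add]
    exact per _ (upd_mem hζ' hj ht)

end TorH

open TorH in
/-- **TOR** -/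
theorem stTor : StTor := by
  intro p K a u ha hc hp per gr η hη ζ hζ h
  have key : ∀ S : Finset (Fin p), S ⊆ K → ∃ τ ∈ Dm K,
      (∀ i ∈ S, (τ i).im = η ∧ (τ i).re ∈ Icc (0 : ℝ) a) ∧ (∀ i ∉ S, τ i = ζ i) ∧ u ζ ≤ u τ := by
    intro S
    induction S using Finset.induction_on with
    | empty => exact fun _ => ⟨ζ, hζ, by simp, fun _ _ => rfl, le_rfl⟩
    | insert j S hj ih =>
      intro hS
      have hjK := hS (Finset.mem_insert_self j S)
      obtain ⟨τ, hτ, h1, h2, h3⟩ := ih ((Finset.subset_insert j S).trans hS)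
      obtain ⟨x, hx, h4⟩ := step ha hc hp hjK (per j hjK) hτ (gr j hjK τ hτ) hη
        ((h j hjK).trans_eq (by rw [h2 j hj]))
      refine ⟨_, upd_mem hτ hjK (by simpa using hη), fun i hi => ?_, fun i hi => ?_, h3.trans h4⟩
      · rcases eq_or_ne i j with rfl | e
        · simpa using hx
        · rw [Function.update_of_ne e]
          exact h1 i ((Finset.mem_insert.1 hi).resolve_left e)
      · rw [Finset.mem_insert, not_or] at hi
        rw [Function.update_of_ne hi.1, h2 i hi.2]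
  obtain ⟨τ, -, h⟩ := key K subset_rfl
  exact ⟨τ, h⟩

end Vale.Agent.P281Z.Hm
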