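import Vale.Agent.P281Z.Hm.Lift
import Vale.Agent.P281Z.Hm.Tor

/-!
# P281Z, abstract variations: the maximum principle on `Y` (MAX)
-/

open scoped Topology Manifold ContDiff
open Filter Set Complex

noncomputable section

namespace Vale.Agent.P281Z.Hm

open Vale.Agent.P284Z (levi Psh psh_of_levi)

namespace MaxH

variable {p : ℕ} {K : Finset (Fin p)}

theorem log_le (M : ℝ) {δ : ℝ} (hδ : 0 < δ) :
    ∃ B : ℝ, ∀ s : ℝ, 0 ≤ s → M * Real.log (1 + s) ≤ B + δ * s := by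
  have h0 : 0 < |M| + 1 := by positivity
  have h1 := div_pos hδ h0
  have h2 := div_mul_cancel₀ δ h0.ne'
  set ε := δ / (|M| + 1)
  refine ⟨(|M| + 1) * (ε - 1 - Real.log ε), fun s hs => ?_⟩
  have h3 := Real.log_le_sub_one_of_pos (mul_pos h1 (by positivity : 0 < 1 + s))
  rw [Real.log_mul h1.ne' (by positivity)] at h3
  have h4 := Real.log_nonneg (by linarith : 1 ≤ 1 + s)
  have h5 := mul_le_mul_of_nonneg_right ((le_abs_self M).trans (le_add_of_nonneg_right one_pos.le)) h4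
  have h6 := mul_le_mul_of_nonneg_left h3 h0.le
  nlinarith

theorem ex_In {ζ : Fin p → ℂ} (h : ζ ∈ Dm K) : ∃ η > (0 : ℝ), η ≤ 1 ∧ ζ ∈ In K η := by
  have h1 : ∀ᶠ η in 𝓝 (0 : ℝ), η ≤ 1 ∧ (∀ i, i ∈ K → η ≤ (ζ i).im) ∧
      ∀ i, i ∉ K → ‖ζ i‖ ≤ 1 - η := by
    refine (eventually_le_nhds one_pos).and ((eventually_all.2 fun i => ?_).and
      (eventually_all.2 fun i => ?_))
    · exact eventually_imp_distrib_left.2 fun hi => eventually_le_nhds (h.1 i hi)
    · exact eventually_imp_distrib_left.2 fun hi =>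
        (eventually_le_nhds (sub_pos.2 (h.2 i hi))).mono fun η k => by linarith
  obtain ⟨η, a, b⟩ := ((h1.filter_mono nhdsWithin_le_nhds).and
    (self_mem_nhdsWithin (s := Ioi 0))).exists
  exact ⟨η, b, a⟩

theorem In_sub {η : ℝ} (h : 0 < η) : In K η ⊆ Dm K := fun _ k =>
  ⟨fun i hi => h.trans_le (k.1 i hi), fun i hi => (k.2 i hi).trans_lt (sub_lt_self 1 h)⟩

/-- move the real parts to the strip -/
theorem red {ζ : Fin p → ℂ} {η : ℝ} (h : ζ ∈ In K η) :
    ∃ ζ' ∈ St K 1 η, ex K 1 ζ' = ex K 1 ζ ∧ pl K ζ' = pl K ζ := by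
  refine ⟨fun i => if i ∈ K then ζ i - (⌊(ζ i).re⌋ : ℤ) else ζ i,
    ⟨⟨fun i hi => ?_, fun i hi => ?_⟩, fun i hi => ?_⟩, funext fun i => ?_,
    Finset.prod_congr rfl fun i hi => by simp [hi]⟩
  · simpa [hi] using h.1 i hi
  · simpa [hi] using h.2 i hi
  · simpa [hi, abs_of_nonneg (Int.fract_nonneg (ζ i).re)] using (Int.fract_lt_one (ζ i).re).le
  · by_cases hi : i ∈ K
    · simp only [ex, if_pos hi, Nat.cast_one, div_one]
      exact exp_eq_exp_iff_exists_int.2 ⟨-⌊(ζ i).re⌋, by push_cast; ring⟩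
    · simp only [ex, if_neg hi]

theorem pl_upd {ζ : Fin p → ℂ} (h : ζ ∈ Dm K) {j : Fin p} (hj : j ∈ K) {t : ℂ} (ht : 0 < t.im) :
    Real.log (pl K (Function.update ζ j t)) =
      Real.log (1 + t.im) + Real.log (pl (K.erase j) ζ) := by
  rw [pl, pl, ← Finset.mul_prod_erase _ _ hj, Function.update_self, ← Real.log_mul (by positivity)
    (Finset.prod_pos fun i hi => add_pos one_pos (h.1 i (Finset.mem_of_mem_erase hi))).ne']
  congr 2
  exact Finset.prod_congr rfl fun i hi => by rw [Function.update_of_ne (Finset.ne_of_mem_erase hi)]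

variable {Y : Type} [TopologicalSpace Y] [ChartedSpace (Fin p → ℂ) Y] {S : Snc p Y}
  {C : Cv Y S.U} {u : C.X → ℝ} {y : Y} {ρ : ℝ} {f : (Fin p → ℂ) → C.X} {g : Fin p → C.Γ}

theorem fib (hi : ∀ (g : C.Γ) x, u (g • x) = u x) {x x' : C.X} (h : C.π x = C.π x') :
    u x' = u x := by
  obtain ⟨k, rfl⟩ := C.tr x x' h
  exact hi k x

/-- the bound near a point of `Y` -/
theorem near (hT : StTor) (hi : ∀ (g : C.Γ) x, u (g • x) = u x) (B : BdL S C y ρ f g)
    (h : ∀ ζ ∈ Dm (S.K y), ContDiffAt ℝ 2 (fun s => u (f s)) ζ ∧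
      ∀ v, 0 ≤ levi (fun s => u (f s)) ζ v)
    (hG : ∀ η > (0 : ℝ), ∃ B M : ℝ, ∀ ζ ∈ St (S.K y) 1 η,
      u (f ζ) ≤ B + M * Real.log (pl (S.K y) ζ)) :
    ∃ x₀, ∀ ζ ∈ St (S.K y) 1 2⁻¹, u (f ζ) ≤ u x₀ := by
  have hc : ContinuousOn (fun s => u (f s)) (Dm (S.K y)) := fun ζ k =>
    (h ζ k).1.continuousAt.continuousWithinAt
  have key := hT p (S.K y) 1 _ one_pos hc (psh_of_levi h)
    (fun i k ζ k' => by rw [Nat.cast_one, B.mono i k ζ k', hi]) (fun j hj ζ hζ ε hε => ?_)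
    2⁻¹ (by norm_num)
  · have h1 : IsCompact (St (S.K y) 1 2⁻¹ ∩ Metric.closedBall 0 2) := by
      refine (isCompact_closedBall 0 2).inter_left ?_
      simp only [St, In, ofPred_and, ofPred_forall]
      exact ((isClosed_iInter fun i => isClosed_iInter fun _ =>
        isClosed_le continuous_const (by fun_prop)).inter (isClosed_iInter fun i =>
          isClosed_iInter fun _ => isClosed_le (by fun_prop) continuous_const)).inter
        (isClosed_iInter fun i => isClosed_iInter fun _ =>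
          isClosed_le (by fun_prop) continuous_const)
    have h2 : St (S.K y) 1 2⁻¹ ⊆ Dm (S.K y) := fun ζ k => In_sub (by norm_num) k.1
    have h3 : ∀ ζ ∈ St (S.K y) 1 2⁻¹, ∃ τ ∈ St (S.K y) 1 2⁻¹ ∩ Metric.closedBall 0 2,
        u (f ζ) ≤ u (f τ) := fun ζ k => by
      obtain ⟨τ, a1, a2, a3⟩ := key ζ (h2 k) k.1.1
      refine ⟨τ, ⟨⟨⟨fun i e => (a1 i e).1.ge, fun i e => a2 i e ▸ k.1.2 i e⟩, fun i e => ?_⟩,
        mem_closedBall_zero_iff.2 ((pi_norm_le_iff_of_nonneg two_pos.le).2 fun i => ?_)⟩, a3⟩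
      · rw [abs_of_nonneg (a1 i e).2.1]
        simpa using (a1 i e).2.2
      · by_cases e : i ∈ S.K y
        · have := norm_le_abs_re_add_abs_im (τ i)
          rw [abs_of_nonneg (a1 i e).2.1, (a1 i e).1, abs_of_pos (by norm_num)] at this
          have h4 := (a1 i e).2.2
          rw [Nat.cast_one] at h4
          linarith
        · have := k.1.2 i e
          rw [a2 i e]
          linarith
    rcases (St (S.K y) 1 2⁻¹ ∩ Metric.closedBall 0 2).eq_empty_or_nonempty with e | e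
    · exact ⟨f 0, fun ζ k => by obtain ⟨τ, a, -⟩ := h3 ζ k; exact absurd (e ▸ a) (notMem_empty τ)⟩
    · obtain ⟨τ₀, -, a⟩ := h1.exists_isMaxOn e (hc.mono fun ζ k => h2 k.1)
      exact ⟨f τ₀, fun ζ k => by obtain ⟨τ, b, c⟩ := h3 ζ k; exact c.trans (a b)⟩
  · refine ⟨ζ, hζ, by rwa [dist_self], fun δ hδ => ?_⟩
    obtain ⟨η, η0, η1, hη⟩ := ex_In hζ
    obtain ⟨A, M, hA⟩ := hG η η0
    obtain ⟨A', hA'⟩ := log_le M hδ
    refine ⟨A + A' + M * Real.log (pl ((S.K y).erase j) ζ), fun t ht => ?_⟩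
    have t0 := one_pos.trans_le ht
    have h1 : Function.update ζ j t ∈ In (S.K y) η := by
      refine ⟨fun i k => ?_, fun i k => ?_⟩
      · rcases eq_or_ne i j with rfl | e
        · rw [Function.update_self]
          exact η1.trans ht
        · rw [Function.update_of_ne e]
          exact hη.1 i k
      · rw [Function.update_of_ne (ne_of_mem_of_not_mem hj k).symm]
        exact hη.2 i k
    obtain ⟨ζ', a1, a2, a3⟩ := red h1
    have h2 := hA ζ' a1
    rw [a3, pl_upd hζ hj t0, ← fib hi (x' := f (Function.update ζ j t))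
      (by rw [B.eq _ (In_sub η0 a1.1), B.eq _ (In_sub η0 h1), a2])] at h2
    have := hA' _ t0.le
    linarith

end MaxH

open MaxH in
theorem stMax_of (hT : StTor) (hBr : StBr) (hL : StLift) : StMax := by
  intro p Y _ _ _ _ S C u hi hC hG
  obtain ⟨hU, h1, h2⟩ := hL p Y S C
  obtain ⟨-, -, b1, -, -, b2, -⟩ := hBr p Y S.U C hU
  obtain ⟨x₀, h0⟩ : ∃ x₀, ∀ x, C.π x ∈ (univ : Set Y) → u x ≤ u x₀ := by
    refine isCompact_univ.induction_on (p := fun s => ∃ x₀, ∀ x, C.π x ∈ s → u x ≤ u x₀)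
      ⟨Classical.arbitrary _, fun _ k => k.elim⟩ (fun s t k ⟨x₀, a⟩ => ⟨x₀, fun x e => a x (k e)⟩)
      (fun s t ⟨a, ha⟩ ⟨b, hb⟩ => ?_) fun y _ => ?_
    · rcases le_total (u a) (u b) with e | e
      · exact ⟨b, fun x k => k.elim (fun k => (ha x k).trans e) (hb x)⟩
      · exact ⟨a, fun x k => k.elim (ha x) fun k => (hb x k).trans e⟩
    · obtain ⟨ρ, f, g, B, -⟩ := h1 y univ univ_mem
      obtain ⟨a1, -, a2⟩ := h2 y ρ f g B
      obtain ⟨x₀, a3⟩ := near hT hi B (fun ζ k => hC f ζ (a1 ζ k).1) (hG y ρ f g B)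
      refine ⟨_, mem_nhdsWithin_of_mem_nhds (a2 2⁻¹ (by norm_num) (by norm_num)), x₀, fun x k => ?_⟩
      obtain ⟨ζ, c1, c2⟩ := k (C.mem x)
      exact (fib hi c2).trans_le (a3 ζ c1)
  have key := b2 Prop (fun x => u x = u x₀) fun y σ z hσ => ?_
  · exact fun x x' => ((key x₀ x).mp rfl).trans ((key x₀ x').mp rfl).symm
  obtain ⟨r, r0, hr⟩ := Metric.eventually_nhds_iff_ball.1 hσ.eventually_nhds
  have a := fun s k => hC σ s (b1 y σ s (hr s k))
  have e : ∀ s ∈ Metric.ball z r, ∀ s' ∈ Metric.ball z r, u (σ s) = u x₀ → u (σ s') = u x₀ :=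
    fun s k s' k' e => ((psh_of_levi a).eq_of_max
      (.of_cont fun t k => (a t k).1.continuousAt.continuousWithinAt) Metric.isOpen_ball
      (convex_ball z r).isPreconnected k (fun t _ => e ▸ h0 _ trivial) s' k').trans e
  filter_upwards [Metric.ball_mem_nhds z r0] with s k
  exact propext ⟨e s k z (Metric.mem_ball_self r0), e z (Metric.mem_ball_self r0) s k⟩

theorem stMax : StMax := stMax_of stTor stBr stLift

end Vale.Agent.P281Z.Hm
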