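import Vale.Agent.P281Z.Hm.Sk

/-!
# P281Z, abstract variations: the local monodromy along a component
-/

open scoped Topology Manifold ContDiff
open Filter Set Complex

noncomputable section

namespace Vale.Agent.P281Z.Hm

namespace MonoH

variable {p : ℕ} {K : Finset (Fin p)}

theorem norm_e (s : ℂ) : ‖exp (2 * Real.pi * I * s / (1 : ℕ))‖ = Real.exp (-(2 * Real.pi * s.im)) := by
  rw [norm_exp]
  simp

theorem norm_ex {ζ : Fin p → ℂ} (h : ζ ∈ Dm K) : ‖ex K 1 ζ‖ < 1 := by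
  refine (pi_norm_lt_iff one_pos).2 fun i => ?_
  unfold ex
  split_ifs with hi
  · rw [norm_e, Real.exp_lt_one_iff, neg_lt_zero]
    exact mul_pos Real.two_pi_pos (h.1 i hi)
  · exact h.2 i hi

theorem ex_surj {w : Fin p → ℂ} (h : ‖w‖ < 1) (h0 : ∀ i ∈ K, w i ≠ 0) :
    ∃ ζ ∈ Dm K, ex K 1 ζ = w := by
  have h1 : ∀ i ∈ K, exp (2 * Real.pi * I * (log (w i) / (2 * Real.pi * I)) / (1 : ℕ)) = w i :=
    fun i hi => by
      rw [mul_div_cancel₀ _ two_pi_I_ne_zero, Nat.cast_one, div_one, exp_log (h0 i hi)]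
  refine ⟨fun i => if i ∈ K then log (w i) / (2 * Real.pi * I) else w i,
    ⟨fun i hi => ?_, fun i hi => ?_⟩, funext fun i => ?_⟩
  · have h2 := (norm_le_pi_norm w i).trans_lt h
    rw [← h1 i hi, norm_e, Real.exp_lt_one_iff, neg_lt_zero] at h2
    simpa only [if_pos hi] using (mul_pos_iff_of_pos_left Real.two_pi_pos).1 h2
  · simpa only [if_neg hi] using (norm_le_pi_norm w i).trans_lt h
  · by_cases hi : i ∈ K
    · simpa only [ex, if_pos hi] using h1 i hi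
    · simp only [ex, if_neg hi]

theorem ex_inj {ζ ζ' : Fin p → ℂ} (h : ex K 1 ζ' = ex K 1 ζ) :
    ∃ m : Fin p → ℤ, ζ' = ζ + ∑ i ∈ K, m i • (Pi.single i 1 : Fin p → ℂ) := by
  have h1 : ∀ i, ∃ m : ℤ, i ∈ K → ζ' i = ζ i + m := fun i => by
    by_cases hi : i ∈ K
    · have h2 := congrFun h i
      simp only [ex, if_pos hi, Nat.cast_one, div_one] at h2
      obtain ⟨m, hm⟩ := exp_eq_exp_iff_exists_int.1 h2
      exact ⟨m, fun _ => mul_left_cancel₀ two_pi_I_ne_zero (by rw [hm]; ring)⟩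
    · exact ⟨0, fun k => absurd k hi⟩
  choose m hm using h1
  refine ⟨m, funext fun i => ?_⟩
  by_cases hi : i ∈ K
  · simp [Finset.sum_apply, Pi.single_apply, hi, hm i hi]
  · have h2 := congrFun h i
    simp only [ex, if_neg hi] at h2
    simp [Finset.sum_apply, Pi.single_apply, hi, h2]

theorem add_real {ζ : Fin p → ℂ} (h : ζ ∈ Dm K) {i : Fin p} (hi : i ∈ K) (t : ℝ) :
    ζ + Pi.single i (t : ℂ) ∈ Dm K := by
  refine ⟨fun j hj => ?_, fun j hj => ?_⟩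
  · rcases eq_or_ne j i with rfl | k
    · simpa using h.1 j hj
    · simpa [k] using h.1 j hj
  · have k : j ≠ i := fun e => hj (e ▸ hi)
    simpa [k] using h.2 j hj

variable {Y : Type} [TopologicalSpace Y] [ChartedSpace (Fin p → ℂ) Y] {S : Snc p Y}
  {C : Cv Y S.U} {H : Subgroup C.Γ} {y y' y₁ : Y} {ρ ρ' : ℝ} {f f' : (Fin p → ℂ) → C.X}
  {g g' : Fin p → C.Γ} {l : Fin S.r}

/-- the polydisc at `y` -/
def Pd (p : ℕ) [ChartedSpace (Fin p → ℂ) Y] (y : Y) (ρ : ℝ) : Set Y :=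
  (chartAt (Fin p → ℂ) y).source ∩
    chartAt (Fin p → ℂ) y ⁻¹' Metric.ball (chartAt (Fin p → ℂ) y y) ρ

theorem isOpen_Pd : IsOpen (Pd p y ρ) :=
  (chartAt (Fin p → ℂ) y).isOpen_inter_preimage Metric.isOpen_ball

theorem mem_Pd (h : 0 < ρ) : y ∈ Pd p y ρ := ⟨mem_chart_source _ _, Metric.mem_ball_self h⟩

theorem mem_K {i : Fin p} : i ∈ S.K y ↔ ∃ l, S.lab y l = some i ∧ y ∈ S.G l := by
  simp [Snc.K]

theorem cut' (B : BdL S C y ρ f g) (h : y₁ ∈ Pd p y ρ) {i : Fin p} (hi : S.lab y l = some i)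
    (hl : y ∈ S.G l) : y₁ ∈ S.G l ↔ chartAt (Fin p → ℂ) y y₁ i = 0 := by
  have := B.cut _ h.2 l
  rw [(chartAt (Fin p → ℂ) y).left_inv h.1] at this
  simpa [hl, hi] using this

theorem mem_ball (B : BdL S C y ρ f g) {ζ : Fin p → ℂ} (h : ζ ∈ Dm (S.K y)) :
    chartAt (Fin p → ℂ) y y + (ρ : ℂ) • ex (S.K y) 1 ζ ∈
      Metric.ball (chartAt (Fin p → ℂ) y y) ρ := by
  rw [mem_ball_iff_norm, add_sub_cancel_left, norm_smul, norm_real, Real.norm_of_nonneg B.pos.le]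
  exact mul_lt_of_lt_one_right B.pos (norm_ex h)

theorem norm_w (h : 0 < ρ) (h1 : y₁ ∈ Pd p y ρ) :
    ‖(ρ : ℂ)⁻¹ • (chartAt (Fin p → ℂ) y y₁ - chartAt (Fin p → ℂ) y y)‖ < 1 := by
  rw [norm_smul, norm_inv, norm_real, Real.norm_of_nonneg h.le, inv_mul_lt_one₀ h]
  exact mem_ball_iff_norm.1 h1.2

theorem surj (B : BdL S C y ρ f g) {x : C.X} (h : C.π x ∈ Pd p y ρ) :
    ∃ (k : C.Γ) (ζ : Fin p → ℂ), ζ ∈ Dm (S.K y) ∧ x = k • f ζ := by
  have hρ : (ρ : ℂ) ≠ 0 := ofReal_ne_zero.2 B.pos.ne'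
  obtain ⟨ζ, h1, h2⟩ := ex_surj (K := S.K y) (norm_w B.pos h) fun i hi => by
    obtain ⟨l, a1, a2⟩ := mem_K.1 hi
    have a3 := (cut' B (mem_Pd B.pos) a1 a2).1 a2
    have a4 := mt (cut' B h a1 a2).2 (C.mem x l)
    simpa [a3, hρ] using a4
  obtain ⟨k, hk⟩ := C.tr (f ζ) x (by
    rw [B.eq ζ h1, h2, smul_inv_smul₀ hρ, add_sub_cancel, (chartAt (Fin p → ℂ) y).left_inv h.1])
  exact ⟨k, ζ, h1, hk⟩

theorem inj (B : BdL S C y ρ f g) (hg : ∀ i ∈ S.K y, g i ∈ H) {ζ ζ' : Fin p → ℂ}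
    (h : ζ ∈ Dm (S.K y)) (h' : ζ' ∈ Dm (S.K y)) (e : C.π (f ζ') = C.π (f ζ)) :
    ∃ k ∈ H, f ζ' = k • f ζ := by
  rw [B.eq ζ h, B.eq ζ' h'] at e
  have e1 := (chartAt (Fin p → ℂ) y).symm.injOn (B.sub (mem_ball B h')) (B.sub (mem_ball B h)) e
  obtain ⟨m, rfl⟩ := ex_inj (smul_right_injective _ (ofReal_ne_zero.2 B.pos.ne')
    (add_left_cancel e1))
  let T : AddSubgroup (Fin p → ℂ) :=
    { carrier := {v | ∀ ζ ∈ Dm (S.K y), ζ + v ∈ Dm (S.K y) ∧ ζ - v ∈ Dm (S.K y) ∧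
        ∃ k ∈ H, f (ζ + v) = k • f ζ}
      zero_mem' := fun ζ h => by simpa using ⟨h, 1, H.one_mem, (one_smul _ _).symm⟩
      add_mem' := fun {v w} hv hw ζ h => by
        obtain ⟨a1, a2, k, a3, a4⟩ := hv ζ h
        obtain ⟨b1, -, k', b3, b4⟩ := hw _ a1
        refine ⟨by rwa [← add_assoc], by rw [← sub_sub]; exact (hw _ a2).2.1, k' * k,
          H.mul_mem b3 a3, by rw [← add_assoc, b4, a4, mul_smul]⟩
      neg_mem' := fun {v} hv ζ h => by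
        obtain ⟨a1, a2, -⟩ := hv ζ h
        obtain ⟨-, -, k, a3, a4⟩ := hv _ a2
        rw [sub_add_cancel] at a4
        refine ⟨by rwa [← sub_eq_add_neg], by rwa [sub_neg_eq_add], k⁻¹, H.inv_mem a3, ?_⟩
        rw [← sub_eq_add_neg, a4, inv_smul_smul] }
  have hT : ∑ i ∈ S.K y, m i • (Pi.single i 1 : Fin p → ℂ) ∈ T :=
    T.sum_mem fun i hi => T.zsmul_mem (fun ζ h => ⟨by simpa using add_real h hi 1, by
      simpa [Pi.single_neg, sub_eq_add_neg] using add_real h hi (-1), g i, hg i hi,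
      B.mono i hi ζ h⟩) _
  exact (hT ζ h).2.2

/-- a connected set over the polydisc -/
theorem conn (hN : H.Normal) (hfix : ∀ (k : C.Γ) (x : C.X), k • x = x → k ∈ H)
    (B : BdL S C y ρ f g) (hg : ∀ i ∈ S.K y, g i ∈ H)
    (hop : ∀ ζ ∈ Dm (S.K y), ∀ᶠ x in 𝓝 (f ζ), x ∈ f '' Dm (S.K y)) {Z : Set C.X}
    (hZ : IsPreconnected Z) (hP : ∀ x ∈ Z, C.π x ∈ Pd p y ρ) {x : C.X} {a : C.Γ} (hx : x ∈ Z)
    (ha : a • x ∈ Z) : a ∈ H := by
  obtain ⟨h, ζ₀, h0, rfl⟩ := surj B (hP x hx)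
  let V : (C.Γ → Prop) → Set C.X := fun q => {x | ∃ k, q k ∧ ∃ ζ ∈ Dm (S.K y), x = (h * k) • f ζ}
  have hV : ∀ q, IsOpen (V q) := fun q => isOpen_iff_mem_nhds.2 fun x ⟨k, k1, ζ, k2, k3⟩ => by
    have t : Tendsto (fun x => (h * k)⁻¹ • x) (𝓝 x) (𝓝 (f ζ)) :=
      (C.csm _).tendsto' _ _ (by rw [k3, inv_smul_smul])
    filter_upwards [t.eventually (hop ζ k2)] with x' ⟨ζ', a1, a2⟩
    exact ⟨k, k1, ζ', a1, by rw [a2, smul_inv_smul]⟩
  have hd : Disjoint (V (· ∈ H)) (V (· ∉ H)) :=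
    disjoint_left.2 fun x ⟨k, k1, ζ, k2, k3⟩ ⟨k', a1, ζ', a2, a3⟩ => by
      obtain ⟨u, u1, u2⟩ := inj B hg k2 a2 (by
        rw [← C.inv (h * k') (f ζ'), ← a3, k3, C.inv])
      have := hfix (k⁻¹ * k' * u) (f ζ) (by
        rw [mul_smul, mul_smul, ← u2, inv_smul_eq_iff, ← smul_left_cancel_iff h, ← mul_smul,
          ← mul_smul, ← a3, ← k3])
      exact a1 (by simpa [mul_assoc] using H.mul_mem (H.mul_mem k1 this) (H.inv_mem u1))
  have hsub := hZ.subset_left_of_subset_union (hV _) (hV _) hd (fun x hx => by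
    obtain ⟨k, ζ, k1, k2⟩ := surj B (hP x hx)
    by_cases e : h⁻¹ * k ∈ H
    · exact .inl ⟨_, e, ζ, k1, by rwa [mul_inv_cancel_left]⟩
    · exact .inr ⟨_, e, ζ, k1, by rwa [mul_inv_cancel_left]⟩)
    ⟨_, hx, 1, H.one_mem, ζ₀, h0, by rw [mul_one]⟩
  by_contra hn
  refine disjoint_left.1 hd (hsub ha) ⟨h⁻¹ * a * h, fun e => hn ?_, ζ₀, h0, ?_⟩
  · simpa [mul_assoc] using hN.conj_mem _ e h
  · rw [← mul_smul, mul_assoc, mul_inv_cancel_left]

/-- two overlapping polydiscs -/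
theorem step (hN : H.Normal) (hfix : ∀ (k : C.Γ) (x : C.X), k • x = x → k ∈ H)
    (B : BdL S C y ρ f g) (hop : ∀ ζ ∈ Dm (S.K y), ∀ᶠ x in 𝓝 (f ζ), x ∈ f '' Dm (S.K y))
    (B' : BdL S C y' ρ' f' g') (hy' : y' ∈ S.G0 l) (h1 : y₁ ∈ S.G l) (h2 : y₁ ∈ Pd p y ρ)
    (h3 : y₁ ∈ Pd p y' ρ') (hg : ∀ i ∈ S.K y, g i ∈ H) : ∀ i ∈ S.K y', g' i ∈ H := by
  intro b hb
  have hl : ∀ i ∈ S.K y', S.lab y' l = some i := fun i hi => by
    obtain ⟨l', a1, a2⟩ := mem_K.1 hi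
    by_cases e : l' = l
    · rwa [← e]
    · exact absurd a2 (hy'.2 l' e)
  have hK : ∀ i ∈ S.K y', i = b := fun i hi => Option.some.inj ((hl i hi).symm.trans (hl b hb))
  have hρ : (ρ' : ℂ) ≠ 0 := ofReal_ne_zero.2 B'.pos.ne'
  set c := chartAt (Fin p → ℂ) y' with hc
  set w := (ρ' : ℂ)⁻¹ • (c y₁ - c y') with hw
  have w0 : w b = 0 := by
    have a1 := (cut' B' h3 (hl b hb) hy'.1).1 h1
    have a2 := (cut' B' (mem_Pd B'.pos) (hl b hb) hy'.1).1 hy'.1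
    simp [hw, hc, a1, a2]
  have w1 : c y' + (ρ' : ℂ) • Function.update w b 0 = c y₁ := by
    rw [← w0, Function.update_eq_self, smul_inv_smul₀ hρ, add_sub_cancel]
  have t1 : ContinuousAt (fun s : ℂ => c.symm (c y' + (ρ' : ℂ) • Function.update w b s)) 0 := by
    refine ContinuousAt.comp (f := fun s : ℂ => c y' + (ρ' : ℂ) • Function.update w b s) ?_
      (by fun_prop)
    rw [w1]
    exact c.continuousAt_symm (c.map_source h3.1)
  have t2 : c.symm (c y' + (ρ' : ℂ) • Function.update w b 0) ∈ Pd p y ρ := by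
    rwa [w1, c.left_inv h3.1]
  obtain ⟨r, r0, hr⟩ := Metric.eventually_nhds_iff_ball.1 (t1.eventually (isOpen_Pd.mem_nhds t2))
  obtain ⟨M, M0, hM⟩ : ∃ M : ℝ, 0 < M ∧ Real.exp (-(2 * Real.pi * M)) < r :=
    ((eventually_gt_atTop 0).and ((Real.tendsto_exp_neg_atTop_nhds_zero.comp
      (tendsto_id.const_mul_atTop Real.two_pi_pos)).eventually (gt_mem_nhds r0))).exists
  have hζ : Function.update w b (M * I) ∈ Dm (S.K y') := by
    refine ⟨fun i hi => ?_, fun i hi => ?_⟩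
    · simpa [hK i hi] using M0
    · rw [Function.update_of_ne (ne_of_mem_of_not_mem hb hi).symm]
      exact (norm_le_pi_norm w i).trans_lt (norm_w B'.pos h3)
  set ζ := Function.update w b (M * I) with hζe
  have t3 : Continuous fun t : ℝ => ζ + Pi.single b (t : ℂ) :=
    continuous_const.add ((continuous_single (A := fun _ => ℂ) b).comp continuous_ofReal)
  refine conn hN hfix B hg hop (Z := range fun t : ℝ => f' (ζ + Pi.single b (t : ℂ)))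
    (isPreconnected_range (B'.cont.comp_continuous t3 fun t => add_real hζ hb t))
    ?_ (x := f' ζ) ⟨0, by simp⟩ ⟨1, by simpa using B'.mono b hb ζ hζ⟩
  rintro _ ⟨t, rfl⟩
  have e : ex (S.K y') 1 (ζ + Pi.single b (t : ℂ)) =
      Function.update w b (exp (2 * Real.pi * I * (M * I + t) / (1 : ℕ))) := funext fun i => by
    rcases eq_or_ne i b with rfl | k
    · simp [ex, hb, hζe]
    · have : i ∉ S.K y' := fun hi => k (hK i hi)
      simp [ex, this, k, hζe]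
  rw [B'.eq _ (add_real hζ hb t), e]
  refine hr _ ?_
  rw [mem_ball_zero_iff, norm_e]
  simpa using hM

end MonoH

open MonoH in
theorem stMono (hBr : StBr) (hL : StLift) : StMono := by
  intro p Y _ _ _ S C H hN hH l hc y hy y' hy' ρ f g ρ' f' g' B B' hg
  obtain ⟨hU, h1, h2⟩ := hL p Y S C
  have hfix : ∀ (k : C.Γ) (x : C.X), k • x = x → k ∈ H := fun k x e =>
    hH k ((hBr p Y S.U C hU).2.2.2.2.1 k x e)
  have st := fun {y y' y₁ ρ ρ' f f' g g'} (B : BdL S C y ρ f g) =>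
    step (l := l) (y' := y') (y₁ := y₁) (ρ' := ρ') (f' := f') (g' := g') hN hfix B
      fun ζ h => ((h2 y ρ f g B).1 ζ h).2
  let Q : Y → Prop := fun y => ∀ ρ f g, BdL S C y ρ f g → ∀ i ∈ S.K y, g i ∈ H
  have hQ : ∀ y ∈ S.G0 l, ∀ ρ f g, BdL S C y ρ f g → (∀ i ∈ S.K y, g i ∈ H) → Q y :=
    fun y hy ρ f g B hg ρ' f' g' B' => st B B' hy hy.1 (mem_Pd B.pos) (mem_Pd B'.pos) hg
  have key := hc.induction₂ (fun a b => Q a ↔ Q b) (fun a ha => ?_)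
    (fun _ _ _ _ _ _ k k' => k.trans k') (fun _ _ _ _ k => k.symm) hy hy'
  · exact key.1 (hQ y hy ρ f g B hg) ρ' f' g' B'
  obtain ⟨ρ, f, g, B, -⟩ := h1 a univ univ_mem
  filter_upwards [self_mem_nhdsWithin,
    mem_nhdsWithin_of_mem_nhds ((isOpen_Pd (p := p)).mem_nhds (mem_Pd B.pos))] with b hb hb'
  obtain ⟨ρ', f', g', B', -⟩ := h1 b univ univ_mem
  exact ⟨fun k => hQ b hb _ _ _ B' (st B B' hb hb.1 hb' (mem_Pd B'.pos) (k _ _ _ B)),
    fun k => hQ a ha _ _ _ B (st B' B ha hb.1 (mem_Pd B'.pos) hb' (k _ _ _ B'))⟩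

end Vale.Agent.P281Z.Hm
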