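import Vale.Agent.P281Z.Hm.Sk2
import Vale.Agent.P281Z.Hm.Gl
import Vale.Agent.P281Z.Hm.Mono
import Vale.Agent.P281Z.Hm.Comm
import Vale.Agent.P281Z.Hm.Log
import Vale.Agent.P281Z.Hm.Exp
import Vale.Agent.P281Z.Hm.Max

/-!
# P281Z, moderate growth spreads along the boundary (MODG)
-/

set_option linter.unusedSectionVars false

open scoped Matrix.Norms.Operator Topology Manifold ContDiff ComplexOrder
open Filter Set Matrix

noncomputable section

namespace Vale.Agent.P281Z.Hm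

namespace Mg

theorem bd_mul {X : Type} {F : Filter X} {u u' g : X → ℝ} {B c : ℝ} (h : ∀ᶠ x in F, u x ≤ B)
    (hu : ∀ x, 0 ≤ u x) (hg : Tendsto g F (𝓝 c)) (e : ∀ᶠ x in F, u' x = g x * u x) :
    ∃ B', ∀ᶠ x in F, u' x ≤ B' := by
  refine ⟨(|c| + 1) * B, ?_⟩
  filter_upwards [h, e, hg.eventually (gt_mem_nhds ((le_abs_self c).trans_lt (lt_add_one _)))]
    with x a b d
  rw [b]
  exact mul_le_mul d.le a (hu x) (by positivity)

variable {p : ℕ} {Y : Type} [TopologicalSpace Y] [ChartedSpace (Fin p → ℂ) Y]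
  [IsManifold 𝓘(ℂ, Fin p → ℂ) ω Y] {S : Snc p Y} {C : Cv Y S.U} {n : Type} [Fintype n]
  [DecidableEq n] {V : GV p C n} {Lb : P285.H281.FD.Bd Y}

theorem ab_nonneg (y : Y) (l : Fin S.r) (z : Fin p → ℂ) : 0 ≤ S.ab y l z := by
  by_cases h : y ∈ S.G l
  · obtain ⟨i, -, e⟩ := S.exists_lab h
    rw [S.ab_of_lab h e]
    exact norm_nonneg _
  · rw [S.ab_of_not h]
    exact zero_le_one

/-- the bound near `y'` for the equations at `y` -/
def R (L : Ln V Lb) (y y' : Y) (i : Lb.ι) : Prop := ∃ A B : ℝ, ∀ᶠ x in 𝓝[S.U] y',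
  L.hY i x * ∏ l, S.ab y l (chartAt (Fin p → ℂ) y x) ^ A ≤ B

variable {L : Ln V Lb} {y y' : Y} {i j : Lb.ι}

theorem nn (L : Ln V Lb) (y : Y) (i : Lb.ι) (A : ℝ) (x : Y) :
    0 ≤ L.hY i x * ∏ l, S.ab y l (chartAt (Fin p → ℂ) y x) ^ A :=
  mul_nonneg (L.hY_nonneg i x) (Finset.prod_nonneg fun l _ => Real.rpow_nonneg (ab_nonneg y l _) A)

theorem R.ch (h : R L y y' i) (hi : y' ∈ Lb.U i) (hj : y' ∈ Lb.U j) : R L y y' j := by
  obtain ⟨A, B, h⟩ := h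
  refine ⟨A, bd_mul h (nn L y i A) (((Gl.cont_g L.lb hi hj).norm.pow 2).mono_left
    nhdsWithin_le_nhds) ?_⟩
  filter_upwards [mem_nhdsWithin_of_mem_nhds ((L.lb.isOpen i).mem_nhds hi),
    mem_nhdsWithin_of_mem_nhds ((L.lb.isOpen j).mem_nhds hj)] with x a b
  rw [L.hY_ch a b, mul_assoc, Pi.pow_apply]

theorem R.ev (h : R L y y i) : ∀ᶠ y' in 𝓝 y, R L y y' i := by
  obtain ⟨A, B, h⟩ := h
  exact (eventually_nhds_nhdsWithin.2 h).mono fun _ a => ⟨A, B, a⟩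

theorem ab_pos (y : Y) (l : Fin S.r) :
    ∀ᶠ x in 𝓝[S.U] y, 0 < S.ab y l (chartAt (Fin p → ℂ) y x) := by
  by_cases h : y ∈ S.G l
  · exact (Gl.ab_zero h).eventually self_mem_nhdsWithin
  · simp [S.ab_of_not h]

theorem tr (L : Ln V Lb) (y : Y) : ∀ᶠ y' in 𝓝 y, ∀ i, R L y' y' i ↔ R L y y' i := by
  filter_upwards [chart_source_mem_nhds (Fin p → ℂ) y, (S.ev_cut y).eventually_nhds] with y' a b i
  have h : ∀ l, ∃ c : ℝ, 0 < c ∧ Tendsto (fun x => S.ab y l (chartAt (Fin p → ℂ) y x) /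
      S.ab y' l (chartAt (Fin p → ℂ) y' x)) (𝓝[S.U] y') (𝓝 c) := fun l => by
    obtain ⟨c, hc, h1, h2⟩ := stUnit p Y S y y' l a (b.mono fun _ e => e l)
    refine ⟨c, hc, ?_⟩
    by_cases k : y' ∈ S.G l
    · exact (h1 k).mono_left (nhdsWithin_mono _ fun x hx => hx l)
    · simpa only [S.ab_of_not k, div_one] using (h2 k).mono_left nhdsWithin_le_nhds
  choose c hc h using h
  have e : ∀ A : ℝ, ∀ᶠ x in 𝓝[S.U] y', ∏ l, S.ab y l (chartAt (Fin p → ℂ) y x) ^ A =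
      (∏ l, (S.ab y l (chartAt (Fin p → ℂ) y x) / S.ab y' l (chartAt (Fin p → ℂ) y' x)) ^ A) *
        ∏ l, S.ab y' l (chartAt (Fin p → ℂ) y' x) ^ A := fun A => by
    filter_upwards [eventually_all.2 (ab_pos y')] with x hx
    rw [← Finset.prod_mul_distrib]
    exact Finset.prod_congr rfl fun l _ => by
      rw [Real.div_rpow (ab_nonneg _ _ _) (hx l).le, div_mul_cancel₀ _ (Real.rpow_pos_of_pos (hx l) A).ne']
  have t := fun A : ℝ => tendsto_finsetProd Finset.univ fun l _ =>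
    (h l).rpow_const (p := A) (Or.inl (hc l).ne')
  have t0 : ∀ A : ℝ, ∏ l, c l ^ A ≠ 0 := fun A =>
    (Finset.prod_pos fun l _ => Real.rpow_pos_of_pos (hc l) A).ne'
  refine ⟨fun ⟨A, B, k⟩ => ⟨A, bd_mul k (nn L y' i A) (t A) ((e A).mono fun x hx => ?_)⟩,
    fun ⟨A, B, k⟩ => ⟨A, bd_mul k (nn L y i A) ((t A).inv₀ (t0 A)) ?_⟩⟩
  · rw [hx, mul_left_comm]
  · filter_upwards [e A, (t A).eventually_ne (t0 A)] with x h1 h2
    rw [h1, mul_left_comm (L.hY i x), inv_mul_cancel_left₀ h2]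

open LiftH DescH in
theorem key (hBor : StBor) (hB : StModB) (L : Ln V Lb) {t : Lb.ι} (ht : y ∈ Lb.U t) : ∃ O ∈ 𝓝 y,
    (∀ l, y ∈ S.G l → ∃ y' ∈ O, y' ∈ S.G0 l ∧ R L y y' t) → R L y y t := by
  obtain ⟨ρ, f, g, h, hO⟩ := exists_bdl C y ((L.lb.isOpen t).mem_nhds ht)
  refine ⟨MonoH.Pd p y ρ, MonoH.isOpen_Pd.mem_nhds (MonoH.mem_Pd h.pos), fun H => ?_⟩
  obtain ⟨h1, h2, -⟩ := (stLift p Y S C).2.2 y ρ f g h
  have hU := fun ζ (hζ : ζ ∈ Dm (S.K y)) =>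
    h.eq ζ hζ ▸ hO _ (pt_mem h.pos _ ((mem_dm one_pos).1 hζ))
  have bv : BV (S.K y) V.Q V.w (fun ζ => V.gr (f ζ)) fun i => V.ρ (g i) :=
    ⟨fun ζ hζ => V.lv _ f ζ (h1 ζ hζ).1, fun i hi ζ hζ q => by
      rw [h.mono i hi ζ hζ, V.eqv], fun i _ => V.pQ _⟩
  obtain ⟨a, ha, hn⟩ := hBor n p _ _ _ _ _ bv
  obtain ⟨b, hb, hc⟩ := stComm p Y S.U C n V V.hs
  obtain ⟨N, hN⟩ := stLog n p (S.K y) V.Q (fun i => V.ρ (g i)) (a * (b * L.m))
    (mul_pos ha (mul_pos hb L.hm)) (fun i hi => hn i hi _) (fun i hi j hj => by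
      rw [mul_left_comm, pow_mul _ b, pow_mul _ b]
      exact (hc _ _ (h2 i hi j hj)).pow_pow _ _) bv.pQ
  have h4 : ∀ A : ℝ, ∀ ζ ∈ Dm (S.K y), ∀ i ∈ S.K y, ‖chartAt (Fin p → ℂ) y (C.π (f ζ)) i‖ ^ A =
      ρ ^ A * Real.exp (-(2 * Real.pi * A * (ζ i).im)) := fun A ζ hζ i hi => by
    rw [crd h hζ, Pi.add_apply, S.zero_K hi, zero_add, Pi.smul_apply, norm_smul, ex, if_pos hi,
      norm_e, Complex.norm_real, Real.norm_of_nonneg h.pos.le,
      Real.mul_rpow h.pos.le (Real.exp_pos _).le, ← Real.exp_mul]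
    congr 2
    push_cast
    ring
  obtain ⟨B, A, hBA⟩ := hB n p _ _ _ _ _ _ N (fun ζ => L.ψ t (f ζ)) (fun i => L.lam (g i)) bv hN
    (fun ζ hζ => (L.ln t _ f ζ (h1 ζ hζ).1 (hU ζ hζ)).an)
    (fun i hi ζ hζ => by rw [h.mono i hi ζ hζ, L.eqv t _ _ (hU ζ hζ)])
    (fun i _ => by rw [← mul_assoc, pow_mul', L.pow, one_pow]) (fun j hj => by
      obtain ⟨l, l1, l2⟩ := S.mem_K.1 hj
      obtain ⟨y', a1, a2, A, B, a3⟩ := H l l2
      have hρ : (ρ : ℂ) ≠ 0 := Complex.ofReal_ne_zero.2 h.pos.ne'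
      set w := (ρ : ℂ)⁻¹ • (chartAt (Fin p → ℂ) y y' - chartAt (Fin p → ℂ) y y) with hw
      have w1 : ‖w‖ < 1 := MonoH.norm_w h.pos a1
      have w2 : ∀ i ∈ (S.K y).erase j, chartAt (Fin p → ℂ) y y' i ≠ 0 := fun i hi c => by
        obtain ⟨l', d1, d2⟩ := S.mem_K.1 (Finset.mem_of_mem_erase hi)
        exact a2.2 l' (fun d => Finset.ne_of_mem_erase hi (Option.some.inj ((d ▸ d1).symm.trans l1)))
          ((MonoH.cut' h a1 d1 d2).2 c)
      obtain ⟨ζ, z1, z2⟩ := MonoH.ex_surj (K := S.K y) (w := Function.update w j 2⁻¹)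
        ((pi_norm_lt_iff one_pos).2 fun i => by
          rcases eq_or_ne i j with rfl | k
          · simpa using two_inv_lt_one
          · rw [Function.update_of_ne k]
            exact (norm_le_pi_norm w i).trans_lt w1) fun i hi => by
          rcases eq_or_ne i j with rfl | k
          · simp
          · simpa [hw, k, hρ, S.zero_K hi] using w2 i (Finset.mem_erase.2 ⟨k, hi⟩)
      have z3 : ζ ∈ Db (S.K y) j := ⟨fun i hi => by
        rcases eq_or_ne i j with rfl | k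
        · simp
        · simpa [k] using z1.1 i hi, fun i hi => by
          simpa [(ne_of_mem_of_not_mem hj hi).symm] using z1.2 i hi⟩
      have z4 := ExpH.ev_dm hj z3
      have z5 : Tendsto (fun x => chartAt (Fin p → ℂ) y y + (ρ : ℂ) • ex (S.K y) 1 x) (toB j ζ)
          (𝓝 (chartAt (Fin p → ℂ) y y')) := by
        have := ((ExpH.t_ex (ζ := ζ) one_pos hj).const_smul (ρ : ℂ)).const_add
          (chartAt (Fin p → ℂ) y y)
        rwa [z2, Function.update_idem, Function.update_eq_self_iff.2 (by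
          simp [hw, S.zero_K hj, (MonoH.cut' h a1 l1 l2).1 a2.1]), pt_inv h.pos] at this
      have z6 : Tendsto (fun x => C.π (f x)) (toB j ζ) (𝓝[S.U] y') :=
        tendsto_nhdsWithin_iff.2 ⟨(((chartAt (Fin p → ℂ) y).tendsto_symm a1.1).comp z5).congr'
          (z4.mono fun x hx => (h.eq x hx).symm), .of_forall fun x => C.mem _⟩
      have z7 : Tendsto (fun x => ρ ^ A * ∏ i ∈ (S.K y).erase j,
          ‖chartAt (Fin p → ℂ) y (C.π (f x)) i‖ ^ A) (toB j ζ) _ :=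
        (tendsto_finsetProd _ fun i hi => (tendsto_pi_nhds.1 (z5.congr' (z4.mono fun x hx =>
          (crd h hx).symm)) i).norm.rpow_const (Or.inl (norm_ne_zero_iff.2 (w2 i hi)))).const_mul _
      have z8 := (mul_pos (Real.rpow_pos_of_pos h.pos A) (Finset.prod_pos fun i hi =>
        Real.rpow_pos_of_pos (norm_pos_iff.2 (w2 i hi)) A)).ne'
      obtain ⟨B', hB'⟩ := bd_mul (u' := fun x => L.h t (f x) *
        Real.exp (-(2 * Real.pi * A * (x j).im))) (z6.eventually a3) (fun x => nn L y t A _)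
        (z7.inv₀ z8) (by
          filter_upwards [z4, z7.eventually_ne z8] with x hx k
          rw [L.hY_eq (hU x hx), S.prod_ab y _ (· ^ A) (Real.one_rpow A),
            ← Finset.mul_prod_erase _ _ hj, h4 A x hx j hj, eq_inv_mul_iff_mul_eq₀ k]
          ring)
      refine ⟨ζ, z3, B', 2 * Real.pi * A, hB'.mono fun x hx => ?_⟩
      rwa [Real.exp_neg, mul_inv_le_iff₀ (Real.exp_pos _)] at hx) 2⁻¹ (by norm_num)
  refine ⟨A / (2 * Real.pi), B * (ρ ^ (A / (2 * Real.pi))) ^ (S.K y).card, ?_⟩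
  filter_upwards [self_mem_nhdsWithin, mem_nhdsWithin_of_mem_nhds (cover h two_inv_lt_one)]
    with x a1 a2
  obtain ⟨ζ, z1, rfl⟩ := a2 a1
  have z2 := MaxH.In_sub (by norm_num) z1.1
  rw [L.hY_eq (hU ζ z2), S.prod_ab y _ (· ^ _) (Real.one_rpow _), Finset.prod_congr rfl (h4 _ ζ z2),
    Finset.prod_mul_distrib, Finset.prod_const, ← Real.exp_sum, Finset.sum_neg_distrib,
    ← Finset.mul_sum, Real.exp_neg, ← mul_assoc, mul_inv_le_iff₀ (Real.exp_pos _),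
    mul_div_cancel₀ _ (by positivity), mul_right_comm]
  exact mul_le_mul_of_nonneg_right (hBA ζ z1) (pow_pos (Real.rpow_pos_of_pos h.pos _) _).le

end Mg

open Mg in
/-- **MODG** -/
theorem stModG (hBor : StBor) (hB : StModB) : StModG := by
  intro p Y _ _ _ S C n _ _ V Lb L hS H
  have h1 : ∀ l, ∀ y ∈ S.G0 l, ∀ i, y ∈ Lb.U i → R L y y i := fun l y hy => by
    obtain ⟨y₀, h₀, i, hi, B, A, h⟩ := H l ⟨y, hy⟩
    refine (hS l).induction₂' (fun x x' => (∀ i, x ∈ Lb.U i → R L x x i) →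
      ∀ i, x' ∈ Lb.U i → R L x' x' i) (fun x hx => ?_) (fun _ _ _ _ _ _ a b c => b (a c)) h₀ hy
      fun j hj => R.ch ⟨A, B, eventually_nhdsWithin_iff.2 h⟩ hi hj
    obtain ⟨t, ht⟩ := L.lb.cover x
    obtain ⟨O, hO, hk⟩ := key hBor hB L ht
    have ev : (∀ i, x ∈ Lb.U i → R L x x i) → ∀ᶠ x' in 𝓝 x, R L x x' t := fun a => (a t ht).ev
    filter_upwards [self_mem_nhdsWithin, mem_nhdsWithin_of_mem_nhds hO,
      mem_nhdsWithin_of_mem_nhds (tr L x), mem_nhdsWithin_of_mem_nhds ((L.lb.isOpen t).mem_nhds ht),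
      mem_nhdsWithin_of_mem_nhds (eventually_imp_distrib_left.2 ev)] with x' a1 a2 a3 a4 a5
    refine ⟨fun a j hj => ((a3 t).2 (a5 a)).ch a4 hj, fun a j hj => (hk fun l' hl => ?_).ch ht hj⟩
    obtain rfl : l' = l := not_not.1 fun c => hx.2 l' c hl
    exact ⟨x', a2, a1, (a3 t).1 (a t a4)⟩
  intro y t ht
  obtain ⟨O, hO, hk⟩ := key hBor hB L ht
  obtain ⟨A, B, h⟩ := hk fun l hl => by
    obtain ⟨O', -, -, -, hc⟩ := ConnH.loc S hl
    obtain ⟨x, ⟨⟨a1, a2⟩, a3⟩, -, a4⟩ := mem_closure_iff_nhds.1 hc _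
      (inter_mem (inter_mem hO (tr L y)) ((L.lb.isOpen t).mem_nhds ht))
    exact ⟨x, a1, a4, (a2 t).1 (h1 l x a4 t a3)⟩
  exact ⟨B, A, eventually_nhdsWithin_iff.1 h⟩

end Vale.Agent.P281Z.Hm
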