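import Vale.Agent.P281Z.Hm.Sk

/-!
# P281Z, abstract variations of Hodge structure: more statements
-/

open scoped Matrix.Norms.Operator Topology ComplexOrder Manifold ContDiff Kronecker
open Filter Set Matrix Complex

noncomputable section

namespace Vale.Agent.P281Z.Hm

/-- output: the minimal variation for a set of vectors -/
def StMinS : Prop := ∀ (p : ℕ) (Y : Type) [TopologicalSpace Y] [CompactSpace Y]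
  [ChartedSpace (Fin p → ℂ) Y] [IsManifold 𝓘(ℂ, Fin p → ℂ) ω Y] (S : Snc p Y) (C : Cv Y S.U)
  (n : Type) [Fintype n] [DecidableEq n] (V : GV p C n) (A : Set (n → ℂ)),
  (∀ g, ∀ s ∈ A, cz (V.ρ g) *ᵥ s ∈ Submodule.span ℂ A) →
  ∃ (k : ℕ) (V' : GV p C (Fin k)) (B : Matrix n (Fin k) ℤ) (B' : Matrix (Fin k) n ℂ),
    B' * cz B = 1 ∧ V'.w = V.w ∧ V'.Q = (cz B)ᴴ * V.Q * cz B ∧ (∀ g, V.ρ g * B = B * V'.ρ g) ∧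
    (∀ x q, V.gr x q * cz B = cz B * V'.gr x q ∧ V'.gr x q = B' * V.gr x q * cz B) ∧
    (∀ s ∈ A, cz B *ᵥ (B' *ᵥ s) = s) ∧
    ∀ g, (∃ c : ℂ, ∀ s ∈ A, cz (V.ρ g) *ᵥ s = c • s) → ∀ x q, Commute (cz (V'.ρ g)) (V'.gr x q)

/-- moderate growth from integrability, local form: `u` is the norm of `ψ` over `O` -/
def StL1L : Prop := ∀ (p : ℕ) (Y : Type) [TopologicalSpace Y] [ChartedSpace (Fin p → ℂ) Y]
  [IsManifold 𝓘(ℂ, Fin p → ℂ) ω Y] (S : Snc p Y) (C : Cv Y S.U) (n : Type) [Fintype n]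
  [DecidableEq n] (V : GV p C n) (ψ : C.X → n → ℂ) (u : Y → ℝ) (y : Y), ∀ O ∈ 𝓝 y,
  (∀ (f : (Fin p → ℂ) → C.X) z, C.Lift p f z → C.π (f z) ∈ O →
    AnalyticAt ℂ (fun s => ψ (f s)) z) →
  (∀ x, C.π x ∈ O → u (C.π x) = hn (gH V.Q V.w (V.gr x)) (ψ x)) → ∀ δ A : ℝ, 0 < δ →
  ∀ O' ∈ 𝓝 (chartAt (Fin p → ℂ) y y), MeasureTheory.IntegrableOn
    (fun z => u ((chartAt (Fin p → ℂ) y).symm z) ^ δ * ∏ l, S.ab y l z ^ A) O' →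
  ∃ B A' : ℝ, ∀ᶠ y' in 𝓝 y, y' ∈ S.U →
    u y' * ∏ l, S.ab y l (chartAt (Fin p → ℂ) y y') ^ A' ≤ B

/-- exponential growth spreads, periodic holomorphic functions -/
def StModM : Prop := ∀ (n : Type) [Fintype n] (p : ℕ) (K : Finset (Fin p)) (a : ℕ)
  (F : (Fin p → ℂ) → n → ℂ), 0 < a → AnalyticOnNhd ℂ F (Dm K) →
  (∀ i ∈ K, ∀ ζ ∈ Dm K, F (ζ + Pi.single i (a : ℂ)) = F ζ) →
  (∀ j ∈ K, ∃ ζ ∈ Db K j, ∃ B A : ℝ, ∀ᶠ x in toB j ζ, ‖F x‖ ≤ B * Real.exp (A * (x j).im)) →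
  ∃ A : ℝ, ∀ η > (0 : ℝ), ∃ B : ℝ, ∀ ζ ∈ In K η, ‖F ζ‖ ≤ B * Real.exp (A * ∑ i ∈ K, (ζ i).im)

/-- exponential growth spreads, sections of a variation on the model -/
def StModB : Prop := ∀ (n : Type) [Fintype n] [DecidableEq n] (p : ℕ) (K : Finset (Fin p))
  (Q : Mx n) (w : ℕ) (π : (Fin p → ℂ) → Gr n) (T : Fin p → Matrix n n ℤ) (a : ℕ) (N : Fin p → Mx n)
  (ψ : (Fin p → ℂ) → n → ℂ) (lam : Fin p → ℂ), BV K Q w π T → Un K Q T a N →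
  AnalyticOnNhd ℂ ψ (Dm K) →
  (∀ i ∈ K, ∀ ζ ∈ Dm K, ψ (ζ + Pi.single i 1) = lam i • (cz (T i) *ᵥ ψ ζ)) →
  (∀ i ∈ K, lam i ^ a = 1) →
  (∀ j ∈ K, ∃ ζ ∈ Db K j, ∃ B A : ℝ, ∀ᶠ x in toB j ζ,
    hn (gH Q w (π x)) (ψ x) ≤ B * Real.exp (A * (x j).im)) →
  ∀ η > (0 : ℝ), ∃ B A : ℝ, ∀ ζ ∈ St K 1 η,
    hn (gH Q w (π ζ)) (ψ ζ) ≤ B * Real.exp (A * ∑ i ∈ K, (ζ i).im)

/-- output: moderate growth at one point of every component is enough -/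
def StModG : Prop := ∀ (p : ℕ) (Y : Type) [TopologicalSpace Y] [ChartedSpace (Fin p → ℂ) Y]
  [IsManifold 𝓘(ℂ, Fin p → ℂ) ω Y] (S : Snc p Y) (C : Cv Y S.U) (n : Type) [Fintype n]
  [DecidableEq n] (V : GV p C n) (Lb : P285.H281.FD.Bd Y) (L : Ln V Lb), S.Conn →
  (∀ l, (S.G0 l).Nonempty → ∃ y ∈ S.G0 l, ∃ i, y ∈ Lb.U i ∧ ∃ B A : ℝ, ∀ᶠ y' in 𝓝 y, y' ∈ S.U →
    L.hY i y' * ∏ l, S.ab y l (chartAt (Fin p → ℂ) y y') ^ A ≤ B) → L.Mod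

end Vale.Agent.P281Z.Hm
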