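import Vale.Agent.P281Z.Hm.Lift
import Vale.Agent.P281Z.Hm.Sk2

/-!
# P281Z: exponential growth spreads, periodic holomorphic functions (MODM)
-/

open scoped Topology
open Filter Set Metric Complex

noncomputable section

namespace Vale.Agent.P281Z.Hm

open TorH DescH LiftH

namespace MM

variable {E F : Type} [NormedAddCommGroup E] [NormedSpace ℂ E] [FiniteDimensional ℂ E]
  [NormedAddCommGroup F] [NormedSpace ℂ F] [CompleteSpace F]

/-- a removable singularity spreads -/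
theorem spread {U : Set E} (hU : IsOpen U) (hc : IsPreconnected U) {g : E × ℂ → F}
    (hg : ∀ x ∈ U, ∀ s : ℂ, s ≠ 0 → ‖s‖ < 1 → DifferentiableAt ℂ g (x, s)) {x₀ : E} (h₀ : x₀ ∈ U)
    (hb : ∀ᶠ x in 𝓝 x₀, ∃ B, ∀ᶠ s in 𝓝[≠] (0 : ℂ), ‖g (x, s)‖ ≤ B) {x : E} (hx : x ∈ U) {r : ℝ}
    (hr : r < 1) : ∃ B, ∀ s : ℂ, s ≠ 0 → ‖s‖ ≤ r → ‖g (x, s)‖ ≤ B := by
  obtain ⟨R, h1, h2⟩ := exists_between (max_lt hr one_pos)
  have hR : 0 < R := (le_max_right _ _).trans_lt h1
  have hrR : r < R := (le_max_left _ _).trans_lt h1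
  have hd : ∀ y ∈ U, ∀ s : ℂ, s ≠ 0 → ‖s‖ < 1 → DifferentiableAt ℂ (fun s => g (y, s)) s :=
    fun y hy s a b => (hg y hy s a b).comp s (by fun_prop)
  have hs : ∀ τ ∈ sphere (0 : ℂ) R, τ ≠ 0 ∧ ‖τ‖ < 1 := fun τ hτ => by
    have := mem_sphere_zero_iff_norm.1 hτ
    exact ⟨norm_pos_iff.1 (this ▸ hR), this ▸ h2⟩
  have key : ∀ s : ℂ, s ≠ 0 → ‖s‖ < R →
      (2 * Real.pi * I : ℂ) • g (x, s) = ∮ τ in C(0, R), (τ - s)⁻¹ • g (x, τ) := by
    intro s a b
    have a1 : AnalyticOnNhd ℂ (fun y => (2 * Real.pi * I : ℂ) • g (y, s)) U :=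
      P268.analyticOnNhd_of_differentiableOn hU fun y hy =>
        (((hg y hy s a (b.trans h2)).comp y (f := fun y => (y, s)) (by fun_prop)).fun_const_smul
          _).differentiableWithinAt
    have a2 : AnalyticOnNhd ℂ (fun y => ∮ τ in C(0, R), (τ - s)⁻¹ • g (y, τ)) U :=
      P268.analyticOnNhd_of_differentiableOn hU (P268.differentiableOn_circleIntegral
        (G := fun q => (q.2 - s)⁻¹ • g q) (W := ball 0 1 ∩ ({0}ᶜ ∩ {s}ᶜ)) hR.le hU
        (isOpen_ball.inter (isOpen_compl_singleton.inter isOpen_compl_singleton))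
        (fun τ hτ => ⟨mem_ball_zero_iff.2 (hs τ hτ).2, (hs τ hτ).1, fun e =>
          b.ne (mem_singleton_iff.1 e ▸ mem_sphere_zero_iff_norm.1 hτ)⟩)
        fun q hq => (((differentiableAt_snd.sub_const s).fun_inv (sub_ne_zero.2 hq.2.2.2)).fun_smul
          (hg q.1 hq.1 q.2 hq.2.2.1 (mem_ball_zero_iff.1 hq.2.1))).differentiableWithinAt)
    refine a1.eqOn_of_preconnected_of_eventuallyEq a2 hc h₀ ?_ hx
    filter_upwards [hb, hU.mem_nhds h₀] with y ⟨B, hB⟩ hy
    have h3 := differentiableOn_update_limUnder_of_isLittleO (f := fun s => g (y, s))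
      (closedBall_mem_nhds 0 hR) (fun τ hτ => (hd y hy τ hτ.2
        ((mem_closedBall_zero_iff.1 hτ.1).trans_lt h2)).differentiableWithinAt)
      (IsBoundedUnder.isLittleO_sub_self_inv ⟨B + ‖g (y, 0)‖, eventually_map.2
        (hB.mono fun τ hτ => norm_sub_le_of_le hτ le_rfl)⟩)
    have h4 := h3.circleIntegral_sub_inv_smul (mem_ball_zero_iff.2 b)
    rw [Function.update_of_ne a] at h4
    refine h4.symm.trans (circleIntegral.integral_congr hR.le fun τ hτ => ?_)
    simp only [Function.update_of_ne (hs τ hτ).1]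
  obtain ⟨M, hM⟩ := (isCompact_sphere (0 : ℂ) R).exists_bound_of_continuousOn
    (f := fun s => g (x, s)) fun τ hτ =>
      (hd x hx τ (hs τ hτ).1 (hs τ hτ).2).continuousAt.continuousWithinAt
  refine ⟨R * ((R - r)⁻¹ * M), fun s a b => ?_⟩
  rw [← inv_smul_smul₀ two_pi_I_ne_zero (g (x, s)), key s a (b.trans_lt hrR)]
  refine circleIntegral.norm_two_pi_i_inv_smul_integral_le_of_norm_le_const hR.le fun τ hτ => ?_
  rw [norm_smul, norm_inv]
  refine mul_le_mul (inv_anti₀ (sub_pos.2 hrR) ?_) (hM τ hτ) (norm_nonneg _)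
    (inv_nonneg.2 (sub_pos.2 hrR).le)
  linarith [norm_sub_norm_le τ s, mem_sphere_zero_iff_norm.1 hτ]

variable {p : ℕ} {K : Finset (Fin p)} {a : ℕ} {G : (Fin p → ℂ) → F}

omit [CompleteSpace F] in
/-- descent to the punctured polydisc -/
theorem desc (ha : 0 < a) (hd : ∀ ζ ∈ Dm K, DifferentiableAt ℂ G ζ)
    (per : ∀ i ∈ K, ∀ ζ ∈ Dm K, G (ζ + Pi.single i (a : ℂ)) = G ζ) :
    ∃ Φ : (Fin p → ℂ) → F, (∀ s ∈ ball (0 : Fin p → ℂ) 1, (∀ i ∈ K, s i ≠ 0) →
      DifferentiableAt ℂ Φ s) ∧ ∀ ζ ∈ Dm K, Φ (ex K a ζ) = G ζ := by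
  have h1 : ∀ σ : Fin p → ℂ, (∀ i ∈ K, σ i ≠ 0) → ex K a (lb K a 0 1 σ) = σ := fun σ h =>
    ex_lb ha ex_zero h
  refine ⟨fun σ => G (lb K a 0 1 σ), fun s hs h0 => ?_, fun ζ hζ =>
    per_eq ha per hζ (h1 _ fun i hi => ex_ne ζ hi)⟩
  have e1 : ∀ i ∈ K, ex K a (lb K a 0 1 s) i = s i := fun i _ => congrFun (h1 s h0) i
  have e2 := ex_lb ha e1 h0
  refine ((hd _ ((mem_dm ha).2 (e2.symm ▸ hs))).comp s
    (lb_diff (c := lb K a 0 1 s) h0)).congr_of_eventuallyEq ?_
  filter_upwards [(Finset.eventually_all K).2 fun i hi =>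
    (continuous_apply i).continuousAt.eventually_ne (h0 i hi), isOpen_ball.mem_nhds hs] with σ b c
  have e3 := ex_lb ha e1 b
  exact per_eq ha per ((mem_dm ha).2 (e3.symm ▸ c)) ((h1 σ b).trans e3.symm)

theorem ex_upd {j : Fin p} (hj : j ∈ K) (ζ : Fin p → ℂ) (t : ℂ) :
    ex K a (Function.update ζ j t) =
      Function.update (ex K a ζ) j (exp (2 * Real.pi * I * t / a)) := by
  funext i
  rcases eq_or_ne i j with rfl | h
  · simp [ex, hj]
  · simp [ex, h]

/-- boundedness along one coordinate spreads -/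
theorem bdd (ha : 0 < a) (hd : ∀ ζ ∈ Dm K, DifferentiableAt ℂ G ζ)
    (per : ∀ i ∈ K, ∀ ζ ∈ Dm K, G (ζ + Pi.single i (a : ℂ)) = G ζ) {j : Fin p} (hj : j ∈ K)
    {ζ₀ : Fin p → ℂ} (h₀ : ζ₀ ∈ Db K j) {B : ℝ} (hb : ∀ᶠ x in toB j ζ₀, ‖G x‖ ≤ B)
    {ζ : Fin p → ℂ} (hζ : ζ ∈ Dm K) :
    ∃ B, ∀ t : ℂ, 1 ≤ t.im → ‖G (Function.update ζ j t)‖ ≤ B := by
  obtain ⟨Φ, h1, h2⟩ := desc ha hd per
  have a0 : (0 : ℝ) < a := Nat.cast_pos.2 ha
  have ht : Tendsto (fun q : (Fin p → ℂ) × ℂ => Function.update q.1 j q.2)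
      (𝓝 (Function.update ζ₀ j I) ×ˢ comap im atTop) (toB j ζ₀) := by
    refine tendsto_comap_iff.2 (Tendsto.prodMk ?_ ?_)
    · have : Continuous fun x : Fin p → ℂ => Function.update x j (0 : ℂ) := by fun_prop
      simpa [Function.comp_def] using (this.tendsto (Function.update ζ₀ j I)).comp tendsto_fst
    · simpa [Function.comp_def] using tendsto_comap.comp
        (tendsto_snd (f := 𝓝 (Function.update ζ₀ j I)) (g := comap im atTop))
  obtain ⟨B', hB'⟩ := spread (dm_open K) (dm_convex K).isPreconnected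
    (g := fun q => Φ (Function.update (ex K a q.1) j q.2)) (fun x hx s b c => by
      refine (h1 _ (DivH.upd_ball ((mem_dm ha).1 hx) j c) fun i hi => ?_).comp (x, s)
        (f := fun q : (Fin p → ℂ) × ℂ => Function.update (ex K a q.1) j q.2)
        (differentiableAt_pi.2 fun i => ?_)
      · rcases eq_or_ne i j with rfl | h
        · rwa [Function.update_self]
        · rw [Function.update_of_ne h]
          exact ex_ne x hi
      · rcases eq_or_ne i j with rfl | h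
        · simpa only [Function.update_self] using differentiableAt_snd
        · simp only [Function.update_of_ne h]
          exact DifferentiableAt.comp (𝕜 := ℂ) (g := fun ζ => ex K a ζ i) (f := Prod.fst) (x, s)
            (ex_diff x i) (by fun_prop))
    h₀ (by
      filter_upwards [(ht.eventually hb).curry, (dm_open K).mem_nhds h₀] with x b c
      refine ⟨B, ?_⟩
      filter_upwards [(Function.Periodic.invQParam_tendsto a0).eventually
        (b.and (tendsto_comap.eventually (eventually_gt_atTop 0))), self_mem_nhdsWithin]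
        with s d e
      have h3 := Function.Periodic.qParam_right_inv a0.ne' e
      rw [Function.Periodic.qParam, ofReal_natCast] at h3
      rw [← h3, ← ex_upd hj, h2 _ (upd_mem c hj d.2)]
      exact d.1) hζ (r := Real.exp (-(2 * Real.pi / a * 1)))
    (Real.exp_lt_one_iff.2 (neg_lt_zero.2 (by positivity)))
  refine ⟨B', fun t h => ?_⟩
  rw [← h2 _ (upd_mem hζ hj (one_pos.trans_le h)), ex_upd hj]
  refine hB' _ (exp_ne_zero _) ?_
  rw [norm_e]
  gcongr

theorem norm_mon (M : ℕ) (ζ : Fin p → ℂ) : ‖∏ i ∈ K, ex K a ζ i ^ M‖ =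
    Real.exp (-(2 * Real.pi / a * M * ∑ i ∈ K, (ζ i).im)) := by
  rw [norm_prod, Finset.mul_sum, ← Finset.sum_neg_distrib, Real.exp_sum]
  refine Finset.prod_congr rfl fun i hi => ?_
  rw [norm_pow, ex, if_pos hi, norm_e, ← Real.exp_nat_mul]
  congr 1
  ring

theorem ev_dm {j : Fin p} (hj : j ∈ K) {ζ : Fin p → ℂ} (h : ζ ∈ Db K j) :
    ∀ᶠ x in toB j ζ, x ∈ Dm K := by
  have c : Continuous fun x : Fin p → ℂ => Function.update x j I := by fun_prop
  have h1 : ∀ᶠ x in 𝓝 (Function.update ζ j 0), Function.update x j I ∈ Dm K :=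
    c.continuousAt.eventually
      ((dm_open K).mem_nhds (by simp only [Function.update_idem]; exact h))
  filter_upwards [(tendsto_fst.comp tendsto_comap).eventually h1,
    (tendsto_snd.comp tendsto_comap).eventually (eventually_gt_atTop 0)] with x b c
  simpa using upd_mem b hj c

end MM

open MM in
theorem stModM : StModM := by
  intro n _ p K a F ha hF per hb
  choose! ζ₀ h₀ B A hb using hb
  have a0 : (0 : ℝ) < 2 * Real.pi / a := by positivity
  obtain ⟨M, hM⟩ := exists_nat_ge ((∑ j ∈ K, |A j|) / (2 * Real.pi / a))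
  rw [div_le_iff₀' a0] at hM
  let G : (Fin p → ℂ) → n → ℂ := fun ζ => (∏ i ∈ K, ex K a ζ i ^ M) • F ζ
  have hd : ∀ ζ ∈ Dm K, DifferentiableAt ℂ G ζ := fun ζ hζ =>
    (HasFDerivAt.finsetProd fun i _ =>
      ((ex_diff ζ i).fun_pow M).hasFDerivAt).differentiableAt.fun_smul (hF ζ hζ).differentiableAt
  have hp : ∀ i ∈ K, ∀ ζ ∈ Dm K, G (ζ + Pi.single i (a : ℂ)) = G ζ := fun i hi ζ hζ => by
    have e : ex K a (ζ + Pi.single i (a : ℂ)) = ex K a ζ := by
      conv_lhs => rw [← Function.update_eq_self i ζ, upd_add, ex_upd hi]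
      rw [mul_add, add_div, mul_div_cancel_right₀ _ (Nat.cast_ne_zero.2 ha.ne'), exp_add,
        exp_two_pi_mul_I, mul_one, ← ex_upd hi, Function.update_eq_self]
    simp only [G, e, per i hi ζ hζ]
  have hG : ∀ j ∈ K, ∀ᶠ x in toB j (ζ₀ j), ‖G x‖ ≤ |B j| := fun j hj => by
    filter_upwards [hb j hj, ev_dm hj (h₀ j hj)] with x b c
    have h1 : (x j).im ≤ ∑ i ∈ K, (x i).im :=
      Finset.single_le_sum (f := fun i => (x i).im) (fun i hi => (c.1 i hi).le) hj
    have h2 : A j ≤ 2 * Real.pi / a * M := ((le_abs_self _).trans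
      (Finset.single_le_sum (f := fun i => |A i|) (fun i _ => abs_nonneg _) hj)).trans hM
    have h3 := c.1 j hj
    rw [norm_smul, norm_mon, Real.exp_neg, inv_mul_le_iff₀ (Real.exp_pos _), mul_comm]
    refine b.trans (mul_le_mul (le_abs_self _) (Real.exp_le_exp.2 ?_) (Real.exp_pos _).le
      (abs_nonneg _))
    exact mul_le_mul h2 h1 h3.le (by positivity)
  have hc : ContinuousOn (fun ζ => ‖G ζ‖) (Dm K) := fun ζ hζ =>
    (hd ζ hζ).continuousAt.norm.continuousWithinAt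
  refine ⟨2 * Real.pi / a * M, fun η hη => ?_⟩
  have hT : IsCompact (Set.pi univ fun i : Fin p =>
      if i ∈ K then Icc (0 : ℝ) a ×ℂ {η} else closedBall (0 : ℂ) (1 - η)) :=
    isCompact_univ_pi fun i => by
      split_ifs
      exacts [isCompact_Icc.reProdIm isCompact_singleton, isCompact_closedBall _ _]
  obtain ⟨C, hC⟩ := hT.bddAbove_image (hc.mono fun τ hτ => ⟨fun i hi => by
    have := hτ i trivial
    simp only [if_pos hi] at this
    exact hη.trans_eq this.2.symm, fun i hi => by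
    have := hτ i trivial
    simp only [if_neg hi] at this
    exact (mem_closedBall_zero_iff.1 this).trans_lt (sub_lt_self 1 hη)⟩)
  refine ⟨C, fun ζ hζ => ?_⟩
  obtain ⟨τ, h1, h2, h3⟩ := stTor p K a (fun ζ => ‖G ζ‖) ha hc
    (P284Z.lpsh_norm (dm_open K) fun ζ hζ => (hd ζ hζ).differentiableWithinAt).psh
    (fun i hi ζ hζ => congrArg norm (hp i hi ζ hζ))
    (fun j hj ζ hζ ε hε => ⟨ζ, hζ, by simpa using hε, fun δ hδ =>
      (bdd ha hd hp hj (h₀ j hj) (hG j hj) hζ).imp fun B' hB' t ht =>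
        (hB' t ht).trans (le_add_of_nonneg_right (mul_nonneg hδ.le (zero_le_one.trans ht)))⟩)
    η hη ζ ⟨fun i hi => hη.trans_le (hζ.1 i hi), fun i hi => (hζ.2 i hi).trans_lt
      (sub_lt_self 1 hη)⟩ hζ.1
  have h4 := h3.trans (hC ⟨τ, fun i _ => by
    dsimp only
    split_ifs with hi
    · exact ⟨(h1 i hi).2, (h1 i hi).1⟩
    · exact mem_closedBall_zero_iff.2 (h2 i hi ▸ hζ.2 i hi), rfl⟩)
  rwa [norm_smul, norm_mon, Real.exp_neg, inv_mul_le_iff₀ (Real.exp_pos _), mul_comm] at h4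

end Vale.Agent.P281Z.Hm
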