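import Vale.Agent.P281Z.Hm.All2
import Vale.Agent.P281Z.Hm.ModB
import Vale.Agent.P281Z.Hm.ModG
import Vale.Agent.P281Z.Hm.ModM

/-!
# P281Z, abstract variations of Hodge structure: moderate growth without hypotheses
-/

namespace Vale.Agent.P281Z.Hm.All

theorem modB : StModB := stModB grow
theorem modG : StModG := stModG bor modB

end Vale.Agent.P281Z.Hm.All
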