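import Vale.Agent.P281Z.Hm.FlagA

/-!
# P281Z, abstract variations of Hodge structure: compactness and properness
-/

open scoped Matrix.Norms.Operator Topology ComplexOrder
open Filter Set Matrix Complex

noncomputable section

namespace Vale.Agent.P281Z.Hm

namespace Cp

/-- uniform bounds for a compact family of positive functions, homogeneous of degree two -/
theorem hom2 {P E : Type} [TopologicalSpace P] [NormedAddCommGroup E] [NormedSpace ℝ E]
    [ProperSpace E] {K : Set P} (hK : IsCompact K) {f : P → E → ℝ}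
    (hc : Continuous fun x : P × E => f x.1 x.2) (hh : ∀ p v (c : ℝ), f p (c • v) = c ^ 2 * f p v)
    (hp : ∀ p ∈ K, ∀ v, v ≠ 0 → 0 < f p v) :
    ∃ B : ℝ, 0 < B ∧ ∀ p ∈ K, ∀ v, ‖v‖ ^ 2 ≤ B * f p v ∧ f p v ≤ B * ‖v‖ ^ 2 := by
  have hS := hK.prod (isCompact_sphere (0 : E) 1)
  obtain ⟨a, ha, h1⟩ := hS.exists_forall_le' hc.continuousOn (a := 0) fun x hx =>
    hp _ hx.1 _ (ne_zero_of_mem_unit_sphere ⟨_, hx.2⟩)
  obtain ⟨b, h2⟩ := hS.bddAbove_image hc.continuousOn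
  refine ⟨max a⁻¹ b, lt_max_of_lt_left (inv_pos.2 ha), fun p hpK v => ?_⟩
  rcases eq_or_ne v 0 with rfl | hv
  · have := hh p 0 0
    simp only [smul_zero, ne_eq, OfNat.ofNat_ne_zero, not_false_eq_true, zero_pow, zero_mul] at this
    simp [this]
  have hm : (p, ‖v‖⁻¹ • v) ∈ K ×ˢ Metric.sphere (0 : E) 1 :=
    ⟨hpK, mem_sphere_zero_iff_norm.2 (norm_smul_inv_norm (𝕜 := ℝ) hv)⟩
  have h3 := hh p (‖v‖⁻¹ • v) ‖v‖
  rw [smul_inv_smul₀ (norm_ne_zero_iff.2 hv)] at h3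
  have h4 : 1 ≤ max a⁻¹ b * f p (‖v‖⁻¹ • v) :=
    (inv_mul_cancel₀ ha.ne').symm.le.trans (mul_le_mul (le_max_left _ _) (h1 _ hm) ha.le
      (le_max_of_le_left (inv_pos.2 ha).le))
  have h5 : f p (‖v‖⁻¹ • v) ≤ max a⁻¹ b := le_max_of_le_right (h2 ⟨_, hm, rfl⟩)
  have h6 := sq_nonneg ‖v‖
  rw [h3]
  constructor <;> nlinarith

variable {n : Type} [Fintype n] [DecidableEq n] {Q H : Mx n} {w : ℕ} {π : Gr n} {B : ℝ}

theorem C_sq (h : Hs Q w π) : gC w π * gC w π = 1 := by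
  rw [gC, Fa.sum_mul_sum h, ← h.sum]
  simp [← mul_pow]

theorem C_comm (h : Hs Q w π) (q : ℕ) : gC w π * π q = π q * gC w π := by
  simp only [gC, Finset.sum_mul, Finset.mul_sum, smul_mul_assoc, mul_smul_comm, h.orth]
  refine Finset.sum_congr rfl fun k _ => ?_
  rcases eq_or_ne k q with rfl | e
  · rfl
  · rw [if_neg e, if_neg e.symm]

theorem H_adj (h : Hs Q w π) (q : ℕ) : gH Q w π * π q = (π q)ᴴ * gH Q w π := by
  rw [gH, mul_assoc, C_comm h, ← mul_assoc, h.adj, mul_assoc]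

theorem H_inv (h : Hs Q w π) : gH Q w π * (Q⁻¹ * gH Q w π * Q⁻¹) = 1 := by
  rw [gH, nonsing_inv_mul_cancel_left _ _ (Fa.Q_unit h), mul_assoc, ← mul_assoc (gC w π), C_sq h,
    one_mul, mul_nonsing_inv _ (Fa.Q_unit h)]

theorem hn_le (H : Mx n) (s : n → ℂ) : hn H s ≤ Fintype.card n * ‖H‖ * ‖s‖ ^ 2 := by
  refine (re_le_norm _).trans ((norm_sum_le _ _).trans ((Finset.sum_le_card_nsmul _ _
    (‖s‖ * (‖H‖ * ‖s‖)) fun i _ => ?_).trans_eq (by simp; ring)))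
  rw [norm_mul, Pi.star_apply, norm_star]
  exact mul_le_mul (norm_le_pi_norm s i) ((norm_le_pi_norm _ i).trans (linfty_opNorm_mulVec H s))
    (norm_nonneg _) (norm_nonneg _)

omit [DecidableEq n] in
theorem hn_conj (H A : Mx n) (s : n → ℂ) : hn H (A *ᵥ s) = hn (Aᴴ * H * A) s := by
  rw [hn, hn, star_mulVec, ← dotProduct_mulVec, mulVec_mulVec, mulVec_mulVec]

omit [DecidableEq n] in
theorem cont_hn : Continuous fun x : Mx n × (n → ℂ) => hn x.1 x.2 := by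
  unfold hn
  fun_prop

/-- the set of the Hodge metrics which are bounded by `B` lies in this set -/
def HS (Q : Mx n) (B : ℝ) : Set (Mx n) :=
  {H | Hᴴ = H ∧ (∀ s, 0 ≤ hn H s ∧ hn H s ≤ B * ‖s‖ ^ 2) ∧ H * (Q⁻¹ * H * Q⁻¹) = 1}

theorem mem_HS (h : Hs Q w π) (hB : ∀ s, hn (gH Q w π) s ≤ B * ‖s‖ ^ 2) : gH Q w π ∈ HS Q B :=
  ⟨h.pos.isHermitian, fun s => ⟨h.pos.posSemidef.re_dotProduct_nonneg s, hB s⟩, H_inv h⟩

theorem posDef_of (h : H ∈ HS Q B) : H.PosDef := by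
  have h1 : H.IsHermitian := h.1
  refine (posSemidef_iff_dotProduct_mulVec.2 ⟨h1, fun s => ?_⟩).posDef_iff_isUnit.2
    (IsUnit.of_mul_eq_one _ h.2.2)
  exact Complex.nonneg_iff.2 ⟨(h.2.1 s).1, (h1.im_star_dotProduct_mulVec_self s).symm⟩

theorem closed_HS (Q : Mx n) (B : ℝ) : IsClosed (HS Q B) := by
  have hc : ∀ s : n → ℂ, Continuous fun H : Mx n => hn H s := fun s =>
    cont_hn.comp (Continuous.prodMk_left s)
  simp only [HS, ofPred_and, ofPred_forall]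
  exact (isClosed_eq (by fun_prop) continuous_id).inter ((isClosed_iInter fun s =>
    (isClosed_le continuous_const (hc s)).inter (isClosed_le (hc s) continuous_const)).inter
    (isClosed_eq (by fun_prop) continuous_const))

theorem re_le (h : H ∈ HS Q B) (s t : n → ℂ) (hs : ‖s‖ ≤ 1) (ht : ‖t‖ ≤ 1) :
    (star s ⬝ᵥ H *ᵥ t).re ≤ |B| := by
  have h1 : (star t ⬝ᵥ H *ᵥ s).re = (star s ⬝ᵥ H *ᵥ t).re := by
    rw [← conj_re, ← star_def, ← star_dotProduct_star, star_star, star_mulVec, h.1,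
      ← dotProduct_mulVec]
  have h2 := (h.2.1 (s - t)).1
  have h3 := (h.2.1 (s + t)).2
  have h4 : ‖s + t‖ ^ 2 ≤ 2 ^ 2 :=
    pow_le_pow_left₀ (norm_nonneg _) ((norm_add_le s t).trans (by linarith)) 2
  simp only [hn, star_add, star_sub, mulVec_add, mulVec_sub, add_dotProduct, sub_dotProduct,
    dotProduct_add, dotProduct_sub, add_re, sub_re] at h2 h3
  nlinarith [le_abs_self B, abs_nonneg B, sq_nonneg ‖s + t‖]

theorem entry_le (h : H ∈ HS Q B) (i j : n) : ‖H i j‖ ≤ |B| := by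
  obtain ⟨c, hc, e⟩ := exists_norm_eq_mul_self (H i j)
  have := re_le h (Pi.single i 1) (Pi.single j c) (by simp [Pi.norm_single])
    (by simp [Pi.norm_single, hc])
  have h1 : star (Pi.single i 1 : n → ℂ) ⬝ᵥ H *ᵥ Pi.single j c = ‖H i j‖ := by
    rw [e]
    simp [mul_comm]
  rwa [h1, ofReal_re] at this

theorem cpt_HS (Q : Mx n) (B : ℝ) : IsCompact (HS Q B) :=
  (isCompact_univ_pi fun _ => isCompact_univ_pi fun _ =>
    isCompact_closedBall (0 : ℂ) |B|).of_isClosed_subset (closed_HS Q B) fun _ h i _ j _ =>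
      mem_closedBall_zero_iff.2 (entry_le h i j)

open scoped MatrixOrder in
theorem tr_pos (h : H.PosDef) {A : Mx n} (hA : A ≠ 0) : 0 < (trace (A * (H⁻¹ * Aᴴ * H))).re := by
  obtain ⟨R, hR, rfl⟩ := CStarAlgebra.isStrictlyPositive_iff_eq_star_mul_self.1 h.isStrictlyPositive
  have h1 := (isUnit_iff_isUnit_det R).1 hR
  have h2 : trace (A * ((star R * R)⁻¹ * Aᴴ * (star R * R))) =
      trace (R * A * R⁻¹ * (R * A * R⁻¹)ᴴ) := by
    rw [star_eq_conjTranspose, ← mul_assoc _ Rᴴ, ← mul_assoc A, trace_mul_comm, Matrix.mul_inv_rev,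
      conjTranspose_mul, conjTranspose_mul, conjTranspose_nonsing_inv]
    simp only [mul_assoc]
  have h3 := (posSemidef_self_mul_conjTranspose (R * A * R⁻¹)).trace_nonneg
  rw [h2]
  refine (Complex.pos_iff.1 (h3.lt_of_ne' fun e => hA ?_)).1
  have h4 := trace_mul_conjTranspose_self_eq_zero_iff.1 e
  rw [← nonsing_inv_mul_cancel_left R A h1, ← nonsing_inv_mul_cancel_right R (R * A) h1, h4]
  simp

theorem bounds (Q : Mx n) (B : ℝ) : ∃ B' : ℝ, 0 < B' ∧ ∀ H ∈ HS Q B,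
    (∀ s, ‖s‖ ^ 2 ≤ B' * hn H s) ∧ ∀ A : Mx n, ‖A‖ ^ 2 ≤ B' * (trace (A * (H⁻¹ * Aᴴ * H))).re ∧
      (trace (A * (H⁻¹ * Aᴴ * H))).re ≤ B' * ‖A‖ ^ 2 := by
  have : ProperSpace (Mx n) := FiniteDimensional.proper ℂ _
  obtain ⟨B₁, p₁, h₁⟩ := hom2 (cpt_HS Q B) (f := hn) cont_hn (fun H s c => by
    simp only [hn, star_smul, star_trivial, mulVec_smul, smul_dotProduct, dotProduct_smul,
      smul_re, smul_eq_mul]
    ring) fun H hH s hs => (posDef_of hH).re_dotProduct_pos hs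
  obtain ⟨B₂, p₂, h₂⟩ := hom2 (cpt_HS Q B)
    (f := fun H (A : Mx n) => (trace (A * (Q⁻¹ * H * Q⁻¹ * Aᴴ * H))).re) (by fun_prop)
    (fun H A c => by
      simp only [conjTranspose_smul, star_trivial, smul_mul_assoc, mul_smul_comm, trace_smul,
        smul_re, smul_eq_mul]
      ring) fun H hH A hA => by
      rw [← inv_eq_right_inv hH.2.2]
      exact tr_pos (posDef_of hH) hA
  refine ⟨max B₁ B₂, lt_max_of_lt_left p₁, fun H hH => ⟨fun s => ((h₁ H hH s).1).trans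
    (mul_le_mul_of_nonneg_right (le_max_left _ _) (hH.2.1 s).1), fun A => ?_⟩⟩
  obtain ⟨h3, h4⟩ := h₂ H hH A
  rw [← inv_eq_right_inv hH.2.2] at h3 h4
  exact ⟨h3.trans (mul_le_mul_of_nonneg_right (le_max_right _ _)
    (nonneg_of_mul_nonneg_right ((sq_nonneg _).trans h3) p₂ |>.trans le_rfl)),
    h4.trans (mul_le_mul_of_nonneg_right (le_max_right _ _) (sq_nonneg _))⟩

theorem proj_le (h : Hs Q w π) {B' : ℝ} (hB : ∀ A : Mx n,
    ‖A‖ ^ 2 ≤ B' * (trace (A * ((gH Q w π)⁻¹ * Aᴴ * gH Q w π))).re) (q : ℕ) :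
    ‖π q‖ ≤ B' * Fintype.card n + 1 := by
  have hu : IsUnit (gH Q w π).det := h.pos.det_pos.ne'.isUnit
  have hq : π q * π q = π q := by simpa using h.orth q q
  have h1 := hB (π q)
  have h2 := hB (1 - π q)
  rw [mul_assoc, ← H_adj h, nonsing_inv_mul_cancel_left _ _ hu, hq] at h1
  rw [mul_assoc, conjTranspose_sub, conjTranspose_one, sub_mul 1 (π q)ᴴ, one_mul, ← H_adj h,
    mul_sub (gH Q w π)⁻¹, nonsing_inv_mul_cancel_left _ _ hu, nonsing_inv_mul _ hu, mul_sub,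
    mul_one, sub_mul, one_mul, hq, sub_self, sub_zero, trace_sub, trace_one, sub_re,
    natCast_re] at h2
  nlinarith [sq_nonneg ‖1 - π q‖, sq_nonneg (‖π q‖ - 1), sq_nonneg ‖π q‖]

end Cp

open Cp in
theorem stCpt : StCpt := by
  intro n _ _ Q w B
  obtain ⟨B', hp, hB⟩ := bounds Q B
  have hle : B' ≤ B' * (Fintype.card n + 1) + 1 := by
    nlinarith [mul_nonneg hp.le (Nat.cast_nonneg (α := ℝ) (Fintype.card n))]
  have hπ := fun π (h : Hs Q w π) hb => proj_le h fun A => ((hB _ (mem_HS h hb)).2 A).1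
  refine ⟨⟨B' * (Fintype.card n + 1) + 1, fun π h hb => ?_⟩, ?_⟩
  · obtain ⟨h1, h2⟩ := hB _ (mem_HS h hb)
    refine ⟨fun q => (hπ π h hb q).trans (by linarith), fun s => (h1 s).trans
      (mul_le_mul_of_nonneg_right hle ((mem_HS h hb).2.1 s).1), fun A => ⟨(h2 A).1.trans
      (mul_le_mul_of_nonneg_right hle (nonneg_of_mul_nonneg_right ((sq_nonneg _).trans (h2 A).1) hp)),
      (h2 A).2.trans (mul_le_mul_of_nonneg_right hle (sq_nonneg _))⟩⟩
  have : ProperSpace (Mx n) := FiniteDimensional.proper ℂ _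
  refine (isCompact_univ_pi fun _ => isCompact_closedBall (0 : Mx n)
    (B' * Fintype.card n + 1)).of_isClosed_subset ?_ fun π h q _ =>
      mem_closedBall_zero_iff.2 (hπ π h.1 h.2 q)
  have e : {π : Gr n | Hs Q w π ∧ ∀ s, hn (gH Q w π) s ≤ B * ‖s‖ ^ 2} =
      {π | ∑ q ∈ Finset.range (w + 1), π q = 1} ∩
        (⋂ q, ⋂ q', {π | π q * π q' = if q = q' then π q else 0}) ∩
        (⋂ q, ⋂ _ : w < q, {π | π q = 0}) ∩ (⋂ q, {π | Q * π q = (π q)ᴴ * Q}) ∩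
        gH Q w ⁻¹' HS Q B := by
    ext π
    simp only [mem_inter_iff, mem_iInter, mem_ofPred_eq, mem_preimage]
    exact ⟨fun h => ⟨⟨⟨⟨h.1.sum, h.1.orth⟩, h.1.top⟩, h.1.adj⟩, mem_HS h.1 h.2⟩,
      fun ⟨⟨⟨⟨a, b⟩, c⟩, d⟩, e⟩ => ⟨⟨a, b, c, d, posDef_of e⟩, fun s => (e.2.1 s).2⟩⟩
  rw [e]
  refine ((((isClosed_eq (by fun_prop) continuous_const).inter (isClosed_iInter fun q =>
    isClosed_iInter fun q' => isClosed_eq (by fun_prop) ?_)).inter (isClosed_iInter fun q =>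
    isClosed_iInter fun _ => isClosed_eq (by fun_prop) continuous_const)).inter
    (isClosed_iInter fun q => isClosed_eq (by fun_prop) (by fun_prop))).inter
    ((closed_HS Q B).preimage ?_)
  · split_ifs <;> fun_prop
  · unfold gH gC
    fun_prop

open Cp in
theorem stProp : StProp := by
  intro n _ _ Q w B
  have hb : ∀ π : Gr n, (∀ q, ‖π q‖ ≤ B) → ∀ s,
      hn (gH Q w π) s ≤ Fintype.card n * (‖Q‖ * ((w + 1) * B)) * ‖s‖ ^ 2 := fun π h s => by
    exact (hn_le _ s).trans (mul_le_mul_of_nonneg_right (mul_le_mul_of_nonneg_left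
      ((norm_mul_le _ _).trans (mul_le_mul_of_nonneg_left ((norm_sum_le _ _).trans
      ((Finset.sum_le_card_nsmul _ _ B fun q _ => by simpa [norm_smul] using h q).trans_eq
      (by simp))) (norm_nonneg _))) (Nat.cast_nonneg _)) (sq_nonneg _))
  obtain ⟨B', hp, hB⟩ := bounds Q (Fintype.card n * (‖Q‖ * ((w + 1) * B)))
  obtain ⟨R, hR⟩ := exists_nat_ge (B' * (Fintype.card n * (‖Q‖ * ((w + 1) * B))) + 1)
  refine (Finite.pi' fun _ => Finite.pi' fun _ => finite_Icc (-R : ℤ) R).subset ?_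
  rintro g ⟨hg, π, π', h, h', hn', e⟩ i j
  have h1 : (cz g)ᴴ * gH Q w π' * cz g = gH Q w π := by
    have h0 : gC w π' * cz g = cz g * gC w π := by
      simp only [gC, Finset.sum_mul, Finset.mul_sum, smul_mul_assoc, mul_smul_comm, e]
    rw [gH, mul_assoc, mul_assoc, h0, ← mul_assoc, ← mul_assoc, hg, gH]
  have h2 := (hB _ (mem_HS h' (hb π' fun q => (hn' q).2))).1 (cz g *ᵥ Pi.single j 1)
  rw [hn_conj, h1] at h2
  have h3 := h2.trans (mul_le_mul_of_nonneg_left (hb π (fun q => (hn' q).1) _) hp.le)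
  have h4 : |(g i j : ℝ)| ≤ ‖cz g *ᵥ Pi.single j 1‖ := by
    refine le_of_eq_of_le ?_ (norm_le_pi_norm (cz g *ᵥ Pi.single j 1) i)
    rw [mulVec_single_one]
    exact (norm_intCast (g i j)).symm
  rw [Pi.norm_single, norm_one, one_pow, mul_one] at h3
  have h5 : |(g i j : ℝ)| ≤ R := by
    nlinarith [sq_nonneg (‖cz g *ᵥ Pi.single j 1‖ - 1), sq_nonneg ‖cz g *ᵥ Pi.single j 1‖]
  exact abs_le.1 (by exact_mod_cast h5)

end Vale.Agent.P281Z.Hm
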