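import Vale.Agent.P281Z.Hm.Sk

/-!
# P281Z, abstract variations of Hodge structure: algebra of the flag coordinates
-/

open scoped Matrix.Norms.Operator Topology ComplexOrder
open Filter Set Matrix Complex

noncomputable section

namespace Vale.Agent.P281Z.Hm

namespace Fa

variable {n : Type} [Fintype n] [DecidableEq n] {Q : Mx n} {w : ℕ} {π π' π₀ : Gr n}

theorem sum_mul_sum (h : Hs Q w π) (s : Finset ℕ) (a b : ℕ → ℂ) :
    (∑ q ∈ s, a q • π q) * ∑ q ∈ s, b q • π q = ∑ q ∈ s, (a q * b q) • π q := by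
  rw [Finset.sum_mul_sum]
  refine Finset.sum_congr rfl fun q hq => ?_
  simp only [smul_mul_smul_comm, h.orth, smul_ite, smul_zero, Finset.sum_ite_eq, hq, if_true]

theorem F_sq (h : Hs Q w π) (k : ℕ) : gF w π k * gF w π k = gF w π k := by
  simpa [gF] using sum_mul_sum h (Finset.Icc k w) 1 1

theorem F_adj (h : Hs Q w π) (k : ℕ) : Q * gF w π k = (gF w π k)ᴴ * Q := by
  simp only [gF, conjTranspose_sum, Finset.mul_sum, Finset.sum_mul, h.adj]

theorem Q_unit (h : Hs Q w π) : IsUnit Q.det := by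
  have h1 := h.pos.det_pos.ne'
  rw [gH, det_mul] at h1
  exact (left_ne_zero_of_mul h1).isUnit

theorem tm_mul (h : Hs Q w π) (k : ℕ) : tm w π₀ π k * gF w π k = gF w π₀ k * gF w π k := by
  rw [tm, add_mul, mul_assoc, mul_assoc, sub_mul 1 (gF w π k), F_sq h, one_mul, sub_self, mul_zero,
    add_zero]

theorem mul_tm (h₀ : Hs Q w π₀) (k : ℕ) : gF w π₀ k * tm w π₀ π k = gF w π₀ k * gF w π k := by
  rw [tm, mul_add, ← mul_assoc, ← mul_assoc, mul_sub (gF w π₀ k) 1, F_sq h₀, mul_one, sub_self,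
    zero_mul, add_zero]

theorem tm_self (h₀ : Hs Q w π₀) (k : ℕ) : tm w π₀ π₀ k = 1 := by
  rw [tm, mul_sub, sub_mul, sub_mul, F_sq h₀]
  simp

theorem flag_eq (h₀ : Hs Q w π₀) (h : Hs Q w π) (hn : Near w π₀ π) (k : ℕ) :
    flag w π₀ π k = gF w π k * (tm w π₀ π k)⁻¹ := by
  rw [flag, ← mul_nonsing_inv_cancel_right _ (gF w π₀ k) (hn k), mul_tm h₀, ← tm_mul h,
    mul_assoc, nonsing_inv_mul_cancel_left _ _ (hn k)]

theorem flag_rel (h₀ : Hs Q w π₀) (h : Hs Q w π) (hn : Near w π₀ π) (k : ℕ) :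
    gF w π k * flag w π₀ π k = flag w π₀ π k ∧ flag w π₀ π k * gF w π k = gF w π k ∧
      flag w π₀ π k * gF w π₀ k = flag w π₀ π k ∧ gF w π₀ k * flag w π₀ π k = gF w π₀ k := by
  refine ⟨?_, ?_, ?_, ?_⟩
  · rw [flag_eq h₀ h hn, ← mul_assoc, F_sq h]
  · rw [flag, mul_assoc, ← tm_mul h, nonsing_inv_mul_cancel_left _ _ (hn k)]
  · rw [flag, mul_assoc, F_sq h₀]
  · rw [flag_eq h₀ h hn, ← mul_assoc, ← mul_tm h₀, mul_nonsing_inv_cancel_right _ _ (hn k)]

omit [Fintype n] [DecidableEq n] in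
theorem F_succ (π : Gr n) {q : ℕ} (hq : q ≤ w) : gF w π q = gF w π (q + 1) + π q := by
  rw [gF, gF, Finset.Icc_add_one_left_eq_Ioc, Finset.sum_Ioc_add_eq_sum_Icc hq]

theorem eq_of_F (h : Hs Q w π) (h' : Hs Q w π') (e : ∀ k ≤ w, gF w π k = gF w π' k) : π = π' := by
  have e' : ∀ k, gF w π k = gF w π' k := fun k => (le_or_gt k w).elim (e k) fun hk => by
    simp [gF, Finset.Icc_eq_empty_of_lt hk]
  funext q
  rcases le_or_gt q w with hq | hq
  · have h1 := F_succ π hq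
    rw [e', e', F_succ π' hq] at h1
    exact (add_left_cancel h1).symm
  · rw [h.top q hq, h'.top q hq]

end Fa

open Fa in
theorem stFlagA : StFlagA := by
  intro n _ _ Q w π₀ h₀
  refine ⟨fun k => by rw [tm_self h₀, det_one]; exact isUnit_one,
    fun k => by rw [flag, tm_self h₀, inv_one, one_mul], fun π h hn => flag_rel h₀ h hn,
    fun π π' h h' hn hn' e => eq_of_F h h' fun k hk => ?_⟩
  obtain ⟨a, b, -⟩ := flag_rel h₀ h hn k
  obtain ⟨a', b', -⟩ := flag_rel h₀ h' hn' k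
  have h1 : gF w π k * gF w π' k = gF w π' k := by
    rw [← b', ← e k hk, ← mul_assoc, a]
  have h2 : gF w π' k * gF w π k = gF w π k := by
    rw [← b, e k hk, ← mul_assoc, a']
  have h3 : Q * gF w π k = Q * gF w π' k := by
    rw [← h1, ← mul_assoc, F_adj h, mul_assoc, F_adj h', ← mul_assoc, ← conjTranspose_mul, h2]
  rw [← nonsing_inv_mul_cancel_left Q (gF w π k) (Q_unit h), h3,
    nonsing_inv_mul_cancel_left _ _ (Q_unit h)]

end Vale.Agent.P281Z.Hm
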