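import Vale.Agent.P281Z.Hm.Id
import Vale.Agent.P281Z.Hm.FlagA
import Vale.Agent.P268.Hol

/-!
# P281Z, flag coordinates are holomorphic, smooth variations are real analytic
-/

set_option linter.unusedSectionVars false

open scoped Matrix.Norms.Operator Topology ComplexOrder ComplexConjugate
open Filter Set Matrix Complex

noncomputable section

namespace Vale.Agent.P281Z.Hm

namespace Fl

variable {n : Type} [Fintype n] [DecidableEq n] {E : Type} [NormedAddCommGroup E]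
  [NormedSpace ℝ E] [NormedSpace ℂ E] [IsScalarTower ℝ ℂ E] {Q : Mx n} {w : ℕ} {π : E → Gr n}
  {z : E} {π₀ : Gr n}

/-- the filtration is differentiable and holomorphic at `z` -/
structure Hf (Q : Mx n) (w : ℕ) (π : E → Gr n) (z : E) : Prop where
  hs : Hs Q w (π z)
  df : ∀ k, DifferentiableAt ℝ (fun x => gF w (π x) k) z
  hol : ∀ k v, wd v (fun x => gF w (π x) k) z * gF w (π z) k = wd v (fun x => gF w (π x) k) z

theorem df_tm (h : Hf Q w π z) (k : ℕ) : DifferentiableAt ℝ (fun x => tm w π₀ (π x) k) z :=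
  (df_mul (differentiableAt_const _) (h.df k)).add
    (df_mul (differentiableAt_const _) ((differentiableAt_const _).sub (h.df k)))

theorem df_flag (h : Hf Q w π z) (hn : Near w π₀ (π z)) (k : ℕ) :
    DifferentiableAt ℝ (fun x => flag w π₀ (π x) k) z :=
  df_mul (df_inv (df_tm h k) (hn k).ne_zero) (differentiableAt_const _)

theorem near_ev (h : Hf Q w π z) (hn : Near w π₀ (π z)) : ∀ᶠ x in 𝓝 z, Near w π₀ (π x) := by
  have h1 : ∀ᶠ x in 𝓝 z, ∀ k ∈ Finset.range (w + 1), (tm w π₀ (π x) k).det ≠ 0 :=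
    (Finset.eventually_all _).2 fun k _ =>
      (df_det (df_tm h k)).continuousAt.eventually_ne (hn k).ne_zero
  filter_upwards [h1] with x hx k
  rcases le_or_gt k w with hk | hk
  · exact (hx k (Finset.mem_range.2 (Nat.lt_succ_of_le hk))).isUnit
  · simp [tm, gF, Finset.Icc_eq_empty_of_lt hk]

theorem F_wb (h : ∀ᶠ x in 𝓝 z, Hf Q w π x) (k : ℕ) (v : E) :
    gF w (π z) k * wb v (fun x => gF w (π x) k) z = wb v (fun x => gF w (π x) k) z := by
  have h0 := h.self_of_nhds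
  have d := h0.df k
  have e := wb_congr (h.mono fun x hx => hx.hs.Q_F k) v
  rw [wb_const_mul Q d, wb_mul_const (df_ct d), wb_ct d] at e
  have e2 : Q * (gF w (π z) k * wb v (fun x => gF w (π x) k) z) =
      Q * wb v (fun x => gF w (π x) k) z := by
    rw [← Matrix.mul_assoc, h0.hs.Q_F, Matrix.mul_assoc, e, ← Matrix.mul_assoc,
      ← conjTranspose_mul, h0.hol]
  simpa only [nonsing_inv_mul_cancel_left _ _ h0.hs.det_Q] using congrArg (Q⁻¹ * ·) e2

theorem rel_ev (h : ∀ᶠ x in 𝓝 z, Hf Q w π x) (h₀ : Hs Q w π₀) (hn : Near w π₀ (π z)) (k : ℕ) :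
    ∀ᶠ x in 𝓝 z, gF w (π x) k * flag w π₀ (π x) k = flag w π₀ (π x) k ∧
      flag w π₀ (π x) k * gF w (π x) k = gF w (π x) k ∧
      flag w π₀ (π x) k * gF w π₀ k = flag w π₀ (π x) k ∧
      gF w π₀ k * flag w π₀ (π x) k = gF w π₀ k :=
  (h.and (near_ev h.self_of_nhds hn)).mono fun _ hx => Fa.flag_rel h₀ hx.1.hs hx.2 k

theorem wb_flag (h : ∀ᶠ x in 𝓝 z, Hf Q w π x) (h₀ : Hs Q w π₀) (hn : Near w π₀ (π z)) (k : ℕ)
    (v : E) : wb v (fun x => flag w π₀ (π x) k) z = 0 := by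
  have h0 := h.self_of_nhds
  have r := rel_ev h h₀ hn k
  obtain ⟨-, r2, r3, -⟩ := r.self_of_nhds
  have d := df_flag h0 hn k
  have e1 := wb_congr (r.mono fun x hx => hx.1) v
  have e2 := wb_congr (r.mono fun x hx => hx.2.2.2) v
  rw [wb_mul (h0.df k) d] at e1
  rw [wb_const_mul _ d, wb_const] at e2
  have e3 := F_wb h k v
  set B := wb v (fun x => flag w π₀ (π x) k) z
  have e4 : gF w (π z) k * B = B := by
    conv_lhs => rw [← e1]
    rw [Matrix.mul_add, ← Matrix.mul_assoc, ← Matrix.mul_assoc, e3, h0.hs.F_idem, e1]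
  rw [← e4, ← r2, Matrix.mul_assoc, e4, ← r3, Matrix.mul_assoc, e2, Matrix.mul_zero]

theorem an_flag [FiniteDimensional ℂ E] (h : ∀ᶠ x in 𝓝 z, Hf Q w π x) (h₀ : Hs Q w π₀)
    (hn : Near w π₀ (π z)) (k : ℕ) : AnalyticAt ℂ (fun x => flag w π₀ (π x) k) z := by
  obtain ⟨U, h1, h2, h3⟩ := _root_.eventually_nhds_iff.1
    (h.eventually_nhds.and (near_ev h.self_of_nhds hn))
  refine an_of fun i j => P268.analyticOnNhd_of_differentiableOn h2 (fun x hx => ?_) z h3
  obtain ⟨h4, h5⟩ := h1 x hx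
  have d := df_flag h4.self_of_nhds h5 k
  refine (hol_of_wb (df_ent d i j) fun v => ?_).differentiableWithinAt
  rw [← wb_ent d, wb_flag h4 h₀ h5]
  rfl

theorem an_F [FiniteDimensional ℂ E] (h : ∀ᶠ x in 𝓝 z, Hf Q w π x) (k : ℕ) :
    AnalyticAt ℝ (fun x => gF w (π x) k) z := by
  have h₀ := h.self_of_nhds.hs
  obtain ⟨hn, hf, -⟩ := stFlagA n Q w (π z) h₀
  have a : AnalyticAt ℝ (fun x => flag w (π z) (π x) k) z :=
    an_of fun i j => (an_ent (an_flag h h₀ hn k) i j).restrictScalars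
  set G : E → Mx n := fun x => flag w (π z) (π x) k with hG
  set F₀ := gF w (π z) k with hF
  have i0 : F₀ * F₀ = F₀ := h₀.F_idem k
  have q0 : F₀ᴴ * Q = Q * F₀ := (h₀.Q_F k).symm
  set A : E → Mx n := fun x => (G x)ᴴ * Q * G x + (1 - F₀)ᴴ * Q * (1 - F₀) with hA
  have aA : AnalyticAt ℝ A z := (an_mul (an_mul (an_ct a) analyticAt_const) a).add analyticAt_const
  have A0 : A z = Q := by
    have : G z = F₀ := hf k
    simp only [hA, this, conjTranspose_sub, conjTranspose_one, Matrix.sub_mul, q0, Matrix.one_mul]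
    simp only [Matrix.mul_sub, Matrix.mul_one, Matrix.mul_assoc, i0]
    abel
  have hd : (A z).det ≠ 0 := by rw [A0]; exact h₀.det_Q.ne_zero
  refine (an_mul a (an_mul (an_inv aA hd) (an_mul (an_ct a) (analyticAt_const (v := Q))))).congr ?_
  filter_upwards [h, rel_ev h h₀ hn k, (an_det aA).continuousAt.eventually_ne hd]
    with x hx ⟨r1, r2, r3, _⟩ hu
  have e : A x * (F₀ * gF w (π x) k) = (G x)ᴴ * Q := by
    simp only [hA]
    rw [← Matrix.mul_assoc, Matrix.add_mul, Matrix.mul_assoc _ (1 - F₀), Matrix.sub_mul 1, i0,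
      Matrix.one_mul, sub_self, Matrix.mul_zero, add_zero, Matrix.mul_assoc _ (G x), r3,
      Matrix.mul_assoc _ (G x), r2, Matrix.mul_assoc, hx.hs.Q_F, ← Matrix.mul_assoc,
      ← conjTranspose_mul, r1]
  rw [← e, nonsing_inv_mul_cancel_left _ _ hu.isUnit, ← Matrix.mul_assoc, r3, r2]

theorem of_lv (h : LVAt Q w π z) : Hf Q w π z :=
  ⟨h.hs0, fun k => (h.an_F k).differentiableAt, fun k v => by
    rw [h.dF, Matrix.mul_assoc, h.hs0.mul_F, if_pos le_rfl]⟩

section sm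
open Vale.Agent.P272.K.C2 (DM)

variable {p n w : ℕ} {Q : Hg.Mt n} {Pr : ℕ → (Fin p → ℂ) → Hg.Mt n} {t : Fin p → ℂ}

theorem wd_DM {f : (Fin p → ℂ) → Mx (Fin n)} (hf : DifferentiableAt ℝ f t) (v : Fin p → ℂ) :
    wd v f t = ∑ j, v j • DM j f t := by
  conv_lhs => rw [← Finset.univ_sum_single v]
  simp only [show ∀ j, (Pi.single j (v j) : Fin p → ℂ) = v j • Pi.single j 1 from fun j => by
    rw [← Pi.single_smul, smul_eq_mul, mul_one]]
  rw [wd_sumv]
  refine Finset.sum_congr rfl fun j _ => ?_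
  congr 1
  ext a b
  rw [wd_ent hf, wd_single]
  rfl

theorem hs_of (h : Hg.PVAt w Q Pr t) : Hs ((-1 : ℂ) ^ w • Q) w fun q => Pr q t := by
  refine ⟨h.sum, fun q q' => ?_, h.zero, fun q => ?_, ?_⟩
  · rw [h.orth]
    split_ifs with e
    · rw [e]
    · rfl
  · rw [smul_mul_assoc, mul_smul_comm, h.adj]
  · convert h.pos using 1
    rw [gH, smul_mul_assoc, ← mul_smul_comm, gC, Finset.smul_sum]
    congr 1
    refine Finset.sum_congr rfl fun q hq => ?_
    obtain ⟨r, rfl⟩ := Nat.exists_eq_add_of_le (Nat.lt_succ_iff.1 (Finset.mem_range.1 hq))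
    rw [smul_smul, Nat.add_sub_cancel_left, pow_add, mul_right_comm, ← mul_pow]
    simp

theorem df_Pr (h : Hg.PVAt w Q Pr t) (q : ℕ) : DifferentiableAt ℝ (Pr q) t :=
  df_of fun i j => (h.smooth q i j).differentiableAt (by simp)

theorem of_pv (h : ∀ᶠ s in 𝓝 t, Hg.PVAt w Q Pr s) :
    Hf ((-1 : ℂ) ^ w • Q) w (fun x q => Pr q x) t := by
  have h0 := h.self_of_nhds
  have d : ∀ k, DifferentiableAt ℝ (fun x => gF w (fun q => Pr q x) k) t := fun k =>
    DifferentiableAt.fun_sum fun q _ => df_Pr h0 q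
  refine ⟨hs_of h0, d, fun k v => ?_⟩
  rcases k with _ | k
  · rw [(hs_of h0).F_zero, Matrix.mul_one]
  · have e : (fun x => gF w (fun q => Pr q x) (k + 1)) = Hg.Fp w Pr (k + 1) := by
      funext x
      rw [gF, Hg.Fp, Finset.Ico_add_one_right_eq_Icc]
    rw [wd_DM (d _), Finset.sum_mul, e]
    refine Finset.sum_congr rfl fun j _ => ?_
    rw [smul_mul_assoc, h0.trans, Matrix.mul_assoc _ (Pr (k + 1) t), (hs_of h0).mul_F,
      if_pos le_rfl]

end sm

end Fl

open Fl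

theorem stFlag : StFlag := by
  intro n _ _ E _ _ _ _ _ Q w π z π₀ h h₀ hn
  have hf := h.ev.mono fun x hx => of_lv hx
  refine ⟨near_ev (of_lv h) hn, fun k => ⟨an_flag hf h₀ hn k, fun v => ?_⟩⟩
  have r := rel_ev hf h₀ hn k
  obtain ⟨r1, -, -, r4⟩ := r.self_of_nhds
  have d := df_flag (of_lv h) hn k
  have e1 := wd_congr (r.mono fun x hx => hx.2.1) v
  have e2 := wd_congr (r.mono fun x hx => hx.2.2.1) v
  rw [wd_mul d (h.an_F k).differentiableAt, h.dF] at e1
  rw [wd_mul_const d] at e2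
  rw [← wd_mhol (an_flag hf h₀ hn k).differentiableAt]
  set D := wd v (fun x => flag w π₀ (π x) k) z
  have e3 : D * gF w (π z) k = (1 - flag w π₀ (π z) k) * (th w π z v * π z k) := by
    rw [Matrix.sub_mul, Matrix.one_mul]
    exact eq_sub_of_add_eq e1
  have e4 : gF w (π z) k * (th w π z v * π z k) = 0 := by
    rcases k with _ | k
    · rw [h.hs0.low_zero (h.low v), Matrix.mul_zero]
    · rw [← h.hs0.low (h.low v), ← Matrix.mul_assoc, h.hs0.F_mul, if_neg (by omega),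
        Matrix.zero_mul]
  constructor
  · rw [Matrix.mul_assoc, e3, ← Matrix.mul_assoc, Matrix.mul_sub, Matrix.mul_one, Matrix.sub_mul 1,
      r1, Matrix.one_mul, sub_self, sub_zero, Matrix.sub_mul, e4, Matrix.one_mul, sub_zero]
  · rw [Matrix.mul_assoc _ (th w π z v), ← e3, Matrix.mul_assoc, r1, ← e2, Matrix.mul_assoc, r4]

theorem stSmAn : StSmAn := by
  intro p n w Q Pr t h
  have hf := h.eventually_nhds.mono fun x hx => of_pv hx
  refine ⟨fun q => ((an_F hf q).sub (an_F hf (q + 1))).congr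
    (h.mono fun x hx => ((hs_of hx).F_sub q).symm), h.mono fun x hx => hs_of hx,
    h.mono fun x hx v => ?_⟩
  have d : DifferentiableAt ℝ (Hg.Pw w Pr) x :=
    DifferentiableAt.fun_sum fun q _ => df_msmul _ (df_Pr hx q)
  change Hg.Pw w Pr x * wd v (Hg.Pw w Pr) x - wd v (Hg.Pw w Pr) x * Hg.Pw w Pr x =
    -wd v (Hg.Pw w Pr) x
  rw [wd_DM d, Finset.mul_sum, Finset.sum_mul, ← Finset.sum_sub_distrib, ← Finset.sum_neg_distrib]
  refine Finset.sum_congr rfl fun j _ => ?_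
  rw [mul_smul_comm, smul_mul_assoc, ← smul_sub, hx.comm, smul_neg]

end Vale.Agent.P281Z.Hm
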