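import Vale.Agent.P281Z.Hm.Id

/-!
# P281Z, the curvature of the line (LINE)
-/

set_option linter.unusedSectionVars false

open scoped Matrix.Norms.Operator Topology ComplexOrder ComplexConjugate
open Filter Set Matrix Complex

noncomputable section

namespace Vale.Agent.P281Z.Hm

open Vale.Agent.P284Z (levi)

variable {n : Type} [Fintype n] [DecidableEq n] {E : Type} [NormedAddCommGroup E]
  [NormedSpace ℝ E] [NormedSpace ℂ E] [IsScalarTower ℝ ℂ E] {Q : Mx n} {w : ℕ} {π : E → Gr n}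
  {ψ : E → n → ℂ} {z : E}

theorem wb_wd_hol {F : Type} [NormedAddCommGroup F] [NormedSpace ℝ F] [NormedSpace ℂ F]
    [IsScalarTower ℝ ℂ F] [CompleteSpace F] {f : E → F} (hf : AnalyticAt ℂ f z) (u v : E) :
    wb v (wd u f) z = 0 := by
  rw [← wd_wb_comm (an_c2 hf.restrictScalars), wd_congr (g := fun _ => 0)
    (hf.eventually_analyticAt.mono fun x hx => wb_hol hx.differentiableAt v), wd_const]

namespace LineH

theorem top_th (h : LVAt Q w π z) (v : E) : π z w * th w π z v = 0 := by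
  rw [h.hs0.low (h.low v), h.hs0.top _ (Nat.lt_succ_self w), Matrix.mul_zero]

/-- the derivative of the frame -/
theorem der (h : LVAt Q w π z) (l : LnAt w π ψ z) (v : E) :
    ∃ c : ℂ, fderiv ℂ ψ z v = c • ψ z + th w π z v *ᵥ ψ z := by
  obtain ⟨c, hc⟩ := l.one.self_of_nhds v
  have e := wd_congr l.top v
  rw [wd_mulVec (h.an w).differentiableAt l.an.restrictScalars.differentiableAt, h.dπ, top_th h,
    sub_zero, ← mulVec_mulVec, l.top.self_of_nhds, wd_hol l.an.differentiableAt, hc] at e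
  exact ⟨c, by rw [← e, add_comm]⟩

theorem wd_q (hψ : AnalyticAt ℂ ψ z) (v : E) :
    wd v (fun x => star (ψ x) ⬝ᵥ Q *ᵥ ψ x) z = star (ψ z) ⬝ᵥ Q *ᵥ wd v ψ z := by
  have d := (hψ.restrictScalars (𝕜 := ℝ)).differentiableAt
  rw [wd_dot (df_star d) (df_mulVec (differentiableAt_const Q) d), wd_star d,
    wb_hol hψ.differentiableAt, wd_mulVec (differentiableAt_const Q) d, wd_const]
  simp

theorem wb_wd_q (hψ : AnalyticAt ℂ ψ z) (v : E) :
    wb v (wd v fun x => star (ψ x) ⬝ᵥ Q *ᵥ ψ x) z = star (wd v ψ z) ⬝ᵥ Q *ᵥ wd v ψ z := by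
  have d := (hψ.restrictScalars (𝕜 := ℝ)).differentiableAt
  have d' := (an_wd (hψ.restrictScalars (𝕜 := ℝ)) v).differentiableAt
  rw [wb_congr (hψ.eventually_analyticAt.mono fun x hx => wd_q hx v),
    wb_dot (df_star d) (df_mulVec (differentiableAt_const Q) d'), wb_star d,
    wb_mulVec (differentiableAt_const Q) d', wb_const, wb_wd_hol hψ]
  simp

end LineH

open LineH in
/-- **LINE** -/
theorem stLine : StLine := by
  intro n _ _ E _ _ _ _ Q w π ψ z h l
  have ha := an_hn h.an_H (l.an.restrictScalars (𝕜 := ℝ))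
  have h0 := hn_pos h.hs0.pos l.ne
  refine ⟨ha, h0, fun v => ?_⟩
  obtain ⟨c, hc⟩ := der h l v
  have ht := l.top.self_of_nhds
  have t0 : π z w *ᵥ (th w π z v *ᵥ ψ z) = 0 := by rw [mulVec_mulVec, top_th h, zero_mulVec]
  refine ⟨?_, ?_, fun e => ?_, fun e => ?_⟩
  · have e : (fun x => (hn (gH Q w (π x)) (ψ x) : ℂ)) =ᶠ[𝓝 z]
        fun x => star (ψ x) ⬝ᵥ ((-1 : ℂ) ^ w • Q) *ᵥ ψ x := by
      filter_upwards [h.hs, l.top] with x a b
      rw [hn_ofReal a.pos.1, a.H_top b, smul_mulVec]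
    have q1 : star (ψ z) ⬝ᵥ Q *ᵥ (th w π z v *ᵥ ψ z) = 0 := by
      conv_lhs => rw [← ht, star_mulVec, ← dotProduct_mulVec, mulVec_mulVec, ← h.hs0.adj,
        ← mulVec_mulVec, ht, t0]
      simp
    have q2 : star (th w π z v *ᵥ ψ z) ⬝ᵥ Q *ᵥ ψ z = 0 := by
      conv_lhs => rw [← congrArg (Q *ᵥ ·) ht, mulVec_mulVec, h.hs0.adj, ← mulVec_mulVec,
        dotProduct_mulVec, ← star_mulVec, t0]
      simp
    have q3 : star (th w π z v *ᵥ ψ z) ⬝ᵥ ((-1 : ℂ) ^ w • Q) *ᵥ (th w π z v *ᵥ ψ z) =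
        -(hn (gH Q w (π z)) (th w π z v *ᵥ ψ z) : ℂ) := by
      have k : gC w (π z) *ᵥ ψ z = (-1 : ℂ) ^ w • ψ z := by
        conv_lhs => rw [← ht, mulVec_mulVec, h.hs0.C_mul, smul_mulVec, ht]
      rw [hn_ofReal h.hs0.pos.1, gH, ← mulVec_mulVec, mulVec_mulVec _ (gC w (π z)),
        h.hs0.low_C (h.low v), neg_mulVec, ← mulVec_mulVec, k, mulVec_neg, dotProduct_neg, neg_neg,
        mulVec_smul, mulVec_smul, smul_mulVec]
    have q4 := e.self_of_nhds
    rw [levi_neg, levi_log ha.contDiffAt h0.ne', levi_eq ha.contDiffAt, wb_congr (wd_congr_ev e v),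
      wd_congr e, wb_wd_q l.an, wd_q l.an, wd_hol l.an.differentiableAt, hc]
    simp only [star_add, star_smul, mulVec_add, mulVec_smul, add_dotProduct, dotProduct_add,
      smul_dotProduct, dotProduct_smul, q3, ← q4]
    simp only [smul_mulVec, dotProduct_smul, q1, q2, mul_zero, add_zero, zero_add, smul_eq_mul,
      star_def, ← mul_assoc, norm_mul, norm_real, Real.norm_eq_abs, mul_pow, sq_abs]
    rw [show c * conj c * (hn (gH Q w (π z)) (ψ z) : ℂ) + -(hn (gH Q w (π z)) (th w π z v *ᵥ ψ z) : ℂ) =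
      ((‖c‖ ^ 2 * hn (gH Q w (π z)) (ψ z) - hn (gH Q w (π z)) (th w π z v *ᵥ ψ z) : ℝ) : ℂ) by
        rw [mul_conj']; push_cast; ring, ofReal_re]
    field_simp
    ring
  · rw [omH, omB, h.ts_eq]
    exact hn_mulVec_le h.hs0.pos _ _
  · exact Submodule.mem_span_singleton.2 ⟨c, by rw [e, add_zero] at hc; exact hc.symm⟩
  · obtain ⟨c', e'⟩ := Submodule.mem_span_singleton.1 e
    have k : th w π z v *ᵥ ψ z = (c' - c) • ψ z := by
      rw [sub_smul, e', eq_sub_iff_add_eq, add_comm]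
      exact hc.symm
    rw [k, mulVec_smul, ht] at t0
    exact k.trans t0

end Vale.Agent.P281Z.Hm
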