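import Vale.Agent.P281Z.Hm.Lift
import Vale.Agent.P281Z.Hm.Id
import Vale.Agent.P281Z.Hm.Sk2
import Vale.Agent.P284Z.F0.Ball

/-!
# P281Z: moderate growth from integrability (L1)
-/

open scoped Matrix.Norms.Operator Topology Manifold ContDiff
open Filter Set Metric Complex MeasureTheory

noncomputable section

namespace Vale.Agent.P281Z.Hm

open DescH LiftH

namespace L1

variable {p : ℕ} {K : Finset (Fin p)} {ζ σ : Fin p → ℂ}

/-- the modulus of the monomial -/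
def mo (K : Finset (Fin p)) (σ : Fin p → ℂ) : ℝ := ∏ i ∈ K, ‖σ i‖

theorem st_dm {R η : ℝ} (hη : 0 < η) (h : ζ ∈ St K R η) : ζ ∈ Dm K :=
  ⟨fun i hi => hη.trans_le (h.1.1 i hi), fun i hi => (h.1.2 i hi).trans_lt (sub_lt_self _ hη)⟩

theorem mo_pos (ζ : Fin p → ℂ) : 0 < mo K (ex K 1 ζ) :=
  Finset.prod_pos fun _ hi => norm_pos_iff.2 (ex_ne ζ hi)

theorem ex_le (h : ζ ∈ Dm K) (i : Fin p) : ‖ex K 1 ζ i‖ ≤ 1 :=
  (norm_le_pi_norm _ i).trans (mem_ball_zero_iff.1 ((mem_dm one_pos).1 h)).le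

theorem mo_le (h : ζ ∈ Dm K) {i : Fin p} (hi : i ∈ K) : mo K (ex K 1 ζ) ≤ ‖ex K 1 ζ i‖ := by
  rw [mo, ← Finset.mul_prod_erase _ _ hi]
  exact mul_le_of_le_one_right (norm_nonneg _)
    (Finset.prod_le_one (fun _ _ => norm_nonneg _) fun j _ => ex_le h j)

theorem mo_le_one (h : ζ ∈ Dm K) : mo K (ex K 1 ζ) ≤ 1 :=
  Finset.prod_le_one (fun _ _ => norm_nonneg _) fun j _ => ex_le h j

theorem pl_mo (h : ζ ∈ Dm K) : pl K ζ * mo K (ex K 1 ζ) ≤ 1 := by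
  rw [pl, mo, ← Finset.prod_mul_distrib]
  refine Finset.prod_le_one (fun i hi => mul_nonneg (by linarith [h.1 i hi]) (norm_nonneg _))
    fun i hi => ?_
  rw [ex, if_pos hi, norm_e, Real.exp_neg, mul_inv_le_iff₀ (Real.exp_pos _), one_mul]
  refine le_trans ?_ (Real.add_one_le_exp _)
  rw [Nat.cast_one, div_one]
  nlinarith [Real.pi_gt_three, h.1 i hi]

theorem absorb (h : ζ ∈ Dm K) {x y B : ℝ} {N : ℕ} (hy : 0 ≤ y) (e : x ≤ B * pl K ζ ^ N * y) :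
    x * mo K (ex K 1 ζ) ^ N ≤ |B| * y := by
  have h0 : 0 ≤ pl K ζ := Finset.prod_nonneg fun i hi => by linarith [h.1 i hi]
  have h1 := (mo_pos (K := K) ζ).le
  have h2 : (pl K ζ * mo K (ex K 1 ζ)) ^ N ≤ 1 := pow_le_one₀ (mul_nonneg h0 h1) (pl_mo h)
  calc x * mo K (ex K 1 ζ) ^ N ≤ |B| * pl K ζ ^ N * y * mo K (ex K 1 ζ) ^ N := by
        gcongr
        exact e.trans (by gcongr; exact le_abs_self B)
    _ = |B| * y * (pl K ζ * mo K (ex K 1 ζ)) ^ N := by ring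
    _ ≤ |B| * y := mul_le_of_le_one_right (by positivity) h2

theorem near (h : ζ ∈ Dm K) (hσ : σ ∈ ball (ex K 1 ζ) (mo K (ex K 1 ζ) / 4)) {i : Fin p}
    (hi : i ∈ K) : ‖σ i / ex K 1 ζ i - 1‖ ≤ 1 / 4 := by
  have h0 := ex_ne (a := 1) ζ hi
  rw [div_sub_one h0, norm_div, div_le_iff₀ (norm_pos_iff.2 h0)]
  have h1 : ‖σ i - ex K 1 ζ i‖ ≤ _ := norm_le_pi_norm (σ - ex K 1 ζ) i
  linarith [mem_ball_iff_norm.1 hσ, mo_le h hi]

theorem near_ne (h : ζ ∈ Dm K) (hσ : σ ∈ ball (ex K 1 ζ) (mo K (ex K 1 ζ) / 4)) (i : Fin p)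
    (hi : i ∈ K) : σ i ≠ 0 := fun e => by
  have := near h hσ hi
  norm_num [e] at this

theorem lb_mem (h : ζ ∈ St K 1 (1 / 2)) (hσ : σ ∈ ball (ex K 1 ζ) (mo K (ex K 1 ζ) / 4)) :
    lb K 1 ζ (ex K 1 ζ) σ ∈ St K 2 (1 / 4) := by
  have hd := st_dm one_half_pos h
  have h1 : ∀ i ∈ K, ‖lb K 1 ζ (ex K 1 ζ) σ i - ζ i‖ ≤ 1 / 4 := fun i hi => by
    have h2 := near hd hσ hi
    have h3 := norm_log_one_add_half_le_self (h2.trans (by norm_num))
    rw [add_sub_cancel] at h3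
    rw [lb, if_pos hi, add_sub_cancel_left, Nat.cast_one, one_mul, norm_div,
      div_le_iff₀ (norm_pos_iff.2 two_pi_I_ne_zero)]
    have h4 : ‖(2 * Real.pi * I : ℂ)‖ = 2 * Real.pi := by simp [Real.pi_pos.le]
    rw [h4]
    linarith [Real.pi_gt_three]
  refine ⟨⟨fun i hi => ?_, fun i hi => ?_⟩, fun i hi => ?_⟩
  · have := abs_le.1 ((abs_im_le_norm _).trans (h1 i hi))
    rw [sub_im] at this
    linarith [h.1.1 i hi]
  · have h2 : ‖σ i - ex K 1 ζ i‖ ≤ _ := norm_le_pi_norm (σ - ex K 1 ζ) i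
    rw [ex, if_neg hi] at h2
    rw [lb, if_neg hi]
    linarith [mem_ball_iff_norm.1 hσ, mo_le_one hd, h.1.2 i hi, norm_sub_norm_le (σ i) (ζ i)]
  · have := abs_le.1 ((abs_re_le_norm _).trans (h1 i hi))
    have h2 := abs_le.1 (h.2 i hi)
    rw [sub_re] at this
    exact abs_le.2 ⟨by linarith, by linarith⟩

theorem lb_df (h : ζ ∈ Dm K) (hσ : σ ∈ ball (ex K 1 ζ) (mo K (ex K 1 ζ) / 4)) :
    DifferentiableAt ℂ (lb K 1 ζ (ex K 1 ζ)) σ := by
  refine differentiableAt_pi.2 fun i => ?_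
  unfold lb
  split_ifs with hi
  · have h1 : DifferentiableAt ℂ (fun s : Fin p → ℂ => log (s i / ex K 1 ζ i)) σ :=
      DifferentiableAt.clog (by simp only [div_eq_mul_inv]; fun_prop) (by
        simpa using mem_slitPlane_of_norm_lt_one ((near h hσ hi).trans_lt (by norm_num)))
    simp only [div_eq_mul_inv _ (2 * Real.pi * I : ℂ)]
    exact ((h1.const_mul _).mul_const _).const_add _
  · fun_prop

/-- the mean value inequality on the model -/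
theorem model {F : Type} [NormedAddCommGroup F] [NormedSpace ℂ F] {Ψ : (Fin p → ℂ) → F}
    (hΨ : ∀ ζ ∈ Dm K, DifferentiableAt ℂ Ψ ζ) {δ a : ℝ} (hδ : 0 ≤ δ) {G : (Fin p → ℂ) → ℝ}
    (hG : Integrable G)
    (h : ∀ ζ ∈ St K 2 (1 / 4), ‖Ψ ζ‖ ^ δ * mo K (ex K 1 ζ) ^ a ≤ G (ex K 1 ζ)) :
    ∃ (M : ℝ) (d : ℕ), ∀ ζ ∈ St K 1 (1 / 2),
      ‖Ψ ζ‖ ^ δ * mo K (ex K 1 ζ) ^ a * mo K (ex K 1 ζ) ^ d ≤ M := by
  have hV : 0 < (volume : Measure (Fin p → ℂ)).real (ball 0 1) :=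
    ENNReal.toReal_pos (measure_ball_pos _ _ one_pos).ne' measure_ball_lt_top.ne
  refine ⟨(∫ σ, ‖G σ‖) / volume.real (ball (0 : Fin p → ℂ) 1) * 8 ^ Module.finrank ℝ (Fin p → ℂ),
    Module.finrank ℝ (Fin p → ℂ), fun ζ hζ => ?_⟩
  have hd := st_dm one_half_pos hζ
  have hm := mo_pos (K := K) ζ
  have hP : P284Z.LPsh (fun σ => ‖Ψ (lb K 1 ζ (ex K 1 ζ) σ)‖ ^ δ * ‖∏ i ∈ K, σ i‖ ^ a)
      (ball (ex K 1 ζ) (mo K (ex K 1 ζ) / 4)) :=
    ((P284Z.lpsh_norm isOpen_ball fun σ hσ => ((hΨ _ (st_dm (by norm_num) (lb_mem hζ hσ))).comp σ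
      (lb_df hd hσ)).differentiableWithinAt).rpow hδ).mul
      (P284Z.lpsh_norm_rpow isOpen_ball (by fun_prop)
        (fun σ hσ => Finset.prod_ne_zero_iff.2 (near_ne hd hσ)) a)
  have hs : closedBall (ex K 1 ζ) (mo K (ex K 1 ζ) / 8) ⊆ ball (ex K 1 ζ) (mo K (ex K 1 ζ) / 4) :=
    closedBall_subset_ball (by linarith)
  have h1 := hP.psh.le_ball volume hP.lb hs
  have h2 : ∫ σ in ball (ex K 1 ζ) (mo K (ex K 1 ζ) / 8),
      ‖Ψ (lb K 1 ζ (ex K 1 ζ) σ)‖ ^ δ * ‖∏ i ∈ K, σ i‖ ^ a ≤ ∫ σ, ‖G σ‖ := by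
    refine le_trans (integral_mono_of_nonneg (.of_forall fun σ => by positivity)
      hG.norm.integrableOn ((ae_restrict_mem measurableSet_ball).mono fun σ hσ => ?_))
      (setIntegral_le_integral hG.norm (.of_forall fun σ => norm_nonneg _))
    have hσ' := hs (ball_subset_closedBall hσ)
    have h3 := h _ (lb_mem hζ hσ')
    rw [ex_lb one_pos (fun _ _ => rfl) (near_ne hd hσ')] at h3
    simp only [norm_prod]
    exact h3.trans (le_abs_self _)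
  rw [lb_self, norm_prod, measureReal_def, Measure.addHaar_ball_of_pos _ _ (by positivity),
    ENNReal.toReal_mul, ENNReal.toReal_ofReal (by positivity), ← mul_assoc, div_pow,
    ← mul_div_assoc] at h1
  rw [← div_le_iff₀ (by positivity), le_div_iff₀ hV]
  exact h1.trans h2

variable {Y : Type} [TopologicalSpace Y] [ChartedSpace (Fin p → ℂ) Y]

theorem prod_crd (S : Snc p Y) (y : Y) {ρ : ℝ} (hρ : 0 < ρ) (σ : Fin p → ℂ) (A : ℝ) :
    ∏ l, S.ab y l (chartAt (Fin p → ℂ) y y + (ρ : ℂ) • σ) ^ A =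
      (ρ ^ (S.K y).card) ^ A * mo (S.K y) σ ^ A := by
  rw [S.prod_ab y _ (· ^ A) (Real.one_rpow A), Real.finsetProd_rpow _ _ fun _ _ => norm_nonneg _,
    mo, ← Real.mul_rpow (by positivity) (by positivity), ← Finset.prod_const,
    ← Finset.prod_mul_distrib]
  refine congrArg (· ^ A) (Finset.prod_congr rfl fun i hi => ?_)
  rw [Pi.add_apply, S.zero_K hi, zero_add, Pi.smul_apply, norm_smul, norm_real,
    Real.norm_of_nonneg hρ.le]

end L1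

open L1 in
theorem stL1L (hGr : StGrow) : StL1L := by
  intro p Y _ _ _ S C n _ _ V ψ u y O hO hψ hu δ A hδ O' hO' hI
  obtain ⟨ρ, f, g, h, hb⟩ := exists_bdl C y
    (inter_mem hO ((chartAt (Fin p → ℂ) y).continuousAt (mem_chart_source _ y) hO'))
  obtain ⟨h1, -, -⟩ := (stLift p Y S C).2.2 y ρ f g h
  have hρ := h.pos
  have hU : ∀ ζ ∈ Dm (S.K y), C.π (f ζ) ∈ O := fun ζ hζ =>
    h.eq ζ hζ ▸ (hb _ (pt_mem hρ _ ((mem_dm one_pos).1 hζ))).1
  obtain ⟨B, N, hB⟩ := (hGr n p (S.K y) V.Q V.w (fun ζ => V.gr (f ζ))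
    (fun ζ hζ => V.lv _ f ζ (h1 ζ hζ).1) (1 / 4) (by norm_num)).2 2
  have h0 : ∀ ζ, 0 ≤ hn (gH V.Q V.w (V.gr (f ζ))) (ψ (f ζ)) := fun ζ => hn_nonneg (V.hs _).pos _
  have hI' := (integrable_indicator_iff measurableSet_ball).2 (hI.mono_set
    (s := ball (chartAt (Fin p → ℂ) y y) ρ) fun z hz =>
      (chartAt (Fin p → ℂ) y).right_inv (h.sub hz) ▸ (hb z hz).2)
  obtain ⟨M, d, hM⟩ := model (K := S.K y) (Ψ := fun ζ => ψ (f ζ)) (δ := 2 * δ) (a := N * δ + A)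
    (fun ζ hζ => (hψ f ζ (h1 ζ hζ).1 (hU ζ hζ)).differentiableAt) (by positivity)
    (((hI'.comp_add_left (chartAt (Fin p → ℂ) y y)).comp_smul hρ.ne').const_mul
      (|B| ^ δ / (ρ ^ (S.K y).card) ^ A)) fun ζ hζ => by
      have hd := st_dm (by norm_num) hζ
      have hm := mo_pos (K := S.K y) ζ
      have h2 := Real.rpow_le_rpow (by positivity) (absorb hd (h0 ζ) (hB ζ hζ _).2) hδ.le
      rw [rsmul, indicator_of_mem (pt_mem hρ _ ((mem_dm one_pos).1 hd)), ← h.eq ζ hd,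
        hu _ (hU ζ hd), prod_crd S y hρ, Real.rpow_add hm, Real.rpow_mul (norm_nonneg _),
        Real.rpow_mul hm.le, Real.rpow_two, Real.rpow_natCast, ← mul_assoc,
        ← Real.mul_rpow (by positivity) (by positivity)]
      rw [Real.mul_rpow (abs_nonneg _) (h0 ζ)] at h2
      refine (mul_le_mul_of_nonneg_right h2 (by positivity)).trans_eq ?_
      field_simp
  refine ⟨(ρ ^ (S.K y).card) ^ (N + (N * δ + A + d) / δ) * (|B| * M ^ δ⁻¹),
    N + (N * δ + A + d) / δ, ?_⟩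
  filter_upwards [cover h (η := 1 / 2) (by norm_num)] with y' h2 h3
  obtain ⟨ζ, hζ, rfl⟩ := h2 h3
  have hd := st_dm one_half_pos hζ
  have hm := mo_pos (K := S.K y) ζ
  have hζ' : ζ ∈ St (S.K y) 2 (1 / 4) := ⟨⟨fun i hi => by linarith [hζ.1.1 i hi],
    fun i hi => by linarith [hζ.1.2 i hi]⟩, fun i hi => by linarith [hζ.2 i hi]⟩
  have h4 := absorb hd (sq_nonneg _) (hB ζ hζ' (ψ (f ζ))).1
  have h5 : ‖ψ (f ζ)‖ ^ 2 * mo (S.K y) (ex (S.K y) 1 ζ) ^ ((N * δ + A + d) / δ) ≤ M ^ δ⁻¹ := by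
    have h6 := hM ζ hζ
    refine (Real.le_rpow_inv_iff_of_pos (by positivity) (le_trans (by positivity) h6) hδ).2
      (Eq.trans_le ?_ h6)
    rw [Real.mul_rpow (by positivity) (by positivity), ← Real.rpow_mul hm.le,
      div_mul_cancel₀ _ hδ.ne', Real.rpow_add hm _ d, Real.rpow_natCast,
      Real.rpow_mul (norm_nonneg _), Real.rpow_two, mul_assoc]
  rw [crd h hd, prod_crd S y hρ, hu _ (hU ζ hd), mul_left_comm, Real.rpow_add hm,
    Real.rpow_natCast, ← mul_assoc (hn _ _)]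
  refine mul_le_mul_of_nonneg_left ?_ (by positivity)
  refine (mul_le_mul_of_nonneg_right h4 (by positivity)).trans ?_
  rw [mul_assoc]
  exact mul_le_mul_of_nonneg_left h5 (abs_nonneg _)

theorem stL1 (hGr : StGrow) : StL1 := by
  intro p Y _ _ _ S C n _ _ V Lb L h y i hi
  obtain ⟨j, hj, δ, A, hδ, O, hO, hI⟩ := h y
  obtain ⟨B, A', hB⟩ := stL1L hGr p Y S C n V (L.ψ j) (L.hY j) y _ ((L.lb.isOpen j).mem_nhds hj)
    (fun f z h1 h2 => (L.ln j _ f z h1 h2).an) (fun x hx => L.hY_eq hx) δ A hδ O hO hI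
  have hy := mem_chart_source (Fin p → ℂ) y
  have h1 : ContinuousAt (fun x => Lb.g j i ((chartAt (Fin p → ℂ) y).symm
      (chartAt (Fin p → ℂ) y x))) y := ContinuousAt.comp
    (g := fun z => Lb.g j i ((chartAt (Fin p → ℂ) y).symm z))
    (L.lb.holo j i _ y ⟨chart_mem_atlas _ _, hy⟩ hj hi).continuousAt
    ((chartAt (Fin p → ℂ) y).continuousAt hy)
  obtain ⟨M, hM⟩ := (h1.norm.pow 2).isBoundedUnder_le
  refine ⟨M * B, A', ?_⟩
  filter_upwards [hB, eventually_map.1 hM, (chartAt (Fin p → ℂ) y).open_source.mem_nhds hy,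
    (L.lb.isOpen i).mem_nhds hi, (L.lb.isOpen j).mem_nhds hj] with x e1 e2 e3 e4 e5 e6
  simp only [Pi.pow_apply, (chartAt (Fin p → ℂ) y).left_inv e3] at e2
  have e7 : 0 ≤ ∏ l, S.ab y l (chartAt (Fin p → ℂ) y x) ^ A' := by
    rw [S.prod_ab y _ (· ^ A') (Real.one_rpow A')]
    positivity
  rw [L.hY_ch e5 e4, mul_assoc]
  exact mul_le_mul e2 (e1 e6) (mul_nonneg (L.hY_nonneg j x) e7) ((sq_nonneg _).trans e2)

end Vale.Agent.P281Z.Hm
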