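import Vale.Agent.P281Z.Hm.TensA

/-!
# P281Z: tensor powers of a variation, the determinant line
-/

open scoped Matrix.Norms.Operator Topology ComplexOrder Manifold ContDiff
open Filter Set Matrix Complex

noncomputable section

namespace Vale.Agent.P281Z.Hm

namespace TB

open TA

section an
variable {E : Type} [NormedAddCommGroup E] [NormedSpace ℝ E] {m : Type} [Fintype m]
  [DecidableEq m]

omit [DecidableEq m] in
lemma an_entry {f : E → Mx m} {z : E} (h : AnalyticAt ℝ f z) (a b : m) :
    AnalyticAt ℝ (fun x => f x a b) z :=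
  ((LinearMap.toContinuousLinearMap (entryLinearMap ℝ ℂ a b)).analyticAt _).comp h

lemma an_of {f : E → Mx m} {z : E} (h : ∀ a b, AnalyticAt ℝ (fun x => f x a b) z) :
    AnalyticAt ℝ f z := by
  have e : f = fun x => ∑ a, ∑ b, f x a b • single a b (1 : ℂ) := by
    funext x
    simpa using matrix_eq_sum_single (f x)
  rw [e]
  exact Finset.analyticAt_fun_sum _ fun a _ => Finset.analyticAt_fun_sum _ fun b _ =>
    (h a b).smul analyticAt_const

lemma an_tens {k : ℕ} {A : E → Fin k → Mx m} {z : E} (h : ∀ i, AnalyticAt ℝ (fun x => A x i) z) :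
    AnalyticAt ℝ (fun x => tens (A x)) z :=
  an_of fun a b => Finset.analyticAt_fun_prod (f := fun i x => A x i (a i) (b i)) Finset.univ
    fun i _ => an_entry (h i) (a i) (b i)

end an

section lie
variable {n : Type} [Fintype n] [DecidableEq n] {k : ℕ}

omit [Fintype n] in
lemma tens_upd (i : Fin k) (A : Mx n) (a b : Fin k → n) :
    tens (Function.update (fun _ => 1) i A) a b =
      A (a i) (b i) * ∏ j ∈ Finset.univ.erase i, (1 : Mx n) (a j) (b j) := by
  rw [tens, of_apply, ← Finset.mul_prod_erase _ _ (Finset.mem_univ i), Function.update_self]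
  refine congrArg _ (Finset.prod_congr rfl fun j hj => ?_)
  rw [Function.update_of_ne (Finset.ne_of_mem_erase hj)]

/-- a matrix acting on the `i`-th factor -/
def e (i : Fin k) : Mx n →ₗ[ℂ] Mx (Fin k → n) where
  toFun A := tens (Function.update (fun _ => 1) i A)
  map_add' A B := by
    ext a b
    simp only [tens_upd, Matrix.add_apply, add_mul]
  map_smul' c A := by
    ext a b
    simp only [tens_upd, Matrix.smul_apply, smul_eq_mul, RingHom.id_apply, mul_assoc]

omit [Fintype n] in
lemma e_apply (i : Fin k) (A : Mx n) : e i A = tens (Function.update (fun _ => 1) i A) := rfl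

lemma e_mul (i : Fin k) (A B : Mx n) : e i A * e i B = e i (A * B) := by
  simp only [e_apply, tens_mul]
  refine congrArg _ (funext fun j => ?_)
  by_cases hj : j = i
  · subst hj
    simp
  · simp [hj]

lemma e_comm {i j : Fin k} (hij : i ≠ j) (A B : Mx n) : e i A * e j B = e j B * e i A := by
  simp only [e_apply, tens_mul]
  refine congrArg _ (funext fun l => ?_)
  by_cases hi : l = i
  · subst hi
    simp [hij]
  · simp [hi]

/-- the action of the Lie algebra on the tensor power -/
def L (n : Type) [Fintype n] [DecidableEq n] (k : ℕ) : Mx n →L[ℂ] Mx (Fin k → n) :=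
  LinearMap.toContinuousLinearMap (∑ i : Fin k, e i)

lemma L_apply (A : Mx n) : L n k A = ∑ i : Fin k, e i A := by
  simp [L]

lemma L_lie (A B : Mx n) : L n k A * L n k B - L n k B * L n k A = L n k (A * B - B * A) := by
  simp only [L_apply, Finset.sum_mul_sum]
  rw [Finset.sum_comm (f := fun i j => e i B * e j A), ← Finset.sum_sub_distrib]
  refine Finset.sum_congr rfl fun i _ => ?_
  rw [← Finset.sum_sub_distrib, Finset.sum_eq_single i]
  · rw [e_mul, e_mul, map_sub]
  · intro j _ hj
    rw [e_comm hj.symm, sub_self]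
  · simp

end lie

section var
variable {n : Type} [Fintype n] [DecidableEq n] {E : Type} [NormedAddCommGroup E]
  [NormedSpace ℝ E] [NormedSpace ℂ E] {Q : Mx n} {w k : ℕ} {π : E → Gr n} {z : E}

lemma wd_clm {F G : Type} [NormedAddCommGroup F] [NormedSpace ℝ F] [NormedSpace ℂ F]
    [IsScalarTower ℝ ℂ F] [NormedAddCommGroup G] [NormedSpace ℝ G] [NormedSpace ℂ G]
    [IsScalarTower ℝ ℂ G] (T : F →L[ℂ] G) {f : E → F} (hf : DifferentiableAt ℝ f z) (v : E) :
    wd v (fun x => T (f x)) z = T (wd v f z) := by
  have h : fderiv ℝ (fun x => T (f x)) z = (T.restrictScalars ℝ).comp (fderiv ℝ f z) :=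
    ((T.restrictScalars ℝ).hasFDerivAt.comp z hf.hasFDerivAt).fderiv
  simp [wd, h]

lemma wd_congr {F : Type} [NormedAddCommGroup F] [NormedSpace ℝ F] [NormedSpace ℂ F]
    {f g : E → F} (h : f =ᶠ[𝓝 z] g) (v : E) : wd v f z = wd v g z := by
  rw [wd, wd, h.fderiv_eq]

lemma th_tens (h1 : AnalyticAt ℝ (fun x => gJ w (π x)) z) (h2 : ∀ᶠ x in 𝓝 z, Hs Q w (π x))
    (v : E) : th (k * w) (fun x => tensG k w (π x)) z v = L n k (th w π z v) := by
  have e1 : (fun x => gJ (k * w) (tensG k w (π x))) =ᶠ[𝓝 z] fun x => L n k (gJ w (π x)) :=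
    h2.mono fun x hx => by
      simp only [L_apply, e_apply]
      exact gJ_tens hx
  exact (wd_congr e1 v).trans (wd_clm (L n k) h1.differentiableAt v)

omit [DecidableEq n] [NormedSpace ℂ E] in
lemma an_gJ (h : ∀ q, AnalyticAt ℝ (fun x => π x q) z) : AnalyticAt ℝ (fun x => gJ w (π x)) z :=
  Finset.analyticAt_fun_sum _ fun q _ => (h q).const_smul (c := (q : ℂ))

lemma lv_tens (h : LVAt Q w π z) :
    LVAt (tens fun _ : Fin k => Q) (k * w) (fun x => tensG k w (π x)) z where
  an q := Finset.analyticAt_fun_sum _ fun d _ => an_tens fun i => h.an (d i)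
  hs := h.hs.mono fun x hx => hs_tens hx
  tr := by
    have : CompleteSpace (Mx n) := FiniteDimensional.complete ℂ _
    filter_upwards [h.tr, h.hs.eventually_nhds, (an_gJ (w := w) h.an).eventually_analyticAt]
      with x h1 h2 h3 v
    have h4 : gJ (k * w) (tensG k w (π x)) = L n k (gJ w (π x)) := by
      simp only [L_apply, e_apply]
      exact gJ_tens h2.self_of_nhds
    rw [th_tens h3 h2, h4, L_lie, h1, map_neg]

end var

section alt
variable {n : Type} [Fintype n] {k : ℕ}

/-- the alternating tensor as an alternating map -/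
def altA (n : Type) (k : ℕ) : (n → ℂ) [⋀^Fin k]→ₗ[ℂ] ((Fin k → n) → ℂ) :=
  AlternatingMap.pi fun a => detRowAlternating.compLinearMap (LinearMap.funLeft ℂ ℂ a)

omit [Fintype n] in
lemma altA_apply (u : Fin k → n → ℂ) : altA n k u = altT u := by
  funext a
  rw [altT, ← det_transpose]
  rfl

omit [Fintype n] in
lemma altT_span (u : Fin k → n → ℂ) (j : Fin k) {s : n → ℂ}
    (hs : s ∈ Submodule.span ℂ (range u)) :
    ∃ c : ℂ, altT (Function.update u j s) = c • altT u := by
  obtain ⟨c, rfl⟩ := (Submodule.mem_span_range_iff_exists_fun ℂ).mp hs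
  refine ⟨c j, ?_⟩
  rw [← altA_apply, AlternatingMap.map_update_sum, Finset.sum_eq_single j]
  · rw [AlternatingMap.map_update_smul, Function.update_eq_self, altA_apply]
  · intro l _ hl
    rw [AlternatingMap.map_update_smul, AlternatingMap.map_update_self _ _ hl.symm, smul_zero]
  · simp

variable {E : Type} [NormedAddCommGroup E] [NormedSpace ℂ E]

lemma an_altT {u : E → Fin k → n → ℂ} {z : E} (h : AnalyticAt ℂ u z) :
    AnalyticAt ℂ (fun x => altT (u x)) z := by
  simp only [altT_eq]
  refine Finset.analyticAt_fun_sum _ fun σ _ => AnalyticAt.fun_smul analyticAt_const ?_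
  refine analyticAt_pi_iff.mpr fun a =>
    Finset.analyticAt_fun_prod (f := fun i x => u x (σ i) (a i)) Finset.univ fun i _ => ?_
  exact analyticAt_pi_iff.mp (analyticAt_pi_iff.mp h (σ i)) (a i)

/-- the same, continuous -/
def altC (n : Type) [Fintype n] (k : ℕ) :
    ContinuousMultilinearMap ℂ (fun _ : Fin k => n → ℂ) ((Fin k → n) → ℂ) where
  toMultilinearMap := (altA n k).toMultilinearMap
  cont := by
    have e1 : (altA n k).toMultilinearMap.toFun = altT := funext fun u => altA_apply u
    rw [e1]
    exact continuous_iff_continuousAt.mpr fun u =>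
      (an_altT (u := fun x => x) analyticAt_id).continuousAt

lemma altC_apply (u : Fin k → n → ℂ) : altC n k u = altT u := altA_apply u

lemma fderiv_altT {u : E → Fin k → n → ℂ} {z : E} (h : DifferentiableAt ℂ u z) (v : E) :
    fderiv ℂ (fun x => altT (u x)) z v =
      ∑ j, altT (Function.update (u z) j (fderiv ℂ u z v j)) := by
  have h1 := ((altC n k).hasFDerivAt (x := u z)).comp z h.hasFDerivAt
  have e1 : (fun x => altT (u x)) = altC n k ∘ u := funext fun x => (altC_apply _).symm
  rw [e1, h1.fderiv, ContinuousLinearMap.comp_apply, ContinuousMultilinearMap.linearDeriv_apply]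
  simp only [altC_apply]

lemma altT_ne {u : Fin k → n → ℂ} (h : LinearIndependent ℂ u) : altT u ≠ 0 := by
  intro h0
  have h1 := altT_dot u u
  have h2 : ((of fun a j => u j a)ᴴ * of fun a j => u j a).PosDef :=
    PosDef.conjTranspose_mul_self _ (mulVec_injective_iff.mpr h)
  have h3 : (of fun i j => star (u i) ⬝ᵥ u j) = (of fun a j => u j a)ᴴ * of fun a j => u j a := by
    ext i j
    simp [mul_apply, dotProduct]
  rw [h0, dotProduct_zero, h3] at h1
  have h4 := ((isUnit_iff_isUnit_det _).mp h2.isUnit).ne_zero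
  exact mul_ne_zero (Nat.cast_ne_zero.mpr k.factorial_ne_zero) h4 h1.symm

end alt

end TB

theorem stTens : StTens := by
  intro n _ _ E _ _ _ _ Q w k π z h
  refine ⟨TB.lv_tens h, fun v => ?_, fun u hu hl h1 h2 => ⟨TB.an_altT hu, TB.altT_ne hl, ?_, ?_⟩⟩
  · rw [TB.th_tens (TB.an_gJ h.an) h.hs, TB.L_apply]
    rfl
  · refine h1.mono fun x hx => ?_
    rw [TA.top_tens, TA.tens_altT]
    exact congrArg _ (funext hx)
  · filter_upwards [h1, h2, hu.eventually_analyticAt] with x hx hx' hx'' v
    choose c hc using fun j => TB.altT_span (u x) j (hx' v j)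
    refine ⟨∑ j, c j, ?_⟩
    rw [TA.top_tens, TB.fderiv_altT hx''.differentiableAt, mulVec_sum, Finset.sum_smul]
    refine Finset.sum_congr rfl fun j _ => ?_
    rw [← hc, TA.tens_altT]
    refine congrArg _ (funext fun l => ?_)
    by_cases hl : l = j
    · subst hl
      simp
    · simp [hl, hx]

end Vale.Agent.P281Z.Hm
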