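import Vale.Agent.P281Z.Hm.Lip

/-!
# P281Z: the lemma of Ahlfors and Schwarz for the Hodge metric
-/

open scoped Matrix.Norms.Operator Topology ComplexOrder ComplexConjugate
open Filter Set Matrix Complex

noncomputable section

namespace Vale.Agent.P281Z.Hm

open Vale.Agent.P284Z (levi)

namespace Ah

section mx
variable {W : Type} [NormedAddCommGroup W] [NormedSpace ℝ W] {u : W → ℝ} {z : W}

theorem hess_nonpos (hu : ContDiffAt ℝ 2 u z) (hm : IsLocalMax u z) (w : W) :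
    fderiv ℝ (fderiv ℝ u) z w w ≤ 0 := by
  refine le_of_forall_pos_le_add fun η hη => ?_
  have h1 := (P284Z.taylor2 hu (η := η / (2 * (‖w‖ ^ 2 + 1))) (by positivity)).and hm
  have h2 : Tendsto (fun t : ℝ => z + t • w) (𝓝[>] 0) (𝓝 z) := by
    have : Continuous fun t : ℝ => z + t • w := by fun_prop
    simpa using (this.tendsto 0).mono_left nhdsWithin_le_nhds
  obtain ⟨t, ⟨h3, h4⟩, h5⟩ := ((h2.eventually h1).and self_mem_nhdsWithin).exists
  have h6 : 0 < t ^ 2 := pow_pos h5 2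
  simp only [add_sub_cancel_left, hm.fderiv_eq_zero, map_smul, _root_.smul_apply,
    _root_.zero_apply, smul_eq_mul, norm_smul, mul_pow, Real.norm_eq_abs,
    sq_abs] at h3
  have h7 : η / (2 * (‖w‖ ^ 2 + 1)) * ‖w‖ ^ 2 ≤ η / 2 := by
    rw [div_mul_eq_mul_div, div_le_div_iff₀ (by positivity) two_pos]
    nlinarith [sq_nonneg ‖w‖]
  refine le_of_mul_le_mul_left ?_ h6
  nlinarith [(abs_le.1 h3).1, mul_le_mul_of_nonneg_left h7 h6.le]

theorem levi_nonpos [NormedSpace ℂ W] (hu : ContDiffAt ℝ 2 u z) (hm : IsLocalMax u z) (w : W) :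
    levi u z w ≤ 0 := add_nonpos (hess_nonpos hu hm _) (hess_nonpos hu hm _)

end mx

theorem an_disc (r : ℝ) (t : ℂ) : AnalyticAt ℝ (fun s : ℂ => r - ‖s‖ ^ 2) t := by
  have : (fun s : ℂ => r - ‖s‖ ^ 2) = fun s => r - (s.re * s.re + s.im * s.im) :=
    funext fun s => by rw [← normSq_eq_norm_sq, normSq_apply]
  rw [this]
  exact analyticAt_const.sub (((reCLM.analyticAt t).mul (reCLM.analyticAt t)).add
    ((imCLM.analyticAt t).mul (imCLM.analyticAt t)))

theorem wd_disc (r : ℝ) (t : ℂ) : wd 1 (fun s : ℂ => ((r - ‖s‖ ^ 2 : ℝ) : ℂ)) t = -conj t := by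
  have : (fun s : ℂ => ((r - ‖s‖ ^ 2 : ℝ) : ℂ)) = fun s => (r : ℂ) - s * conj s :=
    funext fun s => by simp [mul_conj']
  have d : DifferentiableAt ℝ (fun s : ℂ => s) t := differentiableAt_id
  rw [this, wd_sub (differentiableAt_const _) (d.fun_mul (df_conj d)), wd_cmul d (df_conj d),
    wd_conj d, wb_hol differentiableAt_fun_id, wd_hol differentiableAt_fun_id]
  simp

theorem levi_disc (r : ℝ) (t : ℂ) : levi (fun s : ℂ => r - ‖s‖ ^ 2) t 1 = -4 := by
  have d : DifferentiableAt ℝ (fun s : ℂ => s) t := differentiableAt_id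
  rw [levi_eq (an_disc r t).contDiffAt, funext (wd_disc r), wb_neg, wb_conj d,
    wd_hol differentiableAt_fun_id]
  simp

theorem levi_log_disc {r : ℝ} {t : ℂ} (h : r - ‖t‖ ^ 2 ≠ 0) :
    levi (fun s : ℂ => Real.log (r - ‖s‖ ^ 2)) t 1 = -4 * r / (r - ‖t‖ ^ 2) ^ 2 := by
  rw [levi_log (an_disc r t).contDiffAt h, levi_disc, wd_disc, norm_neg, norm_conj]
  field_simp
  ring

variable {n : Type} [Fintype n] [DecidableEq n] {Q : Mx n} {w : ℕ} {π : ℂ → Gr n}

/-- the curvature of the metric on a disc -/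
theorem levi_log_omH (hR : StRic) {t : ℂ} (h : LVAt Q w π t) (h0 : omH w π t 1 ≠ 0) :
    4 / kap w n * omH w π t 1 ≤ levi (fun s => Real.log (omH w π s 1)) t 1 := by
  have h1 : th w π t 1 ≠ 0 := fun e => h0 ((Lp.omH_zero h 1).2 e)
  have h2 := ((hR n ℂ Q w π t h Unit (fun _ => 1) (linearIndependent_unique_iff.2 h1)).2.2 1).2
    (Submodule.subset_span ⟨(), rfl⟩)
  refine h2.trans_eq (levi_congr (h.ev.mono fun s hs => ?_) 1)
  simp [Lp.omB_ofReal hs]

theorem disc (hR : StRic) {R : ℝ} (hr : 0 < R) (h : ∀ t : ℂ, ‖t‖ ≤ R → LVAt Q w π t) :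
    omH w π 0 1 ≤ 2 * kap w n / R ^ 2 := by
  have hk := kap_pos w n
  obtain ⟨t, ht, hm⟩ := (isCompact_closedBall (0 : ℂ) R).exists_isMaxOn
    (f := fun s => omH w π s 1 * (R ^ 2 - ‖s‖ ^ 2) ^ 2) ⟨0, Metric.mem_closedBall_self hr.le⟩
    fun s hs => (((h s (mem_closedBall_zero_iff.1 hs)).an_omH 1).continuousAt.mul
      ((an_disc _ s).continuousAt.pow 2)).continuousWithinAt
  have ht' := mem_closedBall_zero_iff.1 ht
  have h1 : omH w π t 1 * (R ^ 2 - ‖t‖ ^ 2) ^ 2 ≤ 2 * kap w n * R ^ 2 := by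
    by_cases h0 : omH w π t 1 * (R ^ 2 - ‖t‖ ^ 2) ^ 2 = 0
    · rw [h0]
      positivity
    have h2 : omH w π t 1 ≠ 0 := left_ne_zero_of_mul h0
    have h3 : R ^ 2 - ‖t‖ ^ 2 ≠ 0 := fun e => h0 (by simp [e])
    have h4 : ‖t‖ < R := ht'.lt_of_ne fun e => h3 (by rw [e, sub_self])
    have a1 := ((h t ht').an_omH 1).contDiffAt (n := 2)
    have a2 := (an_disc (R ^ 2) t).contDiffAt (n := 2)
    have h5 : IsLocalMax (fun s => Real.log (omH w π s 1) +
        (Real.log (R ^ 2 - ‖s‖ ^ 2) + Real.log (R ^ 2 - ‖s‖ ^ 2))) t := by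
      filter_upwards [Metric.closedBall_mem_nhds_of_mem (mem_ball_zero_iff.2 h4),
        a1.continuousAt.eventually_ne h2, a2.continuousAt.eventually_ne h3] with s e1 e2 e3
      rw [← Real.log_mul e3 e3, ← Real.log_mul e2 (mul_ne_zero e3 e3), ← Real.log_mul h3 h3,
        ← Real.log_mul h2 (mul_ne_zero h3 h3), ← sq, ← sq]
      exact Real.log_le_log (mul_pos ((Lp.omH_nonneg (h s (mem_closedBall_zero_iff.1 e1)) 1
        ).lt_of_ne' e2) (pow_two_pos_of_ne_zero e3)) (hm e1)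
    have h6 := levi_nonpos ((a1.log h2).add ((a2.log h3).add (a2.log h3))) h5 1
    rw [levi_add (a1.log h2) ((a2.log h3).add (a2.log h3)), levi_add (a2.log h3) (a2.log h3),
      levi_log_disc h3] at h6
    have h7 := levi_log_omH hR (h t ht') h2
    have h8 : 4 / kap w n * omH w π t 1 ≤ 8 * R ^ 2 / (R ^ 2 - ‖t‖ ^ 2) ^ 2 := by
      have : -4 * R ^ 2 / (R ^ 2 - ‖t‖ ^ 2) ^ 2 + -4 * R ^ 2 / (R ^ 2 - ‖t‖ ^ 2) ^ 2 =
          -(8 * R ^ 2 / (R ^ 2 - ‖t‖ ^ 2) ^ 2) := by ring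
      linarith
    rw [div_mul_eq_mul_div, div_le_div_iff₀ hk (pow_two_pos_of_ne_zero h3)] at h8
    linarith
  have h2 := (hm (Metric.mem_closedBall_self hr.le)).trans h1
  simp only [norm_zero, ne_eq, OfNat.ofNat_ne_zero, not_false_eq_true, zero_pow, sub_zero] at h2
  rw [le_div_iff₀ (pow_pos hr 2)]
  exact le_of_mul_le_mul_right (by linarith) (pow_pos hr 2)

end Ah

theorem stAhl (hP : StPull) (hR : StRic) : StAhl := by
  intro n _ _ E _ _ _ _ Q w π z v R hr h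
  have ha : ∀ t : ℂ, AnalyticAt ℂ (fun s : ℂ => z + s • v) t := fun t =>
    analyticAt_const.add (analyticAt_id.smul analyticAt_const)
  have hd : fderiv ℂ (fun s : ℂ => z + s • v) 0 1 = v := by
    have := (((hasDerivAt_id (0 : ℂ)).smul_const v).const_add z).hasFDerivAt.fderiv
    simp only [id, one_smul] at this
    rw [this]
    simp
  have h0 : omH w (fun s : ℂ => π (z + s • v)) 0 1 = omH w π z v := by
    have := (hP n E ℂ Q w π _ 0 (ha 0) (h 0 (by simpa using hr))).2.1 1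
    rw [omH, omH, omB, omB, this.1, this.2, hd, zero_smul, add_zero]
  have h1 : ∀ᶠ r in 𝓝[<] R, omH w π z v ≤ 2 * kap w n / r ^ 2 := by
    filter_upwards [Ioo_mem_nhdsLT hr] with r hr'
    exact h0 ▸ Ah.disc hR hr'.1 fun t ht => (hP n E ℂ Q w π _ t (ha t) (h t (ht.trans_lt hr'.2))).1
  have h2 : ContinuousAt (fun r : ℝ => 2 * kap w n / r ^ 2) R :=
    continuousAt_const.div (continuousAt_id.pow 2) (pow_ne_zero 2 hr.ne')
  exact ge_of_tendsto (h2.tendsto.mono_left nhdsWithin_le_nhds) h1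

end Vale.Agent.P281Z.Hm
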