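import Vale.Agent.P281Z.Hm.BdG
import Vale.Agent.P281Z.Hm.Unit
import Mathlib.Analysis.SpecialFunctions.Pow.Asymptotics

/-!
# P281Z, the exponents of the Hodge norm along the boundary (ALID, ALPHA)
-/

open scoped Topology Manifold ContDiff
open Filter Set Complex

noncomputable section

namespace Vale.Agent.P281Z.Hm

namespace AlH

theorem key {a b C D : ℝ} {N : ℕ} (hC : 0 < C)
    (h : ∀ᶠ s in 𝓝[>] (0 : ℝ), C * s ^ a ≤ D * s ^ b * (1 + |Real.log s|) ^ N) : b ≤ a := by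
  by_contra hc
  have hd : 0 < (b - a) / (N + 1) := div_pos (sub_pos.2 (not_le.1 hc)) (by positivity)
  have t1 : Tendsto (fun s : ℝ => s ^ ((b - a) / (N + 1))) (𝓝[>] 0) (𝓝 0) :=
    (tendsto_id.mono_left nhdsWithin_le_nhds).rpow_const_nhds_zero hd
  have t2 := (t1.mul ((t1.add (tendsto_log_mul_rpow_nhdsGT_zero hd).abs).pow N)).const_mul D
  rw [zero_mul, mul_zero] at t2
  obtain ⟨s, h1, h2, h3⟩ :=
    (h.and ((t2.eventually (gt_mem_nhds hC)).and self_mem_nhdsWithin)).exists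
  have hs : 0 < s := h3
  have e : s ^ b = s ^ a * (s ^ ((b - a) / (N + 1))) ^ (N + 1) := by
    rw [← Real.rpow_natCast, ← Real.rpow_mul hs.le, ← Real.rpow_add hs]
    congr 1
    push_cast
    field_simp
    ring
  rw [abs_mul, abs_of_pos (Real.rpow_pos_of_pos hs _), ← one_add_mul, mul_pow] at h2
  rw [e] at h1
  refine absurd (h1.trans_eq ?_) (mul_lt_mul_of_pos_right h2 (Real.rpow_pos_of_pos hs a)).not_ge
  ring

theorem cmp {Y : Type} {F : Filter Y} {u u' m m' P P' q q' D : Y → ℝ} {c B κ κ' D₀ : ℝ} {N : ℕ}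
    (hc : 0 < c) (hκ : 0 < κ) (hκ' : 0 < κ') (hq : Tendsto q F (𝓝 κ)) (hq' : Tendsto q' F (𝓝 κ'))
    (hD : Tendsto D F (𝓝 D₀)) (h : ∀ᶠ x in F, (c * m x ≤ u x ∧ u x ≤ B * m x * P x ^ N) ∧
      u' x = q x * u x ∧ m x = q' x * m' x ∧ 0 ≤ m' x ∧ 0 ≤ P x ∧ 0 ≤ P' x ∧ P x ≤ D x * P' x) :
    ∃ (c B : ℝ) (N : ℕ), 0 < c ∧ ∀ᶠ x in F, c * m' x ≤ u' x ∧ u' x ≤ B * m' x * P' x ^ N := by
  refine ⟨κ / 2 * (c * (κ' / 2)), 2 * κ * (|B| * (2 * κ') * (D₀ + 1) ^ N), N, by positivity, ?_⟩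
  filter_upwards [h, hq.eventually (Ioo_mem_nhds (half_lt_self hκ) (lt_two_mul_self hκ)),
    hq'.eventually (Ioo_mem_nhds (half_lt_self hκ') (lt_two_mul_self hκ')),
    hD.eventually (gt_mem_nhds (lt_add_one D₀))] with x ⟨⟨a1, a2⟩, a3, a4, a5, a6, a7, a8⟩ b1 b2 b3
  have c1 : 0 ≤ q x := ((half_pos hκ).trans b1.1).le
  have c2 : 0 ≤ q' x := ((half_pos hκ').trans b2.1).le
  have c3 : P x ≤ (D₀ + 1) * P' x := a8.trans (mul_le_mul_of_nonneg_right b3.le a7)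
  rw [a4] at a1 a2
  rw [a3]
  constructor
  · calc κ / 2 * (c * (κ' / 2)) * m' x = κ / 2 * (c * (κ' / 2 * m' x)) := by ring
      _ ≤ q x * (c * (q' x * m' x)) := by
        gcongr
        exacts [b1.1.le, b2.1.le]
      _ ≤ q x * u x := by gcongr
  · calc q x * u x ≤ q x * (B * (q' x * m' x) * P x ^ N) := by gcongr
      _ ≤ 2 * κ * (|B| * (2 * κ' * m' x) * ((D₀ + 1) * P' x) ^ N) := by
        refine le_trans (mul_le_mul_of_nonneg_left (mul_le_mul_of_nonneg_right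
          (mul_le_mul_of_nonneg_right (le_abs_self B) (mul_nonneg c2 a5)) (pow_nonneg a6 N)) c1) ?_
        gcongr
        exacts [b1.2.le, b2.2.le]
      _ = _ := by
        rw [mul_pow]
        ring

variable {p : ℕ} {Y : Type} [TopologicalSpace Y] [ChartedSpace (Fin p → ℂ) Y] (S : Snc p Y)

theorem pts {y : Y} {P : Y → Prop} (h : ∀ᶠ y' in 𝓝 y, P y') : ∃ r : ℝ, 0 < r ∧
    ∀ (i : Fin p) (s : ℝ), |s| < r → ∃ y', P y' ∧ ∀ j ∈ S.K y,
      chartAt (Fin p → ℂ) y y' j = Function.update (fun _ => ((r / 2 : ℝ) : ℂ)) i s j := by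
  set e := chartAt (Fin p → ℂ) y with he
  have hy : y ∈ e.source := mem_chart_source _ y
  obtain ⟨r, hr, h⟩ := Metric.eventually_nhds_iff_ball.1
    (((e.tendsto_symm hy).eventually h).and (e.open_target.mem_nhds (e.map_source hy)))
  refine ⟨r, hr, fun i s hs => ?_⟩
  have hm := h (e y + Function.update (fun _ => ((r / 2 : ℝ) : ℂ)) i s) (by
    rw [mem_ball_iff_norm, add_sub_cancel_left, pi_norm_lt_iff hr]
    intro j
    rcases eq_or_ne j i with rfl | hj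
    · rwa [Function.update_self, norm_real]
    · rw [Function.update_of_ne hj, norm_real, Real.norm_of_nonneg (half_pos hr).le]
      exact half_lt_self hr)
  exact ⟨_, hm.1, fun j hj => by rw [e.right_inv hm.2, Pi.add_apply, he, S.zero_K hj, zero_add]⟩

variable {y : Y} {l : Fin S.r} {z z' : Fin p → ℂ} {u : Y → ℝ} {e e' : Fin S.r → ℝ}

theorem ab_congr (h : ∀ i ∈ S.K y, S.lab y l = some i → z i = z' i) :
    S.ab y l z = S.ab y l z' := by
  by_cases hy : y ∈ S.G l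
  · obtain ⟨i, h1, h2⟩ := S.exists_lab hy
    rw [S.ab_of_lab hy h2, S.ab_of_lab hy h2, h i h1 h2]
  · rw [S.ab_of_not hy, S.ab_of_not hy]

theorem ab_pos (h : ∀ i ∈ S.K y, z i ≠ 0) : 0 < S.ab y l z := by
  by_cases hy : y ∈ S.G l
  · obtain ⟨i, h1, h2⟩ := S.exists_lab hy
    rw [S.ab_of_lab hy h2]
    exact norm_pos_iff.2 (h i h1)
  · rw [S.ab_of_not hy]
    exact one_pos

theorem plog_nonneg (y : Y) (z : Fin p → ℂ) : 0 ≤ S.plog y z :=
  Finset.prod_nonneg fun _ _ => by positivity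

/-- the smooth points of the divisor are dense in a component -/
theorem dense (hl : y ∈ S.G l) {P : Y → Prop} (h : ∀ᶠ y' in 𝓝 y, P y') : ∃ y' ∈ S.G0 l, P y' := by
  obtain ⟨i, hi, e⟩ := S.exists_lab hl
  obtain ⟨r, hr, H⟩ := pts S (h.and (S.ev_cut y))
  obtain ⟨y', ⟨a, b⟩, d⟩ := H i 0 (by rwa [abs_zero])
  refine ⟨y', ⟨(b l).2 ⟨hl, i, e, by rw [d i hi, Function.update_self, ofReal_zero]⟩,
    fun l' hl' c => ?_⟩, a⟩
  obtain ⟨c1, j, c2, c3⟩ := (b l').1 c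
  rw [d j (S.mem_K.2 ⟨l', c2, c1⟩),
    Function.update_of_ne fun k : j = i => hl' (S.inj y _ _ _ (k ▸ c2) e)] at c3
  exact (half_pos hr).ne' (ofReal_eq_zero.1 c3)

/-- two-sided bounds by a monomial, up to logarithms -/
def Two (y : Y) (u : Y → ℝ) (e : Fin S.r → ℝ) : Prop := ∃ (c B : ℝ) (N : ℕ), 0 < c ∧
  ∀ᶠ y' in 𝓝 y, y' ∈ S.U → c * ∏ l, S.ab y l (chartAt (Fin p → ℂ) y y') ^ e l ≤ u y' ∧
    u y' ≤ B * (∏ l, S.ab y l (chartAt (Fin p → ℂ) y y') ^ e l) *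
      S.plog y (chartAt (Fin p → ℂ) y y') ^ N

variable {S}

theorem Two.le (h : Two S y u e) (h' : Two S y u e') (hl : y ∈ S.G l) : e' l ≤ e l := by
  obtain ⟨c, B', N', hc, h⟩ := h
  obtain ⟨c', B, N, -, h'⟩ := h'
  obtain ⟨i, hi, k⟩ := S.exists_lab hl
  obtain ⟨r, hr, H⟩ := pts S (h.and (h'.and (S.ev_U y)))
  let w : Fin p → ℂ := fun _ => ((r / 2 : ℝ) : ℂ)
  have hw : ∀ j, w j ≠ 0 := fun _ => ofReal_ne_zero.2 (half_pos hr).ne'
  refine key (C := c * ∏ l' ∈ Finset.univ.erase l, S.ab y l' w ^ e l')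
    (D := B * (∏ l' ∈ Finset.univ.erase l, S.ab y l' w ^ e' l') *
      (∏ l' ∈ Finset.univ.erase l, (1 + |Real.log (S.ab y l' w)|)) ^ N) (N := N)
    (mul_pos hc (Finset.prod_pos fun l' _ => Real.rpow_pos_of_pos (ab_pos S fun j _ => hw j) _)) ?_
  filter_upwards [Ioo_mem_nhdsGT hr] with s hs
  obtain ⟨y', ⟨a, a', b⟩, d⟩ := H i s (by rw [abs_of_pos hs.1]; exact hs.2)
  have hU : y' ∈ S.U := b.2 fun j hj => by
    rw [d j hj]
    rcases eq_or_ne j i with rfl | hj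
    · rw [Function.update_self]
      exact ofReal_ne_zero.2 hs.1.ne'
    · rw [Function.update_of_ne hj]
      exact hw j
  have e1 : ∀ F : Fin S.r → ℝ → ℝ, ∏ l', F l' (S.ab y l' (chartAt (Fin p → ℂ) y y')) =
      F l s * ∏ l' ∈ Finset.univ.erase l, F l' (S.ab y l' w) := fun F => by
    rw [← Finset.mul_prod_erase _ _ (Finset.mem_univ l), S.ab_of_lab hl k, d i hi,
      Function.update_self, norm_real, Real.norm_of_nonneg hs.1.le]
    refine congrArg _ (Finset.prod_congr rfl fun l' hl' => congrArg _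
      (ab_congr S fun j hj k' => ?_))
    rw [d j hj, Function.update_of_ne fun q : j = i =>
      Finset.ne_of_mem_erase hl' (S.inj y _ _ _ (q ▸ k') k)]
  have := (a hU).1.trans (a' hU).2
  rw [Snc.plog, e1 fun l t => t ^ e l, e1 fun l t => t ^ e' l,
    e1 fun _ t => 1 + |Real.log t|, mul_pow] at this
  refine le_of_eq_of_le ?_ (this.trans_eq ?_) <;> ring

theorem Two.eq (h : Two S y u e) (h' : Two S y u e') (hl : y ∈ S.G l) : e l = e' l :=
  le_antisymm (h'.le h hl) (h.le h' hl)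

theorem Two.congr (h : Two S y u e) (h' : ∀ l, y ∈ S.G l → e' l = e l) : Two S y u e' := by
  have k : ∀ z, ∏ l, S.ab y l z ^ e' l = ∏ l, S.ab y l z ^ e l := fun z =>
    Finset.prod_congr rfl fun l _ => by
      by_cases hl : y ∈ S.G l
      · rw [h' l hl]
      · rw [S.ab_of_not hl, Real.one_rpow, Real.one_rpow]
  simpa only [Two, k] using h

theorem two_of {β : Fin p → ℝ} (h : ∃ (c B : ℝ) (N : ℕ), 0 < c ∧ ∀ᶠ y' in 𝓝 y, y' ∈ S.U →
    c * ∏ i ∈ S.K y, ‖chartAt (Fin p → ℂ) y y' i‖ ^ β i ≤ u y' ∧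
    u y' ≤ B * (∏ i ∈ S.K y, ‖chartAt (Fin p → ℂ) y y' i‖ ^ β i) *
      S.plog y (chartAt (Fin p → ℂ) y y') ^ N)
    (h' : ∀ l i, S.lab y l = some i → e l = β i) : Two S y u e := by
  have k : ∀ z, ∏ l, S.ab y l z ^ e l = ∏ i ∈ S.K y, ‖z i‖ ^ β i := fun z =>
    S.prod_ab' y z (F := fun l t => t ^ e l) (F' := fun i t => t ^ β i)
      (fun l => Real.one_rpow _) fun l i _ q => by rw [h' l i q]
  simpa only [Two, k] using h

theorem Two.ev [IsManifold 𝓘(ℂ, Fin p → ℂ) ω Y] (h : Two S y u e) :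
    ∀ᶠ y' in 𝓝 y, Two S y' u e := by
  obtain ⟨c, B, N, hc, h⟩ := h
  filter_upwards [h.eventually_nhds, (S.ev_cut y).eventually_nhds, (S.ev_U y).eventually_nhds,
    chart_source_mem_nhds (Fin p → ℂ) y] with y' a b b' d
  choose κ hκ h1 h2 using fun l => stUnit p Y S y y' l d (b.mono fun x hx => hx l)
  have t : ∀ l, Tendsto (fun x => S.ab y l (chartAt (Fin p → ℂ) y x) /
      S.ab y' l (chartAt (Fin p → ℂ) y' x)) (𝓝[S.U] y') (𝓝 (κ l)) := fun l => by
    by_cases hl : y' ∈ S.G l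
    · exact (h1 l hl).mono_left (nhdsWithin_mono _ fun x hx => hx l)
    · simp only [S.ab_of_not hl, div_one]
      exact (h2 l hl).mono_left nhdsWithin_le_nhds
  simp only [Two, ← eventually_nhdsWithin_iff]
  refine cmp (u := u) (m := fun x => ∏ l, S.ab y l (chartAt (Fin p → ℂ) y x) ^ e l)
    (P := fun x => S.plog y (chartAt (Fin p → ℂ) y x)) (B := B) (N := N) hc one_pos
    (Finset.prod_pos fun l _ => Real.rpow_pos_of_pos (hκ l) (e l)) tendsto_const_nhds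
    (tendsto_finsetProd Finset.univ fun l _ => (t l).rpow_const (.inl (hκ l).ne'))
    (tendsto_finsetProd Finset.univ fun l _ => ((t l).log (hκ l).ne').abs.const_add 1) ?_
  filter_upwards [self_mem_nhdsWithin, mem_nhdsWithin_of_mem_nhds (a.and (b'.and (S.ev_U y')))]
    with x hx ⟨a1, a2, a3⟩
  have p1 : ∀ l, 0 < S.ab y l (chartAt (Fin p → ℂ) y x) := fun l => ab_pos S (a2.1 hx)
  have p2 : ∀ l, 0 < S.ab y' l (chartAt (Fin p → ℂ) y' x) := fun l => ab_pos S (a3.1 hx)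
  refine ⟨a1 hx, (one_mul _).symm, ?_, Finset.prod_nonneg fun l _ => Real.rpow_nonneg (p2 l).le _,
    plog_nonneg S _ _, plog_nonneg S _ _, ?_⟩
  · rw [← Finset.prod_mul_distrib]
    exact Finset.prod_congr rfl fun l _ => by
      rw [Real.div_rpow (p1 l).le (p2 l).le, div_mul_cancel₀ _ (Real.rpow_pos_of_pos (p2 l) _).ne']
  · rw [Snc.plog, Snc.plog, ← Finset.prod_mul_distrib]
    refine Finset.prod_le_prod (fun l _ => by positivity) fun l _ => ?_
    rw [Real.log_div (p1 l).ne' (p2 l).ne']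
    generalize Real.log (S.ab y l _) = s
    generalize Real.log (S.ab y' l _) = s'
    have := abs_add_le (s - s') s'
    rw [sub_add_cancel] at this
    nlinarith [mul_nonneg (abs_nonneg (s - s')) (abs_nonneg s')]

variable {C : Cv Y S.U} {n : Type} [Fintype n] [DecidableEq n] {V : GV p C n}
  {Lb : P285.H281.FD.Bd Y} {L : Ln V Lb}

theorem Two.ch {i j : Lb.ι} (hi : y ∈ Lb.U i) (hj : y ∈ Lb.U j) (h : Two S y (L.hY i) e) :
    Two S y (L.hY j) e := by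
  obtain ⟨c, B, N, hc, h⟩ := h
  have hy := mem_chart_source (Fin p → ℂ) y
  have hg : ContinuousAt (Lb.g i j) y :=
    ((L.lb.holo i j _ y ⟨chart_mem_atlas _ y, hy⟩ hi hj).continuousAt.comp
      ((chartAt (Fin p → ℂ) y).continuousAt hy)).congr
      (((chartAt (Fin p → ℂ) y).eventually_left_inverse hy).mono fun x hx => congrArg (Lb.g i j) hx)
  simp only [Two, ← eventually_nhdsWithin_iff]
  refine cmp (u := L.hY i) (m := fun x => ∏ l, S.ab y l (chartAt (Fin p → ℂ) y x) ^ e l)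
    (P := fun x => S.plog y (chartAt (Fin p → ℂ) y x)) (B := B) (N := N) hc
    (pow_pos (norm_pos_iff.2 (L.lb.ne_zero i j y hi hj)) 2) one_pos
    ((hg.norm.tendsto.pow 2).mono_left nhdsWithin_le_nhds) tendsto_const_nhds
    (tendsto_const_nhds (x := 1)) ?_
  filter_upwards [self_mem_nhdsWithin, mem_nhdsWithin_of_mem_nhds (h.and ((S.ev_U y).and
    (inter_mem ((L.lb.isOpen i).mem_nhds hi) ((L.lb.isOpen j).mem_nhds hj))))] with x hx ⟨a1, a2, a3⟩
  exact ⟨a1 hx, L.hY_ch a3.1 a3.2, (one_mul _).symm, Finset.prod_nonneg fun l _ =>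
    Real.rpow_nonneg (ab_pos S (a2.1 hx)).le _, plog_nonneg S _ _, plog_nonneg S _ _,
    (one_mul _).ge⟩

end AlH

open AlH LiftH DescH in
/-- **ALID** -/
theorem stAlId (hLow : StLow) : StAlId := by
  intro p Y _ _ _ S C n _ _ V Lb L y t ρ f g a N β φ h hU hB
  have hy := mem_chart_source (Fin p → ℂ) y
  have H : ∃ (c B : ℝ) (M : ℕ), 0 < c ∧ ∀ᶠ y' in 𝓝 y, y' ∈ S.U →
      c * ∏ i ∈ S.K y, ‖chartAt (Fin p → ℂ) y y' i‖ ^ (2 * (β i / (a : ℝ))) ≤ L.hY t y' ∧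
      L.hY t y' ≤ B * (∏ i ∈ S.K y, ‖chartAt (Fin p → ℂ) y y' i‖ ^ (2 * (β i / (a : ℝ)))) *
        S.plog y (chartAt (Fin p → ℂ) y y') ^ M := by
    obtain ⟨h1, h2⟩ := hLow n p _ _ _ _ _ a N _ _ β φ hB
    obtain ⟨c, B, M, hc, h2⟩ := h2 (1 / 2) one_half_pos
    have hR : 0 < ∏ i ∈ S.K y, ρ ^ (2 * (β i / (a : ℝ))) :=
      Finset.prod_pos fun i _ => Real.rpow_pos_of_pos h.pos _
    refine ⟨c / ∏ i ∈ S.K y, ρ ^ (2 * (β i / (a : ℝ))),
      |B| * (∏ _i ∈ S.K y, (1 + |Real.log ρ|)) ^ M / ∏ i ∈ S.K y, ρ ^ (2 * (β i / (a : ℝ))), M,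
      div_pos hc hR, ?_⟩
    filter_upwards [cover h one_half_lt_one] with y' hy' hU'
    obtain ⟨ζ, ⟨hζ, -⟩, rfl⟩ := hy' hU'
    have hD : ζ ∈ Dm (S.K y) := ⟨fun i hi => one_half_pos.trans_le (hζ.1 i hi),
      fun i hi => (hζ.2 i hi).trans_lt (by norm_num)⟩
    have ht : C.π (f ζ) ∈ Lb.U t := h.eq ζ hD ▸ hU _ (pt_mem h.pos _ ((mem_dm one_pos).1 hD))
    have h4 : ∀ i ∈ S.K y, ‖chartAt (Fin p → ℂ) y (C.π (f ζ)) i‖ =
        ρ * Real.exp (-(2 * Real.pi * (ζ i).im)) := fun i hi => by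
      rw [crd h hD, Pi.add_apply, S.zero_K hi, zero_add, Pi.smul_apply, norm_smul, ex, if_pos hi,
        norm_e, norm_real, Real.norm_of_nonneg h.pos.le, Nat.cast_one, div_one]
    have h5 : ∏ i ∈ S.K y, ‖chartAt (Fin p → ℂ) y (C.π (f ζ)) i‖ ^ (2 * (β i / (a : ℝ))) =
        (∏ i ∈ S.K y, ρ ^ (2 * (β i / (a : ℝ)))) *
          Real.exp (-4 * Real.pi * ∑ i ∈ S.K y, β i / (a : ℝ) * (ζ i).im) := by
      rw [Finset.mul_sum, Real.exp_sum, ← Finset.prod_mul_distrib]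
      refine Finset.prod_congr rfl fun i hi => ?_
      rw [h4 i hi, Real.mul_rpow h.pos.le (Real.exp_pos _).le, ← Real.exp_mul]
      congr 2
      ring
    have h6 : pl (S.K y) ζ ≤ (∏ _i ∈ S.K y, (1 + |Real.log ρ|)) *
        S.plog y (chartAt (Fin p → ℂ) y (C.π (f ζ))) := by
      rw [Snc.plog, S.prod_ab y _ (fun t => 1 + |Real.log t|) (by simp), ← Finset.prod_mul_distrib]
      refine Finset.prod_le_prod (fun i hi => add_nonneg zero_le_one (hD.1 i hi).le) fun i hi => ?_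
      rw [h4 i hi, Real.log_mul h.pos.ne' (Real.exp_pos _).ne', Real.log_exp]
      have k := neg_abs_le (Real.log ρ + -(2 * Real.pi * (ζ i).im))
      nlinarith [mul_nonneg (abs_nonneg (Real.log ρ))
        (abs_nonneg (Real.log ρ + -(2 * Real.pi * (ζ i).im))), le_abs_self (Real.log ρ),
        mul_pos (hD.1 i hi) (sub_pos.2 Real.pi_gt_three), hD.1 i hi]
    have h7 : 0 ≤ pl (S.K y) ζ :=
      Finset.prod_nonneg fun i hi => add_nonneg zero_le_one (hD.1 i hi).le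
    rw [h5, L.hY_eq ht, Ln.h, (h1 ζ hD).2.2.1, ← mul_assoc, ← mul_assoc, div_mul_cancel₀ _ hR.ne',
      div_mul_cancel₀ _ hR.ne', mul_comm c]
    refine ⟨mul_le_mul_of_nonneg_left (h2 ζ hζ).1 (Real.exp_pos _).le, le_of_le_of_eq
      (mul_le_mul_of_nonneg_left ((h2 ζ hζ).2.trans (mul_le_mul (le_abs_self B)
        (pow_le_pow_left₀ h7 h6 M) (pow_nonneg h7 M) (abs_nonneg B))) (Real.exp_pos _).le) ?_⟩
    ring
  refine ⟨H, fun α hα l i hl k => mul_left_cancel₀ two_ne_zero ?_⟩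
  have ht : y ∈ Lb.U t := (chartAt (Fin p → ℂ) y).left_inv hy ▸ hU _ (Metric.mem_ball_self h.pos)
  have := Two.eq (e := fun l => 2 * (α l : ℝ)) (hα y t ht) (two_of
    (e := fun l => (S.lab y l).elim 0 fun i => 2 * (β i / (a : ℝ))) H fun l i k => by
      simp only [k, Option.elim_some]) hl
  simpa only [k, Option.elim_some] using this

open AlH in
/-- **ALPHA** -/
theorem stAlpha (hBd : StBd) (hId : StAlId) : StAlpha := by
  intro p Y _ _ _ S C n _ _ V Lb L hc hM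
  have H : ∀ y, ∃ e : Fin S.r → ℚ, ∀ i, y ∈ Lb.U i → Two S y (L.hY i) fun l => 2 * (e l : ℝ) := by
    intro y
    obtain ⟨t, ht⟩ := L.lb.cover y
    obtain ⟨ρ, f, g, a, N, β, φ, h1, h2, h3, -⟩ := hBd p Y S C n V Lb L hM y t ht univ univ_mem
    refine ⟨fun l => (S.lab y l).elim 0 fun i => β i / a, fun i hi => Two.ch ht hi (two_of
      (hId p Y S C n V Lb L y t ρ f g a N β φ h1 (fun z hz => (h2 z hz).2) h3).1 fun l i k => ?_)⟩
    simp only [k, Option.elim_some, Rat.cast_div, Rat.cast_intCast, Rat.cast_natCast]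
  choose e he using H
  have loc : ∀ y l, ∀ᶠ y' in 𝓝 y, y' ∈ S.G l → e y l = e y' l := fun y l => by
    obtain ⟨t, ht⟩ := L.lb.cover y
    filter_upwards [(he y t ht).ev, (L.lb.isOpen t).mem_nhds ht] with y' a b c
    exact Rat.cast_injective (mul_left_cancel₀ two_ne_zero (a.eq (he y' t b) c))
  classical
  refine ⟨fun l => if h : (S.G0 l).Nonempty then e h.some l else 0, fun y i hi =>
    (he y i hi).congr fun l hl => ?_⟩
  obtain ⟨y', h1, h2⟩ := dense S hl (loc y l)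
  have h3 : (S.G0 l).Nonempty := ⟨y', h1⟩
  simp only [dif_pos h3]
  rw [h2 h1.1, (hc l).induction₂ (fun x x' => e x l = e x' l) (fun x _ => ?_)
    (fun _ _ _ _ _ _ => Eq.trans) (fun _ _ _ _ => Eq.symm) h3.some_mem h1]
  filter_upwards [self_mem_nhdsWithin, mem_nhdsWithin_of_mem_nhds (loc x l)] with x' a b using b a.1

end Vale.Agent.P281Z.Hm
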