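import Vale.Agent.P281Z.Hm.Comm
import Vale.Agent.P281Z.Hm.Lift
import Vale.Agent.P281Z.Hm.Log
import Vale.Agent.P281Z.Hm.Id

/-!
# P281Z, the boundary data of a global variation (BD)
-/

open scoped Topology
open Filter Set Complex

noncomputable section

namespace Vale.Agent.P281Z.Hm

namespace BdH

theorem le_comap {E : Type} [AddCommGroup E] [Module ℂ E] [FiniteDimensional ℂ E]
    (W : Submodule ℂ E) (D : E →ₗ[ℂ] E) : Module.finrank ℂ W ≤ Module.finrank ℂ (W.comap D) := by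
  have h1 := (W.mkQ ∘ₗ D).finrank_range_add_finrank_ker
  have h2 := W.finrank_quotient_add_finrank
  have h3 := (LinearMap.range (W.mkQ ∘ₗ D)).finrank_le
  rw [LinearMap.ker_comp, Submodule.ker_mkQ] at h1
  omega

end BdH

open LiftH DescH BdH in
/-- **BD** -/
theorem stBd (hBor : StBor) (hFr : StFr) : StBd := by
  intro p Y _ _ _ S C n _ _ V Lb L hM y t ht O hO
  obtain ⟨B, A, hM⟩ := hM y t ht
  obtain ⟨ρ, f, g, h, hO'⟩ := exists_bdl C y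
    (inter_mem (inter_mem hO ((L.lb.isOpen t).mem_nhds ht)) hM)
  obtain ⟨h1, h2, -⟩ := (stLift p Y S C).2.2 y ρ f g h
  have hU := fun ζ (hζ : ζ ∈ Dm (S.K y)) =>
    h.eq ζ hζ ▸ hO' _ (pt_mem h.pos _ ((mem_dm one_pos).1 hζ))
  have bv : BV (S.K y) V.Q V.w (fun ζ => V.gr (f ζ)) fun i => V.ρ (g i) :=
    ⟨fun ζ hζ => V.lv _ f ζ (h1 ζ hζ).1, fun i hi ζ hζ q => by
      rw [h.mono i hi ζ hζ, V.eqv], fun i _ => V.pQ _⟩
  obtain ⟨a, ha, hn⟩ := hBor n p _ _ _ _ _ bv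
  obtain ⟨b, hb, hc⟩ := stComm p Y S.U C n V V.hs
  obtain ⟨N, hN⟩ := stLog n p (S.K y) V.Q (fun i => V.ρ (g i)) (a * (b * L.m))
    (mul_pos ha (mul_pos hb L.hm)) (fun i hi => hn i hi _) (fun i hi j hj => by
      rw [mul_left_comm, pow_mul _ b, pow_mul _ b]
      exact (hc _ _ (h2 i hi j hj)).pow_pow _ _) bv.pQ
  have bl : BL (S.K y) V.Q V.w (fun ζ => V.gr (f ζ)) (fun i => V.ρ (g i)) (a * (b * L.m))
      (fun ζ => L.ψ t (f ζ)) fun i => L.lam (g i) := by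
    refine ⟨fun ζ hζ => L.ln t _ f ζ (h1 ζ hζ).1 (hU ζ hζ).1.2, fun i hi ζ hζ => by
      rw [h.mono i hi ζ hζ, L.eqv t _ _ (hU ζ hζ).1.2], fun i _ => by
      rw [← mul_assoc, pow_mul', L.pow, one_pow], B / (ρ ^ A) ^ (S.K y).card, 2 * Real.pi * A,
      fun ζ hζ => ?_⟩
    have h3 := (hU ζ hζ).2 (C.mem _)
    have h4 : ∀ i ∈ S.K y, ‖chartAt (Fin p → ℂ) y (C.π (f ζ)) i‖ ^ A =
        ρ ^ A * Real.exp (-(2 * Real.pi * A * (ζ i).im)) := fun i hi => by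
      rw [crd h hζ, Pi.add_apply, S.zero_K hi, zero_add, Pi.smul_apply, norm_smul, ex, if_pos hi,
        norm_e, norm_real, Real.norm_of_nonneg h.pos.le,
        Real.mul_rpow h.pos.le (Real.exp_pos _).le, ← Real.exp_mul]
      congr 2
      push_cast
      ring
    rw [L.hY_eq (hU ζ hζ).1.2, S.prod_ab y _ (· ^ A) (Real.one_rpow A), Finset.prod_congr rfl h4,
      Finset.prod_mul_distrib, Finset.prod_const, ← Real.exp_sum, Finset.sum_neg_distrib,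
      ← Finset.mul_sum, Real.exp_neg, ← mul_assoc, mul_inv_le_iff₀ (Real.exp_pos _),
      ← le_div_iff₀ (pow_pos (Real.rpow_pos_of_pos h.pos A) _), mul_div_right_comm] at h3
    exact h3
  obtain ⟨β, φ, fr⟩ := hFr n p _ _ _ _ _ _ N _ _ bv hN bl
  refine ⟨ρ, f, g, _, N, β, φ, h, fun z hz => (hO' z hz).1, ⟨bv, hN, bl, fr⟩, fun ν hν ζ hζ => ?_⟩
  obtain ⟨-, hσ, hL, hf, -⟩ := stBr p Y S.U C S.isOpen_U
  obtain ⟨σ, s1, s2, -⟩ := hσ y (f ζ) (src h hζ)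
  obtain ⟨a1, -, a2⟩ := hf _ f ζ y σ (h1 ζ hζ).1 (src h hζ) s1 s2
  have a3 : C.π (σ (chartAt (Fin p → ℂ) y (C.π (f ζ)))) ∈ Lb.U t := s2.symm ▸ (hU ζ hζ).1.2
  refine (hν t y σ _ s1 a3).trans (Nat.add_le_add_right ((le_comap _
    (fderiv ℂ (fun s => chartAt (Fin p → ℂ) y (C.π (f s))) ζ : _ →ₗ[ℂ] _)).trans_eq ?_) ν)
  rw [kerL, kerL, Filter.EventuallyEq.fderiv_eq (f₁ := fun s => L.ψ t (f s))
    (f := fun s => L.ψ t (σ (chartAt (Fin p → ℂ) y (C.π (f s)))))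
    (a2.mono fun s hs => congrArg (L.ψ t) hs), fderiv_fun_comp (g := fun x => L.ψ t (σ x)) ζ
    (L.ln t _ σ _ (hL y σ _ s1) a3).an.differentiableAt a1.differentiableAt, s2]
  rfl

end Vale.Agent.P281Z.Hm
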