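import Vale.Agent.P281Z.Hm.Max
import Vale.Agent.P281Z.Hm.Id

/-!
# P281Z, trivial monodromy on the gradings: the Hodge metric is bounded (BDD)
-/

set_option linter.unusedSectionVars false

open scoped Matrix.Norms.Operator Topology ComplexOrder
open Filter Set Matrix Complex

noncomputable section

namespace Vale.Agent.P281Z.Hm

open Vale.Agent.P284Z (levi psh_of_levi)
open MaxH

namespace BddH

variable {p : ℕ} {K : Finset (Fin p)} {n : Type} [Fintype n] [DecidableEq n]

theorem upd_In {ζ : Fin p → ℂ} {η : ℝ} (hζ : ζ ∈ In K η) {j : Fin p} (hj : j ∈ K) {t : ℂ}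
    (ht : η ≤ t.im) : Function.update ζ j t ∈ In K η := by
  refine ⟨fun i k => ?_, fun i k => ?_⟩
  · rcases eq_or_ne i j with rfl | e
    · rwa [Function.update_self]
    · rw [Function.update_of_ne e]
      exact hζ.1 i k
  · rw [Function.update_of_ne (ne_of_mem_of_not_mem hj k).symm]
    exact hζ.2 i k

theorem det_col {H : Mx n} (h : H.PosDef) (s : n → ℂ) :
    ‖((replicateCol Unit s)ᴴ * H * replicateCol Unit s).det‖ = hn H s := by
  have e : ((replicateCol Unit s)ᴴ * H * replicateCol Unit s).det = hn H s := by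
    rw [det_unique, hn_ofReal h.1, dotProduct_mulVec]
    rfl
  rw [e, norm_real, Real.norm_of_nonneg (hn_nonneg h s)]

theorem inj_col {s : n → ℂ} (hs : s ≠ 0) : Function.Injective (replicateCol Unit s).mulVec := by
  intro x y h
  obtain ⟨i, hi⟩ := Function.ne_iff.1 hs
  have := congrFun h i
  simp only [mulVec, dotProduct, Finset.univ_unique, Finset.sum_singleton, replicateCol_apply]
    at this
  exact funext fun _ => mul_left_cancel₀ hi this

end BddH

open BddH in
theorem stBdd (hF : StFlat) (hG : StGrow) : StBdd := by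
  intro n _ _ p b Q w π lv per η hη
  have hb := Finset.mem_singleton_self b
  have per' : ∀ i ∈ ({b} : Finset (Fin p)), ∀ ζ ∈ Dm {b},
      π (ζ + Pi.single i ((1 : ℕ) : ℂ)) = π ζ := fun i hi ζ hζ => by
    rw [Finset.mem_singleton.1 hi, Nat.cast_one, per ζ hζ]
  have grow : ∀ η > (0 : ℝ), ∃ (B : ℝ) (N : ℕ), ∀ ζ ∈ In {b} η, ∀ s,
      hn (gH Q w (π ζ)) s ≤ B * (1 + (ζ b).im) ^ N * ‖s‖ ^ 2 := fun η hη => by
    obtain ⟨B, N, h⟩ := (hG n p {b} Q w π lv η hη).2 1
    refine ⟨B, N, fun ζ hζ s => ?_⟩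
    obtain ⟨ζ', a1, a2, a3⟩ := red hζ
    have := (h ζ' a1 s).1
    rwa [a3, DescH.per_eq one_pos per' (In_sub hη hζ) a2, pl, Finset.prod_singleton] at this
  obtain ⟨B, N, h⟩ := grow η hη
  refine ⟨B * (1 + η) ^ N, fun ζ hζ s => ?_⟩
  rcases eq_or_ne s 0 with rfl | hs
  · simp [hn]
  have h0 : ∀ x ∈ Dm {b}, 0 < hn (gH Q w (π x)) s := fun x hx => hn_pos (lv x hx).hs0.pos hs
  have h1 : ∀ x ∈ Dm {b}, ContDiffAt ℝ 2 (fun x => Real.log (hn (gH Q w (π x)) s)) x ∧
      ∀ v, 0 ≤ levi (fun x => Real.log (hn (gH Q w (π x)) s)) x v := fun x hx => by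
    obtain ⟨a1, a2⟩ := hF n _ Q w π x (lv x hx) Unit _ (inj_col hs)
    have e := (lv x hx).hs.mono fun y hy => congrArg Real.log (det_col hy.pos s)
    exact ⟨(a1.congr e).contDiffAt, fun v => levi_congr e v ▸ (a2 v).1⟩
  obtain ⟨τ, a1, a2, a3⟩ := stTor p {b} 1 _ one_pos
    (fun x hx => (h1 x hx).1.continuousAt.continuousWithinAt) (psh_of_levi h1)
    (fun i hi x hx => by rw [per' i hi x hx]) (fun j hj x hx ε hε => by
      refine ⟨x, hx, by rwa [dist_self], fun δ hδ => ?_⟩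
      obtain ⟨η', η0, η1, hx'⟩ := ex_In hx
      obtain ⟨B', N', h'⟩ := grow η' η0
      obtain ⟨A, hA⟩ := log_le N' hδ
      refine ⟨Real.log (B' * ‖s‖ ^ 2) + A, fun t ht => ?_⟩
      obtain rfl := Finset.mem_singleton.1 hj
      have t0 := one_pos.trans_le ht
      have k1 := h' _ (upd_In hx' hb (η1.trans ht)) s
      have k2 := h0 _ (TorH.upd_mem hx hb t0)
      rw [Function.update_self, mul_right_comm] at k1
      have k3 := Real.log_le_log k2 k1
      rw [Real.log_mul (left_ne_zero_of_mul (k2.trans_le k1).ne') (by positivity),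
        Real.log_pow] at k3
      linarith [hA _ t0.le]) η hη ζ (In_sub hη hζ) hζ.1
  have h2 : τ ∈ In {b} η := ⟨fun i e => (a1 i e).1.ge, fun i e => a2 i e ▸ hζ.2 i e⟩
  have h3 := h τ h2 s
  rw [(a1 b hb).1] at h3
  exact ((Real.log_le_log_iff (h0 _ (In_sub hη hζ)) (h0 _ (In_sub hη h2))).1 a3).trans h3

end Vale.Agent.P281Z.Hm
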