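import Vale.Agent.P281Z.Hm.Grow
import Mathlib.NumberTheory.MahlerMeasure
import Mathlib.LinearAlgebra.Matrix.Charpoly.Basic
import Mathlib.LinearAlgebra.Matrix.ToLinearEquiv

/-!
# P281Z, the monodromy theorem
-/

open scoped Matrix.Norms.Operator Topology ComplexOrder
open Filter Set Matrix Complex Polynomial

noncomputable section

namespace Vale.Agent.P281Z.Hm

namespace BorH

variable {n : Type} [Fintype n] [DecidableEq n]

theorem eig {M : Mx n} {μ : ℂ} (h : μ ∈ M.charpoly.roots) : ∃ s, s ≠ 0 ∧ M *ᵥ s = μ • s := by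
  have h1 := (mem_roots'.1 h).2
  rw [IsRoot.def, Matrix.eval_charpoly] at h1
  obtain ⟨s, h2, h3⟩ := Matrix.exists_mulVec_eq_zero_iff.2 h1
  refine ⟨s, h2, ?_⟩
  rw [sub_mulVec, sub_eq_zero] at h3
  rw [← h3]
  ext i
  simp [mulVec_diagonal]

theorem kron (T : Matrix n n ℤ) (h : ∀ μ ∈ (cz T).charpoly.roots, ‖μ‖ = 1) :
    ∃ a, 0 < a ∧ ∀ b, IsNilpotent (cz T ^ (a * b) - 1) := by
  have e : (cz T).charpoly = T.charpoly.map (Int.castRingHom ℂ) :=
    Matrix.charpoly_map T (Int.castRingHom ℂ)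
  have hm : (T.charpoly.map (Int.castRingHom ℂ)).mahlerMeasure = 1 := by
    rw [← e, mahlerMeasure_eq_leadingCoeff_mul_prod_roots, (cz T).charpoly_monic.leadingCoeff,
      norm_one, one_mul]
    refine Multiset.prod_eq_one fun x hx => ?_
    obtain ⟨μ, h1, rfl⟩ := Multiset.mem_map.1 hx
    rw [h μ h1, max_self]
  have h1 : ∀ μ ∈ (cz T).charpoly.roots.toFinset, ∃ k, 0 < k ∧ μ ^ k = 1 := fun μ hμ => by
    have h2 := Multiset.mem_toFinset.1 hμ
    refine pow_eq_one_of_mahlerMeasure_eq_one hm (fun k => ?_) (by rw [e] at h2; exact h2)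
    simpa [k] using h μ h2
  choose! k k1 k2 using h1
  refine ⟨∏ μ ∈ (cz T).charpoly.roots.toFinset, k μ, Finset.prod_pos k1, fun b => ?_⟩
  set m := (∏ μ ∈ (cz T).charpoly.roots.toFinset, k μ) * b
  have h3 : (cz T).charpoly ∣ (X ^ m - 1) ^ (cz T).charpoly.roots.card := by
    conv_lhs => rw [(IsAlgClosed.splits _).eq_prod_roots_of_monic (cz T).charpoly_monic]
    have := Multiset.prod_dvd_prod_of_dvd (S := (cz T).charpoly.roots) (fun μ => X - C μ)
      (fun _ => X ^ m - 1) fun μ hμ => by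
        have h4 := Multiset.mem_toFinset.2 hμ
        obtain ⟨c, hc⟩ := (Finset.dvd_prod_of_mem k h4).mul_right b
        rw [dvd_iff_isRoot, IsRoot.def, eval_sub, eval_pow, eval_X, eval_one,
          show m = k μ * c from hc, pow_mul, k2 μ h4, one_pow, sub_self]
    simpa using this
  obtain ⟨q, hq⟩ := h3
  refine ⟨(cz T).charpoly.roots.card, ?_⟩
  have := congrArg (aeval (cz T)) hq
  simpa [Matrix.aeval_self_charpoly] using this

variable {p : ℕ} {K : Finset (Fin p)} {Q : Mx n} {w : ℕ} {π : (Fin p → ℂ) → Gr n}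
  {T : Fin p → Matrix n n ℤ}

theorem H_eqv (h : BV K Q w π T) {i : Fin p} (hi : i ∈ K) {ζ : Fin p → ℂ} (hζ : ζ ∈ Dm K) :
    (cz (T i))ᴴ * gH Q w (π (ζ + Pi.single i 1)) * cz (T i) = gH Q w (π ζ) := by
  have e : gC w (π (ζ + Pi.single i 1)) * cz (T i) = cz (T i) * gC w (π ζ) := by
    simp only [gC, Finset.sum_mul, Finset.mul_sum, smul_mul_assoc, mul_smul_comm, h.eqv i hi ζ hζ]
  rw [gH, gH, mul_assoc, mul_assoc, e, ← mul_assoc, ← mul_assoc, h.pQ i hi]

theorem norm_one (hG : StGrow) (hL : StLip) (h : BV K Q w π T) {i : Fin p} (hi : i ∈ K) {μ : ℂ}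
    (hμ : μ ∈ (cz (T i)).charpoly.roots) : ‖μ‖ = 1 := by
  obtain ⟨s, s0, hs⟩ := eig hμ
  obtain ⟨B, hB⟩ := (hG n p K Q w π h.lv 1 one_pos).1
  have key : ∀ y : ℝ, 1 ≤ y → ‖μ‖ ≠ 0 ∧ |Real.log (‖μ‖ ^ 2)| ≤ 4 * √B / y := fun y hy => by
    have mem : ∀ t : ℝ, GrowH.bs K y + t • (Pi.single i 1 : Fin p → ℂ) ∈ In K 1 ∧
        ((GrowH.bs K y + t • (Pi.single i 1 : Fin p → ℂ)) i).im = y := fun t =>
      ⟨⟨fun j hj => by by_cases e : j = i <;> simp [GrowH.bs, hj, e, hi, hy], fun j hj => by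
        simp [GrowH.bs, hj, show j ≠ i from fun e => hj (e ▸ hi)]⟩, by simp [GrowH.bs, hi]⟩
    have m0 : GrowH.bs K y ∈ Dm K := by simpa using GrowH.in_dm one_pos (mem 0).1
    have m1 : GrowH.bs K y + Pi.single i 1 ∈ Dm K := by simpa using GrowH.in_dm one_pos (mem 1).1
    have h1 := GrowH.seg hL (fun t _ => h.lv _ (GrowH.in_dm one_pos (mem t).1)) s0
      (G := fun t => 4 * √B / y * t) (G' := fun _ => 4 * √B / y)
      (fun t _ => hasDerivAt_const_mul _) fun t _ => by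
        have h2 := hB _ (mem t).1 (Pi.single i 1)
        rw [Finset.sum_eq_single i (fun j _ e => by simp [e]) (fun k => absurd hi k),
          Finset.sum_eq_zero fun j hj => by
            simp [show j ≠ i from fun e => Finset.mem_compl.1 hj (e ▸ hi)], (mem t).2] at h2
        have h3 := Real.sqrt_le_sqrt h2
        rw [add_zero, Real.sqrt_mul' _ (sq_nonneg _), Real.sqrt_sq (by positivity)] at h3
        simp only [Pi.single_eq_same, NormOneClass.norm_one, mul_one_div] at h3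
        rw [mul_div_assoc]
        linarith
    have h4 := hn_conj (gH Q w (π (GrowH.bs K y + Pi.single i 1))) (cz (T i)) s
    rw [H_eqv h hi m0, hs, hn_smul] at h4
    have p0 := hn_pos (h.lv _ m0).hs.self_of_nhds.pos s0
    have p1 := hn_pos (h.lv _ m1).hs.self_of_nhds.pos s0
    have h5 : ‖μ‖ ≠ 0 := fun k => by simp [h4, k] at p0
    rw [h4, Real.log_mul (pow_ne_zero _ h5) p1.ne'] at h1
    exact ⟨h5, by simpa using h1⟩
  have h6 : |Real.log (‖μ‖ ^ 2)| ≤ 0 :=
    ge_of_tendsto (tendsto_const_nhds.div_atTop tendsto_id)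
      ((eventually_ge_atTop 1).mono fun y hy => (key y hy).2)
  have h7 := Real.eq_one_of_pos_of_log_eq_zero
    (pow_pos ((norm_nonneg μ).lt_of_ne' (key 1 le_rfl).1) 2) (abs_nonpos_iff.1 h6)
  exact (pow_eq_one_iff_of_nonneg (norm_nonneg μ) two_ne_zero).1 h7

end BorH

theorem stBor (hG : StGrow) (hL : StLip) : StBor := by
  intro n _ _ p K Q w π T h
  choose! a a1 a2 using fun i (hi : i ∈ K) =>
    BorH.kron (T i) fun μ hμ => BorH.norm_one hG hL h hi hμ
  refine ⟨∏ i ∈ K, a i, Finset.prod_pos a1, fun i hi b => ?_⟩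
  obtain ⟨c, hc⟩ := (Finset.dvd_prod_of_mem a hi).mul_right b
  rw [hc]
  exact a2 i hi c

end Vale.Agent.P281Z.Hm
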