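import Vale.Agent.P281Z.Hm.Cov
import Vale.Agent.P281Z.Hm.Id
import Vale.Agent.P268.Hol

/-!
# P281Z: from the cocycle form of a variation to the covering
-/

open scoped Matrix.Norms.Operator Topology ComplexOrder Manifold ContDiff
open Filter Set Matrix Complex

noncomputable section

namespace Vale.Agent.P281Z.Hm

namespace Cov

/-- the group of the frames -/
abbrev GLZ (n : ℕ) : Type := (Matrix (Fin n) (Fin n) ℤ)ˣ

variable {p n w : ℕ} {Y : Type} [TopologicalSpace Y] [ChartedSpace (Fin p → ℂ) Y] {U : Set Y}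
  (D : Hg.Loc p n w U)

open Classical in
/-- the cocycle with values in the units -/
def gU (a b t : Y) : GLZ n :=
  if h : t ∈ D.N a ∧ t ∈ D.N b then
    ⟨D.g a b t, D.g b a t, (D.coc a b a t h.1 h.2 h.1).trans (D.one a t h.1),
      (D.coc b a b t h.2 h.1 h.2).trans (D.one b t h.2)⟩
  else 1

variable {D}

theorem gU_val {a b t : Y} (ha : t ∈ D.N a) (hb : t ∈ D.N b) : (gU D a b t).1 = D.g a b t := by
  rw [gU, dif_pos ⟨ha, hb⟩]

variable (D) in
/-- the cocycle -/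
def coc : Coc U (GLZ n) where
  N := D.N
  g := gU D
  opn := D.opn
  mem := D.mem
  sub := D.sub
  lc a b t ha hb := by
    filter_upwards [D.lc a b t ha hb, (D.opn a).mem_nhds ha, (D.opn b).mem_nhds hb] with s h k k'
    exact Units.ext (by rw [gU_val k k', gU_val ha hb, h])
  coc a b c t ha hb hc := Units.ext (by
    rw [Units.val_mul, gU_val ha hb, gU_val hb hc, gU_val ha hc, D.coc a b c t ha hb hc])

theorem cz_inv (k : GLZ n) : cz (k⁻¹).1 * cz k.1 = 1 := by rw [← cz_mul, Units.inv_mul, cz_one]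

theorem cz_inv' (k : GLZ n) : cz k.1 * cz (k⁻¹).1 = 1 := by rw [← cz_mul, Units.mul_inv, cz_one]

/-- change of the frame -/
theorem frame {a t : Y} (ht : t ∈ U) (ha : t ∈ D.N a) {c k : GLZ n} (h : c * gU D t a t = k) :
    (cz (c⁻¹).1)ᴴ * D.Q t * cz (c⁻¹).1 = (cz (k⁻¹).1)ᴴ * D.Q a * cz (k⁻¹).1 ∧
    (∀ q, cz c.1 * D.Pr t q t * cz (c⁻¹).1 = cz k.1 * D.Pr a q t * cz (k⁻¹).1) ∧
    ∀ O ψ, D.Sec O ψ → t ∈ O → cz c.1 *ᵥ ψ t t = cz k.1 *ᵥ ψ a t := by
  have h0 := D.mem t ht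
  have e1 : cz k.1 = cz c.1 * Hg.zc (D.g t a t) := by
    rw [← h, Units.val_mul, gU_val h0 ha, cz_mul]; rfl
  have e2 : cz (c⁻¹).1 = Hg.zc (D.g t a t) * cz (k⁻¹).1 := by
    rw [show c⁻¹ = gU D t a t * k⁻¹ by rw [← h]; group, Units.val_mul, gU_val h0 ha, cz_mul]; rfl
  refine ⟨?_, fun q => ?_, fun O ψ hψ hO => ?_⟩
  · rw [e2, D.chQ t a t h0 ha, conjTranspose_mul]
    simp only [Matrix.mul_assoc]
  · rw [e1, e2, Matrix.mul_assoc (cz c.1) (Hg.zc _), ← D.chP t a q t h0 ha]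
    simp only [Matrix.mul_assoc]
  · rw [e1, hψ.ch t a t h0 ha hO, mulVec_mulVec]

section cv
variable {C : Cv Y U} {c : C.X → GLZ n}
  (hc : ∀ x a, C.π x ∈ D.N a → ∀ᶠ x' in 𝓝 x,
    c x' * gU D (C.π x') a (C.π x') = c x * gU D (C.π x) a (C.π x))
include hc

theorem near (x : C.X) : ∀ᶠ x' in 𝓝 x, C.π x' ∈ D.N (C.π x) ∧
    c x' * gU D (C.π x') (C.π x) (C.π x') = c x := by
  have h0 := D.mem _ (C.mem x)
  filter_upwards [hc x _ h0, (C.cov.continuousAt (C.mem x)).eventually_mem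
    ((D.opn _).mem_nhds h0)] with x' h1 h2
  exact ⟨h2, h1.trans (by rw [show gU D _ _ _ = 1 from (coc D).one h0, mul_one])⟩

theorem constQ (x x' : C.X) : (cz (c x)⁻¹.1)ᴴ * D.Q (C.π x) * cz (c x)⁻¹.1 =
    (cz (c x')⁻¹.1)ᴴ * D.Q (C.π x') * cz (c x')⁻¹.1 :=
  IsLocallyConstant.apply_eq_of_preconnectedSpace
    (f := fun x => (cz (c x)⁻¹.1)ᴴ * D.Q (C.π x) * cz (c x)⁻¹.1)
    ((IsLocallyConstant.iff_eventually_eq _).2 fun x => (near hc x).mono fun x' h =>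
      (frame (C.mem x') h.1 h.2).1) x x'

theorem nearL {E : Type} [NormedAddCommGroup E] [NormedSpace ℂ E] {f : E → C.X} {z : E}
    (hf : C.Lift p f z) : ∀ᶠ s in 𝓝 z, C.π (f s) ∈ D.N (C.π (f z)) ∧
      c (f s) * gU D (C.π (f s)) (C.π (f z)) (C.π (f s)) = c (f z) ∧
      (chartAt (Fin p → ℂ) (C.π (f z))).symm (chartAt (Fin p → ℂ) (C.π (f z)) (C.π (f s))) =
        C.π (f s) := by
  have h1 := hf.1.self_of_nhds
  filter_upwards [h1.eventually (near hc (f z)),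
    ((C.cov.continuousAt (C.mem _)).comp h1).eventually_mem
      (chart_source_mem_nhds (Fin p → ℂ) (C.π (f z)))] with s a b
  exact ⟨a.1, a.2, (chartAt _ _).left_inv b⟩

theorem lv (h1 : StSmAn) (h2 : StPull) (h3 : StSub) {E : Type} [NormedAddCommGroup E]
    [NormedSpace ℝ E] [NormedSpace ℂ E] [IsScalarTower ℝ ℂ E] {f : E → C.X} {z : E}
    (hf : C.Lift p f z) :
    LVAt ((-1 : ℂ) ^ w • ((cz (c (f z))⁻¹.1)ᴴ * D.Q (C.π (f z)) * cz (c (f z))⁻¹.1)) w
      (fun s q => cz (c (f s)).1 * D.Pr (C.π (f s)) q (C.π (f s)) * cz (c (f s))⁻¹.1) z := by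
  obtain ⟨a, ha⟩ : ∃ a, a = C.π (f z) := ⟨_, rfl⟩
  have hm : a ∈ D.N a := D.mem _ (ha ▸ C.mem (f z))
  have k1 : ∀ᶠ s in 𝓝 (chartAt (Fin p → ℂ) a a),
      Hg.PVAt w (D.Q a) (fun k z => D.Pr a k ((chartAt (Fin p → ℂ) a).symm z)) s := by
    filter_upwards [chart_target_mem_nhds (Fin p → ℂ) a,
      ((chartAt (Fin p → ℂ) a).continuousAt_symm (mem_chart_target _ a)).eventually_mem
        ((D.opn a).mem_nhds (by rwa [(chartAt _ a).left_inv (mem_chart_source _ a)]))] with s k k'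
    have := D.pv a (chartAt (Fin p → ℂ) a) _ ⟨chart_mem_atlas _ a, (chartAt _ a).map_target k⟩ k'
    rwa [(chartAt _ a).right_inv k] at this
  have k2 := (h3 _ _ _ w _ _ _ (cz (c (f z))⁻¹.1) (cz (c (f z)).1) (h1 p n w _ _ _ k1) (cz_inv' _)
    (Eventually.of_forall fun x q => by
      rw [← Matrix.mul_assoc, ← Matrix.mul_assoc, cz_inv, Matrix.one_mul])).1
  rw [Matrix.mul_smul, Matrix.smul_mul] at k2
  subst ha
  refine (h2 _ _ _ _ w _ (fun s => chartAt (Fin p → ℂ) (C.π (f z)) (C.π (f s))) z hf.2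
    k2).1.congr ?_
  filter_upwards [nearL hc hf] with s hs
  funext q
  rw [hs.2.2]
  exact ((frame (C.mem _) hs.1 hs.2.1).2.1 q).symm

theorem hol {O : Set Y} {ψ : Y → Y → Fin n → ℂ} (hO : IsOpen O) (hψ : D.Sec O ψ) {E : Type}
    [NormedAddCommGroup E] [NormedSpace ℂ E] {f : E → C.X} {z : E} (hf : C.Lift p f z)
    (hz : C.π (f z) ∈ O) :
    AnalyticAt ℂ (fun s => cz (c (f s)).1 *ᵥ ψ (C.π (f s)) (C.π (f s))) z := by
  have k0 := nearL hc hf
  have k4 := ((C.cov.continuousAt (C.mem _)).comp hf.1.self_of_nhds).eventually_mem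
    (hO.mem_nhds hz)
  have hm := D.mem _ (C.mem (f z))
  obtain ⟨S, s1, s2, s3⟩ := eventually_nhds_iff.1 (hψ.hol _ (chartAt (Fin p → ℂ) (C.π (f z))) _
    ⟨chart_mem_atlas _ _, mem_chart_source _ _⟩ hm hz)
  have k1 := P268.analyticOnNhd_of_differentiableOn s2
    (fun x hx => (s1 x hx).differentiableWithinAt) _ s3
  refine (an_mulVec (analyticAt_const (v := cz (c (f z)).1)) (k1.comp
    (f := fun s => chartAt (Fin p → ℂ) (C.π (f z)) (C.π (f s))) hf.2)).congr ?_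
  filter_upwards [k0, k4] with s hs hs'
  rw [Function.comp_apply, hs.2.2]
  exact ((frame (C.mem _) hs.1 hs.2.1).2.2 O ψ hψ hs').symm

end cv

end Cov

open Cov in
theorem stCov (h1 : StSmAn) (h2 : StPull) (h3 : StSub) : StCov := by
  intro p n w Y _ _ _ U D _ hU
  have := ChartedSpace.locallyConnectedSpace (Fin p → ℂ) Y
  obtain ⟨C, ρ, c, hρ, he, hc⟩ := (coc D).exists_cv hU
  obtain ⟨x₀⟩ : Nonempty C.X := inferInstance
  have hi : ∀ (g : C.Γ) x, cz (c (g • x))⁻¹.1 * cz (ρ g).1 = cz (c x)⁻¹.1 := fun g x => by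
    rw [← cz_mul, ← Units.val_mul, he, _root_.mul_inv_rev, inv_mul_cancel_right]
  refine ⟨C,
    { Q := (-1 : ℂ) ^ w • ((cz (c x₀)⁻¹.1)ᴴ * D.Q (C.π x₀) * cz (c x₀)⁻¹.1)
      w := w
      gr := fun x q => cz (c x).1 * D.Pr (C.π x) q (C.π x) * cz (c x)⁻¹.1
      ρ := (Units.coeHom _).comp ρ
      eqv := fun g x q => ?_
      pQ := fun g => ?_
      lv := fun E _ _ _ _ f z hf => constQ hc x₀ (f z) ▸ lv hc h1 h2 h3 hf },
    fun x => (c x)⁻¹.1, fun x => (c x).1, rfl, fun x => ⟨Units.inv_mul _, Units.mul_inv _⟩,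
    fun x => congrArg (fun A => (-1 : ℂ) ^ w • A) (constQ hc x₀ x), fun _ _ => rfl, fun g x => congrArg Units.val (he g x),
    fun x a ha => ?_, fun g g' h => hρ (Units.ext h), fun O ψ hO hψ E _ _ f z hf hz =>
      hol hc hO hψ hf hz⟩
  · change _ * cz (ρ g).1 = cz (ρ g).1 * _
    rw [Matrix.mul_assoc, hi, C.inv, he, Units.val_mul, cz_mul]
    simp only [Matrix.mul_assoc]
  · change (cz (ρ g).1)ᴴ * _ * cz (ρ g).1 = _
    rw [Matrix.mul_smul, Matrix.smul_mul]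
    congr 1
    conv_lhs => rw [constQ hc x₀ (g • x₀), C.inv]
    rw [← hi g x₀, conjTranspose_mul]
    simp only [Matrix.mul_assoc]
  · filter_upwards [hc x a ha, (C.cov.continuousAt (C.mem x)).eventually_mem
      ((D.opn a).mem_nhds ha)] with x' k k'
    have := congrArg Units.val k
    change (c x').1 * (gU D _ _ _).1 = (c x).1 * (gU D _ _ _).1 at this
    rwa [gU_val (D.mem _ (C.mem _)) k', gU_val (D.mem _ (C.mem _)) ha] at this

end Vale.Agent.P281Z.Hm
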