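import Vale.Agent.P281Z.Hm.Id
import Vale.Agent.P281Z.Hm.Max
import Mathlib.LinearAlgebra.Matrix.AbsoluteValue

/-!
# P281Z, the theorem of the fixed part
-/

set_option linter.unusedSectionVars false

open scoped Matrix.Norms.Operator Topology ComplexOrder ComplexConjugate Manifold ContDiff Kronecker
open Filter Set Matrix Complex

noncomputable section

namespace Vale.Agent.P281Z.Hm

namespace Fx

variable {n : Type} [Fintype n] [DecidableEq n]

theorem det_bd {k : Type} [Fintype k] [DecidableEq k] (B : Matrix n k ℂ) :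
    ∃ c : ℝ, 0 < c ∧ ∀ (H : Mx n) (t : ℝ), H.PosDef → 0 ≤ t → (∀ s, hn H s ≤ t * ‖s‖ ^ 2) →
      ‖(Bᴴ * H * B).det‖ ≤ c * t ^ Fintype.card k := by
  set b : ℝ := ‖fun j i => B i j‖ ^ 2 with hb
  refine ⟨(Fintype.card k).factorial * (b + 1) ^ Fintype.card k, by positivity,
    fun H t hH ht h => ?_⟩
  have h1 : ∀ j, hn H (fun i => B i j) ≤ t * (b + 1) := fun j => (h _).trans
    (mul_le_mul_of_nonneg_left ((pow_le_pow_left₀ (norm_nonneg _)
      (norm_le_pi_norm (fun j i => B i j) j) 2).trans (le_add_of_nonneg_right zero_le_one)) ht)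
  have h2 := Matrix.det_le (A := Bᴴ * H * B) (abv := NormedField.toAbsoluteValue ℂ)
    (x := t * (b + 1)) fun i j => by
      have e : (Bᴴ * H * B) i j = star (fun a => B a i) ⬝ᵥ H *ᵥ fun a => B a j := by
        rw [Matrix.mul_assoc]
        rfl
      change ‖(Bᴴ * H * B) i j‖ ≤ _
      rw [e]
      refine (pow_le_pow_iff_left₀ (norm_nonneg _) (by positivity) two_ne_zero).1
        ((hn_cs hH _ _).trans ?_)
      rw [sq]
      exact mul_le_mul (h1 i) (h1 j) (hn_nonneg hH _) (by positivity)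
  refine le_trans h2 (le_of_eq ?_)
  rw [nsmul_eq_mul, mul_pow]
  ring

theorem loc_const {E F : Type} [NormedAddCommGroup E] [NormedSpace ℝ E] [NormedSpace ℂ E]
    [NormedAddCommGroup F] [NormedSpace ℝ F] [NormedSpace ℂ F] {f : E → F} {z : E}
    (h : ∀ᶠ x in 𝓝 z, DifferentiableAt ℝ f x ∧ ∀ v, wd v f x = 0 ∧ wb v f x = 0) :
    ∀ᶠ x in 𝓝 z, f x = f z := by
  obtain ⟨r, hr, hb⟩ := Metric.eventually_nhds_iff_ball.1 h
  filter_upwards [Metric.ball_mem_nhds z hr] with x hx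
  refine Metric.isOpen_ball.is_const_of_fderiv_eq_zero (𝕜 := ℝ) (convex_ball z r).isPreconnected
    (fun y hy => (hb y hy).1.differentiableWithinAt) (fun y hy => ?_) hx (Metric.mem_ball_self hr)
  ext v
  rw [fderiv_eq_wd, ((hb y hy).2 v).1, ((hb y hy).2 v).2, add_zero]
  rfl

/-- two matrices, one above the other -/
def gB (c : Bool → Mx n) : Matrix (n × Bool) n ℂ := of fun a j => c a.2 a.1 j

theorem kron_gB (X : Mx n) (c : Bool → Mx n) :
    X ⊗ₖ (1 : Mx Bool) * gB c = gB fun b => X * c b := by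
  ext ⟨i, b⟩ j
  simp [gB, Matrix.mul_apply, Fintype.sum_prod_type, Matrix.one_apply]

theorem gB_mul (c : Bool → Mx n) (M : Mx n) : gB c * M = gB fun b => c b * M := rfl

theorem comm_of {X A M : Mx n} (h : X ⊗ₖ (1 : Mx Bool) * gB (fun b => cond b A 1) =
    gB (fun b => cond b A 1) * M) : Commute X A := by
  rw [kron_gB, gB_mul] at h
  have h1 : X * 1 = 1 * M := by ext i j; exact congrFun (congrFun h (i, false)) j
  have h2 : X * A = A * M := by ext i j; exact congrFun (congrFun h (i, true)) j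
  rw [Matrix.mul_one, Matrix.one_mul] at h1
  rw [← h1] at h2
  exact h2

theorem cz_kron (g : Matrix n n ℤ) :
    cz (g ⊗ₖ (1 : Matrix Bool Bool ℤ)) = cz g ⊗ₖ (1 : Mx Bool) := by
  ext ⟨i, a⟩ ⟨j, b⟩
  simp [cz, Matrix.one_apply]

variable {p : ℕ} {Y : Type} [TopologicalSpace Y] [ChartedSpace (Fin p → ℂ) Y] {U : Set Y}
  {C : Cv Y U}

/-- the sum of two copies -/
def two (hK : StKron) (V : GV p C n) : GV p C (n × Bool) where
  Q := V.Q ⊗ₖ (1 : Mx Bool)
  w := V.w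
  gr x q := V.gr x q ⊗ₖ (1 : Mx Bool)
  ρ := ⟨⟨fun g => V.ρ g ⊗ₖ (1 : Matrix Bool Bool ℤ), by rw [map_one, one_kronecker_one]⟩,
    fun g g' => by simp only [map_mul, ← mul_kronecker_mul, Matrix.mul_one]⟩
  eqv g x q := by
    change _ * cz (V.ρ g ⊗ₖ 1) = cz (V.ρ g ⊗ₖ 1) * _
    rw [cz_kron, ← mul_kronecker_mul, ← mul_kronecker_mul, V.eqv]
  pQ g := by
    change (cz (V.ρ g ⊗ₖ 1))ᴴ * _ * cz (V.ρ g ⊗ₖ 1) = _
    rw [cz_kron, conjTranspose_kronecker, ← mul_kronecker_mul, ← mul_kronecker_mul, V.pQ]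
    simp
  lv E _ _ _ _ f z h := (hK n E _ _ _ z Bool (V.lv E f z h)).1

/-- `A` commutes with the Higgs field and its adjoint -/
def Cm (V : GV p C n) (A : Mx n) : Prop :=
  ∀ (f : (Fin p → ℂ) → C.X) z, C.Lift p f z → ∀ v,
    Commute (th V.w (fun s => V.gr (f s)) z v) A ∧ Commute (ts V.w (fun s => V.gr (f s)) z v) A

variable [IsManifold 𝓘(ℂ, Fin p → ℂ) ω Y] {V : GV p C n} {A : Mx n}

theorem const (hU : IsOpen U) {u : C.X → Mx n} (h : ∀ (f : (Fin p → ℂ) → C.X) z, C.Lift p f z →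
    DifferentiableAt ℝ (fun s => u (f s)) z ∧
      ∀ v, wd v (fun s => u (f s)) z = 0 ∧ wb v (fun s => u (f s)) z = 0) (x x' : C.X) :
    u x = u x' := by
  obtain ⟨-, -, hL, -, -, hc, -⟩ := stBr p Y U C hU
  exact hc _ u (fun y σ z hσ =>
    loc_const (hσ.eventually_nhds.mono fun s hs => h σ s (hL y σ s hs))) x x'

theorem ex_J (hU : IsOpen U) (hA : ∀ g, Commute (cz (V.ρ g)) A) (h : Cm V A) :
    ∃ A₁, (∀ g, Commute (cz (V.ρ g)) A₁) ∧
      ∀ x, gJ V.w (V.gr x) * A - A * gJ V.w (V.gr x) = A₁ := by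
  have k := const hU (u := fun x => gJ V.w (V.gr x) * A - A * gJ V.w (V.gr x)) fun f z hf => by
    have d := (V.lv _ f z hf).an_J.differentiableAt
    have d1 := df_mul d (differentiableAt_const A)
    have d2 := df_mul (differentiableAt_const A) d
    refine ⟨d1.sub d2, fun v => ⟨?_, ?_⟩⟩
    · rw [wd_sub d1 d2, wd_mul_const d, wd_const_mul _ d]
      exact sub_eq_zero.2 (h f z hf v).1
    · rw [wb_sub d1 d2, wb_mul_const d, wb_const_mul _ d]
      exact sub_eq_zero.2 (Commute.neg_left_iff.1 (h f z hf v).2)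
  obtain ⟨x⟩ : Nonempty C.X := inferInstance
  refine ⟨_, fun g => ?_, fun x' => k x' x⟩
  have e := k (g • x) x
  change _ * _ = _ * _
  conv_rhs => rw [← e]
  rw [Matrix.mul_sub, Matrix.sub_mul, ← Matrix.mul_assoc, ← V.J_eqv, Matrix.mul_assoc, (hA g).eq,
    ← Matrix.mul_assoc (cz _), (hA g).eq, Matrix.mul_assoc A, ← V.J_eqv, Matrix.mul_assoc,
    Matrix.mul_assoc]

theorem ex_H (hU : IsOpen U) (hA : ∀ g, Commute (cz (V.ρ g)) A) (h : Cm V A) :
    ∃ A₂, (∀ g, Commute (cz (V.ρ g)) A₂) ∧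
      ∀ x, gH V.Q V.w (V.gr x) * A₂ = Aᴴ * gH V.Q V.w (V.gr x) := by
  have k := const hU (u := fun x => ad (gH V.Q V.w (V.gr x)) A) fun f z hf => by
    have l := V.lv _ f z hf
    have P := l.hs0.pos
    have d := l.an_H.differentiableAt
    have d1 : DifferentiableAt ℝ (fun s => ad (gH V.Q V.w (V.gr (f s))) A) z :=
      df_mul (df_mul (df_inv d (pd_det P).ne_zero) (differentiableAt_const _)) d
    have e : (fun s => gH V.Q V.w (V.gr (f s)) * ad (gH V.Q V.w (V.gr (f s))) A) =ᶠ[𝓝 z]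
        fun s => Aᴴ * gH V.Q V.w (V.gr (f s)) := .of_forall fun s => mul_ad (V.hs _).pos A
    have key : ∀ {X D : Mx n}, Commute X A →
        (-2 : ℂ) • (gH V.Q V.w (V.gr (f z)) * ad (gH V.Q V.w (V.gr (f z))) X) *
          ad (gH V.Q V.w (V.gr (f z))) A + gH V.Q V.w (V.gr (f z)) * D =
          Aᴴ * (-2 : ℂ) • (gH V.Q V.w (V.gr (f z)) * ad (gH V.Q V.w (V.gr (f z))) X) → D = 0 := by
      intro X D c e
      rw [mul_smul_comm, ← Matrix.mul_assoc, ← mul_ad P, Matrix.mul_assoc, ← ad_mul P, c.eq,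
        ad_mul P, smul_mul_assoc, Matrix.mul_assoc, add_eq_left] at e
      simpa only [nonsing_inv_mul_cancel_left _ _ (pd_det P), Matrix.mul_zero] using
        congrArg ((gH V.Q V.w (V.gr (f z)))⁻¹ * ·) e
    refine ⟨d1, fun v => ⟨?_, ?_⟩⟩
    · have e1 := wd_congr e v
      rw [wd_mul d d1, wd_const_mul _ d, l.dH, ← ad_ad P (th _ _ _ _), ← l.ts_eq] at e1
      exact key (h f z hf v).2 e1
    · have e1 := wb_congr e v
      rw [wb_mul d d1, wb_const_mul _ d, l.bH, l.ts_eq] at e1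
      exact key (h f z hf v).1 e1
  obtain ⟨x⟩ : Nonempty C.X := inferInstance
  have e : ∀ x', gH V.Q V.w (V.gr x') * ad (gH V.Q V.w (V.gr x)) A = Aᴴ * gH V.Q V.w (V.gr x') :=
    fun x' => by rw [← mul_ad (V.hs x').pos, k x' x]
  refine ⟨_, fun g => ?_, e⟩
  generalize ad (gH V.Q V.w (V.gr x)) A = A₂ at e
  have hu : IsUnit ((cz (V.ρ g))ᴴ * gH V.Q V.w (V.gr (g • x))) := by
    rw [isUnit_iff_isUnit_det, det_mul, det_conjTranspose]
    exact (norm_ne_zero_iff.1 (by rw [V.norm_det]; exact one_ne_zero)).isUnit.star.mul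
      (V.hs _).det_H
  refine hu.mul_left_cancel ?_
  rw [← Matrix.mul_assoc, V.H_eqv, e, ← V.H_eqv g, ← Matrix.mul_assoc, ← Matrix.mul_assoc,
    ← conjTranspose_mul, (hA g).eq, conjTranspose_mul, Matrix.mul_assoc _ Aᴴ, ← e]
  simp only [Matrix.mul_assoc]

end Fx

open Fx

theorem stD1 (hF : StFlat) (hG : StGrow) : StD1 := by
  intro p Y _ _ _ _ S C n _ _ V k _ _ B hB hρ f z hf v
  have F := fun (f : (Fin p → ℂ) → C.X) z (hf : C.Lift p f z) =>
    hF n _ _ _ _ z (V.lv _ f z hf) k B hB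
  have key := stMax p Y S C (fun x => Real.log ‖(Bᴴ * gH V.Q V.w (V.gr x) * B).det‖)
    (fun g x => by
      obtain ⟨M, h1, h2⟩ := hρ g
      have e : Bᴴ * gH V.Q V.w (V.gr x) * B = Mᴴ * (Bᴴ * gH V.Q V.w (V.gr (g • x)) * B) * M := by
        have e' : (cz (V.ρ g) * B)ᴴ * gH V.Q V.w (V.gr (g • x)) * (cz (V.ρ g) * B) =
            (B * M)ᴴ * gH V.Q V.w (V.gr (g • x)) * (B * M) := by rw [h1]
        rw [← V.H_eqv g x]
        simpa only [conjTranspose_mul, Matrix.mul_assoc] using e'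
      simp only [e, det_mul (_ * _) M, det_mul Mᴴ, det_conjTranspose, norm_mul, norm_star, h2,
        one_mul, mul_one])
    (fun f z hf => ⟨(F f z hf).1.contDiffAt, fun v => ((F f z hf).2 v).1⟩)
    fun y ρ f g hb η hη => by
      obtain ⟨b, N, h1⟩ := (hG n p (S.K y) V.Q V.w (fun ζ => V.gr (f ζ)) (fun ζ hζ =>
        V.lv _ f ζ (((stLift p Y S C).2.2 y ρ f g hb).1 ζ hζ).1) η hη).2 1
      obtain ⟨c, hc, h2⟩ := det_bd B
      refine ⟨Real.log (c * (|b| + 1) ^ Fintype.card k), (N * Fintype.card k : ℕ), fun ζ hζ => ?_⟩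
      have P := (V.hs (f ζ)).pos
      have h3 : 0 < pl (S.K y) ζ := Finset.prod_pos fun i hi => by linarith [hζ.1.1 i hi]
      have h4 := h2 _ ((|b| + 1) * pl (S.K y) ζ ^ N) P (by positivity) fun s =>
        (h1 ζ hζ s).1.trans (by gcongr; linarith [le_abs_self b])
      refine (Real.log_le_log (norm_pos_iff.2
        (P.conjTranspose_mul_mul_same hB).det_pos.ne') h4).trans_eq ?_
      rw [← Real.log_pow, ← Real.log_mul (by positivity) (by positivity), mul_pow, pow_mul,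
        mul_assoc]
  refine ((F f z hf).2 v).2 ?_
  simp only [fun s => key (f s) (f z)]
  exact levi_const _ _ _

theorem stD2 (h1 : StD1) (hK : StKron) : StD2 := by
  intro p Y _ _ _ _ S C n _ _ V
  have c : ∀ A, (∀ g, Commute (cz (V.ρ g)) A) → Cm V A := fun A hA f z hf v => by
    obtain ⟨⟨M, e1⟩, M', e2⟩ := h1 p Y S C _ (two hK V) n (gB fun b => cond b A 1)
      (fun s t e => funext fun i => by
        have := congrFun e (i, false)
        simpa [gB, mulVec, dotProduct, Matrix.one_apply] using this)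
      (fun g => ⟨cz (V.ρ g), by
        rw [show cz ((two hK V).ρ g) = _ from cz_kron (V.ρ g), kron_gB, gB_mul]
        congr 1
        funext b
        cases b
        exacts [(Commute.one_right _).eq, (hA g).eq], V.norm_det g⟩) f z hf v
    obtain ⟨k1, k2⟩ := (hK n _ _ _ _ z Bool (V.lv _ f z hf)).2 v
    exact ⟨comm_of (k1.symm ▸ e1), comm_of (k2.symm ▸ e2)⟩
  intro A hA
  refine ⟨c A hA, ex_J S.isOpen_U hA (c A hA), ex_H S.isOpen_U hA (c A hA), fun h x q => ?_⟩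
  obtain ⟨A₁, a1, a2⟩ := ex_J S.isOpen_U hA (c A hA)
  obtain ⟨A₂, b1, b2⟩ := ex_H S.isOpen_U a1 (c A₁ a1)
  have P := (V.hs x).pos
  refine (V.hs x).comm_π ((a2 x).trans (hs_eq_zero P ?_)) q
  rw [← eq_ad P (b2 x), ← a2 x, Matrix.sub_mul, trace_sub, Matrix.mul_assoc A, trace_mul_comm A,
    Matrix.mul_assoc, Matrix.mul_assoc, (h A₂ b1).eq, sub_self, zero_re]

end Vale.Agent.P281Z.Hm
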