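import Vale.Agent.P281Z.Hm.Sk

/-!
# P281Z: rational subspaces
-/

open Matrix Set

noncomputable section

namespace Vale.Agent.P281Z.Hm

namespace Rt

/-- a complex vector is a combination of integer vectors which satisfy the same integer equations -/
theorem dec {n : Type} [Fintype n] (s : n → ℂ) : s ∈ Submodule.span ℂ
    ((fun (v : n → ℤ) i => (v i : ℂ)) '' {v | ∀ r : n → ℤ, ∑ i, r i * s i = 0 → r ⬝ᵥ v = 0}) := by
  classical
  let b := Module.Basis.ofVectorSpace ℚ ℂ
  have h1 : s = ∑ α ∈ Finset.univ.biUnion fun i => (b.repr (s i)).support,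
      b α • fun i => (b.repr (s i) α : ℂ) := funext fun i => by
    rw [Finset.sum_apply, ← b.linearCombination_repr (s i), Finsupp.linearCombination_apply,
      Finsupp.sum_of_support_subset _ (Finset.subset_biUnion_of_mem
        (fun i => (b.repr (s i)).support) (Finset.mem_univ i)) _ (by simp)]
    simp [Rat.smul_def, mul_comm]
  rw [h1]
  refine Submodule.sum_mem _ fun α _ => Submodule.smul_mem _ _ ?_
  rw [← h1]
  obtain ⟨⟨d, hd⟩, h2⟩ := IsLocalization.exist_integer_multiples_of_finite (nonZeroDivisors ℤ)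
    fun i => b.repr (s i) α
  choose v hv using h2
  have hv' : ∀ i, (v i : ℚ) = d * b.repr (s i) α := fun i => (hv i).trans (zsmul_eq_mul _ _)
  have h3 : (fun i => (b.repr (s i) α : ℂ)) = (d : ℂ)⁻¹ • fun i => (v i : ℂ) := funext fun i => by
    rw [Pi.smul_apply, ← Rat.cast_intCast (v i), hv', Rat.cast_mul, Rat.cast_intCast, smul_eq_mul,
      inv_mul_cancel_left₀ (Int.cast_ne_zero.2 (nonZeroDivisors.ne_zero hd))]
  rw [h3]
  refine Submodule.smul_mem _ _ (Submodule.subset_span ⟨v, fun r hr => ?_, rfl⟩)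
  have h4 := congrArg (fun z => d * b.repr z α) hr
  simp only [← zsmul_eq_mul (s _), map_sum, map_zsmul, Finsupp.finsetSum_apply, Finsupp.smul_apply,
    map_zero, Finsupp.zero_apply, mul_zero, Finset.mul_sum] at h4
  rw [← Int.cast_inj (α := ℚ), dotProduct, Int.cast_sum, Int.cast_zero, ← h4]
  exact Finset.sum_congr rfl fun i _ => by rw [Int.cast_mul, hv', zsmul_eq_mul, mul_left_comm]

theorem cz_mul {l m n : Type} [Fintype m] (A : Matrix l m ℤ) (B : Matrix m n ℤ) :
    cz (A * B) = cz A * cz B := Matrix.map_mul (f := Int.castRingHom ℂ)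

theorem cz_mulVec {l m : Type} [Fintype m] (A : Matrix l m ℤ) (v : m → ℤ) :
    cz A *ᵥ (fun i => (v i : ℂ)) = fun i => ((A *ᵥ v) i : ℂ) := by
  simp [funext_iff, cz, mulVec, dotProduct]

end Rt

open Rt in
theorem stRat : StRat := by
  intro n _ _ A
  obtain ⟨k, b⟩ := Submodule.basisOfPid (Pi.basisFun ℤ n) (⨅ a ∈ A, LinearMap.ker a.mulVecLin)
  let B : Matrix n (Fin k) ℤ := of fun i j => (b j).1 i
  have h1 : ∀ c, B *ᵥ c = (b.equivFun.symm c).1 := fun c => funext fun i => by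
    simp [B, mulVec, dotProduct, mul_comm]
  have h2 : ∀ v : n → ℤ, (∀ a ∈ A, a *ᵥ v = 0) → ∃ c, B *ᵥ c = v := fun v hv =>
    ⟨b.equivFun ⟨v, by simpa using hv⟩, by rw [h1, LinearEquiv.symm_apply_apply]⟩
  have h3 : ∀ a ∈ A, cz a * cz B = 0 := fun a ha => by
    have : a * B = 0 := ext_col fun j =>
      (Submodule.mem_iInf _).1 ((Submodule.mem_iInf _).1 (b j).2 a) ha
    rw [← cz_mul, this]
    exact Matrix.map_zero _ Int.cast_zero
  have h4 : LinearMap.ker (cz B).mulVecLin = ⊥ := by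
    refine eq_bot_iff.2 fun t ht => (Submodule.span_le.2 ?_ : _ ≤ ⊥) (dec t)
    rintro _ ⟨v, hv, rfl⟩
    have h4 : B *ᵥ v = 0 := funext fun i => hv (B i) (congrFun ht i)
    rw [h1, ZeroMemClass.coe_eq_zero, LinearEquiv.map_eq_zero_iff] at h4
    simp [h4, funext_iff]
  obtain ⟨g, hg⟩ := (cz B).mulVecLin.exists_leftInverse_of_injective h4
  refine ⟨k, B, LinearMap.toMatrix' g, Matrix.toLin'.injective ?_, fun s => ⟨fun hs =>
    (Submodule.span_le.2 ?_ : _ ≤ LinearMap.range (cz B).mulVecLin) (dec s) |>.imp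
      fun _ => Eq.symm, ?_⟩, fun g ⟨M, hM⟩ => ?_⟩
  · rw [toLin'_mul, toLin'_toMatrix', toLin'_one]
    exact hg
  · rintro _ ⟨v, hv, rfl⟩
    obtain ⟨c, rfl⟩ := h2 v fun a ha => funext fun i => hv (a i) (congrFun (hs a ha) i)
    exact ⟨_, cz_mulVec B c⟩
  · rintro ⟨t, rfl⟩ a ha
    rw [mulVec_mulVec, h3 a ha, zero_mulVec]
  · choose c hc using fun j => h2 ((g * B).col j) fun a ha => funext fun i => by
      have : cz (a * (g * B)) = 0 := by
        rw [cz_mul, cz_mul, hM, ← Matrix.mul_assoc, h3 a ha, Matrix.zero_mul]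
      exact Int.cast_eq_zero.1 (congrFun₂ this i j)
    exact ⟨(of c)ᵀ, ext_col fun j => (hc j).symm⟩

end Vale.Agent.P281Z.Hm
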