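import Vale.Agent.P281Z.Hm.Id
import Vale.Agent.P281Z.Hm.Br
import Vale.Agent.P281Z.Hm.Rat

/-!
# P281Z, invariants of a normal set form a subvariation (D3)
-/

set_option linter.unusedSectionVars false

open scoped Matrix.Norms.Operator Topology ComplexOrder ComplexConjugate Manifold ContDiff
open Filter Set Matrix Complex

noncomputable section

namespace Vale.Agent.P281Z.Hm

namespace D3H

variable {n k : Type} [Fintype n] [DecidableEq n] [Fintype k] [DecidableEq k] {b : Matrix n k ℂ}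
  {H H' X X' : Mx n} {M M' : Mx k} {R : Matrix k n ℂ}

/-- the coordinates of the orthogonal projection on the range of `b` -/
def pr (b : Matrix n k ℂ) (H : Mx n) : Matrix k n ℂ := (bᴴ * H * b)⁻¹ * (bᴴ * H)

theorem g_unit (hH : H.PosDef) (hb : Function.Injective b.mulVec) : IsUnit (bᴴ * H * b).det :=
  pd_det (hH.conjTranspose_mul_mul_same hb)

theorem g_pr (h : IsUnit (bᴴ * H * b).det) : bᴴ * H * b * pr b H = bᴴ * H :=
  mul_nonsing_inv_cancel_left _ _ h

theorem pr_b (h : IsUnit (bᴴ * H * b).det) : pr b H * b = 1 := by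
  rw [pr, Matrix.mul_assoc, nonsing_inv_mul _ h]

theorem adj_b (e : H' * X = X'ᴴ * H) (e' : X' * b = b * M') : bᴴ * H' * X = M'ᴴ * (bᴴ * H) := by
  rw [Matrix.mul_assoc, e, ← Matrix.mul_assoc, ← conjTranspose_mul, e', conjTranspose_mul,
    Matrix.mul_assoc]

theorem inter (h' : IsUnit (bᴴ * H' * b).det) (h1 : bᴴ * H * b * R = bᴴ * H)
    (h2 : bᴴ * H' * b * R = bᴴ * H') (e : H' * X = X'ᴴ * H)
    (e1 : X * b = b * M) (e2 : X' * b = b * M') : Commute X (b * R) := by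
  have a := adj_b e e2
  have c : bᴴ * H' * b * (R * X) = bᴴ * H' * b * (M * R) := by
    rw [← Matrix.mul_assoc, h2, a, ← h1, Matrix.mul_assoc (bᴴ * H), ← Matrix.mul_assoc M'ᴴ, ← a,
      Matrix.mul_assoc, ← Matrix.mul_assoc X, e1]
    simp only [Matrix.mul_assoc]
  have d := congrArg ((bᴴ * H' * b)⁻¹ * ·) c
  simp only [nonsing_inv_mul_cancel_left _ _ h'] at d
  rw [Commute, SemiconjBy, ← Matrix.mul_assoc, e1, Matrix.mul_assoc, Matrix.mul_assoc, d]

theorem der0 {D : Matrix k n ℂ} (h : IsUnit (bᴴ * H * b).det) (e : H * X = X'ᴴ * H)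
    (e' : X' * b = b * M') (hD : bᴴ * ((-2 : ℂ) • (H * X)) * b * pr b H + bᴴ * H * b * D =
      bᴴ * ((-2 : ℂ) • (H * X))) : D = 0 := by
  have a : bᴴ * ((-2 : ℂ) • (H * X)) = ((-2 : ℂ) • M'ᴴ) * (bᴴ * H) := by
    rw [Matrix.mul_smul, ← Matrix.mul_assoc, adj_b e e', Matrix.smul_mul]
  rw [a, Matrix.mul_assoc _ _ b, Matrix.mul_assoc _ _ (pr b H), g_pr h, add_eq_left] at hD
  simpa only [nonsing_inv_mul_cancel_left _ _ h, Matrix.mul_zero] using
    congrArg ((bᴴ * H * b)⁻¹ * ·) hD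

theorem herm_adj (hH : H.IsHermitian) (e : H * X = X'ᴴ * H) : H * X' = Xᴴ * H := by
  have := congrArg conjTranspose e
  rw [conjTranspose_mul, conjTranspose_mul, conjTranspose_conjTranspose, hH.eq] at this
  exact this.symm

variable {E : Type} [NormedAddCommGroup E] [NormedSpace ℝ E] [NormedSpace ℂ E]
  [IsScalarTower ℝ ℂ E] {Q : Mx n} {w : ℕ} {π : E → Gr n} {z : E}

/-- the projection is flat -/
theorem flat (h : LVAt Q w π z) (hb : Function.Injective b.mulVec)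
    (hv : ∀ v, (∃ M : Mx k, th w π z v * b = b * M) ∧ ∃ M : Mx k, ts w π z v * b = b * M) :
    DifferentiableAt ℝ (fun x => pr b (gH Q w (π x))) z ∧ ∀ v,
      wd v (fun x => pr b (gH Q w (π x))) z = 0 ∧ wb v (fun x => pr b (gH Q w (π x))) z = 0 := by
  have d := h.an_H.differentiableAt
  have d1 := df_mul (differentiableAt_const bᴴ) d
  have d2 := df_mul d1 (differentiableAt_const b)
  have u := g_unit h.hs0.pos hb
  have d3 : DifferentiableAt ℝ (fun x => pr b (gH Q w (π x))) z := df_mul (df_inv d2 u.ne_zero) d1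
  have e := h.hs.mono fun x hx => g_pr (g_unit hx.pos hb)
  refine ⟨d3, fun v => ?_⟩
  obtain ⟨⟨M, hM⟩, M', hM'⟩ := hv v
  have e1 := wd_congr e v
  have e2 := wb_congr e v
  rw [wd_mul d2 d3, wd_mul_const d1, wd_const_mul _ d, h.dH] at e1
  rw [wb_mul d2 d3, wb_mul_const d1, wb_const_mul _ d, h.bH] at e2
  exact ⟨der0 u (herm_adj h.hs0.pos.1 (h.adj v)) hM' e1, der0 u (h.adj v) hM e2⟩

end D3H

open D3H in
/-- **D3** -/
theorem stD3 (h1 : StD1) (h2 : StD2) (hS : StSub) : StD3 := by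
  intro p Y _ _ _ _ S C n _ _ V A hA
  obtain ⟨k, B, B', hB, hU, hZ⟩ := stRat n ((fun a => V.ρ a - 1) '' A)
  have hU' : ∀ s : n → ℂ, (∀ a ∈ A, cz (V.ρ a) *ᵥ s = s) ↔ ∃ t, s = cz B *ᵥ t := fun s => by
    rw [← hU, forall_mem_image]
    simp only [cz_sub, cz_one, sub_mulVec, one_mulVec, sub_eq_zero]
  have hi : Function.Injective (cz B).mulVec := fun s t e => by
    simpa only [mulVec_mulVec, hB, one_mulVec] using congrArg (B' *ᵥ ·) e
  have keep : ∀ X : Mx n, (∀ a ∈ A, ∃ a' ∈ A, cz (V.ρ a) * X = X * cz (V.ρ a')) →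
      X * cz B = cz B * (B' * X * cz B) := fun X hX => ext_of_mulVec_single fun j => by
    obtain ⟨t, ht⟩ := (hU' (X *ᵥ (cz B *ᵥ Pi.single j 1))).1 fun a ha => by
      obtain ⟨a', ha', e⟩ := hX a ha
      rw [mulVec_mulVec, e, ← mulVec_mulVec, (hU' _).2 ⟨_, rfl⟩ a' ha']
    simp only [← mulVec_mulVec, ht]
    rw [mulVec_mulVec _ B', hB, one_mulVec]
  choose M hM using fun g => hZ (V.ρ g) ⟨_, keep _ fun a ha => ⟨_, hA a ha g⁻¹, by
    rw [← V.r_mul, ← V.r_mul, inv_inv, ← mul_assoc, ← mul_assoc, mul_inv_cancel, one_mul]⟩⟩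
  have hM' : ∀ g, cz (V.ρ g) * cz B = cz B * cz (M g) := fun g => by rw [← cz_mul, hM, cz_mul]
  have canc : ∀ N N' : Matrix (Fin k) (Fin k) ℤ, B * N = B * N' → N = N' := fun N N' e => by
    have := congrArg (fun Z => B' * cz Z) e
    simp only [cz_mul, ← Matrix.mul_assoc, hB, Matrix.one_mul] at this
    exact cz_inj this
  let ρ' : C.Γ →* Matrix (Fin k) (Fin k) ℤ :=
    { toFun := M
      map_one' := canc _ _ (by rw [← hM, map_one, Matrix.one_mul, Matrix.mul_one])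
      map_mul' := fun g g' => canc _ _ (by
        rw [← hM, map_mul, Matrix.mul_assoc, hM, ← Matrix.mul_assoc, hM, Matrix.mul_assoc]) }
  have hd : ∀ g, ‖(cz (M g)).det‖ = 1 := fun g => by
    have e := congrArg det (show ρ' g * ρ' g⁻¹ = 1 by rw [← map_mul, mul_inv_cancel, map_one])
    rw [det_mul, det_one] at e
    rw [cz_det]
    rcases Int.eq_one_or_neg_one_of_mul_eq_one e with a | a <;> simp [show (M g).det = _ from a]
  obtain ⟨-, -, hL, -, -, hc, -⟩ := stBr p Y S.U C (by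
    refine isOpen_iff_mem_nhds.2 fun y hy => ?_
    obtain ⟨x, rfl⟩ := C.surj y hy
    exact mem_of_superset ((Br.loc C).isOpenMap.range_mem_nhds x) fun _ ⟨x', e⟩ => e ▸ C.mem x')
  have hR := hc _ (fun x => pr (cz B) (gH V.Q V.w (V.gr x))) fun y σ z hσ =>
    ev_const (hσ.eventually_nhds.mono fun s hs => flat (V.lv _ σ s (hL y σ s hs)) hi
      (h1 p Y S C n V _ _ hi (fun g => ⟨_, hM' g, hd g⟩) σ s (hL y σ s hs)))
  obtain ⟨x₀⟩ : Nonempty C.X := inferInstance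
  have u := fun x => g_unit (V.hs x).pos hi
  have u1 := fun x => (hR x x₀ ▸ g_pr (u x) :)
  have u2 := pr_b (u x₀)
  have hP : ∀ x q, Commute (cz B * pr (cz B) (gH V.Q V.w (V.gr x₀))) (V.gr x q) := by
    refine (h2 p Y S C n V _ fun g => ?_).2.2.2 fun A' hA' => ?_
    · refine inter (u (g • x₀)) (u1 x₀) (u1 _) ?_ (hM' g) (hM' g⁻¹)
      rw [← V.H_eqv g x₀, ← Matrix.mul_assoc, ← Matrix.mul_assoc, ← conjTranspose_mul, V.r_mul_inv,
        conjTranspose_one, Matrix.one_mul]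
    · obtain ⟨A₂, a1, a2⟩ := (h2 p Y S C n V A' hA').2.2.1
      exact (inter (u x₀) (u1 x₀) (u1 _) (herm_adj (V.hs x₀).pos.1 (a2 x₀))
        (keep _ fun a ha => ⟨a, ha, hA' a⟩) (keep _ fun a ha => ⟨a, ha, a1 a⟩)).symm
  have hg : ∀ x q, V.gr x q * cz B = cz B * (B' * V.gr x q * cz B) := fun x q => by
    have e : V.gr x q * cz B = cz B * (pr (cz B) (gH V.Q V.w (V.gr x₀)) * V.gr x q * cz B) := by
      rw [← Matrix.mul_assoc, ← Matrix.mul_assoc, hP x q, Matrix.mul_assoc, Matrix.mul_assoc, u2,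
        Matrix.mul_one]
    rw [Matrix.mul_assoc B', e, ← Matrix.mul_assoc B', hB, Matrix.one_mul]
  refine ⟨k, ⟨(cz B)ᴴ * V.Q * cz B, V.w, fun x q => B' * V.gr x q * cz B, ρ', fun g x q => ?_,
    fun g => ?_, fun E _ _ _ _ f z hf => (hS n E V.Q V.w _ z _ _ B' (V.lv E f z hf) hB
      (.of_forall fun x => hg (f x))).1⟩, B, B', hB, hU', rfl, rfl, hM, fun x q => ⟨hg x q, rfl⟩⟩
  · change _ * cz (M g) = cz (M g) * _
    rw [Matrix.mul_assoc, ← hM', ← Matrix.mul_assoc, Matrix.mul_assoc B', V.eqv,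
      Matrix.mul_assoc, Matrix.mul_assoc, hg, ← Matrix.mul_assoc (cz (V.ρ g)), hM',
      ← Matrix.mul_assoc, ← Matrix.mul_assoc B', hB, Matrix.one_mul]
  · change (cz (M g))ᴴ * _ * cz (M g) = _
    rw [Matrix.mul_assoc, Matrix.mul_assoc _ (cz B), ← hM', ← Matrix.mul_assoc, ← Matrix.mul_assoc,
      ← Matrix.mul_assoc, ← conjTranspose_mul, ← hM', conjTranspose_mul,
      Matrix.mul_assoc (cz B)ᴴ, Matrix.mul_assoc (cz B)ᴴ, V.pQ]

end Vale.Agent.P281Z.Hm
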