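import Vale.Agent.P281Z.Hm.Cmp
import Vale.Agent.P281Z.Hm.Calc

/-!
# P281Z, abstract variations: the rank drops at a boundary component with a pole
-/

set_option linter.unusedSectionVars false

open scoped Matrix.Norms.Operator Topology
open Filter Set Matrix Complex Function

noncomputable section

namespace Vale.Agent.P281Z.Hm

open Vale.Agent.P284Z (levi)

namespace DropH

section gen
variable {E G : Type} [NormedAddCommGroup E] [NormedSpace ℝ E] [NormedSpace ℂ E]
  [IsScalarTower ℝ ℂ E] [NormedAddCommGroup G] [NormedSpace ℝ G] [NormedSpace ℂ G]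
  [IsScalarTower ℝ ℂ G] [CompleteSpace G]

theorem c2_aff {a : G → ℝ} (c : G) (L : E →L[ℂ] G) {z : E} (ha : ContDiffAt ℝ 2 a (c + L z)) :
    ContDiffAt ℝ 2 (fun x => a (c + L x)) z :=
  ha.comp z (contDiffAt_const.add (L.restrictScalars ℝ).contDiff.contDiffAt)

theorem levi_aff {a : G → ℝ} (c : G) (L : E →L[ℂ] G) {z : E} (ha : ContDiffAt ℝ 2 a (c + L z))
    (v : E) : levi (fun x => a (c + L x)) z v = levi a (c + L z) (L v) := by
  rw [levi_comp (g := fun x => c + L x) ha (analyticAt_const.add (L.analyticAt z)),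
    (L.hasFDerivAt.const_add c).fderiv]

theorem levi_I (u : E → ℝ) (z v : E) : levi u z (I • v) = levi u z v := by
  simp only [levi, smul_smul, I_mul_I, neg_smul, one_smul, map_neg, _root_.neg_apply, neg_neg]
  ring

theorem levi_par (u : E → ℝ) (z v w : E) :
    levi u z (v + w) + levi u z (v - w) = 2 * levi u z v + 2 * levi u z w := by
  simp only [levi, smul_add, smul_sub, map_add, map_sub, _root_.add_apply, _root_.sub_apply]
  ring

/-- the null space of a semidefinite Levi form -/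
def nul (u : E → ℝ) (z : E) (H : Submodule ℂ E) (h : ∀ v ∈ H, levi u z v ≤ 0) :
    Submodule ℂ E :=
  have ad : ∀ {v w}, v ∈ H ∧ levi u z v = 0 → w ∈ H ∧ levi u z w = 0 →
      v + w ∈ H ∧ levi u z (v + w) = 0 := fun {v w} a b => ⟨H.add_mem a.1 b.1, by
    linarith [levi_par u z v w, h _ (H.add_mem a.1 b.1), h _ (H.sub_mem a.1 b.1), a.2, b.2]⟩
  have sm : ∀ (t : ℝ) {v}, v ∈ H ∧ levi u z v = 0 → t • v ∈ H ∧ levi u z (t • v) = 0 :=
    fun t v a => ⟨rsmul t v ▸ H.smul_mem _ a.1, by rw [CmpH.levi_smul, a.2, mul_zero]⟩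
  { carrier := {v | v ∈ H ∧ levi u z v = 0}
    add_mem' := ad
    zero_mem' := ⟨H.zero_mem, by simp [levi]⟩
    smul_mem' := fun c v a => csmul c v ▸
      ad (sm _ a) (sm _ ⟨H.smul_mem _ a.1, (levi_I u z v).trans a.2⟩) }

end gen

theorem c2_im {t : ℂ} (h : 0 < t.im) : ContDiffAt ℝ 2 (fun t : ℂ => Real.log t.im) t :=
  imCLM.contDiff.contDiffAt.log h.ne'

theorem levi_im (s : ℂ) : levi (fun t : ℂ => Real.log t.im) I s = -normSq s := by
  have e : fderiv ℝ (fun t : ℂ => t.im) = fun _ => imCLM := funext fun t => imCLM.fderiv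
  rw [P284Y.Lib.levi_comp (u := fun t : ℂ => t.im) (χ' := fun t => t⁻¹) imCLM.contDiff.contDiffAt
    ((eventually_ne_nhds (by simp)).mono fun t ht => Real.hasDerivAt_log ht)
    (hasDerivAt_inv (by simp))]
  simp [levi, P284Y.Lib.gsq, e, normSq_apply]
  ring

variable {p : ℕ} (b : Fin p)

/-- scaling of the coordinate `b` -/
def sc (y : ℂ) : (Fin p → ℂ) →L[ℂ] Fin p → ℂ :=
  .pi fun i => (if i = b then y else 1) • .proj i

theorem sc_b (y : ℂ) (v : Fin p → ℂ) : sc b y v b = y * v b := by simp [sc]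

theorem sc_ne (y : ℂ) (v : Fin p → ℂ) {i : Fin p} (h : i ≠ b) : sc b y v i = v i := by
  simp [sc, h]

theorem core (hc : StCmp) {h κ : (Fin p → ℂ) → ℝ} {ker : (Fin p → ℂ) → Submodule ℂ (Fin p → ℂ)}
    {k ν : ℕ} (hk : 1 ≤ k)
    (hh : ∀ ζ ∈ Dm {b}, ContDiffAt ℝ 2 h ζ ∧ 0 < h ζ ∧ p ≤ Module.finrank ℂ (ker ζ) + ν ∧
      ∀ v ∈ ker ζ, levi (fun x => -Real.log (h x)) ζ v = 0)
    (hκ : ∀ ζ ∈ Db {b} b, ContDiffAt ℝ 2 κ ζ ∧ 0 < κ ζ ∧
      Tendsto (fun x => h x / (x b).im ^ k) (toB b ζ) (𝓝 (κ ζ)))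
    {ζ : Fin p → ℂ} (hζ : ζ ∈ Db {b} b)
    (hl : ∀ v, v b = 0 → levi (fun x => Real.log (κ x)) ζ v ≤ 0) : Deg κ b ν ζ := by
  let W₀ := nul (fun x => Real.log (κ x)) ζ (LinearMap.ker (LinearMap.proj b)) hl
  refine ⟨W₀, ?_, fun v hv => hv⟩
  obtain ⟨W, hW⟩ := W₀.exists_isCompl
  have hd := Submodule.finrank_add_eq_of_isCompl hW
  rw [Module.finrank_fin_fun] at hd
  let L : ℂ → W →L[ℂ] Fin p → ℂ := fun y => (sc b y).comp W.subtypeL
  let P : W →L[ℂ] ℂ := (ContinuousLinearMap.proj b).comp W.subtypeL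
  let O : Set W := {x | 0 < (I + P x).im ∧ ∀ i, i ≠ b → ‖ζ i + x.1 i‖ < 1}
  have hO : O ∈ 𝓝 0 := by
    refine Eventually.and (ContinuousAt.eventually_lt continuousAt_const (by fun_prop) (by simp))
      (eventually_all.2 fun i => ?_)
    by_cases e : i = b
    · exact .of_forall fun _ k => (k e).elim
    · have := hζ.2 i (by simpa using e)
      rw [update_of_ne e] at this
      exact (ContinuousAt.eventually_lt (f := fun x : W => ‖ζ i + x.1 i‖)
        (continuous_const.add ((continuous_apply i).comp continuous_subtype_val)).norm.continuousAt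
        continuousAt_const (by simpa using this)).mono fun _ a _ => a
  have o1 : ∀ x ∈ O, ζ + L 0 x ∈ Db {b} b := fun x hx => ⟨fun i hi => by
    rw [Finset.mem_singleton.1 hi]
    simp, fun i hi => by
    have e : i ≠ b := by simpa using hi
    rw [update_of_ne e, Pi.add_apply]
    exact (congrArg (fun t => ‖ζ i + t‖) (sc_ne b 0 x.1 e)).trans_lt (hx.2 i e)⟩
  have mb : ∀ (y : ℝ) (x : W), ((update ζ b (y * I) + L y x) b).im = y * (I + P x).im :=
    fun y x => by
      rw [Pi.add_apply, update_self, ← im_ofReal_mul, mul_add]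
      exact congrArg (fun t => (y * I + t).im) (sc_b b y x.1)
  have mn : ∀ (y : ℝ) (x : W) i, i ≠ b → (update ζ b (y * I) + L y x) i = ζ i + x.1 i :=
    fun y x i e => by
      rw [Pi.add_apply, update_of_ne e]
      exact congrArg (fun t => ζ i + t) (sc_ne b y x.1 e)
  have o2 : ∀ y : ℝ, 0 < y → ∀ x ∈ O, update ζ b (y * I) + L y x ∈ Dm {b} := fun y hy x hx =>
    ⟨fun i hi => by
      rw [Finset.mem_singleton.1 hi, mb]
      exact mul_pos hy hx.1, fun i hi => by
      have e : i ≠ b := by simpa using hi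
      rw [mn y x i e]
      exact hx.2 i e⟩
  have c1 : ∀ x ∈ O, ContDiffAt ℝ 2 (fun x => Real.log (I + P x).im) x := fun x hx =>
    c2_aff I P (c2_im hx.1)
  have c2 : ∀ x ∈ O, ContDiffAt ℝ 2 (fun x => Real.log (κ x)) (ζ + L 0 x) := fun x hx =>
    (hκ _ (o1 x hx)).1.log (hκ _ (o1 x hx)).2.1.ne'
  have h0 := mem_of_mem_nhds hO
  obtain ⟨r, -, δ, δ0, hr, H⟩ := hc W
    (fun x => -(k : ℝ) * Real.log (I + P x).im - Real.log (κ (ζ + L 0 x))) 0
    ((contDiffAt_const.mul (c1 0 h0)).sub (c2_aff ζ (L 0) (c2 0 h0))) (fun v hv => by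
      rw [P284Y.Lib.levi_sub (contDiffAt_const.mul (c1 0 h0)) (c2_aff ζ (L 0) (c2 0 h0)),
        P284Y.Lib.levi_const_mul (c1 0 h0), levi_aff I P (c2_im h0.1), levi_aff ζ (L 0) (c2 0 h0),
        map_zero, map_zero, add_zero, add_zero, levi_im]
      have a1 := hl (L 0 v) ((sc_b b 0 v.1).trans (zero_mul _))
      have a2 : (1 : ℝ) ≤ k := by exact_mod_cast hk
      by_cases e : P v = 0
      · have e1 : L 0 v = v.1 := funext fun i => by
          by_cases ei : i = b
          · rw [ei]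
            exact ((sc_b b 0 v.1).trans (zero_mul _)).trans e.symm
          · exact sc_ne b 0 v.1 ei
        rw [e1] at a1 ⊢
        have a3 : levi (fun x => Real.log (κ x)) ζ v.1 ≠ 0 := fun a => hv (Subtype.ext
          ((Submodule.disjoint_def.1 hW.disjoint) v.1 ⟨e, a⟩ v.2))
        rw [e, map_zero]
        linarith [lt_of_le_of_ne a1 a3]
      · nlinarith [normSq_pos.2 e]) O hO
  have : FiniteDimensional ℝ W := FiniteDimensional.trans ℝ ℂ W
  have : ProperSpace W := FiniteDimensional.proper ℂ W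
  have hu : {q : ℝ × W | |Real.log (κ (ζ + L 0 q.2)) - Real.log
      (h (update ζ b (q.1 * I) + L q.1 q.2) / ((update ζ b (q.1 * I) + L q.1 q.2) b).im ^ k)| ≤ δ} ∈
      atTop ×ˢ 𝓝ˢ (Metric.closedBall (0 : W) r) := by
    refine (isCompact_closedBall (0 : W) r).mem_prod_nhdsSet_of_forall fun x hx => ?_
    have t1 : Tendsto (fun q : ℝ × W => update ζ b (q.1 * I) + L q.1 q.2) (atTop ×ˢ 𝓝 x)
        (toB b (ζ + L 0 x)) := by
      refine tendsto_comap_iff.2 (Tendsto.prodMk ?_ ?_)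
      · have e : ∀ (y : ℝ) (x : W), update (update ζ b (y * I) + L y x) b 0 =
            update (ζ + L 0 x) b 0 := fun y x => funext fun i => by
          by_cases ei : i = b
          · rw [ei, update_self, update_self]
          · rw [update_of_ne ei, update_of_ne ei, mn y x i ei]
            exact congrArg (fun t => ζ i + t) (sc_ne b 0 x.1 ei).symm
        simp only [e]
        exact (Continuous.tendsto (f := fun x : W => update (ζ + L 0 x) b 0)
          (Continuous.update (by fun_prop) b continuous_const) x).comp tendsto_snd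
      · simp only [mb]
        exact tendsto_fst.atTop_mul_pos (hr hx).1
          ((Continuous.tendsto (f := fun x : W => (I + P x).im) (by fun_prop) x).comp tendsto_snd)
    have t2 := (((c2_aff ζ (L 0) (c2 x (hr hx))).continuousAt.tendsto.comp
      (tendsto_snd (f := (atTop : Filter ℝ)))).sub
      (((hκ _ (o1 x (hr hx))).2.2.comp t1).log (hκ _ (o1 x (hr hx))).2.1.ne')).abs
    rw [sub_self, abs_zero] at t2
    exact t2.eventually (ge_mem_nhds δ0)
  obtain ⟨s, hs, t, ht, hst⟩ := mem_prod_iff.1 hu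
  obtain ⟨y, ys, y0⟩ := (Eventually.and hs (eventually_gt_atTop 0)).exists
  have c3 : ∀ x ∈ O, ContDiffAt ℝ 2 (fun x => -Real.log (h x)) (update ζ b (y * I) + L y x) :=
    fun x hx => ((hh _ (o2 y y0 x hx)).1.log (hh _ (o2 y y0 x hx)).2.1.ne').neg
  obtain ⟨x, hx, hp⟩ := H (fun x => -Real.log (h (update ζ b (y * I) + L y x)) + k * Real.log y)
    fun x hx => ⟨(c2_aff _ (L y) (c3 x (hr hx))).add contDiffAt_const, by
      have a := hst (mk_mem_prod ys (subset_of_mem_nhdsSet ht hx))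
      have a1 := (hr hx).1
      simp only [mem_ofPred_eq, mb] at a
      rw [Real.log_div (hh _ (o2 y y0 x (hr hx))).2.1.ne' (by positivity), Real.log_pow,
        Real.log_mul y0.ne' a1.ne'] at a
      refine le_of_eq_of_le (congrArg _ ?_) a
      ring⟩
  have xO := hr (Metric.ball_subset_closedBall hx)
  obtain ⟨-, -, b3, b4⟩ := hh _ (o2 y y0 x xO)
  have hp' : ∀ v : W, L y v ∈ ker (update ζ b (y * I) + L y x) → v = 0 := fun v hv => by
    by_contra e
    have := hp v e
    rw [levi_add (c2_aff _ (L y) (c3 x xO)) contDiffAt_const, levi_const,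
      levi_aff _ (L y) (c3 x xO), b4 _ hv] at this
    simp at this
  have inj : Injective (L y : W →ₗ[ℂ] Fin p → ℂ) :=
    (injective_iff_map_eq_zero _).2 fun v hv => hp' v (by
      rw [show L y v = 0 from hv]
      exact zero_mem _)
  have dj : Disjoint (LinearMap.range (L y : W →ₗ[ℂ] Fin p → ℂ))
      (ker (update ζ b (y * I) + L y x)) := Submodule.disjoint_def.2 fun _ ⟨v, e⟩ a => by
    rw [← e] at a ⊢
    rw [hp' v a, map_zero]
  have := Submodule.finrank_add_finrank_le_of_disjoint dj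
  rw [LinearMap.finrank_range_of_inj inj, Module.finrank_fin_fun] at this
  omega

end DropH

theorem stDrop (h1 : StLow) (h2 : StExp) (h3 : StLine) (h4 : StCmp) : StDrop := by
  intro n _ _ p b Q w π T a N ψ lam β φ B k ν hk hr hz hp ζ hζ
  obtain ⟨-, e2, -, e4⟩ := h2 n p {b} Q w π T a N ψ lam β φ B b (Finset.mem_singleton_self b)
  refine DropH.core b h4 (h := fun x => hn (gH Q w (π x)) (vf {b} a N φ x)) (ker := kerL ψ) hk
    (fun x hx => ?_) (fun x hx => ⟨(e2 k x hx).contDiffAt, (hp x hx).1, e4 k hz x hx⟩) hζ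
    (hp ζ hζ).2
  obtain ⟨l1, l2, -⟩ := (h1 n p {b} Q w π T a N ψ lam β φ B).1 x hx
  obtain ⟨a1, a2, a3⟩ := h3 n _ Q w π _ x (B.bv.lv x hx) l1
  refine ⟨a1.contDiffAt, a2, hr x hx, fun v hv => ?_⟩
  rw [(a3 v).1, (a3 v).2.2.2 (l2 ▸ hv)]
  simp [hn]

end Vale.Agent.P281Z.Hm
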