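import Vale.Agent.P281Z.Hm.Gram

/-!
# P281Z, flat subbundles
-/

set_option linter.unusedSectionVars false

open scoped Matrix.Norms.Operator Topology ComplexConjugate ComplexOrder
open Filter Set Matrix Complex

noncomputable section

namespace Vale.Agent.P281Z.Hm

namespace Flat

variable {n k : Type} [Fintype n] [DecidableEq n] [Fintype k] [DecidableEq k]

/-- the orthogonal projector on the span of the columns of `B` -/
def pr (H : Mx n) (B : Matrix n k ℂ) : Mx n := B * ((Bᴴ * H * B)⁻¹ * Bᴴ * H)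

variable {H : Mx n} {B : Matrix n k ℂ}

theorem pr_mul (hG : (Bᴴ * H * B).PosDef) : pr H B * B = B := by
  rw [pr, Matrix.mul_assoc, Matrix.mul_assoc, Matrix.mul_assoc, ← Matrix.mul_assoc Bᴴ,
    nonsing_inv_mul _ (pd_det hG), Matrix.mul_one]

theorem pr_pr (hG : (Bᴴ * H * B).PosDef) : pr H B * pr H B = pr H B := by
  have := congrArg (· * ((Bᴴ * H * B)⁻¹ * Bᴴ * H)) (pr_mul hG)
  simp only [Matrix.mul_assoc (pr H B)] at this
  exact this

theorem ad_pr (h : H.PosDef) (hG : (Bᴴ * H * B).PosDef) : ad H (pr H B) = pr H B := by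
  refine (eq_ad h ?_).symm
  rw [pr, conjTranspose_mul, conjTranspose_mul, conjTranspose_mul, conjTranspose_conjTranspose,
    hG.1.inv.eq, h.1.eq]
  simp only [Matrix.mul_assoc]

theorem hs (h : H.PosDef) (hG : (Bᴴ * H * B).PosDef) (A : Mx n) :
    trace ((1 - pr H B) * A * pr H B * ad H ((1 - pr H B) * A * pr H B)) =
      trace (pr H B * (ad H A * A)) - trace (pr H B * ad H A * (pr H B * A)) := by
  have e : (1 - pr H B) * (1 - pr H B) = 1 - pr H B := by
    rw [Matrix.sub_mul, Matrix.one_mul, Matrix.mul_sub, Matrix.mul_one, pr_pr hG, sub_self, sub_zero]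
  rw [ad_mul h, ad_mul h, ad_sub, ad_one h, ad_pr h hG, Matrix.mul_assoc, ← Matrix.mul_assoc (pr H B),
    pr_pr hG, ← Matrix.mul_assoc (pr H B), trace_mul_comm, Matrix.mul_assoc,
    ← Matrix.mul_assoc (1 - pr H B), e, Matrix.sub_mul, Matrix.one_mul, Matrix.mul_sub, trace_sub,
    Matrix.mul_assoc]

theorem inv (hG : (Bᴴ * H * B).PosDef) {A : Mx n} (e : (1 - pr H B) * A * pr H B = 0) :
    ∃ M : Mx k, A * B = B * M := by
  have := congrArg (· * B) e
  simp only [Matrix.mul_assoc, pr_mul hG, Matrix.zero_mul, Matrix.sub_mul, Matrix.one_mul] at this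
  exact ⟨_, (sub_eq_zero.1 this).trans (Matrix.mul_assoc _ _ _)⟩

theorem tr1 (A : Mx n) : trace ((Bᴴ * H * B)⁻¹ * (Bᴴ * (H * A) * B)) = trace (pr H B * A) := by
  rw [← Matrix.mul_assoc, trace_mul_comm, pr]
  simp only [Matrix.mul_assoc]

theorem tr2 (A A' : Mx n) : trace ((Bᴴ * H * B)⁻¹ * (Bᴴ * (H * A) * B) * (Bᴴ * H * B)⁻¹ *
    (Bᴴ * (H * A') * B)) = trace (pr H B * A * (pr H B * A')) := by
  rw [← Matrix.mul_assoc, trace_mul_comm, pr]
  simp only [Matrix.mul_assoc]

end Flat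

theorem stFlat : StFlat := fun n _ _ E _ _ _ _ Q w π z h k _ _ B hB => by
  have hG := h.hs0.pos.conjTranspose_mul_mul_same hB
  have an : AnalyticAt ℝ (fun x => Bᴴ * gH Q w (π x) * B) z :=
    an_mul (an_mul analyticAt_const h.an_H) analyticAt_const
  obtain ⟨h1, h2⟩ := stGram k E _ z an
    (h.hs.mono fun x hx => (hx.pos.conjTranspose_mul_mul_same hB).1) (pd_det hG).ne_zero
  refine ⟨h1, fun v => ?_⟩
  have e1 : wd v (fun x => Bᴴ * gH Q w (π x) * B) =ᶠ[𝓝 z]
      fun x => (-2 : ℂ) • (Bᴴ * (gH Q w (π x) * th w π x v) * B) := h.ev.mono fun x hx => by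
    have d := hx.an_H.differentiableAt
    rw [wd_mul_const (df_mul (differentiableAt_const _) d), wd_const_mul _ d, hx.dH,
      Matrix.mul_smul, Matrix.smul_mul]
  have d := h.an_H.differentiableAt
  have d' := (h.an_th v).differentiableAt
  have d1 := df_mul (differentiableAt_const Bᴴ) (df_mul d d')
  have e2 : wb v (fun x => Bᴴ * gH Q w (π x) * B) z =
      (-2 : ℂ) • (Bᴴ * (gH Q w (π z) * ts w π z v) * B) := by
    rw [wb_mul_const (df_mul (differentiableAt_const _) d), wb_const_mul _ d, h.bH,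
      Matrix.mul_smul, Matrix.smul_mul]
  have e3 : wb v (wd v fun x => Bᴴ * gH Q w (π x) * B) z = (2 : ℂ) •
      (Bᴴ * (gH Q w (π z) * (ts w π z v * th w π z v + th w π z v * ts w π z v)) * B) := by
    rw [wb_congr e1, wb_msmul _ (df_mul d1 (differentiableAt_const _)), wb_mul_const d1,
      wb_const_mul _ (df_mul d d'), wb_mul d d', h.bH, h.bth]
    simp only [Matrix.mul_add, Matrix.add_mul, Matrix.mul_sub, Matrix.sub_mul, Matrix.mul_smul,
      Matrix.smul_mul, Matrix.mul_assoc]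
    module
  have a := Flat.hs h.hs0.pos hG (th w π z v)
  have b := Flat.hs h.hs0.pos hG (ts w π z v)
  have e4 : ad (gH Q w (π z)) (ts w π z v) = th w π z v := by rw [h.ts_eq, ad_ad h.hs0.pos]
  rw [← h.ts_eq] at a
  rw [e4, trace_mul_comm (_ * th w π z v) (_ * ts w π z v)] at b
  have a0 := hs_nonneg h.hs0.pos ((1 - Flat.pr (gH Q w (π z)) B) * th w π z v *
    Flat.pr (gH Q w (π z)) B)
  have b0 := hs_nonneg h.hs0.pos ((1 - Flat.pr (gH Q w (π z)) B) * ts w π z v *
    Flat.pr (gH Q w (π z)) B)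
  have a1 := congrArg re a
  have b1 := congrArg re b
  have e := h2 v
  rw [e3, e2, e1.self_of_nhds] at e
  simp only [Matrix.mul_smul, Matrix.smul_mul, trace_smul, Flat.tr1, Flat.tr2, smul_eq_mul] at e
  rw [Matrix.mul_add, trace_add] at e
  simp only [sub_re, add_re, mul_re, neg_re, neg_im, re_ofNat, im_ofNat, neg_zero, zero_mul,
    sub_zero] at e a1 b1
  refine ⟨by linarith, fun h0 => ⟨Flat.inv hG (hs_eq_zero h.hs0.pos ?_),
    Flat.inv hG (hs_eq_zero h.hs0.pos ?_)⟩⟩ <;> linarith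

end Vale.Agent.P281Z.Hm
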