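import Vale.Agent.P281Z.Hm.Line

/-!
# P281Z, the curvature of the determinant of `F^k` (GRIF)
-/

set_option linter.unusedSectionVars false

open scoped Matrix.Norms.Operator Topology ComplexOrder ComplexConjugate
open Filter Set Matrix Complex

noncomputable section

namespace Vale.Agent.P281Z.Hm

open Vale.Agent.P284Z (levi)

namespace GrifH

variable {n k : Type} [Fintype n] [DecidableEq n] [Fintype k] [DecidableEq k] {E : Type}
  [NormedAddCommGroup E] [NormedSpace ℝ E] [NormedSpace ℂ E] [IsScalarTower ℝ ℂ E] {Q : Mx n}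
  {B : E → Matrix n k ℂ} {z : E}

theorem wd_g (hB : AnalyticAt ℂ B z) (v : E) :
    wd v (fun x => (B x)ᴴ * Q * B x) z = (B z)ᴴ * Q * wd v B z := by
  have d := (hB.restrictScalars (𝕜 := ℝ)).differentiableAt
  rw [wd_mul (df_mul (df_ct d) (differentiableAt_const Q)) d, wd_mul_const (df_ct d), wd_ct d,
    wb_mhol hB.differentiableAt]
  simp

theorem wb_g (hB : AnalyticAt ℂ B z) (v : E) :
    wb v (fun x => (B x)ᴴ * Q * B x) z = (wd v B z)ᴴ * Q * B z := by
  have d := (hB.restrictScalars (𝕜 := ℝ)).differentiableAt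
  rw [wb_mul (df_mul (df_ct d) (differentiableAt_const Q)) d, wb_mul_const (df_ct d), wb_ct d,
    wb_mhol hB.differentiableAt]
  simp

theorem wb_wd_g (hB : AnalyticAt ℂ B z) (v : E) :
    wb v (wd v fun x => (B x)ᴴ * Q * B x) z = (wd v B z)ᴴ * Q * wd v B z := by
  have d := (hB.restrictScalars (𝕜 := ℝ)).differentiableAt
  have d' := (an_wd (hB.restrictScalars (𝕜 := ℝ)) v).differentiableAt
  rw [wb_congr (hB.eventually_analyticAt.mono fun x hx => wd_g hx v),
    wb_mul (df_mul (df_ct d) (differentiableAt_const Q)) d', wb_mul_const (df_ct d), wb_ct d,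
    wb_wd_hol hB]
  simp

/-- the algebra -/
theorem alg {P A A' : Mx n} {B D : Matrix n k ℂ} {B' : Matrix k n ℂ} (hQ : IsUnit Q.det)
    (hP : Q * P = Pᴴ * Q) (e : P = B * B') (e' : B' * B = 1) (hA : Q * A' = -(Aᴴ * Q))
    (hA' : P * A' = A') (hD : A * B + P * D = D) (hPA : P * A = 0) :
    (B' * Q⁻¹ * B'ᴴ) * (Bᴴ * Q * B) = 1 ∧
    trace ((B' * Q⁻¹ * B'ᴴ) * (Dᴴ * Q * D)) -
      trace ((B' * Q⁻¹ * B'ᴴ) * (Dᴴ * Q * B) * (B' * Q⁻¹ * B'ᴴ) * (Bᴴ * Q * D)) =
      -trace (A * A') := by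
  have h1 : ∀ {m : Type} (X : Matrix n m ℂ), Q⁻¹ * (B'ᴴ * (Bᴴ * (Q * X))) = P * X := fun X => by
    rw [← Matrix.mul_assoc B'ᴴ, ← conjTranspose_mul, ← e, ← Matrix.mul_assoc Pᴴ, ← hP,
      Matrix.mul_assoc, nonsing_inv_mul_cancel_left _ _ hQ]
  have h2 : ∀ {m : Type} (X : Matrix n m ℂ), B * (B' * X) = P * X := fun X => by
    rw [← Matrix.mul_assoc, e]
  have h3 : ∀ {m : Type} (X : Matrix n m ℂ), B' * (P * X) = B' * X := fun X => by
    rw [← h2, ← Matrix.mul_assoc, e', Matrix.one_mul]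
  refine ⟨by simp only [Matrix.mul_assoc, h1, h3, e'], ?_⟩
  have h5 : Dᴴ * (Q * (A * B)) = -(Bᴴ * (Q * (A' * (A * B)))) := by
    conv_lhs => rw [← hD, conjTranspose_add, conjTranspose_mul, conjTranspose_mul, Matrix.add_mul,
      Matrix.mul_assoc Dᴴ, ← Matrix.mul_assoc Pᴴ, ← hP, Matrix.mul_assoc Q, ← Matrix.mul_assoc P,
      hPA, Matrix.mul_assoc Bᴴ, ← Matrix.mul_assoc Aᴴ, ← neg_neg (Aᴴ * Q), ← hA]
    simp [Matrix.mul_assoc]
  simp only [Matrix.mul_assoc, h1, h3]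
  simp only [h2]
  rw [← trace_sub, ← Matrix.mul_sub, ← Matrix.mul_sub, ← Matrix.mul_sub, ← Matrix.mul_sub,
    ← Matrix.mul_sub, ← eq_sub_of_add_eq hD, h5]
  simp only [Matrix.mul_neg, trace_neg, h1, h3]
  rw [trace_mul_comm, Matrix.mul_assoc, Matrix.mul_assoc, ← e, ← Matrix.mul_assoc, trace_mul_comm,
    ← Matrix.mul_assoc, hA', trace_mul_comm]

end GrifH

open GrifH in
/-- **GRIF** -/
theorem stGrif (hG : StGram) : StGrif := by
  intro n _ _ E _ _ _ _ Q w π z h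
  have hs := h.hs0
  have e0 : ∀ v q, th w π z v * π z q * (π z q * ts w π z v) = th w π z v * π z q * ts w π z v :=
    fun v q => by rw [← Matrix.mul_assoc, Matrix.mul_assoc _ (π z q) (π z q), hs.idem]
  refine ⟨fun v => ?_, fun q => ⟨fun v => ?_, fun k _ _ B hB hi hP ⟨B', e⟩ => ?_⟩⟩
  · rw [← re_sum, ← trace_sum, ← Finset.sum_mul, ← Finset.mul_sum, hs.sum, Matrix.mul_one]
    rfl
  · have := hs_nonneg hs.pos (th w π z v * π z q)
    rwa [ad_mul hs.pos, hs.ad_π, ← h.ts_eq, e0] at this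
  have hB' := hB.restrictScalars (𝕜 := ℝ)
  have e' : B' * B z = 1 := ext_of_mulVec_single fun j => hi (by
    rw [mulVec_mulVec, mulVec_mulVec, ← Matrix.mul_assoc, ← e, hP.self_of_nhds, Matrix.mul_one])
  have key := fun v => alg (A := th w π z v * π z q) (A' := π z q * ts w π z v) (D := wd v B z)
    hs.det_Q (hs.Q_F q) e e'
    (by rw [← Matrix.mul_assoc, hs.adj, Matrix.mul_assoc, h.Q_ts, conjTranspose_mul, Matrix.mul_neg,
      Matrix.mul_assoc])
    (by rw [← Matrix.mul_assoc, hs.F_mul, if_pos le_rfl])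
    (by
      have := wd_congr hP v
      rwa [wd_mul (h.an_F q).differentiableAt hB'.differentiableAt, h.dF] at this)
    (by
      rcases q with _ | q
      · rw [hs.low_zero (h.low v), Matrix.mul_zero]
      · rw [← hs.low (h.low v), ← Matrix.mul_assoc, hs.F_mul, if_neg (Nat.not_succ_le_self q),
          Matrix.zero_mul])
  have hd : ((B z)ᴴ * Q * B z).det ≠ 0 := (isUnit_det_of_left_inverse (key 0).1).ne_zero
  obtain ⟨h1, h2⟩ := hG k E (fun x => (B x)ᴴ * Q * B x) z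
    (an_mul (an_mul (an_ct hB') analyticAt_const) hB')
    (.of_forall fun x => isHermitian_conjTranspose_mul_mul _ hs.herm) hd
  refine ⟨hd, h1, fun v => ?_⟩
  rw [levi_neg, h2, wb_wd_g hB, wb_g hB, wd_g hB, inv_eq_left_inv (key 0).1, (key v).2, e0, neg_re]
  ring

end Vale.Agent.P281Z.Hm
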