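import Vale.Agent.P281Z.Hm.Cpt
import Vale.Agent.P281Z.Hm.Alg
import Mathlib.Analysis.Calculus.MeanValue

/-!
# P281Z, logarithmic growth of the Hodge metric
-/

open scoped Matrix.Norms.Operator Topology ComplexOrder
open Filter Set Matrix Complex

noncomputable section

namespace Vale.Agent.P281Z.Hm

namespace GrowH

variable {n : Type} [Fintype n] [DecidableEq n] {p : ℕ} {K : Finset (Fin p)} {Q : Mx n} {w : ℕ}
  {π : (Fin p → ℂ) → Gr n} {η : ℝ} {ζ : Fin p → ℂ}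

theorem seg (hL : StLip) {ζ v : Fin p → ℂ} (h : ∀ t ∈ Icc (0 : ℝ) 1, LVAt Q w π (ζ + t • v))
    {s : n → ℂ} (hs : s ≠ 0) {G G' : ℝ → ℝ} (hG : ∀ t ∈ Icc (0 : ℝ) 1, HasDerivAt G (G' t) t)
    (hb : ∀ t ∈ Icc (0 : ℝ) 1, 4 * √(omH w π (ζ + t • v) v) ≤ G' t) :
    |Real.log (hn (gH Q w (π (ζ + v))) s) - Real.log (hn (gH Q w (π ζ)) s)| ≤ G 1 - G 0 := by
  have key : ∀ t ∈ Icc (0 : ℝ) 1, ∃ d, HasDerivAt (fun t : ℝ =>
      Real.log (hn (gH Q w (π (ζ + t • v))) s) - Real.log (hn (gH Q w (π ζ)) s)) d t ∧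
      ‖d‖ ≤ G' t := by
    intro t ht
    obtain ⟨h1, h2⟩ := (hL n _ Q w π _ (h t ht)).2.2.2.2.2 s
    have h3 := hn_pos (h t ht).hs.self_of_nhds.pos hs
    have h4 : HasDerivAt (fun t : ℝ => ζ + t • v) v t := by
      simpa using ((hasDerivAt_id t).smul_const v).const_add ζ
    have h5 : HasDerivAt (fun t : ℝ => hn (gH Q w (π (ζ + t • v))) s) _ t :=
      HasFDerivAt.comp_hasDerivAt (l := fun x => hn (gH Q w (π x)) s)
        (f := fun t : ℝ => ζ + t • v) t h1.differentiableAt.hasFDerivAt h4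
    refine ⟨_, (h5.log h3.ne').sub_const _, ?_⟩
    rw [Real.norm_eq_abs, abs_div]
    refine le_trans ?_ (hb t ht)
    rw [abs_of_pos h3, div_le_iff₀ h3]
    exact h2 v
  choose! d d1 d2 using key
  have := image_norm_le_of_norm_deriv_right_le_deriv_boundary' (a := 0) (b := 1) (f' := d)
    (fun t ht => (d1 t ht).continuousAt.continuousWithinAt)
    (fun t ht => (d1 t (Ico_subset_Icc_self ht)).hasDerivWithinAt) (B := fun t => G t - G 0)
    (B' := G') (by simp) (fun t ht => ((hG t ht).sub_const _).continuousAt.continuousWithinAt)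
    (fun t ht => ((hG t (Ico_subset_Icc_self ht)).sub_const _).hasDerivWithinAt)
    (fun t ht => d2 t (Ico_subset_Icc_self ht)) (right_mem_Icc.2 zero_le_one)
  simpa using this

theorem in_dm (hη : 0 < η) (h : ζ ∈ In K η) : ζ ∈ Dm K :=
  ⟨fun i hi => hη.trans_le (h.1 i hi), fun i hi => (h.2 i hi).trans_lt (by linarith)⟩

/-- the radius of the coordinate discs -/
def rad (K : Finset (Fin p)) (η : ℝ) (ζ : Fin p → ℂ) (i : Fin p) : ℝ :=
  if i ∈ K then (ζ i).im else η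

theorem rad_pos (hη : 0 < η) (h : ζ ∈ In K η) (i : Fin p) : 0 < rad K η ζ i := by
  unfold rad
  split_ifs with hi
  exacts [hη.trans_le (h.1 i hi), hη]

theorem disc (hη : 0 < η) (h : ζ ∈ In K η) (i : Fin p) {t : ℂ} (ht : ‖t‖ < rad K η ζ i) :
    ζ + t • (Pi.single i 1 : Fin p → ℂ) ∈ Dm K := by
  refine ⟨fun j hj => ?_, fun j hj => ?_⟩
  · by_cases e : j = i
    · subst e
      rw [rad, if_pos hj] at ht
      have := (abs_le.1 (abs_im_le_norm t)).1
      simp only [Pi.add_apply, Pi.smul_apply, Pi.single_eq_same, smul_eq_mul, mul_one, add_im]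
      linarith
    · simpa [e] using (in_dm hη h).1 j hj
  · by_cases e : j = i
    · subst e
      rw [rad, if_neg hj] at ht
      simp only [Pi.add_apply, Pi.smul_apply, Pi.single_eq_same, smul_eq_mul, mul_one]
      linarith [norm_add_le (ζ j) t, h.2 j hj]
    · simpa [e] using (in_dm hη h).2 j hj

theorem sqrt_le (hA : StAhl) (hL : StLip) (hv : ∀ ζ ∈ Dm K, LVAt Q w π ζ) (hη : 0 < η)
    (h : ζ ∈ In K η) (v : Fin p → ℂ) :
    √(omH w π ζ v) ≤ √(2 * kap w n) * ∑ i, ‖v i‖ / rad K η ζ i := by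
  obtain ⟨-, -, h1, h2, -⟩ := hL n _ Q w π ζ (hv ζ (in_dm hη h))
  have h3 : ∀ s : Finset (Fin p), √(omH w π ζ (∑ i ∈ s, v i • (Pi.single i 1 : Fin p → ℂ))) ≤
      √(2 * kap w n) * ∑ i ∈ s, ‖v i‖ / rad K η ζ i := by
    intro s
    induction s using Finset.induction_on with
    | empty => simpa using Real.sqrt_le_sqrt (h1 0 0).le
    | insert i s hi ih =>
      rw [Finset.sum_insert hi, Finset.sum_insert hi, mul_add]
      refine (h2 _ _).trans (add_le_add ?_ ih)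
      have h4 := Real.sqrt_le_sqrt (hA n _ Q w π ζ (Pi.single i 1) _ (rad_pos hη h i)
        fun t ht => hv _ (disc hη h i ht))
      rw [Real.sqrt_div' _ (sq_nonneg _), Real.sqrt_sq (rad_pos hη h i).le] at h4
      rw [h1, Real.sqrt_mul (sq_nonneg _), Real.sqrt_sq (norm_nonneg _), mul_div_left_comm]
      exact mul_le_mul_of_nonneg_left h4 (norm_nonneg _)
  have h5 : ∑ i, v i • (Pi.single i 1 : Fin p → ℂ) = v := by
    ext j
    simp [Finset.sum_apply, Pi.single_apply]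
  simpa only [h5] using h3 Finset.univ

theorem one (hA : StAhl) (hL : StLip) (hv : ∀ ζ ∈ Dm K, LVAt Q w π ζ) (hη : 0 < η) :
    ∃ B : ℝ, ∀ ζ ∈ In K η, ∀ v,
      omH w π ζ v ≤ B * (∑ i ∈ K, (‖v i‖ / (ζ i).im) ^ 2 + ∑ i ∈ Kᶜ, ‖v i‖ ^ 2) := by
  have k0 := kap_pos w n
  refine ⟨2 * kap w n * p * (1 + η⁻¹ ^ 2), fun ζ h v => ?_⟩
  have h1 := pow_le_pow_left₀ (Real.sqrt_nonneg _) (sqrt_le hA hL hv hη h v) 2
  rw [Real.sq_sqrt ((hL n _ Q w π ζ (hv ζ (in_dm hη h))).1 v), mul_pow,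
    Real.sq_sqrt (by positivity)] at h1
  have h2 := sq_sum_le_card_mul_sum_sq (s := Finset.univ) (f := fun i => ‖v i‖ / rad K η ζ i)
  rw [Finset.card_univ, Fintype.card_fin,
    ← Finset.sum_add_sum_compl K fun i => (‖v i‖ / rad K η ζ i) ^ 2] at h2
  have h3 : ∑ i ∈ K, (‖v i‖ / rad K η ζ i) ^ 2 = ∑ i ∈ K, (‖v i‖ / (ζ i).im) ^ 2 :=
    Finset.sum_congr rfl fun i hi => by rw [rad, if_pos hi]
  have h4 : ∑ i ∈ Kᶜ, (‖v i‖ / rad K η ζ i) ^ 2 = η⁻¹ ^ 2 * ∑ i ∈ Kᶜ, ‖v i‖ ^ 2 := by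
    rw [Finset.mul_sum]
    exact Finset.sum_congr rfl fun i hi => by
      rw [rad, if_neg (Finset.mem_compl.1 hi), div_eq_inv_mul, mul_pow]
  rw [h3, h4] at h2
  have h5 : 0 ≤ ∑ i ∈ K, (‖v i‖ / (ζ i).im) ^ 2 := by positivity
  have h6 : 0 ≤ ∑ i ∈ Kᶜ, ‖v i‖ ^ 2 := by positivity
  refine h1.trans ((mul_le_mul_of_nonneg_left h2 (by positivity)).trans ?_)
  rw [mul_assoc (2 * kap w n), mul_assoc (2 * kap w n)]
  refine mul_le_mul_of_nonneg_left ?_ (by positivity)
  rw [mul_assoc]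
  refine mul_le_mul_of_nonneg_left ?_ (by positivity)
  nlinarith [mul_nonneg (sq_nonneg η⁻¹) h5]

/-- the base point -/
def bs (K : Finset (Fin p)) (η : ℝ) : Fin p → ℂ := fun i => if i ∈ K then η * I else 0

theorem log_le (hA : StAhl) (hL : StLip) (hv : ∀ ζ ∈ Dm K, LVAt Q w π ζ) (hη : 0 < η) (R : ℝ) :
    ∃ (C : ℝ) (N : ℕ), ∀ ζ ∈ St K R η, ∀ s ≠ 0, |Real.log (hn (gH Q w (π ζ)) s) -
      Real.log (hn (gH Q w (π (bs K η))) s)| ≤ C + N * Real.log (pl K ζ) := by
  set c := 4 * √(2 * kap w n) with hc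
  have c0 : 0 ≤ c := by positivity
  refine ⟨c * (p * ((|R| + 1) / η)) - ⌈c⌉₊ * (K.card * Real.log η), ⌈c⌉₊, fun ζ h s hs => ?_⟩
  set v := ζ - bs K η with hv'
  have im : ∀ (t : ℝ), ∀ i ∈ K, ((bs K η + t • v) i).im = η + t * ((ζ i).im - η) := fun t i hi => by
    simp [hv', bs, hi]
  have d0 : ∀ i ∈ K, 0 ≤ (ζ i).im - η := fun i hi => sub_nonneg.2 (h.1.1 i hi)
  have ge : ∀ t ∈ Icc (0 : ℝ) 1, ∀ i ∈ K, η ≤ η + t * ((ζ i).im - η) := fun t ht i hi =>
    le_add_of_nonneg_right (mul_nonneg ht.1 (d0 i hi))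
  have mem : ∀ t ∈ Icc (0 : ℝ) 1, bs K η + t • v ∈ In K η := fun t ht =>
    ⟨fun i hi => im t i hi ▸ ge t ht i hi, fun i hi => by
      have := h.1.2 i hi
      simp only [hv', bs, hi, Pi.add_apply, Pi.smul_apply, Pi.sub_apply, if_false, sub_zero,
        zero_add, norm_smul, Real.norm_eq_abs, abs_of_nonneg ht.1]
      nlinarith [norm_nonneg (ζ i), ht.1, ht.2]⟩
  have key := seg hL (fun t ht => hv _ (in_dm hη (mem t ht))) hs
    (G := fun t => c * (p * ((|R| + 1) / η) * t + ∑ i ∈ K, Real.log (η + t * ((ζ i).im - η))))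
    (G' := fun t => c * (p * ((|R| + 1) / η) +
      ∑ i ∈ K, ((ζ i).im - η) / (η + t * ((ζ i).im - η)))) (fun t ht => by
      refine HasDerivAt.const_mul c (HasDerivAt.add (hasDerivAt_const_mul _)
        (HasDerivAt.fun_sum fun i hi => ?_))
      exact ((hasDerivAt_mul_const _).const_add η).log (hη.trans_le (ge t ht i hi)).ne')
    fun t ht => by
      refine (mul_le_mul_of_nonneg_left (sqrt_le hA hL hv hη (mem t ht) v) (by norm_num)).trans ?_
      rw [← mul_assoc]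
      refine mul_le_mul_of_nonneg_left ?_ c0
      have e1 : ∑ i ∈ K, ((ζ i).im - η) / (η + t * ((ζ i).im - η)) =
          ∑ i, if i ∈ K then ((ζ i).im - η) / (η + t * ((ζ i).im - η)) else 0 := by simp
      have e2 : (p : ℝ) * ((|R| + 1) / η) = ∑ _i : Fin p, (|R| + 1) / η := by simp
      rw [e1, e2, ← Finset.sum_add_distrib]
      refine Finset.sum_le_sum fun i _ => ?_
      unfold rad
      split_ifs with hi
      · have g0 := hη.trans_le (ge t ht i hi)
        have e3 : ‖v i‖ ≤ |R| + 1 + ((ζ i).im - η) := by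
          refine (norm_le_abs_re_add_abs_im _).trans ?_
          have e4 : (v i).re = (ζ i).re := by simp [hv', bs, hi]
          have e5 : (v i).im = (ζ i).im - η := by simp [hv', bs, hi]
          rw [e4, e5, abs_of_nonneg (d0 i hi)]
          linarith [h.2 i hi, le_abs_self R]
        rw [im t i hi]
        refine (div_le_div_of_nonneg_right e3 g0.le).trans ?_
        rw [add_div]
        exact add_le_add (div_le_div_of_nonneg_left (by positivity) hη (ge t ht i hi)) le_rfl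
      · have e3 : v i = ζ i := by simp [hv', bs, hi]
        rw [e3, add_zero]
        exact div_le_div_of_nonneg_right (by linarith [h.1.2 i hi, abs_nonneg R]) hη.le
  rw [hv', add_sub_cancel] at key
  refine key.trans ?_
  have e1 : ∑ i ∈ K, Real.log (ζ i).im ≤ Real.log (pl K ζ) := by
    rw [pl, Real.log_prod fun i hi => by linarith [h.1.1 i hi]]
    exact Finset.sum_le_sum fun i hi => Real.log_le_log (hη.trans_le (h.1.1 i hi)) (by linarith)
  have e2 : K.card * Real.log η ≤ ∑ i ∈ K, Real.log (ζ i).im := by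
    rw [← nsmul_eq_mul]
    exact Finset.card_nsmul_le_sum _ _ _ fun i hi => Real.log_le_log hη (h.1.1 i hi)
  simp only [one_mul, mul_one, add_sub_cancel, zero_mul, mul_zero, add_zero, zero_add,
    Finset.sum_const, nsmul_eq_mul]
  nlinarith [mul_le_mul_of_nonneg_right (Nat.le_ceil c) (sub_nonneg.2 e2),
    mul_le_mul_of_nonneg_left e1 (Nat.cast_nonneg (α := ℝ) ⌈c⌉₊)]

end GrowH

open GrowH in
theorem stGrow (hA : StAhl) (hL : StLip) : StGrow := by
  intro n _ _ p K Q w π hv η hη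
  refine ⟨one hA hL hv hη, fun R => ?_⟩
  obtain ⟨C, N, h⟩ := log_le hA hL hv hη R
  have hb := (hv (bs K η) ⟨fun i hi => by simpa [bs, hi] using hη,
    fun i hi => by simp [bs, hi]⟩).hs.self_of_nhds.pos
  obtain ⟨B, B0, hB⟩ := Cp.hom2 (P := Unit) isCompact_univ
    (f := fun _ s => hn (gH Q w (π (bs K η))) s)
    (Cp.cont_hn.comp (continuous_const.prodMk continuous_snd))
    (fun _ v c => by simpa using hn_smul _ (c : ℂ) v) fun _ _ v hv => hn_pos hb hv
  refine ⟨B * Real.exp C, N, fun ζ hζ s => ?_⟩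
  by_cases hs : s = 0
  · simp [hs, hn]
  have p0 : 0 < pl K ζ := Finset.prod_pos fun i hi => by linarith [hζ.1.1 i hi]
  have h1 := hn_pos (hv ζ (in_dm hη hζ.1)).hs.self_of_nhds.pos hs
  have h2 := hn_pos hb hs
  obtain ⟨h3, h4⟩ := abs_le.1 (h ζ hζ s hs)
  have e : ∀ {a b : ℝ}, 0 < a → 0 < b → Real.log a - Real.log b ≤ C + N * Real.log (pl K ζ) →
      a ≤ Real.exp C * pl K ζ ^ N * b := fun {a b} ha hb k => by
    rw [← Real.log_le_log_iff ha (by positivity), Real.log_mul (by positivity) hb.ne',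
      Real.log_mul (by positivity) (by positivity), Real.log_exp, Real.log_pow]
    linarith
  obtain ⟨h5, h6⟩ := hB () (mem_univ _) s
  have h7 : 0 ≤ Real.exp C * pl K ζ ^ N := by positivity
  constructor
  · nlinarith [e h1 h2 h4, mul_le_mul_of_nonneg_left h6 h7]
  · nlinarith [mul_le_mul_of_nonneg_left (e h2 h1 (by linarith)) B0.le]

end Vale.Agent.P281Z.Hm
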