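import Vale.Agent.P281Z.Hm.Id

/-!
# P281Z: the pulled back Hodge metric is a Hermitian form; first derivatives of norms
-/

open scoped Matrix.Norms.Operator Topology ComplexOrder ComplexConjugate InnerProductSpace
open Filter Set Matrix Complex

noncomputable section

namespace Vale.Agent.P281Z.Hm

namespace Lp

variable {n : Type} [Fintype n] [DecidableEq n]

/-- the square of the norm as a function of the metric -/
def hnL (s : n → ℂ) : Mx n →L[ℝ] ℝ := LinearMap.toContinuousLinearMap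
  { toFun := fun A => hn A s
    map_add' := fun A B => by simp [hn, add_mulVec]
    map_smul' := fun c A => by simp [hn, smul_mulVec] }

omit [DecidableEq n] in
theorem hnL_apply (s : n → ℂ) (A : Mx n) : hnL s A = hn A s := rfl

theorem hn_mul_le {H : Mx n} (h : H.PosDef) (A : Mx n) (s : n → ℂ) {c : ℝ} (hc : 0 ≤ c)
    (e : hn H (A *ᵥ s) ≤ c * hn H s) : |hn (H * A) s| ≤ √c * hn H s := by
  have h0 := hn_nonneg h s
  have h1 := hn_cs h s (A *ᵥ s)
  rw [hn, ← mulVec_mulVec]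
  refine (abs_re_le_norm _).trans (le_of_sq_le_sq ?_ (by positivity))
  rw [mul_pow, Real.sq_sqrt hc]
  nlinarith [mul_le_mul_of_nonneg_left e h0]

variable {E : Type} [NormedAddCommGroup E] [NormedSpace ℝ E] [NormedSpace ℂ E]
  [IsScalarTower ℝ ℂ E] {Q : Mx n} {w : ℕ} {π : E → Gr n} {z : E}

theorem omH_eq (h : LVAt Q w π z) (v : E) :
    omH w π z v = (trace (th w π z v * ad (gH Q w (π z)) (th w π z v))).re := by
  rw [omH, omB, h.ts_eq]

theorem omH_nonneg (h : LVAt Q w π z) (v : E) : 0 ≤ omH w π z v :=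
  omH_eq h v ▸ hs_nonneg h.hs0.pos _

theorem omB_ofReal (h : LVAt Q w π z) (v : E) : omB w π z v v = (omH w π z v : ℝ) :=
  Complex.ext rfl (by rw [omB, h.ts_eq, hs_im h.hs0.pos, ofReal_im])

theorem omH_zero (h : LVAt Q w π z) (v : E) : omH w π z v = 0 ↔ th w π z v = 0 := by
  rw [omH_eq h]
  exact ⟨hs_eq_zero h.hs0.pos, fun e => by simp [e]⟩

theorem omH_smul (w : ℕ) (π : E → Gr n) (z : E) (c : ℂ) (v : E) :
    omH w π z (c • v) = ‖c‖ ^ 2 * omH w π z v := by
  rw [omH, omH, omB, omB, th_smul, ts_smul, smul_mul_smul_comm, trace_smul, smul_eq_mul,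
    mul_conj', ← ofReal_pow, re_ofReal_mul]

theorem sqrt_add (h : LVAt Q w π z) (u v : E) :
    √(omH w π z (u + v)) ≤ √(omH w π z u) + √(omH w π z v) := by
  obtain ⟨L, -, hL⟩ := exists_isoM h.hs0.pos
  have e : ∀ v, √(omH w π z v) = ‖L (th w π z v)‖ := fun v => by
    have a := inner_self_eq_norm_sq (𝕜 := ℂ) (L (th w π z v))
    rw [RCLike.re_to_complex, hL] at a
    rw [omH_eq h, a, Real.sqrt_sq (norm_nonneg _)]
  rw [e, e, e, th_add, map_add]
  exact norm_add_le _ _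

theorem th_le (h : LVAt Q w π z) (v : E) (s : n → ℂ) :
    hn (gH Q w (π z)) (th w π z v *ᵥ s) ≤ omH w π z v * hn (gH Q w (π z)) s :=
  omH_eq h v ▸ hn_mulVec_le h.hs0.pos _ s

theorem ts_le (h : LVAt Q w π z) (v : E) (s : n → ℂ) :
    hn (gH Q w (π z)) (ts w π z v *ᵥ s) ≤ omH w π z v * hn (gH Q w (π z)) s := by
  have := hn_mulVec_le h.hs0.pos (ts w π z v) s
  rwa [h.ts_eq, ad_ad h.hs0.pos, trace_mul_comm, ← omH_eq h, ← h.ts_eq] at this

theorem fderiv_hn (h : LVAt Q w π z) (s : n → ℂ) (v : E) :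
    fderiv ℝ (fun x => hn (gH Q w (π x)) s) z v =
      -2 * (hn (gH Q w (π z) * th w π z v) s + hn (gH Q w (π z) * ts w π z v) s) := by
  refine (congrArg (fun A => A v) ((hnL s).hasFDerivAt.comp z
    h.an_H.differentiableAt.hasFDerivAt).fderiv).trans ?_
  refine (congrArg (hnL s) (fderiv_eq_wd _ z v)).trans ?_
  rw [h.dH, h.bH, hnL_apply]
  simp only [hn, add_mulVec, smul_mulVec, dotProduct_add, dotProduct_smul, smul_eq_mul, add_re,
    neg_mul, neg_re, re_ofNat, im_ofNat, mul_re, zero_mul, sub_zero]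
  ring

theorem fderiv_le (h : LVAt Q w π z) (s : n → ℂ) (v : E) :
    |fderiv ℝ (fun x => hn (gH Q w (π x)) s) z v| ≤ 4 * √(omH w π z v) * hn (gH Q w (π z)) s := by
  have a := abs_le.1 (hn_mul_le h.hs0.pos _ s (omH_nonneg h v) (th_le h v s))
  have b := abs_le.1 (hn_mul_le h.hs0.pos _ s (omH_nonneg h v) (ts_le h v s))
  rw [fderiv_hn h]
  exact abs_le.2 ⟨by linarith [a.2, b.2], by linarith [a.1, b.1]⟩

end Lp

theorem stLip : StLip := fun _ _ _ _ _ _ _ _ _ w π z h =>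
  ⟨Lp.omH_nonneg h, Lp.omH_zero h, Lp.omH_smul w π z, Lp.sqrt_add h,
    fun v s => ⟨Lp.th_le h v s, Lp.ts_le h v s⟩,
    fun s => ⟨an_hn h.an_H analyticAt_const, Lp.fderiv_le h s⟩⟩

end Vale.Agent.P281Z.Hm
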