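import Vale.Agent.P281Z.Hm.Fr
import Vale.Agent.P281Z.Hm.Line

/-!
# P281Z, abstract variations: the norm of the normalised frame (LOW)
-/

open scoped Matrix.Norms.Operator Topology
open Filter Set Matrix Complex

noncomputable section

namespace Vale.Agent.P281Z.Hm

open Vale.Agent.P284Z (levi Psh psh_of_levi)
open DescH LiftH MaxH FrH TorH

namespace LowH

variable {n : Type} [Fintype n] [DecidableEq n]

omit [DecidableEq n] in
/-- change of the frame of the line -/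
theorem ln_smul {E : Type} [NormedAddCommGroup E] [NormedSpace ℝ E] [NormedSpace ℂ E] {w : ℕ}
    {π : E → Gr n} {ψ v : E → n → ℂ} {c : E → ℂ} {z : E} (h : LnAt w π ψ z)
    (hc : AnalyticAt ℂ c z) (h0 : c z ≠ 0) (e : v =ᶠ[𝓝 z] fun x => c x • ψ x) :
    LnAt w π v z ∧ kerL v z = kerL ψ z := by
  have d : ∀ᶠ x in 𝓝 z, ∀ u, fderiv ℂ v x u = c x • fderiv ℂ ψ x u + fderiv ℂ c x u • ψ x := by
    filter_upwards [e.eventually_nhds, hc.eventually_analyticAt, h.an.eventually_analyticAt]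
      with x a1 a2 a3 u
    rw [EventuallyEq.fderiv_eq a1, fderiv_fun_smul a2.differentiableAt a3.differentiableAt]
    simp
  refine ⟨⟨(hc.smul h.an).congr e.symm, by rw [e.self_of_nhds]; exact smul_ne_zero h0 h.ne,
    ?_, ?_⟩, Submodule.ext fun u => ?_⟩
  · filter_upwards [e, h.top] with x a1 a2
    rw [a1, mulVec_smul, a2]
  · filter_upwards [e, h.top, h.one, d, hc.continuousAt.eventually_ne h0] with x a1 a2 a3 a4 a5 u
    obtain ⟨k, hk⟩ := a3 u
    refine ⟨k + fderiv ℂ c x u / c x, ?_⟩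
    rw [a4, a1, mulVec_add, mulVec_smul, mulVec_smul, hk, a2, add_smul, smul_comm, smul_smul (_ / _),
      div_mul_cancel₀ _ a5]
  · simp only [kerL, Submodule.mem_comap, ContinuousLinearMap.coe_coe]
    rw [d.self_of_nhds, e.self_of_nhds, Submodule.span_singleton_smul_eq h0.isUnit,
      Submodule.add_mem_iff_left _ (Submodule.smul_mem _ _ (Submodule.mem_span_singleton_self _)),
      Submodule.smul_mem_iff _ h0]

variable {p : ℕ} {K : Finset (Fin p)} {Q : Mx n} {w a : ℕ} {π : (Fin p → ℂ) → Gr n}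
  {T : Fin p → Matrix n n ℤ} {N : Fin p → Mx n} {ψ φ : (Fin p → ℂ) → n → ℂ} {lam : Fin p → ℂ}
  {β : Fin p → ℤ}

theorem H_eqv (h : BV K Q w π T) {i : Fin p} (hi : i ∈ K) {ζ : Fin p → ℂ} (hζ : ζ ∈ Dm K) :
    (cz (T i))ᴴ * gH Q w (π (ζ + Pi.single i 1)) * cz (T i) = gH Q w (π ζ) := by
  have e : gC w (π (ζ + Pi.single i 1)) * cz (T i) = cz (T i) * gC w (π ζ) := by
    simp only [gC, Finset.sum_mul, Finset.mul_sum, smul_mul_assoc, mul_smul_comm, h.eqv i hi ζ hζ]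
  rw [gH, gH, Matrix.mul_assoc, Matrix.mul_assoc, e, ← Matrix.mul_assoc, ← Matrix.mul_assoc,
    h.pQ i hi]

theorem St_cpt (K : Finset (Fin p)) (R η r : ℝ) : IsCompact (St K R η ∩ Metric.closedBall 0 r) := by
  refine (isCompact_closedBall 0 r).inter_left ?_
  simp only [St, In, ofPred_and, ofPred_forall]
  exact ((isClosed_iInter fun i => isClosed_iInter fun _ =>
    isClosed_le continuous_const (by fun_prop)).inter (isClosed_iInter fun i =>
      isClosed_iInter fun _ => isClosed_le (by fun_prop) continuous_const)).inter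
    (isClosed_iInter fun i => isClosed_iInter fun _ => isClosed_le (by fun_prop) continuous_const)

theorem ex_surj (ha : 0 < a) {σ : Fin p → ℂ} (h : σ ∈ Metric.ball (0 : Fin p → ℂ) 1)
    (h0 : ∀ i ∈ K, σ i ≠ 0) : ∃ ζ ∈ Dm K, ex K a ζ = σ :=
  ⟨lb K a 0 1 σ, (mem_dm ha).2 (by rwa [ex_lb ha ex_zero h0]), ex_lb ha ex_zero h0⟩

theorem ex_upd (ζ : Fin p → ℂ) {j : Fin p} (hj : j ∈ K) (t : ℂ) : ex K a (Function.update ζ j t) =
    Function.update (ex K a ζ) j (exp (2 * Real.pi * I * t / a)) := funext fun i => by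
  rcases eq_or_ne i j with rfl | k
  · simp [ex, hj]
  · simp [ex, k]

variable (h : Bd K Q w π T a N ψ lam β φ)
include h

theorem one {ζ : Fin p → ℂ} (hζ : ζ ∈ Dm K) :
    LnAt w π (vf K a N φ) ζ ∧ kerL (vf K a N φ) ζ = kerL ψ ζ := by
  have h0 : ∀ ξ, ∏ i ∈ K, ex K a ξ i ^ β i ≠ 0 := fun ξ =>
    Finset.prod_ne_zero_iff.2 fun i hi => zpow_ne_zero _ (ex_ne ξ hi)
  refine ln_smul (h.bl.ln ζ hζ) (c := fun ξ => (∏ i ∈ K, ex K a ξ i ^ β i)⁻¹)
    ((Finset.analyticAt_fun_prod _ fun i hi =>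
      (an_crd (ex_an a ζ) i).fun_zpow (ex_ne ζ hi)).fun_inv (h0 ζ)) (inv_ne_zero (h0 ζ)) ?_
  filter_upwards [(dm_open K).mem_nhds hζ] with ξ k
  rw [h.fr.eq ξ k, inv_smul_smul₀ (h0 ξ)]

theorem two {ζ : Fin p → ℂ} (hζ : ζ ∈ Dm K) : hn (gH Q w (π ζ)) (ψ ζ) =
    Real.exp (-4 * Real.pi * ∑ i ∈ K, β i / (a : ℝ) * (ζ i).im) *
      hn (gH Q w (π ζ)) (vf K a N φ ζ) := by
  rw [h.fr.eq ζ hζ, hn_smul, norm_mon]

theorem per {ζ : Fin p → ℂ} (hζ : ζ ∈ Dm K) {i : Fin p} (hi : i ∈ K) :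
    hn (gH Q w (π (ζ + Pi.single i 1))) (vf K a N φ (ζ + Pi.single i 1)) =
      hn (gH Q w (π ζ)) (vf K a N φ ζ) := by
  have e := two h (add_mem hζ hi)
  rw [h.bl.eqv i hi ζ hζ, hn_smul, norm_eq_one_of_pow_eq_one (h.bl.pow i hi) h.un.pos.ne',
    ← hn_conj, H_eqv h.bv hi hζ, one_pow, one_mul, two h hζ,
    Finset.sum_congr rfl fun j _ => (by rcases eq_or_ne j i with rfl | k <;> simp [*] :
      β j / (a : ℝ) * ((ζ + Pi.single i 1 : Fin p → ℂ) j).im = β j / (a : ℝ) * (ζ j).im)] at e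
  exact (mul_left_cancel₀ (Real.exp_ne_zero _) e).symm

theorem per' {ζ ζ' : Fin p → ℂ} (hζ : ζ ∈ Dm K) (e : ex K 1 ζ' = ex K 1 ζ) :
    hn (gH Q w (π ζ')) (vf K a N φ ζ') = hn (gH Q w (π ζ)) (vf K a N φ ζ) :=
  per_eq (G := fun ζ => hn (gH Q w (π ζ)) (vf K a N φ ζ)) one_pos
    (fun i hi ζ hζ => by rw [Nat.cast_one]; exact per h hζ hi) hζ e

theorem phi_ne {σ : Fin p → ℂ} (hσ : σ ∈ Metric.ball (0 : Fin p → ℂ) 1) (h0 : ∀ i ∈ K, σ i ≠ 0) :
    φ σ ≠ 0 := fun e => by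
  obtain ⟨ζ, k, rfl⟩ := ex_surj h.un.pos hσ h0
  exact (one h k).1.ne (by rw [vf, e, mulVec_zero])

theorem dense {j : Fin p} (hj : j ∈ K) {ζ : Fin p → ℂ} (hζ : ζ ∈ Dm K) :
    ∃ᶠ ξ in 𝓝 ζ, φ (Function.update (ex K a ξ) j 0) ≠ 0 := fun k => by
  have u : ∀ σ, AnalyticAt ℂ (fun σ : Fin p → ℂ => Function.update σ j 0) σ := fun σ =>
    analyticAt_pi_iff.2 fun i => by
      rcases eq_or_ne i j with rfl | e
      · simpa using analyticAt_const
      · simpa [e] using an_crd analyticAt_id i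
  have h1 : AnalyticOnNhd ℂ (fun σ => φ (Function.update σ j 0)) (Metric.ball 0 1) := fun σ k =>
    AnalyticAt.comp (f := fun σ : Fin p → ℂ => Function.update σ j 0)
      (h.fr.an _ (DivH.upd_ball k j (by simp))) (u σ)
  have h2 : AnalyticOnNhd ℂ (fun ξ => φ (Function.update (ex K a ξ) j 0)) (Dm K) := fun ξ k =>
    (h1 _ ((mem_dm h.un.pos).1 k)).comp (ex_an a ξ)
  have h3 := h2.eqOn_zero_of_preconnected_of_eventuallyEq_zero (dm_convex K).isPreconnected hζ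
    (k.mono fun _ e => not_not.1 e)
  obtain ⟨σ, a1, a2, a3⟩ := h.fr.ne j hj
  have a4 := (h1 σ a1).continuousAt.eventually_ne (y := 0) (by rwa [← a2, Function.update_eq_self])
  obtain ⟨σ', ⟨b1, b2⟩, b3⟩ := mem_closure_iff_nhds.1 (DivH.dense_ne K σ) _
    (a4.and (Metric.isOpen_ball.mem_nhds a1))
  obtain ⟨ξ, c, rfl⟩ := ex_surj h.un.pos b2 (Finset.prod_ne_zero_iff.1 b3)
  exact b1 (h3 c)

theorem upper (hG : StGrow) {η : ℝ} (hη : 0 < η) : ∃ (B : ℝ) (M : ℕ), ∀ ζ ∈ In K η,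
    hn (gH Q w (π ζ)) (vf K a N φ ζ) ≤ B * pl K ζ ^ M := by
  obtain ⟨B, M, B0, hB⟩ := grow hG h.bv.lv h.un hη 1
  have a0 : 0 < 2 * Real.pi / a := div_pos Real.two_pi_pos (Nat.cast_pos.2 h.un.pos)
  obtain ⟨A, hA⟩ := (isCompact_closedBall (0 : Fin p → ℂ)
    (max (Real.exp (-(2 * Real.pi / a * η))) (1 - η))).exists_bound_of_continuousOn
    (h.fr.an.continuousOn.mono (Metric.closedBall_subset_ball (max_lt
      (Real.exp_lt_one_iff.2 (neg_lt_zero.2 (mul_pos a0 hη))) (sub_lt_self 1 hη))))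
  refine ⟨B * A ^ 2, M, fun ζ hζ => ?_⟩
  obtain ⟨ξ, a1, a2, a3⟩ := red hζ
  have := hA (ex K a ξ) (mem_closedBall_zero_iff.2 ((pi_norm_le_iff_of_nonneg
    (le_max_of_le_left (Real.exp_pos _).le)).2 fun i => by
      by_cases e : i ∈ K
      · rw [ex, if_pos e, norm_e]
        exact le_max_of_le_left (Real.exp_le_exp.2 (neg_le_neg
          (mul_le_mul_of_nonneg_left (a1.1.1 i e) a0.le)))
      · rw [ex, if_neg e]
        exact le_max_of_le_right (a1.1.2 i e)))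
  have l := (le_pl (In_sub hη a1.1)).1
  rw [← per' h (In_sub hη hζ) a2, ← a3, mul_right_comm]
  exact (hB ξ a1 _).1.trans (by gcongr)

theorem ray (hG : StGrow) {j : Fin p} (hj : j ∈ K) {ζ : Fin p → ℂ} (hζ : ζ ∈ Dm K)
    (h0 : φ (Function.update (ex K a ζ) j 0) ≠ 0) {δ : ℝ} (hδ : 0 < δ) : ∃ B : ℝ, ∀ t : ℂ,
      1 ≤ t.im → -Real.log (hn (gH Q w (π (Function.update ζ j t)))
        (vf K a N φ (Function.update ζ j t))) ≤ B + δ * t.im := by
  obtain ⟨η, η0, η1, hη⟩ := ex_In hζ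
  obtain ⟨B, M, B0, hB⟩ := grow hG h.bv.lv h.un η0 (‖ζ‖ + 1)
  obtain ⟨A, hA⟩ := log_le M hδ
  have a0 : 0 < 2 * Real.pi / a := div_pos Real.two_pi_pos (Nat.cast_pos.2 h.un.pos)
  have b : ∀ s ∈ Metric.closedBall (0 : ℂ) (Real.exp (-(2 * Real.pi / a))),
      Function.update (ex K a ζ) j s ∈ Metric.ball (0 : Fin p → ℂ) 1 := fun s k =>
    DivH.upd_ball ((mem_dm h.un.pos).1 hζ) j ((mem_closedBall_zero_iff.1 k).trans_lt
      (Real.exp_lt_one_iff.2 (neg_lt_zero.2 a0)))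
  obtain ⟨s₀, s1, s2⟩ := (isCompact_closedBall (0 : ℂ) _).exists_isMinOn
    (Metric.nonempty_closedBall.2 (Real.exp_pos _).le)
    (f := fun s => ‖φ (Function.update (ex K a ζ) j s)‖)
    (h.fr.an.continuousOn.comp (by fun_prop) b).norm
  have c0 : 0 < ‖φ (Function.update (ex K a ζ) j s₀)‖ := norm_pos_iff.2 (by
    rcases eq_or_ne s₀ 0 with rfl | e
    · exact h0
    · refine phi_ne h (b _ s1) fun i hi => ?_
      rcases eq_or_ne i j with rfl | k
      · rwa [Function.update_self]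
      · rw [Function.update_of_ne k]
        exact ex_ne ζ hi)
  set c := ‖φ (Function.update (ex K a ζ) j s₀)‖
  refine ⟨Real.log B + A + M * Real.log (pl (K.erase j) ζ) - 2 * Real.log c, fun t ht => ?_⟩
  have t0 := one_pos.trans_le ht
  set t' : ℂ := t - (⌊t.re⌋ : ℤ) with ht'
  have e1 : t'.im = t.im := by simp [ht']
  have h1 : Function.update ζ j t' ∈ St K (‖ζ‖ + 1) η := by
    refine ⟨⟨fun i k => ?_, fun i k => ?_⟩, fun i k => ?_⟩
    · rcases eq_or_ne i j with rfl | e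
      · rw [Function.update_self, e1]
        exact η1.trans ht
      · rw [Function.update_of_ne e]
        exact hη.1 i k
    · rw [Function.update_of_ne (ne_of_mem_of_not_mem hj k).symm]
      exact hη.2 i k
    · rcases eq_or_ne i j with rfl | e
      · have : |t'.re| ≤ 1 := by
          simpa [ht', abs_of_nonneg (Int.fract_nonneg t.re)] using (Int.fract_lt_one t.re).le
        rw [Function.update_self]
        linarith [norm_nonneg ζ]
      · rw [Function.update_of_ne e]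
        linarith [abs_re_le_norm (ζ i), norm_le_pi_norm ζ i]
  have hD := In_sub η0 h1.1
  rw [← per' h (upd_mem hζ hj t0) (ζ' := Function.update ζ j t') (by
    rw [ex_upd ζ hj, ex_upd ζ hj, Nat.cast_one, div_one, div_one]
    exact congrArg _ (exp_eq_exp_iff_exists_int.2 ⟨-⌊t.re⌋, by rw [ht']; push_cast; ring⟩))]
  have h2 : _ ≤ _ * hn _ (vf K a N φ _) := (hB _ h1 (φ (ex K a (Function.update ζ j t')))).2
  have h3 : c ≤ ‖φ (ex K a (Function.update ζ j t'))‖ := by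
    rw [ex_upd ζ hj]
    refine s2 (mem_closedBall_zero_iff.2 ?_)
    rw [norm_e, e1]
    exact Real.exp_le_exp.2 (neg_le_neg (le_mul_of_one_le_right a0.le ht))
  have h4 := hn_pos (h.bv.lv _ hD).hs0.pos (one h hD).1.ne
  have h5 := one_pos.trans_le (le_pl hD).1
  have h6 := Real.log_le_log (pow_pos c0 2) ((pow_le_pow_left₀ c0.le h3 2).trans h2)
  rw [Real.log_pow, Real.log_mul (by positivity) h4.ne', Real.log_mul B0.ne' (by positivity),
    Real.log_pow, pl_upd hζ hj (e1 ▸ t0), e1] at h6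
  have := hA _ t0.le
  push_cast at h6
  linarith

theorem lower (hG : StGrow) {η : ℝ} (hη : 0 < η) : ∃ c : ℝ, 0 < c ∧ ∀ ζ ∈ In K η,
    c ≤ hn (gH Q w (π ζ)) (vf K a N φ ζ) := by
  have l := fun ζ k => stLine n _ Q w π _ ζ (h.bv.lv ζ k) (one h k).1
  have h1 : ∀ ζ ∈ Dm K, ContDiffAt ℝ 2 (fun ζ => -Real.log (hn (gH Q w (π ζ)) (vf K a N φ ζ))) ζ :=
    fun ζ k => ((l ζ k).1.contDiffAt.log (l ζ k).2.1.ne').neg
  have hc : ContinuousOn (fun ζ => -Real.log (hn (gH Q w (π ζ)) (vf K a N φ ζ))) (Dm K) :=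
    fun ζ k => (h1 ζ k).continuousAt.continuousWithinAt
  have key := stTor p K 1 _ one_pos hc (psh_of_levi fun ζ k => ⟨h1 ζ k, fun v => by
      rw [((l ζ k).2.2 v).1]
      exact mul_nonneg (by norm_num) (div_nonneg (hn_nonneg (h.bv.lv ζ k).hs0.pos _) (l ζ k).2.1.le)⟩)
    (fun i hi ζ k => by rw [Nat.cast_one, per h k hi]) (fun j hj ζ hζ ε hε => by
      obtain ⟨ξ, a1, a2, a3⟩ := ((dense h hj hζ).and_eventually
        (Eventually.and ((dm_open K).mem_nhds hζ) (Metric.ball_mem_nhds ζ hε))).exists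
      exact ⟨ξ, a2, a3, fun δ hδ => ray h hG hj a2 a1 hδ⟩) η hη
  obtain ⟨B, hB⟩ := (St_cpt K 1 η (1 + η)).exists_bound_of_continuousOn
    (hc.mono fun ζ k => In_sub hη k.1.1)
  refine ⟨Real.exp (-B), Real.exp_pos _, fun ζ k => ?_⟩
  obtain ⟨τ, a1, a2, a3⟩ := key ζ (In_sub hη k) k.1
  have a4 : ∀ i ∈ K, |(τ i).re| ≤ 1 := fun i e => by
    rw [abs_of_nonneg (a1 i e).2.1]
    simpa using (a1 i e).2.2
  have := hB τ ⟨⟨⟨fun i e => (a1 i e).1.ge, fun i e => a2 i e ▸ k.2 i e⟩, a4⟩,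
    mem_closedBall_zero_iff.2 ((pi_norm_le_iff_of_nonneg (by positivity)).2 fun i => by
      by_cases e : i ∈ K
      · have := norm_le_abs_re_add_abs_im (τ i)
        rw [(a1 i e).1, abs_of_pos hη] at this
        linarith [a4 i e]
      · rw [a2 i e]
        linarith [k.2 i e])⟩
  rw [← Real.le_log_iff_exp_le (l ζ (In_sub hη k)).2.1]
  linarith [(le_abs_self _).trans this]

end LowH

open LowH in
theorem stLow (hG : StGrow) : StLow := by
  intro n _ _ p K Q w π T a N ψ lam β φ h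
  refine ⟨fun ζ k => ⟨(one h k).1, (one h k).2, two h k, fun i hi => per h k hi⟩, fun η hη => ?_⟩
  obtain ⟨c, c0, hc⟩ := lower h hG hη
  obtain ⟨B, M, hB⟩ := upper h hG hη
  exact ⟨c, B, M, c0, fun ζ k => ⟨hc ζ k, hB ζ k⟩⟩

end Vale.Agent.P281Z.Hm
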