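import Vale.Agent.P281Z.Hm.Id
import Vale.Agent.P281Z.Hm.Br
import Vale.Agent.P281Z.Hm.Sk2

/-!
# P281Z, the minimal variation (MIN)
-/

set_option linter.unusedSectionVars false

open scoped Matrix.Norms.Operator Topology ComplexOrder ComplexConjugate Manifold ContDiff
open Filter Set Matrix Complex

noncomputable section

namespace Vale.Agent.P281Z.Hm

theorem MinH.span_eq {n : Type} [Fintype n] {A : Set (n → ℂ)} {X : Mx n} {c : ℂ}
    (h : ∀ s ∈ A, X *ᵥ s = c • s) {s : n → ℂ} (hs : s ∈ Submodule.span ℂ A) : X *ᵥ s = c • s := by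
  induction hs using Submodule.span_induction with
  | mem s hs => exact h s hs
  | zero => simp
  | add s t _ _ a b => rw [mulVec_add, a, b, smul_add]
  | smul r s _ a => rw [mulVec_smul, a, smul_comm]

/-- **MINS** -/
theorem stMinS (h2 : StD2) (h3 : StD3) : StMinS := by
  intro p Y _ _ _ _ S C n _ _ V A hA
  have hA' : ∀ g, ∀ s ∈ Submodule.span ℂ A, cz (V.ρ g) *ᵥ s ∈ Submodule.span ℂ A := fun g s hs =>
    (Submodule.span_le (p := (Submodule.span ℂ A).comap (cz (V.ρ g)).mulVecLin)).2 (hA g) hs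
  have inv : ∀ g s, cz (V.ρ g) *ᵥ (cz (V.ρ g⁻¹) *ᵥ s) = s := fun g s => by
    rw [mulVec_mulVec, V.r_mul_inv, one_mulVec]
  obtain ⟨k, V', B, B', hB, hU, hw, hQ, hρ, hg⟩ := h3 p Y S C n V
    {a | ∀ s ∈ A, cz (V.ρ a) *ᵥ s = s} fun a ha g s hs => by
      rw [V.r_mul, V.r_mul, ← mulVec_mulVec, ← mulVec_mulVec, MinH.span_eq (c := 1)
        (fun t ht => (ha t ht).trans (one_smul ℂ t).symm) (hA _ s hs), one_smul, inv]
  refine ⟨k, V', B, B', hB, hw, hQ, hρ, hg, fun s hs => ?_, fun ν ⟨c, hc⟩ => ?_⟩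
  · obtain ⟨t, rfl⟩ := (hU s).1 fun a ha => ha s hs
    rw [mulVec_mulVec _ B', hB, one_mulVec]
  refine (h2 p Y S C _ V' _ fun g => ?_).2.2.2 fun A' hA' => hA' ν
  have e : cz (V'.ρ (ν * g * ν⁻¹ * g⁻¹)) = 1 := ext_of_mulVec_single fun j => by
    have a := (hU _).2 ⟨Pi.single j 1, rfl⟩ (ν * g * ν⁻¹ * g⁻¹) fun s hs => by
      have b := hA' ν⁻¹ _ (hA g⁻¹ s hs)
      rw [V.r_mul, V.r_mul, V.r_mul, ← mulVec_mulVec, ← mulVec_mulVec, ← mulVec_mulVec,
        MinH.span_eq hc (hA' g _ b), ← mulVec_smul, ← MinH.span_eq hc b, inv, inv]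
    rw [mulVec_mulVec, ← cz_mul, hρ, cz_mul, ← mulVec_mulVec] at a
    simpa only [mulVec_mulVec, ← Matrix.mul_assoc, hB, Matrix.one_mul] using congrArg (B' *ᵥ ·) a
  have e' := congrArg (· * cz (V'.ρ (g * ν))) e
  simp only [← V'.r_mul, Matrix.one_mul, mul_assoc, inv_mul_cancel_left, inv_mul_cancel,
    mul_one] at e'
  rw [Commute, SemiconjBy, ← V'.r_mul, ← V'.r_mul, e']

/-- **MIN** -/
theorem stMin (hM : StMinS) (hS : StSub) : StMin := by
  intro p Y _ _ _ _ S C n _ _ V Lb L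
  obtain ⟨k, V', B, B', hB, hw, hQ, hρ, hg, hA, hm⟩ := hM p Y S C n V
    {s | ∃ i x, C.π x ∈ Lb.U i ∧ s = L.ψ i x} (by
      rintro g _ ⟨i, x, hx, rfl⟩
      have h0 : L.lam g ≠ 0 := norm_ne_zero_iff.1 (by rw [L.norm_lam]; exact one_ne_zero)
      rw [← inv_smul_smul₀ h0 (_ *ᵥ _), ← L.eqv i g x hx]
      exact Submodule.smul_mem _ _ (Submodule.subset_span ⟨i, _, by rwa [C.inv], rfl⟩))
  have hψ : ∀ i x, C.π x ∈ Lb.U i → cz B *ᵥ (B' *ᵥ L.ψ i x) = L.ψ i x := fun i x hx =>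
    hA _ ⟨i, x, hx, rfl⟩
  have hi : Function.Injective (cz B).mulVec := fun s t e => by
    simpa only [mulVec_mulVec, hB, one_mulVec] using congrArg (B' *ᵥ ·) e
  have hρ' : ∀ g i x, C.π x ∈ Lb.U i →
      cz B *ᵥ (cz (V'.ρ g) *ᵥ (B' *ᵥ L.ψ i x)) = cz (V.ρ g) *ᵥ L.ψ i x := fun g i x hx => by
    rw [mulVec_mulVec, ← cz_mul, ← hρ, cz_mul, ← mulVec_mulVec, hψ i x hx]
  let L' : Ln V' Lb := ⟨L.lb, fun i x => B' *ᵥ L.ψ i x, L.lam, L.m, L.hm, L.pow,
    fun i g x hx => hi (by rw [hψ i _ (by rwa [C.inv]), mulVec_smul, hρ' g i x hx, L.eqv i g x hx]),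
    fun i j x a b => by rw [L.ch i j x a b, mulVec_smul], fun i E _ _ _ _ f z hf hz => by
      have := (hS n E V.Q V.w _ z _ _ B' (V.lv E f z hf) hB
        (.of_forall fun x q => (hg _ q).2 ▸ (hg _ q).1)).2.2 _ (L.ln i E f z hf hz)
        ((((Br.loc C).continuous.continuousAt.comp hf.1.self_of_nhds).eventually_mem
          ((L.lb.isOpen i).mem_nhds hz)).mono fun x hx => hψ i _ hx)
      rwa [← hw, show (fun x q => B' * V.gr (f x) q * cz B) = fun x => V'.gr (f x) from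
        funext fun x => funext fun q => (hg _ q).2.symm] at this⟩
  have hN : L'.Nn = L.Nn := Set.ext fun g => exists_congr fun c => forall₃_congr fun i x hx => by
    rw [← hi.eq_iff, hρ' g i x hx, mulVec_smul, hψ i x hx]
  have hh : ∀ i x, C.π x ∈ Lb.U i → L'.h i x = L.h i x := fun i x hx => by
    have e : gH V'.Q V'.w (V'.gr x) = (cz B)ᴴ * gH V.Q V.w (V.gr x) * cz B := by
      simp only [gH, gC, hQ, hw, Matrix.mul_assoc, Matrix.mul_sum, Matrix.sum_mul, Matrix.mul_smul,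
        Matrix.smul_mul, (hg x _).1]
    rw [Ln.h, e, hn_conj, hψ i x hx, Ln.h]
  have hY : ∀ i, ∀ y ∈ Lb.U i, L'.hY i y = L.hY i y := fun i y hy => by
    rw [Ln.hY, Ln.hY]
    split_ifs with e
    exacts [hh i _ (e.choose_spec.symm ▸ hy), rfl]
  refine ⟨k, V', L', B, fun g hg' => ?_, hi, hw, hQ, hρ, fun x q => (hg x q).1,
    fun i x hx => ⟨(hψ i x hx).symm, hh i x hx⟩, hY, rfl, rfl, hN, fun h y i hy => ?_⟩
  · obtain ⟨c, hc⟩ := hN ▸ hg'
    exact hm g ⟨c, fun s ⟨i, x, hx, e⟩ => e ▸ hc i x hx⟩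
  · obtain ⟨b, a, h⟩ := h y i hy
    refine ⟨b, a, ?_⟩
    filter_upwards [h, (L.lb.isOpen i).mem_nhds hy] with y' c d e
    rw [hY i y' d]
    exact c e

end Vale.Agent.P281Z.Hm
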