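import Vale.Agent.P281Z.Hm.Lift
import Vale.Agent.P281Z.Hm.Lip

/-!
# P281Z, the Hodge metric is bounded by the Poincaré metric
-/

open scoped Matrix.Norms.Operator Topology ComplexOrder Manifold ContDiff
open Filter Set Matrix Complex

noncomputable section

namespace Vale.Agent.P281Z.Hm

namespace PoinH

open LiftH DescH

variable {n : Type} [Fintype n] [DecidableEq n] {p : ℕ}

theorem om_comp {Q : Mx n} {w : ℕ} {π : (Fin p → ℂ) → Gr n} {φ : (Fin p → ℂ) → Fin p → ℂ}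
    {z : Fin p → ℂ} (h : LVAt Q w π (φ z)) (hφ : DifferentiableAt ℂ φ z) (v : Fin p → ℂ) :
    omH w (fun x => π (φ x)) z v = omH w π (φ z) (fderiv ℂ φ z v) := by
  have h1 := wd_comp h.an_J.differentiableAt hφ v
  have h2 := wb_comp h.an_J.differentiableAt hφ v
  simp only [omH, omB, th, ts]
  rw [h1, h2]

theorem om_conj {Q : Mx n} {w : ℕ} {π : (Fin p → ℂ) → Gr n} {z : Fin p → ℂ} (h : LVAt Q w π z)
    {A B : Mx n} (e : B * A = 1) (v : Fin p → ℂ) :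
    omH w (fun x q => A * π x q * B) z v = omH w π z v := by
  have h0 : (fun x => gJ w fun q => A * π x q * B) = fun x => A * gJ w (π x) * B := by
    ext1 x
    simp only [gJ, Finset.sum_mul, Finset.mul_sum, smul_mul_assoc, mul_smul_comm]
  have d := h.an_J.differentiableAt
  have d' := df_mul (differentiableAt_const A) d
  simp only [omH, omB, th, ts]
  rw [h0, wd_mul_const d', wb_mul_const d', wd_const_mul A d, wb_const_mul A d]
  simp only [mul_neg, mul_assoc, trace_neg]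
  rw [← mul_assoc B, e, one_mul, trace_mul_comm A]
  simp only [mul_assoc, e, mul_one]

variable {Y : Type} [TopologicalSpace Y] [ChartedSpace (Fin p → ℂ) Y]
  [IsManifold 𝓘(ℂ, Fin p → ℂ) ω Y] {S : Snc p Y} {C : Cv Y S.U} (V : GV p C n) {y : Y} {ρ : ℝ}
  {f : (Fin p → ℂ) → C.X} {g : Fin p → C.Γ} {ζ z : Fin p → ℂ} {σ : (Fin p → ℂ) → C.X}

/-- the tangent vector in the logarithmic coordinates -/
def lv (K : Finset (Fin p)) (ρ : ℝ) (z v : Fin p → ℂ) : Fin p → ℂ :=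
  fun i => if i ∈ K then v i / (2 * Real.pi * I * z i) else v i / ρ

omit [IsManifold 𝓘(ℂ, Fin p → ℂ) ω Y] in
theorem crd_K (h : BdL S C y ρ f g) (hz : chartAt (Fin p → ℂ) y y + (ρ : ℂ) • ex (S.K y) 1 ζ = z)
    {i : Fin p} (hi : i ∈ S.K y) : z i = ρ * exp (2 * Real.pi * I * ζ i / (1 : ℕ)) ∧
      ‖z i‖ = ρ * Real.exp (-(2 * Real.pi * (ζ i).im)) := by
  have h1 : z i = ρ * exp (2 * Real.pi * I * ζ i / (1 : ℕ)) := by
    rw [← hz, Pi.add_apply, S.zero_K hi, zero_add, Pi.smul_apply, ex, if_pos hi, smul_eq_mul]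
  refine ⟨h1, ?_⟩
  rw [h1, norm_mul, norm_e, norm_real, Real.norm_of_nonneg h.pos.le]
  simp

theorem key (h : BdL S C y ρ f g) (hζ : ζ ∈ Dm (S.K y))
    (hz : chartAt (Fin p → ℂ) y y + (ρ : ℂ) • ex (S.K y) 1 ζ = z) (hσ : C.Br y σ z)
    (v : Fin p → ℂ) : omH V.w (fun x => V.gr (σ x)) z v =
      omH V.w (fun x => V.gr (f x)) ζ (lv (S.K y) ρ z v) := by
  obtain ⟨-, -, b3, b4, -⟩ := stBr p Y S.U C S.isOpen_U
  have l1 := (((stLift p Y S C).2.2 y ρ f g h).1 ζ hζ).1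
  obtain ⟨k, hk⟩ := C.tr (f ζ) (σ z) (by rw [h.eq ζ hζ, hz, hσ.self_of_nhds.2.2])
  have l2 : C.Lift p (fun x => k • f x) ζ :=
    ⟨l1.1.mono fun x hx => (C.csm k).continuousAt.comp hx, by simpa only [C.inv] using l1.2⟩
  have e1 := (b4 _ (fun x => k • f x) ζ y σ l2 (by rw [C.inv]; exact src h hζ)
    (by rw [C.inv, crd h hζ, hz]; exact hσ) (by rw [C.inv, crd h hζ, hz]; exact hk)).2.2
  have e2 : (fun x q => cz (V.ρ k) * V.gr (f x) q * cz (V.ρ k⁻¹)) =ᶠ[𝓝 ζ]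
      fun x => V.gr (σ (chartAt (Fin p → ℂ) y y + (ρ : ℂ) • ex (S.K y) 1 x)) := by
    filter_upwards [e1, (TorH.dm_open _).mem_nhds hζ] with x h1 h2
    rw [C.inv, crd h h2] at h1
    rw [← h1]
    exact funext fun q => (V.gr_smul k _ q).symm
  have d1 : HasFDerivAt (fun x => chartAt (Fin p → ℂ) y y + (ρ : ℂ) • ex (S.K y) 1 x)
      (ContinuousLinearMap.pi fun i => (if i ∈ S.K y then 2 * Real.pi * I * z i else ρ) •
        ContinuousLinearMap.proj (R := ℂ) (φ := fun _ : Fin p => ℂ) i) ζ := by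
    refine hasFDerivAt_pi.2 fun i => ?_
    by_cases hi : i ∈ S.K y
    · have := ((((hasFDerivAt_apply (𝕜 := ℂ) i ζ).const_mul (2 * Real.pi * I)).cexp).const_mul
        (ρ : ℂ)).const_add (chartAt (Fin p → ℂ) y y i)
      simp only [Pi.add_apply, Pi.smul_apply, ex, if_pos hi, smul_eq_mul, Nat.cast_one, div_one]
      refine this.congr_fderiv ?_
      ext u
      simp [(crd_K h hz hi).1]
      ring
    · simp only [Pi.add_apply, Pi.smul_apply, ex, if_neg hi, smul_eq_mul]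
      exact ((hasFDerivAt_apply (𝕜 := ℂ) i ζ).const_mul (ρ : ℂ)).const_add _
  have d2 := om_comp (φ := fun x => chartAt (Fin p → ℂ) y y + (ρ : ℂ) • ex (S.K y) 1 x) (z := ζ)
    (by rw [hz]; exact V.lv _ σ z (b3 y σ z hσ)) d1.differentiableAt (lv (S.K y) ρ z v)
  rw [← omH_congr e2, om_conj (V.lv _ f ζ l1) (V.r_inv_mul k), d1.fderiv, hz] at d2
  rw [d2]
  congr 1
  ext i
  have r0 : (ρ : ℂ) ≠ 0 := ofReal_ne_zero.2 h.pos.ne'
  by_cases hi : i ∈ S.K y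
  · have : z i ≠ 0 := (crd_K h hz hi).1 ▸ mul_ne_zero r0 (exp_ne_zero _)
    simp [lv, hi]
    field_simp
  · simp [lv, hi]
    field_simp

omit [IsManifold 𝓘(ℂ, Fin p → ℂ) ω Y] in
theorem ev (h : BdL S C y ρ f g) : ∀ᶠ z in 𝓝 (chartAt (Fin p → ℂ) y y), ∀ σ, C.Br y σ z →
    ∃ ζ ∈ St (S.K y) 1 2⁻¹, ζ ∈ Dm (S.K y) ∧
      chartAt (Fin p → ℂ) y y + (ρ : ℂ) • ex (S.K y) 1 ζ = z := by
  filter_upwards [((chartAt (Fin p → ℂ) y).tendsto_symm (mem_chart_source _ y)).eventually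
    (cover h (η := 2⁻¹) (by norm_num))] with z hz σ hσ
  obtain ⟨-, h1, h2⟩ := hσ.self_of_nhds
  obtain ⟨ζ, h3, h4⟩ := hz (h2 ▸ C.mem _)
  have h5 : ζ ∈ Dm (S.K y) := ⟨fun i hi => lt_of_lt_of_le (by norm_num) (h3.1.1 i hi),
    fun i hi => (h3.1.2 i hi).trans_lt (by norm_num)⟩
  exact ⟨ζ, h3, h5, by rw [← crd h h5, h4, (chartAt (Fin p → ℂ) y).right_inv h1]⟩

theorem sum_le (K : Finset (Fin p)) {ρ : ℝ} (hρ : 0 < ρ) {v u : Fin p → ℂ}
    (h : ∀ i ∉ K, u i = v i / ρ) : ∑ i ∈ Kᶜ, ‖u i‖ ^ 2 ≤ p / ρ ^ 2 * ‖v‖ ^ 2 := by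
  refine (Finset.sum_le_card_nsmul _ _ (‖v‖ ^ 2 / ρ ^ 2) fun i hi => ?_).trans ?_
  · rw [h i (Finset.mem_compl.1 hi), norm_div, norm_real, Real.norm_of_nonneg hρ.le, div_pow]
    gcongr
    exact norm_le_pi_norm v i
  · rw [nsmul_eq_mul, div_mul_eq_mul_div, mul_div_assoc]
    gcongr
    simpa using Kᶜ.card_le_univ

end PoinH

open PoinH LiftH

theorem stPoin (hG : StGrow) : StPoin := by
  intro p Y _ _ _ S C n _ _ V y
  obtain ⟨ρ, f, g, h, -⟩ := exists_bdl C y univ_mem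
  obtain ⟨B, hB⟩ := (hG n p (S.K y) V.Q V.w (fun x => V.gr (f x))
    (fun ζ hζ => V.lv _ f ζ (((stLift p Y S C).2.2 y ρ f g h).1 ζ hζ).1) 2⁻¹ (by norm_num)).1
  set c := 2 + |Real.log ρ| with hc
  refine ⟨|B| * (c ^ 2 + p / ρ ^ 2), ?_⟩
  filter_upwards [ev h] with z hz σ hσ v
  obtain ⟨ζ, h1, h2, h3⟩ := hz σ hσ
  rw [key V h h2 h3 hσ]
  refine (hB ζ h1.1 _).trans ((mul_le_mul_of_nonneg_right (le_abs_self B) (by positivity)).trans ?_)
  rw [mul_assoc]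
  refine mul_le_mul_of_nonneg_left ?_ (abs_nonneg B)
  have h4 := sum_le (S.K y) h.pos (v := v) (u := lv (S.K y) ρ z v) fun i hi => if_neg hi
  have h5 : ∑ i ∈ S.K y, (‖lv (S.K y) ρ z v i‖ / (ζ i).im) ^ 2 ≤
      c ^ 2 * ∑ i ∈ S.K y, (‖v i‖ / (‖z i‖ * (1 + |Real.log ‖z i‖|))) ^ 2 := by
    rw [Finset.mul_sum]
    refine Finset.sum_le_sum fun i hi => ?_
    have k1 := h1.1.1 i hi
    have k2 := (crd_K h h3 hi).2
    have k3 : 0 < ‖z i‖ := k2 ▸ mul_pos h.pos (Real.exp_pos _)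
    have k4 : 0 < (ζ i).im := h2.1 i hi
    have k5 : 1 + |Real.log ‖z i‖| ≤ c * (2 * Real.pi * (ζ i).im) := by
      have k6 : 1 ≤ 2 * Real.pi * (ζ i).im := by nlinarith [Real.pi_gt_three]
      rw [k2, Real.log_mul h.pos.ne' (Real.exp_pos _).ne', Real.log_exp]
      have k7 := abs_add_le (Real.log ρ) (-(2 * Real.pi * (ζ i).im))
      rw [abs_neg, abs_of_pos (by positivity : 0 < 2 * Real.pi * (ζ i).im)] at k7
      nlinarith [abs_nonneg (Real.log ρ)]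
    rw [← mul_pow]
    refine pow_le_pow_left₀ (by positivity) ?_ 2
    have k8 : ‖lv (S.K y) ρ z v i‖ = ‖v i‖ / (2 * Real.pi * ‖z i‖) := by
      simp [lv, hi, abs_of_pos Real.pi_pos]
    rw [k8, div_div, ← mul_div_assoc, div_le_div_iff₀ (by positivity) (by positivity)]
    nlinarith [mul_le_mul_of_nonneg_left k5 (mul_nonneg (norm_nonneg (v i)) k3.le)]
  have h6 : 0 ≤ ∑ i ∈ S.K y, (‖v i‖ / (‖z i‖ * (1 + |Real.log ‖z i‖|))) ^ 2 := by positivity
  rw [Snc.poin]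
  nlinarith [mul_nonneg (sq_nonneg c) (sq_nonneg ‖v‖),
    mul_nonneg (by positivity : 0 ≤ (p : ℝ) / ρ ^ 2) h6]

theorem stSc (hG : StGrow) (hE : StExt) : StSc := by
  intro p Y _ _ _ S C n _ _ V l H y hy
  obtain ⟨ρ, f, g, h, hc⟩ := H y hy
  obtain ⟨b, hb, e⟩ := S.exists_lab hy.1
  have hK := S.K_eq_single hy e
  have lf := fun ζ hζ => V.lv _ f ζ (((stLift p Y S C).2.2 y ρ f g h).1 ζ hζ).1
  obtain ⟨B, hB⟩ := (hG n p (S.K y) V.Q V.w (fun x => V.gr (f x)) lf 2⁻¹ (by norm_num)).1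
  obtain ⟨B', hB'⟩ := hE n p b V.Q V.w (fun x => V.gr (f x)) (hK ▸ lf) (fun ζ hζ => funext fun q => by
    rw [h.mono b hb ζ (hK ▸ hζ), V.gr_smul, (hc b hb _ q).eq, mul_assoc, V.r_mul_inv, mul_one]) 0
    ⟨fun i hi => by simp [Finset.mem_singleton.1 hi], fun i hi => by
      simp [show i ≠ b from fun k => hi (Finset.mem_singleton.2 k)]⟩
  obtain ⟨pa, a1, pb, a2, a3⟩ := eventually_prod_iff.1 (eventually_comap.1 hB')
  obtain ⟨M, hM⟩ := eventually_atTop.1 a2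
  have c1 : Tendsto (fun z => Function.update ((ρ : ℂ)⁻¹ • (z - chartAt (Fin p → ℂ) y y)) b 0)
      (𝓝 (chartAt (Fin p → ℂ) y y)) (𝓝 (Function.update 0 b 0)) :=
    Continuous.tendsto' (by fun_prop) _ _ (by simp)
  have c2 : ∀ᶠ z in 𝓝 (chartAt (Fin p → ℂ) y y), ‖z b‖ < ρ * Real.exp (-(2 * Real.pi * M)) :=
    (by fun_prop : Continuous fun z : Fin p → ℂ => ‖z b‖).continuousAt.eventually_lt
      continuousAt_const (by rw [S.zero_K hb, norm_zero]; exact mul_pos h.pos (Real.exp_pos _))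
  refine ⟨2 * (|B'| / (2 * Real.pi * ρ) ^ 2 + |B| * (p / ρ ^ 2)), ?_⟩
  filter_upwards [ev h, c1.eventually a1, c2] with z hz k1 k2 σ hσ v
  obtain ⟨ζ, h1, h2, h3⟩ := hz σ hσ
  have k3 := (crd_K h h3 hb).2
  have k4 : M ≤ (ζ b).im := by
    rw [k3, mul_lt_mul_iff_right₀ h.pos, Real.exp_lt_exp] at k2
    nlinarith [Real.pi_pos]
  have k5 := a3 k1 (hM _ k4) ζ (by
    refine Prod.ext (funext fun i => ?_) rfl
    by_cases hi : i = b
    · simp [hi]
    · simp [hi, ← h3, ex, hK, h.pos.ne'])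
  set u := lv (S.K y) ρ z v with hu
  have k6 := Lp.sqrt_add (lf ζ h2) (u b • Pi.single b 1) (Function.update u b 0)
  have k7 : u b • (Pi.single b 1 : Fin p → ℂ) + Function.update u b 0 = u := by
    ext i
    by_cases hi : i = b <;> simp [hi]
  have k8 : omH V.w (fun x => V.gr (f x)) ζ (u b • Pi.single b 1) ≤
      |B'| / (2 * Real.pi * ρ) ^ 2 * ‖v‖ ^ 2 := by
    have k9 : ‖u b‖ = ‖v b‖ / (2 * Real.pi * ‖z b‖) := by simp [hu, lv, hb, abs_of_pos Real.pi_pos]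
    have k10 : Real.exp (-4 * Real.pi * (ζ b).im) = Real.exp (-(2 * Real.pi * (ζ b).im)) ^ 2 := by
      rw [← Real.exp_nat_mul]
      congr 1
      push_cast
      ring
    have k11 := h.pos
    rw [Lp.omH_smul, k9, k3]
    refine (mul_le_mul_of_nonneg_left (k5.trans (mul_le_mul_of_nonneg_right (le_abs_self _)
      (Real.exp_pos _).le)) (sq_nonneg _)).trans ?_
    rw [k10]
    refine le_of_eq_of_le (b := |B'| / (2 * Real.pi * ρ) ^ 2 * ‖v b‖ ^ 2) (by field_simp) ?_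
    gcongr
    exact norm_le_pi_norm v b
  have k12 : omH V.w (fun x => V.gr (f x)) ζ (Function.update u b 0) ≤
      |B| * (p / ρ ^ 2) * ‖v‖ ^ 2 := by
    refine (hB ζ h1.1 _).trans
      ((mul_le_mul_of_nonneg_right (le_abs_self B) (by positivity)).trans ?_)
    rw [mul_assoc, Finset.sum_eq_zero fun i hi => by simp [Finset.mem_singleton.1 (hK ▸ hi)],
      zero_add]
    refine mul_le_mul_of_nonneg_left (sum_le _ h.pos fun i hi => ?_) (abs_nonneg B)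
    rw [Function.update_of_ne fun k : i = b => hi (k ▸ hb)]
    exact if_neg hi
  rw [key V h h2 h3 hσ]
  rw [k7] at k6
  have k13 := pow_le_pow_left₀ (Real.sqrt_nonneg _) k6 2
  rw [Real.sq_sqrt (Lp.omH_nonneg (lf ζ h2) _)] at k13
  nlinarith [Real.sq_sqrt (Lp.omH_nonneg (lf ζ h2) (u b • Pi.single b 1)),
    Real.sq_sqrt (Lp.omH_nonneg (lf ζ h2) (Function.update u b 0)),
    sq_nonneg (√(omH V.w (fun x => V.gr (f x)) ζ (u b • Pi.single b 1)) -
      √(omH V.w (fun x => V.gr (f x)) ζ (Function.update u b 0)))]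

end Vale.Agent.P281Z.Hm
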