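import Vale.Agent.P281Z.Hm.Max
import Vale.Agent.P281Z.Hm.Calc
import Vale.Agent.P281Z.Hm.Alg
import Vale.Agent.P284Y.Lib.GL

/-!
# P281Z, abstract variations: the leading coefficient is positive (POS)
-/

open scoped Matrix.Norms.Operator Topology
open Filter Set Metric Complex MeasureTheory

noncomputable section

namespace Vale.Agent.P281Z.Hm

open Vale.Agent.P284Z (levi Psh LB psh_of_levi psh_of_lim psh_const lb_const usc_integrableOn)
open Vale.Agent.P284Y.Lib (levi_sum levi_sub levi_const_mul)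
open TorH LiftH

namespace PosH

/-- an inequality of Harnack type -/
theorem harn {W : Type} [NormedAddCommGroup W] [NormedSpace ℂ W] [FiniteDimensional ℂ W]
    {x₀ x₁ : W} {r : ℝ} (hx : dist x₁ x₀ < r) : ∃ c : ℝ, 0 ≤ c ∧ ∀ (u ρ : W → ℝ) (M A : ℝ),
      ContinuousOn u (closedBall x₀ (2 * r)) → ContinuousOn ρ (closedBall x₀ (2 * r)) →
      Psh u (closedBall x₀ (2 * r)) → Psh (fun x => ρ x - u x) (closedBall x₀ (2 * r)) →
      (∀ x ∈ closedBall x₀ (2 * r), -M ≤ u x ∧ |ρ x| ≤ A) →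
      u x₁ + M ≤ c * (u x₀ + M + 2 * A) := by
  have : ProperSpace W := FiniteDimensional.proper ℂ W
  borelize W
  let μ : Measure W := Measure.addHaar
  have hr : 0 < r := dist_nonneg.trans_lt hx
  have h1 : 0 < μ.real (ball x₁ r) :=
    ENNReal.toReal_pos (measure_ball_pos μ x₁ hr).ne' measure_ball_lt_top.ne
  have s1 : closedBall x₁ r ⊆ closedBall x₀ (2 * r) :=
    closedBall_subset_closedBall' (by linarith)
  have s2 : ball x₁ r ⊆ ball x₀ (2 * r) := ball_subset_ball' (by linarith)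
  refine ⟨μ.real (ball x₀ (2 * r)) / μ.real (ball x₁ r), by positivity,
    fun u ρ M A hu hρ pu pv hb => ?_⟩
  have iu : IntegrableOn u (ball x₀ (2 * r)) μ :=
    (hu.integrableOn_compact (isCompact_closedBall _ _)).mono_set ball_subset_closedBall
  have iv : IntegrableOn (fun x => ρ x - u x) (ball x₀ (2 * r)) μ :=
    ((hρ.sub hu).integrableOn_compact (isCompact_closedBall _ _)).mono_set ball_subset_closedBall
  have ic : ∀ (c : ℝ) x s, IntegrableOn (fun _ => c) (ball x s) μ := fun c x s =>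
    integrableOn_const measure_ball_lt_top.ne
  have a1 := pu.le_ball μ (.of_cont hu) s1
  have a2 := (pv.le_ball μ (.of_cont (hρ.sub hu)) subset_rfl).trans (setIntegral_mono_on iv
    ((ic A _ _).sub iu) measurableSet_ball fun x hx =>
      sub_le_sub_right (abs_le.1 (hb x (ball_subset_closedBall hx)).2).2 _)
  have a3 := setIntegral_mono_set (f := fun x => u x + M) (iu.add (ic M _ _))
    ((ae_restrict_mem measurableSet_ball).mono fun x hx => by
      have := (hb x (ball_subset_closedBall hx)).1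
      show 0 ≤ u x + M
      linarith) s2.eventuallyLE
  rw [integral_add (iu.mono_set s2) (ic M _ _), integral_add iu (ic M _ _), setIntegral_const,
    setIntegral_const, smul_eq_mul, smul_eq_mul] at a3
  simp only [Pi.sub_apply] at a2
  rw [integral_sub (ic A _ _) iu, setIntegral_const, smul_eq_mul] at a2
  have a4 := mul_le_mul_of_nonneg_right
    (abs_le.1 (hb x₀ (mem_closedBall_self (by linarith))).2).1
    (measureReal_nonneg (μ := μ) (s := ball x₀ (2 * r)))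
  rw [div_mul_eq_mul_div, le_div_iff₀ h1]
  linarith

theorem levi_nsq (z a : ℂ) : levi (fun z : ℂ => ‖z‖ ^ 2) z a = 4 * ‖a‖ ^ 2 := by
  have h1 : fderiv ℝ (fun z : ℂ => ‖z‖ ^ 2) = fun z => (2 : ℕ) • innerSL ℝ z := fderiv_norm_sq
  have h2 : ∀ a : ℂ, fderiv ℝ (fderiv ℝ fun z : ℂ => ‖z‖ ^ 2) z a a = 2 * ‖a‖ ^ 2 := fun a => by
    rw [h1, ((innerSL ℝ (E := ℂ)).hasFDerivAt.fun_const_smul (2 : ℕ)).fderiv]
    have : innerSL ℝ a a = ‖a‖ ^ 2 := real_inner_self_eq_norm_sq a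
    simp [this]
  rw [levi, h2, h2, norm_smul, norm_I]
  ring

variable {p : ℕ} {K : Finset (Fin p)} {b : Fin p}

theorem cd_nsq (i : Fin p) : ContDiff ℝ 2 fun x : Fin p → ℂ => ‖x i‖ ^ 2 :=
  (contDiff_apply ℝ ℂ i).norm_sq ℝ

theorem levi_q (x v : Fin p → ℂ) :
    levi (fun x : Fin p → ℂ => ∑ i, ‖x i‖ ^ 2) x v = 4 * ∑ i, ‖v i‖ ^ 2 := by
  rw [levi_sum _ fun i _ => (cd_nsq i).contDiffAt, Finset.mul_sum]
  refine Finset.sum_congr rfl fun i _ => ?_
  let L : (Fin p → ℂ) →L[ℂ] ℂ := ContinuousLinearMap.proj i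
  refine (levi_comp (a := fun z : ℂ => ‖z‖ ^ 2) (g := L) (contDiff_norm_sq ℝ).contDiffAt
    (L.analyticAt x) v).trans ?_
  rw [levi_nsq, L.fderiv]
  rfl

theorem In_nhds {ζ : Fin p → ℂ} (h : ζ ∈ Dm K) :
    ∃ η > (0 : ℝ), η ≤ 1 ∧ ∀ᶠ x in 𝓝 ζ, x ∈ In K η := by
  have h1 : ∀ᶠ q : ℝ × (Fin p → ℂ) in 𝓝 (0, ζ), (∀ i, i ∈ K → q.1 ≤ (q.2 i).im) ∧
      ∀ i, i ∉ K → ‖q.2 i‖ ≤ 1 - q.1 := by
    refine (eventually_all.2 fun i => eventually_imp_distrib_left.2 fun hi => ?_).and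
      (eventually_all.2 fun i => eventually_imp_distrib_left.2 fun hi => ?_)
    · exact (ContinuousAt.eventually_lt (by fun_prop) (by fun_prop) (h.1 i hi)).mono
        fun _ => le_of_lt
    · exact (ContinuousAt.eventually_lt (by fun_prop) (by fun_prop)
        (by simpa using h.2 i hi)).mono fun _ => le_of_lt
  obtain ⟨η, a, b⟩ := ((((eventually_le_nhds one_pos).and h1.curry_nhds).filter_mono
    nhdsWithin_le_nhds).and (self_mem_nhdsWithin (s := Ioi 0))).exists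
  exact ⟨η, b, a⟩

/-- the slice at the height `y` -/
def sl (b : Fin p) (y : ℝ) (x : Fin p → ℂ) : Fin p → ℂ := Function.update x b (y * I)

theorem sl_im (y : ℝ) (x : Fin p → ℂ) : (sl b y x b).im = y := by simp [sl]

theorem sl_mem (hb : b ∈ K) {y : ℝ} (hy : 0 < y) {x : Fin p → ℂ} (hx : x ∈ Db K b) :
    sl b y x ∈ Dm K := by
  have h := upd_mem hx hb (t := y * I) (by simpa using hy)
  rwa [Function.update_idem] at h

theorem sl_In (hb : b ∈ K) {ζ : Fin p → ℂ} (h : ζ ∈ Db K b) :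
    ∃ η > (0 : ℝ), ∀ᶠ x in 𝓝 ζ, ∀ y, 1 ≤ y → sl b y x ∈ In K η := by
  obtain ⟨η, h0, h1, h2⟩ := In_nhds (K := K) h
  refine ⟨η, h0, ((continuous_id.update b continuous_const).continuousAt.eventually h2).mono
    fun x hx y hy => ⟨fun i hi => ?_, fun i hi => ?_⟩⟩
  · rcases eq_or_ne i b with rfl | e
    · rw [sl_im]
      exact h1.trans hy
    · simpa [sl, e] using hx.1 i hi
  · have e : i ≠ b := fun e => hi (e ▸ hb)
    simpa [sl, e] using hx.2 i hi

theorem sl_tendsto (ζ : Fin p → ℂ) :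
    Tendsto (fun q : (Fin p → ℂ) × ℝ => sl b q.2 q.1) (𝓝 ζ ×ˢ atTop) (toB b ζ) := by
  refine tendsto_comap_iff.2 (((((continuous_id.update b (continuous_const (y := (0 : ℂ)))).tendsto
    ζ).comp tendsto_fst).prodMk tendsto_snd).congr fun q => ?_)
  simp [sl]

theorem sl_psh {u : (Fin p → ℂ) → ℝ} {U : Set (Fin p → ℂ)} (h : Psh u U) (y : ℝ) :
    Psh (fun x => u (sl b y x)) {x | sl b y x ∈ U} := by
  let L : (Fin p → ℂ) →L[ℂ] Fin p → ℂ :=
    ContinuousLinearMap.pi fun i => if i = b then 0 else ContinuousLinearMap.proj i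
  have e : ∀ x, Pi.single b (y * I : ℂ) + L x = sl b y x := fun x => funext fun i => by
    by_cases hi : i = b <;> simp [L, sl, hi]
  simpa only [e] using h.affine (Pi.single b (y * I : ℂ)) L

theorem db_open : IsOpen (Db K b) :=
  (dm_open K).preimage (continuous_id.update b continuous_const)

theorem db_conn : IsPreconnected (Db K b) := by
  refine Convex.isPreconnected fun x hx y hy s t hs ht e => ?_
  have h := dm_convex K hx hy hs ht e
  have e1 : s • Function.update x b I + t • Function.update y b I =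
      Function.update (s • x + t • y) b I := funext fun i => by
    rcases eq_or_ne i b with rfl | hi
    · simp only [Pi.add_apply, Pi.smul_apply, Function.update_self]
      rw [← add_smul, e, one_smul]
    · simp only [Pi.add_apply, Pi.smul_apply, Function.update_of_ne hi]
  rwa [e1] at h

variable {H κ : (Fin p → ℂ) → ℝ} {k : ℕ}

theorem sl_lim {ζ : Fin p → ℂ} {c : ℝ} (h : Tendsto (fun x => H x / (x b).im ^ k) (toB b ζ) (𝓝 c)) :
    Tendsto (fun q : (Fin p → ℂ) × ℝ => H (sl b q.2 q.1) / q.2 ^ k) (𝓝 ζ ×ˢ atTop) (𝓝 c) :=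
  (h.comp (sl_tendsto ζ)).congr fun q => by rw [Function.comp_apply, sl_im]

theorem sl_lim' {ζ : Fin p → ℂ} {c : ℝ}
    (h : Tendsto (fun x => H x / (x b).im ^ k) (toB b ζ) (𝓝 c)) :
    Tendsto (fun y : ℝ => H (sl b y ζ) / y ^ k) atTop (𝓝 c) :=
  (sl_lim h).comp (tendsto_const_nhds.prodMk tendsto_id)

theorem core (hb : b ∈ K) (hH : ∀ x ∈ Dm K, 0 < H x ∧
      ContDiffAt ℝ 2 (fun x => -Real.log (H x)) x ∧ ∀ v, 0 ≤ levi (fun x => -Real.log (H x)) x v)
    (hB : ∀ η > (0 : ℝ), ∃ C : ℝ, ∀ x ∈ In K η, ∀ v,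
      levi (fun x => -Real.log (H x)) x v ≤ C * (4 * ∑ i, ‖v i‖ ^ 2))
    (hκ : ∀ x ∈ Db K b, ContDiffAt ℝ 2 κ x)
    (hT : ∀ ζ ∈ Db K b, Tendsto (fun x => H x / (x b).im ^ k) (toB b ζ) (𝓝 (κ ζ)))
    (h0 : ∃ ζ ∈ Db K b, κ ζ ≠ 0) :
    ∀ ζ ∈ Db K b, 0 < κ ζ ∧ ∀ v, levi (fun x => Real.log (κ x)) ζ v ≤ 0 := by
  let U : ℝ → (Fin p → ℂ) → ℝ := fun y x => -Real.log (H (sl b y x) / y ^ k)
  have gp : ∀ y, 0 < y → ∀ x ∈ Db K b, 0 < H (sl b y x) / y ^ k := fun y hy x hx =>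
    div_pos (hH _ (sl_mem hb hy hx)).1 (pow_pos hy k)
  have eU : ∀ y, 0 < y → ∀ x ∈ Db K b, U y x = -Real.log (H (sl b y x)) + Real.log (y ^ k) :=
    fun y hy x hx => by
      simp only [U]
      rw [Real.log_div (hH _ (sl_mem hb hy hx)).1.ne' (pow_pos hy k).ne']
      ring
  have cs : ∀ y, Continuous (sl b y) := fun y => continuous_id.update b continuous_const
  have c0 : ∀ y, 0 < y → ContinuousOn (fun x => -Real.log (H (sl b y x))) (Db K b) :=
    fun y hy x hx => (ContinuousAt.comp (f := sl b y) (hH _ (sl_mem hb hy hx)).2.1.continuousAt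
      (cs y).continuousAt).continuousWithinAt
  have cU : ∀ y, 0 < y → ContinuousOn (U y) (Db K b) := fun y hy =>
    ((c0 y hy).add continuousOn_const).congr (eU y hy)
  have pU : ∀ y, 0 < y → Psh (U y) (Db K b) := fun y hy =>
    (((sl_psh (psh_of_levi fun x hx => (hH x hx).2) y).mono fun x hx => sl_mem hb hy hx).add
      (psh_const _ _) (.of_cont (c0 y hy)) (lb_const _ _)).congr (eU y hy)
  have cκ : ContinuousOn κ (Db K b) := fun x hx => (hκ x hx).continuousAt.continuousWithinAt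
  have nn : ∀ x ∈ Db K b, 0 ≤ κ x := fun x hx => ge_of_tendsto (sl_lim' (hT x hx))
    ((eventually_gt_atTop 0).mono fun y hy => (gp y hy x hx).le)
  have pos : Db K b ⊆ Db K b ∩ κ ⁻¹' Ioi 0 := by
    obtain ⟨ζ, h1, h2⟩ := h0
    refine db_conn.subset_of_closure_inter_subset (cκ.isOpen_inter_preimage db_open isOpen_Ioi)
      ⟨ζ, h1, h1, (nn ζ h1).lt_of_ne' h2⟩ fun x₁ ⟨hc, hx₁⟩ => ⟨hx₁, ?_⟩
    obtain ⟨η, hη, hI⟩ := sl_In hb hx₁
    obtain ⟨C, hC⟩ := hB η hη
    obtain ⟨pa, ha, pb, hpb, hab⟩ := eventually_prod_iff.1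
      ((sl_lim (hT x₁ hx₁)).eventually (gt_mem_nhds (lt_add_one (κ x₁))))
    obtain ⟨R, hR, hN⟩ := nhds_basis_closedBall.eventually_iff.1
      ((hI.and ha).and (db_open.eventually_mem hx₁))
    obtain ⟨x₀, ⟨hx₀, hp₀⟩, hd⟩ := Metric.mem_closure_iff.1 hc (R / 3) (by positivity)
    have sB : closedBall x₀ (2 * (R / 3)) ⊆ closedBall x₁ R :=
      closedBall_subset_closedBall' (by rw [dist_comm]; linarith)
    have sD : closedBall x₀ (2 * (R / 3)) ⊆ Db K b := fun x hx => (hN (sB hx)).2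
    obtain ⟨c, hc0, hc1⟩ := harn hd
    let ρ : (Fin p → ℂ) → ℝ := fun x => C * ∑ i ∈ Finset.univ.erase b, ‖x i‖ ^ 2
    have cρ : Continuous ρ := by fun_prop
    obtain ⟨A, hA⟩ := (isCompact_closedBall x₀ (2 * (R / 3))).exists_bound_of_continuousOn
      cρ.continuousOn
    have cq : ContDiff ℝ 2 fun x : Fin p → ℂ => ∑ i, ‖x i‖ ^ 2 :=
      ContDiff.sum fun i _ => cd_nsq i
    have p2 : Psh (fun x => C * ∑ i, ‖x i‖ ^ 2 - -Real.log (H x)) (In K η) :=
      psh_of_levi fun x hx => by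
        have h2 := (hH x (MaxH.In_sub hη hx)).2.1
        refine ⟨(contDiffAt_const.mul cq.contDiffAt).sub h2, fun v => ?_⟩
        rw [levi_sub (contDiffAt_const.mul cq.contDiffAt) h2, levi_const_mul cq.contDiffAt, levi_q]
        exact sub_nonneg.2 (hC x hx v)
    have key : ∀ᶠ y in atTop, Real.exp (Real.log (κ x₁ + 1) -
        c * (-Real.log (κ x₀) + 1 + Real.log (κ x₁ + 1) + 2 * A)) ≤ H (sl b y x₁) / y ^ k := by
      filter_upwards [hpb, eventually_ge_atTop 1, ((sl_lim' (hT x₀ hx₀)).log hp₀.ne').neg.eventually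
        (gt_mem_nhds (lt_add_one (-Real.log (κ x₀))))] with y h1 h2 h3
      have hy : 0 < y := one_pos.trans_le h2
      have h4 := hc1 (U y) ρ (Real.log (κ x₁ + 1)) A ((cU y hy).mono sD) cρ.continuousOn
        ((pU y hy).mono sD) ((((sl_psh p2 y).mono fun x hx => (hN (sB hx)).1.1 y h2).add
          (psh_const (-(C * ‖(y * I : ℂ)‖ ^ 2 + Real.log (y ^ k))) _) (.of_cont
            (((continuous_const.mul (cq.continuous.comp (cs y))).continuousOn).sub
              ((c0 y hy).mono sD))) (lb_const _ _)).congr fun x hx => by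
            have e : ∑ i ∈ Finset.univ.erase b, ‖sl b y x i‖ ^ 2 =
                ∑ i ∈ Finset.univ.erase b, ‖x i‖ ^ 2 := Finset.sum_congr rfl fun i hi => by
              rw [sl, Function.update_of_ne (Finset.ne_of_mem_erase hi)]
            beta_reduce
            rw [eU y hy x (sD hx), ← Finset.add_sum_erase _ _ (Finset.mem_univ b), e, sl,
              Function.update_self]
            ring)
        fun x hx => ⟨neg_le_neg (Real.log_le_log (gp y hy x (sD hx)) (hab (hN (sB hx)).1.2 h1).le),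
          hA x hx⟩
      have h5 := mul_le_mul_of_nonneg_left (show U y x₀ + Real.log (κ x₁ + 1) + 2 * A ≤
        -Real.log (κ x₀) + 1 + Real.log (κ x₁ + 1) + 2 * A by linarith) hc0
      rw [← Real.le_log_iff_exp_le (gp y hy x₁ hx₁)]
      simp only [U] at h4 h5
      linarith
    exact (Real.exp_pos _).trans_le (ge_of_tendsto (sl_lim' (hT x₁ hx₁)) key)
  refine fun ζ hζ => ⟨(pos hζ).2, fun v => ?_⟩
  obtain ⟨pa, ha, pb, hpb, hab⟩ := eventually_prod_iff.1
    ((sl_lim (hT ζ hζ)).eventually (lt_mem_nhds (half_lt_self (pos hζ).2)))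
  have cl : ContinuousOn (fun x => -Real.log (κ x)) ({x | pa x} ∩ Db K b) :=
    ((cκ.log fun x hx => (pos hx).2.ne').neg).mono inter_subset_right
  have h := (psh_of_lim (𝓕 := atTop) (f := U) cl.upperSemicontinuousOn (.of_cont cl)
    ((eventually_gt_atTop 0).mono fun y hy => ⟨(pU y hy).mono inter_subset_right,
      .of_cont ((cU y hy).mono inter_subset_right)⟩)
    (fun L hL _ => ⟨-Real.log (κ ζ / 2), hpb.mono fun y hy x hx =>
      neg_le_neg (Real.log_le_log (half_pos (pos hζ).2) (hab (hL hx).1 hy).le)⟩)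
    fun x hx => ((sl_lim' (hT x hx.2)).log (pos hx.2).2.ne').neg).levi_nonneg
      (inter_mem ha (db_open.mem_nhds hζ)) ((hκ ζ hζ).log (pos hζ).2.ne').neg v
  rw [levi_neg] at h
  linarith

end PosH

open PosH in
theorem stPos (hLow : StLow) (hExp : StExp) (hLine : StLine) (hGrow : StGrow) : StPos := by
  intro n _ _ p K Q w π T a N ψ lam β φ h b hb
  classical
  obtain ⟨l1, l2⟩ := hLow n p K Q w π T a N ψ lam β φ h
  obtain ⟨-, e2, -, e4⟩ := hExp n p K Q w π T a N ψ lam β φ h b hb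
  have hl := fun x hx => hLine n _ Q w π _ x (h.bv.lv x hx) (l1 x hx).1
  obtain ⟨m, hm⟩ := h.un.nil b hb
  let P : ℕ → Prop := fun j => ∃ ζ ∈ Db K b, cf0 K Q w a N φ b j ζ ≠ 0
  have hk : ∀ j, Nat.findGreatest P m < j → ∀ ζ ∈ Db K b, cf0 K Q w a N φ b j ζ = 0 := by
    intro j hj ζ hζ
    rcases le_total j m with e | e
    · by_contra hc
      exact Nat.findGreatest_is_greatest hj e ⟨ζ, hζ, hc⟩
    · simp [cf0, cf, hn, smul_pow, pow_eq_zero_of_le e hm]
  refine ⟨_, hk, fun ζ hζ => (core hb (fun x hx => ⟨(hl x hx).2.1,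
    ((hl x hx).1.contDiffAt.log (hl x hx).2.1.ne').neg, fun v => ?_⟩) (fun η hη => ?_)
    (fun x hx => (e2 _ x hx).contDiffAt) (e4 _ hk) ?_ ζ hζ).imp_right fun k v _ => k v⟩
  · rw [((hl x hx).2.2 v).1]
    exact mul_nonneg (by norm_num)
      (div_nonneg (hn_nonneg (h.bv.lv x hx).hs.self_of_nhds.pos _) (hl x hx).2.1.le)
  · obtain ⟨⟨B, hB⟩, -⟩ := hGrow n p K Q w π h.bv.lv η hη
    refine ⟨|B| * (η⁻¹ ^ 2 + 1), fun x hx v => ?_⟩
    have hx' := MaxH.In_sub hη hx
    have a1 : ∑ i ∈ K, (‖v i‖ / (x i).im) ^ 2 ≤ η⁻¹ ^ 2 * ∑ i, ‖v i‖ ^ 2 := by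
      rw [Finset.mul_sum]
      refine (Finset.sum_le_sum fun i hi => ?_).trans (Finset.sum_le_sum_of_subset_of_nonneg
        (Finset.subset_univ K) fun i _ _ => by positivity)
      have b1 := hx.1 i hi
      have b2 := hη.trans_le b1
      rw [← mul_pow, mul_comm, ← div_eq_mul_inv]
      gcongr
    have a2 : ∑ i ∈ Kᶜ, ‖v i‖ ^ 2 ≤ ∑ i, ‖v i‖ ^ 2 :=
      Finset.sum_le_sum_of_subset_of_nonneg (Finset.subset_univ _) fun i _ _ => by positivity
    have a3 := (hB x hx v).trans ((mul_le_mul_of_nonneg_right (le_abs_self B) (by positivity)).trans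
      (mul_le_mul_of_nonneg_left (add_le_add a1 a2) (abs_nonneg B)))
    have a4 := (div_le_iff₀ (hl x hx').2.1).2 ((hl x hx').2.2 v).2.1
    rw [((hl x hx').2.2 v).1]
    linarith
  · by_cases e : Nat.findGreatest P m = 0
    · obtain ⟨η, hη, hI⟩ := sl_In hb hζ
      obtain ⟨c, B, M, hc, hB⟩ := l2 η hη
      refine ⟨ζ, hζ, (hc.trans_le (ge_of_tendsto (sl_lim' (e4 _ hk ζ hζ))
        ((eventually_ge_atTop 1).mono fun y hy => ?_))).ne'⟩
      rw [e, pow_zero, div_one]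
      exact (hB _ (hI.self_of_nhds y hy)).1
    · exact Nat.findGreatest_of_ne_zero (P := P) rfl e

end Vale.Agent.P281Z.Hm
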