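import Vale.Agent.P281Z.Hm.Id
import Mathlib.Analysis.Normed.Module.Completion
import Mathlib.Analysis.Normed.Operator.Extend

/-!
# P281Z, pull back of a variation
-/

set_option linter.unusedSectionVars false

open scoped Matrix.Norms.Operator Topology ComplexOrder
open Filter Set Matrix Complex Asymptotics
open UniformSpace (Completion)

noncomputable section

namespace Vale.Agent.P281Z.Hm

variable {n : Type} [Fintype n] [DecidableEq n] {E : Type} [NormedAddCommGroup E]
  [NormedSpace ℝ E] [NormedSpace ℂ E] [IsScalarTower ℝ ℂ E] {E' : Type} [NormedAddCommGroup E']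
  [NormedSpace ℝ E'] [NormedSpace ℂ E'] [IsScalarTower ℝ ℂ E'] {Q : Mx n} {w : ℕ} {π : E → Gr n}
  {g : E' → E} {z : E'}

namespace PullA

theorem ev_diff (hg : AnalyticAt ℂ g z) :
    ∀ᶠ x in 𝓝 z, DifferentiableAt ℂ (fun x => (g x : Completion E)) x :=
  (((Completion.toComplL : E →L[ℂ] Completion E).analyticAt _).comp
    hg).eventually_analyticAt.mono fun _ h => h.differentiableAt

/-- the chain rule when the inner map is differentiable with values in the completion -/
theorem wd_mem {F : Type} [NormedAddCommGroup F] [NormedSpace ℝ F] [NormedSpace ℂ F]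
    [IsScalarTower ℝ ℂ F] [CompleteSpace F] {f : E → F} (hf : DifferentiableAt ℝ f (g z))
    (hg : DifferentiableAt ℂ (fun x => (g x : Completion E)) z) {S : Set F} (hS : IsClosed S)
    (h : ∀ u, wd u f (g z) ∈ S) (v : E') : wd v (fun x => f (g x)) z ∈ S := by
  obtain ⟨L, hL⟩ : ∃ L : Completion E →L[ℝ] F, ∀ u : E, L u = fderiv ℝ f (g z) u :=
    ⟨_, (fderiv ℝ f (g z)).extend_eq (e := Completion.toComplL) Completion.denseRange_coe
      (Completion.isUniformInducing_coe E)⟩
  have h1 : Tendsto g (𝓝 z) (𝓝 (g z)) :=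
    (Completion.isUniformInducing_coe E).isInducing.tendsto_nhds_iff.2 hg.continuousAt
  have h2 : (fun x => g x - g z) =O[𝓝 z] fun x => x - z :=
    IsBigO.trans (IsBigO.of_norm_le fun x => by rw [← Completion.coe_sub, Completion.norm_coe])
      hg.isBigO_sub.norm_left
  have h3 := (hf.hasFDerivAt.isLittleO.comp_tendsto h1).trans_isBigO h2
  have h4 := (L.hasFDerivAt.comp z (hg.restrictScalars ℝ).hasFDerivAt).isLittleO
  have h5 : HasFDerivAt (fun x => f (g x))
      (L.comp (fderiv ℝ (fun x => (g x : Completion E)) z)) z := by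
    refine HasFDerivAt.of_isLittleO ((h3.add h4).congr_left fun x => ?_)
    simp only [Function.comp_apply, hL, map_sub]
    abel
  have h6 : ∀ u : Completion E, (2⁻¹ : ℂ) • (L u - I • L (I • u)) ∈ S := fun u => by
    have hc : Continuous fun u : Completion E => (2⁻¹ : ℂ) • (L u - I • L (I • u)) :=
      (L.continuous.sub ((L.continuous.comp (continuous_const_smul I)).const_smul I)).const_smul _
    induction u using Completion.induction_on with
    | hp => exact hS.preimage hc
    | ih u => ?_
    rw [← Completion.coe_smul, hL, hL]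
    exact h u
  rw [wd, h5.fderiv]
  simp only [ContinuousLinearMap.comp_apply, fderiv_hol hg, map_smul]
  exact h6 _

end PullA

theorem LVAt.th_pull (h : LVAt Q w π (g z)) (hg : AnalyticAt ℂ g z) (v : E') :
    th w (fun x => π (g x)) z v = th w π (g z) (fderiv ℂ g z v) :=
  wd_comp (f := fun x => gJ w (π x)) h.an_J.differentiableAt hg.differentiableAt v

theorem LVAt.ts_pull (h : LVAt Q w π (g z)) (hg : AnalyticAt ℂ g z) (v : E') :
    ts w (fun x => π (g x)) z v = ts w π (g z) (fderiv ℂ g z v) :=
  congrArg Neg.neg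
    (wb_comp (f := fun x => gJ w (π x)) h.an_J.differentiableAt hg.differentiableAt v)

theorem LVAt.pull (h : LVAt Q w π (g z)) (hg : AnalyticAt ℂ g z) :
    LVAt Q w (fun x => π (g x)) z where
  an q := AnalyticAt.comp (g := fun x => π x q) (h.an q) hg.restrictScalars
  hs := hg.continuousAt.eventually h.hs
  tr := by
    filter_upwards [hg.continuousAt.eventually h.ev, PullA.ev_diff hg] with x h1 h2 v
    exact PullA.wd_mem (S := {A | gJ w (π (g x)) * A - A * gJ w (π (g x)) = -A})
      h1.an_J.differentiableAt h2 (isClosed_eq (by fun_prop) (by fun_prop)) h1.low v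

theorem LnAt.pull {ψ : E → n → ℂ} (h : LnAt w π ψ (g z)) (hg : AnalyticAt ℂ g z) :
    LnAt w (fun x => π (g x)) (fun x => ψ (g x)) z where
  an := h.an.comp hg
  ne := h.ne
  top := hg.continuousAt.eventually h.top
  one := by
    filter_upwards [hg.continuousAt.eventually h.ev, PullA.ev_diff hg,
      (h.an.comp hg).eventually_analyticAt] with x h1 h2 h3 v
    have d := h1.an.differentiableAt
    have e := PullA.wd_mem (S := (Submodule.span ℂ {ψ (g x)}).comap (π (g x) w).mulVecLin)
      (d.restrictScalars ℝ) h2 (Submodule.closed_of_finiteDimensional _) (fun u => by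
        obtain ⟨c, hc⟩ := h1.one.self_of_nhds u
        rw [wd_hol d]
        exact Submodule.mem_span_singleton.2 ⟨c, hc.symm⟩) v
    rw [wd_hol (f := fun x => ψ (g x)) h3.differentiableAt] at e
    exact (Submodule.mem_span_singleton.1 e).imp fun _ a => a.symm

theorem stPull : StPull := fun _ _ _ _ _ _ _ _ _ _ _ _ _ _ _ _ _ _ hg h =>
  ⟨h.pull hg, fun v => ⟨h.th_pull hg v, h.ts_pull hg v⟩, fun _ hψ => hψ.pull hg⟩

end Vale.Agent.P281Z.Hm
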