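import Vale.Agent.P281Z.Hm.Id
import Mathlib.Analysis.InnerProductSpace.GramMatrix

/-!
# P281Z, the Ricci curvature of the Hodge metric
-/

set_option linter.unusedSectionVars false

open scoped Matrix.Norms.Operator Topology ComplexOrder ComplexConjugate InnerProductSpace
open Filter Set Matrix Complex

noncomputable section

namespace Vale.Agent.P281Z.Hm

open Vale.Agent.P284Z (levi)

namespace Ric

variable {n k : Type} [Fintype n] [DecidableEq n] [Fintype k] [DecidableEq k] {H : Mx n}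

/-- the matrix of the scalar products -/
def gm {l m : Type} (H : Mx n) (A : l → Mx n) (B : m → Mx n) : Matrix l m ℂ :=
  of fun i j => trace (B j * ad H (A i))

theorem gm_ct (h : H.PosDef) (A B : k → Mx n) : (gm H A B)ᴴ = gm H B A := by
  obtain ⟨L, -, hL⟩ := exists_isoM h
  ext i j
  rw [conjTranspose_apply, gm, gm, of_apply, of_apply, ← hL, ← hL]
  exact inner_conj_symm _ _

theorem gm_psd (h : H.PosDef) (A : k → Mx n) : (gm H A A).PosSemidef := by
  obtain ⟨L, -, hL⟩ := exists_isoM h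
  rw [show gm H A A = gram ℂ fun i => L (A i) from Matrix.ext fun _ _ => (hL _ _).symm]
  exact posSemidef_gram ℂ _

theorem gm_pd (h : H.PosDef) {A : k → Mx n} (hA : LinearIndependent ℂ A) : (gm H A A).PosDef := by
  obtain ⟨L, hi, hL⟩ := exists_isoM h
  rw [show gm H A A = gram ℂ fun i => L (A i) from Matrix.ext fun _ _ => (hL _ _).symm]
  exact posDef_gram_of_linearIndependent (hA.map' L (LinearMap.ker_eq_bot.2 hi))

theorem hn_gm (h : H.PosDef) (A : k → Mx n) (x : k → ℂ) :
    hn (gm H A A) x = (trace ((∑ i, x i • A i) * ad H (∑ i, x i • A i))).re := by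
  obtain ⟨L, -, hL⟩ := exists_isoM h
  rw [show gm H A A = gram ℂ fun i => L (A i) from Matrix.ext fun _ _ => (hL _ _).symm, hn,
    star_dotProduct_gram_mulVec, ← hL]
  simp only [map_sum, map_smul]

theorem gm_schur (h : H.PosDef) {A : k → Mx n} (hA : (gm H A A).PosDef) (B : k → Mx n) :
    (gm H B B - (gm H A B)ᴴ * (gm H A A)⁻¹ * gm H A B).PosSemidef := by
  let := invertibleOfIsUnitDet _ (pd_det hA)
  refine (PosDef.fromBlocks₁₁ _ _ hA).1 ?_
  have e : fromBlocks (gm H A A) (gm H A B) (gm H B A) (gm H B B) =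
      gm H (Sum.elim A B) (Sum.elim A B) := by
    ext (i | i) (j | j) <;> rfl
  rw [gm_ct h, e]
  exact gm_psd h _

theorem exists_fac {G P : Mx k} (hG : G.PosDef) (hP : P.PosSemidef) :
    ∃ A : Mx k, P = Aᴴ * G * A ∧ trace (G⁻¹ * P) = trace (A * ad G A) := by
  open scoped MatrixOrder in
  obtain ⟨S, e⟩ := CStarAlgebra.nonneg_iff_eq_star_mul_self.mp hP.nonneg
  obtain ⟨T, hT, e'⟩ := exists_sq hG
  have hu' : IsUnit Tᴴ.det := by rw [det_conjTranspose]; exact hT.isUnit.star
  have e1 : P = (T⁻¹ * S)ᴴ * G * (T⁻¹ * S) := by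
    rw [e, e', conjTranspose_mul, conjTranspose_nonsing_inv]
    simp only [Matrix.mul_assoc]
    rw [mul_nonsing_inv_cancel_left _ _ hT.isUnit, nonsing_inv_mul_cancel_left _ _ hu']
    rfl
  refine ⟨_, e1, ?_⟩
  rw [trace_mul_comm (T⁻¹ * S), ad]
  conv_lhs => rw [e1]
  simp only [Matrix.mul_assoc]

theorem tr_nonneg {G P : Mx k} (hG : G.PosDef) (hP : P.PosSemidef) :
    0 ≤ (trace (G⁻¹ * P)).re := by
  obtain ⟨A, -, e⟩ := exists_fac hG hP
  rw [e]
  exact hs_nonneg hG A

theorem hn_le {G P : Mx k} (hG : G.PosDef) (hP : P.PosSemidef) (x : k → ℂ) :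
    hn P x ≤ (trace (G⁻¹ * P)).re * hn G x := by
  obtain ⟨A, e', e⟩ := exists_fac hG hP
  rw [e, e', hn_conj]
  exact hn_mulVec_le hG A x

theorem tr_comm (A B C : Mx n) : trace (A * (B * C - C * B)) = trace ((A * B - B * A) * C) := by
  rw [Matrix.mul_sub, Matrix.sub_mul, trace_sub, trace_sub, ← Matrix.mul_assoc, ← Matrix.mul_assoc,
    trace_mul_cycle A C B]

theorem tr_zero {S T : Mx n} (e : S * T = T * S) (D : Mx n) :
    trace ((S * D - D * S) * T) = 0 := by
  rw [← neg_sub, Matrix.neg_mul, trace_neg, ← tr_comm, e, sub_self, Matrix.mul_zero, trace_zero,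
    neg_zero]

theorem fin {o κ r s ρ : ℝ} (ho : 0 ≤ o) (hκ : 0 < κ) (hs : 0 ≤ s) (hr : 0 ≤ r)
    (h1 : o ^ 2 ≤ κ * ρ) (h2 : ρ ≤ r * o) : 4 / κ * o ≤ 4 * (s + r) := by
  rw [div_mul_eq_mul_div, div_le_iff₀ hκ]
  rcases ho.eq_or_lt with rfl | h0
  · rw [mul_zero]
    positivity
  · have := le_of_mul_le_mul_right ((sq _).symm.le.trans (h1.trans
      ((mul_le_mul_of_nonneg_left h2 hκ.le).trans (mul_assoc _ _ _).ge))) h0
    nlinarith

theorem tr_R {A B S T : Mx n} (e : A * B = B * A) :
    trace (((A * S - S * A) * B - B * (A * S - S * A)) * T) =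
      trace ((S * B - B * S) * (T * A - A * T)) := by
  have h1 : trace (S * B * (T * A)) = trace (A * S * B * T) := by
    rw [← Matrix.mul_assoc, trace_mul_comm, ← Matrix.mul_assoc, ← Matrix.mul_assoc]
  have h2 : S * B * (A * T) = S * A * B * T := by
    rw [Matrix.mul_assoc S A, e]
    simp only [Matrix.mul_assoc]
  have h3 : trace (B * S * (T * A)) = trace (B * (A * S) * T) := by
    rw [← Matrix.mul_assoc, trace_mul_comm, ← Matrix.mul_assoc, ← Matrix.mul_assoc, e,
      Matrix.mul_assoc B A]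
  have h4 : B * S * (A * T) = B * (S * A) * T := by simp only [Matrix.mul_assoc]
  simp only [Matrix.sub_mul, Matrix.mul_sub, trace_sub, h1, h2, h3, h4]
  ring

variable {E : Type} [NormedAddCommGroup E] [NormedSpace ℝ E] [NormedSpace ℂ E]
  [IsScalarTower ℝ ℂ E] {Q : Mx n} {w : ℕ} {π : E → Gr n} {z : E}

/-- the metric in the frame `v` -/
def mt (w : ℕ) (π : E → Gr n) (v : k → E) (x : E) : Mx k := of fun i j => omB w π x (v j) (v i)

variable (h : LVAt Q w π z) (v : k → E) (u : E)
include h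

theorem mt_eq : mt w π v z = gm (gH Q w (π z)) (fun i => th w π z (v i)) fun i => th w π z (v i) :=
  Matrix.ext fun i j => by rw [mt, gm, of_apply, of_apply, omB, h.ts_eq]

theorem an_mt : AnalyticAt ℝ (mt w π v) z := an_of fun i j => h.an_omB (v j) (v i)

theorem wd_mt : wd u (mt w π v) z =
    of fun i j => trace (wd u (fun x => th w π x (v j)) z * ts w π z (v i)) := by
  ext i j
  have d := (h.an_th (v j)).differentiableAt
  have d' := (h.an_ts (v i)).differentiableAt
  rw [wd_ent (an_mt h v).differentiableAt]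
  change wd u (fun x => trace (th w π x (v j) * ts w π x (v i))) z = _
  rw [wd_trace (df_mul d d'), wd_mul d d', trace_add, h.dts, tr_comm, h.cth (v j) u, sub_self,
    Matrix.zero_mul, trace_zero, add_zero, of_apply]

theorem herm_mt : ∀ᶠ x in 𝓝 z, (mt w π v x).IsHermitian := h.ev.mono fun x hx => by
  rw [mt_eq hx]
  exact gm_ct hx.hs0.pos _ _

theorem wb_mt : wb u (mt w π v) z = (wd u (mt w π v) z)ᴴ := by
  rw [← wb_ct (an_mt h v).differentiableAt]
  exact wb_congr ((herm_mt h v).mono fun x hx => hx.eq.symm) u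

theorem wb_wd_th (t : E) : wb u (wd u fun x => th w π x t) z =
    ((th w π z u * ts w π z u - ts w π z u * th w π z u) * th w π z t -
      th w π z t * (th w π z u * ts w π z u - ts w π z u * th w π z u)) +
    (ts w π z u * wd u (fun x => th w π x t) z - wd u (fun x => th w π x t) z * ts w π z u) := by
  have d := (h.an_th t).differentiableAt
  have d' := (h.an_ts u).differentiableAt
  rw [← wd_wb_comm (an_c2 (h.an_th t)), wd_congr (h.ev.mono fun x hx => hx.bth u t) u,
    wd_sub (df_mul d' d) (df_mul d d'), wd_mul d' d, wd_mul d d', h.dts]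
  abel

theorem wb_wd_mt : wb u (wd u (mt w π v)) z =
    gm (gH Q w (π z)) (fun i => wd u (fun x => th w π x (v i)) z)
      (fun i => wd u (fun x => th w π x (v i)) z) +
    gm (gH Q w (π z)) (fun i => ts w π z u * th w π z (v i) - th w π z (v i) * ts w π z u)
      fun i => ts w π z u * th w π z (v i) - th w π z (v i) * ts w π z u := by
  ext i j
  have d := (an_wd (h.an_th (v j)) u).differentiableAt
  have d' := (h.an_ts (v i)).differentiableAt
  have hp := h.hs0.pos
  rw [wb_ent (an_wd (an_mt h v) u).differentiableAt, wb_congr (g := fun x =>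
    trace (wd u (fun x => th w π x (v j)) x * ts w π x (v i)))
      (h.ev.mono fun x hx => congrFun (congrFun (wd_mt hx v u) i) j) u,
    wb_trace (df_mul d d'), wb_mul d d', trace_add, eq_ad hp (h.bts u (v i)), wb_wd_th h,
    Matrix.add_mul, trace_add, tr_R (h.cth u (v j)), tr_zero (h.cts u (v i)), add_zero,
    add_comm, Matrix.add_apply, gm, gm, of_apply, of_apply, ad_sub, ad_mul hp, ad_mul hp,
    ← h.ts_eq, h.ts_eq u, ad_ad hp]

end Ric

open Ric

theorem stRic (hG : StGram) : StRic := by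
  intro n _ _ E _ _ _ _ Q w π z h k _ _ v hv
  have hp := h.hs0.pos
  have h1 := gm_pd hp hv
  have h2 : (mt w π v z).PosDef := mt_eq h v ▸ h1
  obtain ⟨h3, h4⟩ := hG k E (mt w π v) z (an_mt h v) (herm_mt h v) (pd_det h2).ne_zero
  refine ⟨h2, h3, fun u => ?_⟩
  set D := fun i => wd u (fun x => th w π x (v i)) z
  set R := fun i => ts w π z u * th w π z (v i) - th w π z (v i) * ts w π z u with hR
  have e : wd u (mt w π v) z = gm (gH Q w (π z)) (fun i => th w π z (v i)) D :=
    (wd_mt h v u).trans (Matrix.ext fun i j => by rw [gm, of_apply, of_apply, h.ts_eq])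
  have h5 := tr_nonneg h1 (gm_schur hp h1 D)
  have h6 := tr_nonneg h1 (gm_psd hp R)
  have h7 := h4 u
  rw [wb_wd_mt h, wb_mt h, e, mt_eq h, Matrix.mul_add, trace_add, add_sub_right_comm, ← trace_sub,
    Matrix.mul_assoc, Matrix.mul_assoc, ← Matrix.mul_sub, ← Matrix.mul_assoc _ _ (gm _ _ D),
    add_re] at h7
  refine ⟨h7.ge.trans' (by positivity), fun hu => h7.ge.trans' ?_⟩
  obtain ⟨x, hx⟩ := (Submodule.mem_span_range_iff_exists_fun ℂ).1 hu
  have h8 := hn_le h1 (gm_psd hp R) x
  have e' : ∑ i, x i • R i = ts w π z u * th w π z u - th w π z u * ts w π z u := by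
    simp only [hR, ← hx, smul_sub, Finset.sum_sub_distrib, Finset.mul_sum, Finset.sum_mul,
      mul_smul_comm, smul_mul_assoc]
  have h9 := h.hs0.low_curv (h.low u)
  rw [hn_gm hp, hn_gm hp, hx, e', h.ts_eq] at h8
  have h10 := fin (hs_nonneg hp (th w π z u)) (kap_pos w n) h5 h6 h9 h8
  rwa [← h.ts_eq] at h10

end Vale.Agent.P281Z.Hm
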