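import Vale.Agent.P281Z.Hm.Id

/-!
# P281Z, subvariations and direct sums of copies
-/

set_option linter.unusedSectionVars false

open scoped Matrix.Norms.Operator Topology ComplexOrder Kronecker
open Filter Set Matrix Complex

noncomputable section

namespace Vale.Agent.P281Z.Hm

namespace SubK

variable {n k : Type} [Fintype n] [DecidableEq n] [Fintype k] [DecidableEq k] {Q : Mx n} {w : ℕ}

section sub
variable {B : Matrix n k ℂ} {B' : Matrix k n ℂ}

theorem sum_eq (B : Matrix n k ℂ) (B' : Matrix k n ℂ) (π : Gr n) (c : ℕ → ℂ) (s : Finset ℕ) :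
    ∑ q ∈ s, c q • (B' * π q * B) = B' * (∑ q ∈ s, c q • π q) * B := by
  simp only [Matrix.mul_sum, Matrix.sum_mul, Matrix.mul_smul, Matrix.smul_mul]

theorem sum_mul {π : Gr n} (e : ∀ q, π q * B = B * (B' * π q * B)) (c : ℕ → ℂ) (s : Finset ℕ) :
    (∑ q ∈ s, c q • π q) * B = B * ∑ q ∈ s, c q • (B' * π q * B) := by
  simp only [Matrix.mul_sum, Matrix.sum_mul, Matrix.mul_smul, Matrix.smul_mul, ← e]

theorem hs_sub {π : Gr n} (h : Hs Q w π) (hB : B' * B = 1)
    (e : ∀ q, π q * B = B * (B' * π q * B)) : Hs (Bᴴ * Q * B) w fun q => B' * π q * B where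
  sum := by rw [← Matrix.sum_mul, ← Matrix.mul_sum, h.sum, Matrix.mul_one, hB]
  orth q q' := by
    rw [Matrix.mul_assoc _ B, ← e, ← Matrix.mul_assoc, Matrix.mul_assoc B', h.orth]
    split_ifs <;> simp
  top q hq := by simp [h.top q hq]
  adj q := by
    rw [Matrix.mul_assoc _ B, ← e, ← Matrix.mul_assoc, Matrix.mul_assoc _ Q, h.adj,
      ← Matrix.mul_assoc, ← conjTranspose_mul, e, conjTranspose_mul]
    simp only [Matrix.mul_assoc]
  pos := by
    have e1 : gH (Bᴴ * Q * B) w (fun q => B' * π q * B) = Bᴴ * gH Q w π * B := by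
      rw [gH, gH, gC, gC, Matrix.mul_assoc _ B, ← sum_mul e]
      simp only [Matrix.mul_assoc]
    rw [e1]
    exact h.pos.conjTranspose_mul_mul_same fun s t a => by
      simpa only [mulVec_mulVec, hB, one_mulVec] using congrArg (B' *ᵥ ·) a

variable {E : Type} [NormedAddCommGroup E] [NormedSpace ℝ E] [NormedSpace ℂ E]
  [IsScalarTower ℝ ℂ E] {π : E → Gr n} {z : E}

theorem th_eq (h : LVAt Q w π z) (v : E) :
    th w (fun x q => B' * π x q * B) z v = B' * th w π z v * B := by
  have d := h.an_J.differentiableAt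
  have e : (fun x => gJ w fun q => B' * π x q * B) = fun x => B' * gJ w (π x) * B :=
    funext fun x => sum_eq B B' _ _ _
  rw [th, e, wd_mul_const (df_mul (differentiableAt_const _) d), wd_const_mul _ d, th]

theorem th_mul (h : LVAt Q w π z) (e : ∀ᶠ x in 𝓝 z, ∀ q, π x q * B = B * (B' * π x q * B))
    (v : E) : th w π z v * B = B * th w (fun x q => B' * π x q * B) z v := by
  have d := h.an_J.differentiableAt
  have d' := df_mul (df_mul (differentiableAt_const B') d) (differentiableAt_const B)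
  have e1 : (fun x => gJ w (π x) * B) =ᶠ[𝓝 z] fun x => B * (B' * gJ w (π x) * B) :=
    e.mono fun x hx => (sum_mul hx _ _).trans (congrArg _ (sum_eq B B' _ _ _))
  have := wd_congr e1 v
  rw [wd_mul_const d, wd_const_mul _ d', wd_mul_const (df_mul (differentiableAt_const _) d),
    wd_const_mul _ d] at this
  rw [th_eq h]
  exact this

theorem lv_sub (h : LVAt Q w π z) (hB : B' * B = 1)
    (e : ∀ᶠ x in 𝓝 z, ∀ q, π x q * B = B * (B' * π x q * B)) :
    LVAt (Bᴴ * Q * B) w (fun x q => B' * π x q * B) z where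
  an q := an_mul (an_mul analyticAt_const (h.an q)) analyticAt_const
  hs := (h.hs.and e).mono fun _ hx => hs_sub hx.1 hB hx.2
  tr := by
    filter_upwards [h.ev, e.eventually_nhds] with x h1 h2 v
    have e1 : (gJ w fun q => B' * π x q * B) = B' * gJ w (π x) * B := sum_eq B B' _ _ _
    have e2 : gJ w (π x) * B = B * gJ w fun q => B' * π x q * B := sum_mul h2.self_of_nhds _ _
    have e3 := congrArg (fun A => B' * A * B) (h1.low v)
    simp only [Matrix.mul_sub, Matrix.sub_mul, Matrix.mul_neg, Matrix.neg_mul,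
      Matrix.mul_assoc] at e3
    conv_lhs => rw [e1, Matrix.mul_assoc _ B, ← th_mul h1 h2, ← e1, th_eq h1, Matrix.mul_assoc _ B,
      ← e2]
    rw [th_eq h1]
    simpa only [Matrix.mul_assoc] using e3

theorem ln_sub {ψ : E → n → ℂ} (h : LnAt w π ψ z) (e : ∀ᶠ x in 𝓝 z, B *ᵥ (B' *ᵥ ψ x) = ψ x) :
    LnAt w (fun x q => B' * π x q * B) (fun x => B' *ᵥ ψ x) z where
  an := an_mulVec analyticAt_const h.an
  ne a := h.ne (by rw [← e.self_of_nhds, a, mulVec_zero])
  top := (h.top.and e).mono fun x hx => by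
    rw [← mulVec_mulVec, hx.2, ← mulVec_mulVec, hx.1]
  one := by
    filter_upwards [h.ev, e.eventually_nhds] with x h1 h2 v
    obtain ⟨c, hc⟩ := h1.one.self_of_nhds v
    have d := h1.an.differentiableAt.hasFDerivAt
    have d1 := (LinearMap.toContinuousLinearMap B'.mulVecLin).hasFDerivAt.comp x d
    have d2 := (LinearMap.toContinuousLinearMap B.mulVecLin).hasFDerivAt.comp x d1
    have e1 : fderiv ℂ (fun x => B' *ᵥ ψ x) x v = B' *ᵥ fderiv ℂ ψ x v :=
      congrArg (fun L => L v) d1.fderiv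
    have e2 : B *ᵥ (B' *ᵥ fderiv ℂ ψ x v) = fderiv ℂ ψ x v :=
      congrArg (fun L => L v) (d2.unique (d.congr_of_eventuallyEq h2))
    exact ⟨c, by rw [e1, ← mulVec_mulVec, e2, ← mulVec_mulVec, hc, mulVec_smul]⟩

end sub

section kron

/-- `A ↦ A ⊗ 1` -/
def kr (n k : Type) [Fintype n] [DecidableEq n] [Fintype k] [DecidableEq k] :
    Mx n →L[ℂ] Mx (n × k) :=
  LinearMap.toContinuousLinearMap ((kroneckerBilinear (R := ℂ)).flip (1 : Mx k))

theorem kr_apply (A : Mx n) : kr n k A = A ⊗ₖ (1 : Mx k) := rfl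

theorem kr_mul (A B : Mx n) : kr n k (A * B) = kr n k A * kr n k B := by
  rw [kr_apply, kr_apply, kr_apply, ← mul_kronecker_mul, Matrix.mul_one]

theorem kr_ct (A : Mx n) : kr n k Aᴴ = (kr n k A)ᴴ := by
  rw [kr_apply, kr_apply, conjTranspose_kronecker, conjTranspose_one]

theorem kr_sum (π : Gr n) (c : ℕ → ℂ) (s : Finset ℕ) :
    ∑ q ∈ s, c q • kr n k (π q) = kr n k (∑ q ∈ s, c q • π q) := by
  simp only [map_sum, map_smul]

theorem hs_kr {π : Gr n} (h : Hs Q w π) : Hs (kr n k Q) w fun q => kr n k (π q) where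
  sum := by rw [← map_sum, h.sum, kr_apply, one_kronecker_one]
  orth q q' := by
    rw [← kr_mul, h.orth]
    split_ifs <;> simp
  top q hq := by simp [h.top q hq]
  adj q := by rw [← kr_mul, h.adj, kr_mul, kr_ct]
  pos := by
    rw [gH, gC, kr_sum, ← kr_mul]
    exact h.pos.kronecker PosDef.one

variable {E : Type} [NormedAddCommGroup E] [NormedSpace ℝ E] [NormedSpace ℂ E]
  [IsScalarTower ℝ ℂ E] {π : E → Gr n} {z : E}

theorem th_kr (h : LVAt Q w π z) (v : E) :
    th w (fun x q => kr n k (π x q)) z v = kr n k (th w π z v) := by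
  have e : (fun x => gJ w fun q => kr n k (π x q)) = fun x => kr n k (gJ w (π x)) :=
    funext fun x => kr_sum _ _ _
  rw [th, e]
  exact wd_clm (kr n k) h.an_J.differentiableAt v

theorem ts_kr (h : LVAt Q w π z) (v : E) :
    ts w (fun x q => kr n k (π x q)) z v = kr n k (ts w π z v) := by
  have e : (fun x => gJ w fun q => kr n k (π x q)) = fun x => kr n k (gJ w (π x)) :=
    funext fun x => kr_sum _ _ _
  rw [ts, e, ts, map_neg]
  exact congrArg Neg.neg (wb_clm (kr n k) h.an_J.differentiableAt v)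

theorem lv_kr (h : LVAt Q w π z) : LVAt (kr n k Q) w (fun x q => kr n k (π x q)) z where
  an q := (((kr n k).restrictScalars ℝ).analyticAt _).comp (h.an q)
  hs := h.hs.mono fun _ hx => hs_kr hx
  tr := h.ev.mono fun x hx v => by
    have e : (gJ w fun q => kr n k (π x q)) = kr n k (gJ w (π x)) := kr_sum _ _ _
    rw [th_kr hx, e, ← kr_mul, ← kr_mul, ← map_sub, hx.low, map_neg]

end kron

end SubK

theorem stSub : StSub := fun _ _ _ _ _ _ _ _ _ _ _ _ _ _ _ _ _ h hB e =>
  ⟨SubK.lv_sub h hB e, SubK.th_mul h e, fun _ hψ e' => SubK.ln_sub hψ e'⟩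

theorem stKron : StKron := fun _ _ _ _ _ _ _ _ _ _ _ _ _ _ _ h =>
  ⟨SubK.lv_kr h, fun v => ⟨SubK.th_kr h v, SubK.ts_kr h v⟩⟩

end Vale.Agent.P281Z.Hm
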