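import Vale.Agent.P281Z.Hm.Ahl
import Vale.Agent.P281Z.Hm.Alpha
import Vale.Agent.P281Z.Hm.BdG
import Vale.Agent.P281Z.Hm.Bdd
import Vale.Agent.P281Z.Hm.Bor
import Vale.Agent.P281Z.Hm.Cov2
import Vale.Agent.P281Z.Hm.D1
import Vale.Agent.P281Z.Hm.D3
import Vale.Agent.P281Z.Hm.Drop
import Vale.Agent.P281Z.Hm.Exp
import Vale.Agent.P281Z.Hm.Flag
import Vale.Agent.P281Z.Hm.Flat
import Vale.Agent.P281Z.Hm.Fr
import Vale.Agent.P281Z.Hm.Grif
import Vale.Agent.P281Z.Hm.Grow
import Vale.Agent.P281Z.Hm.L1
import Vale.Agent.P281Z.Hm.Lim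
import Vale.Agent.P281Z.Hm.Line
import Vale.Agent.P281Z.Hm.Lip
import Vale.Agent.P281Z.Hm.Low
import Vale.Agent.P281Z.Hm.Min
import Vale.Agent.P281Z.Hm.Mono
import Vale.Agent.P281Z.Hm.Poin
import Vale.Agent.P281Z.Hm.Pos
import Vale.Agent.P281Z.Hm.Pull
import Vale.Agent.P281Z.Hm.Ric
import Vale.Agent.P281Z.Hm.Sub
import Vale.Agent.P281Z.Hm.Tens

/-!
# P281Z, abstract variations of Hodge structure: the results without hypotheses
-/

namespace Vale.Agent.P281Z.Hm.All

theorem ric : StRic := stRic stGram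
theorem grif : StGrif := stGrif stGram
theorem ahl : StAhl := stAhl stPull ric
theorem grow : StGrow := stGrow ahl stLip
theorem bor : StBor := stBor grow stLip
theorem fr : StFr := stFr grow
theorem low : StLow := stLow grow
theorem exp : StExp := stExp low
theorem pos : StPos := stPos low exp stLine grow
theorem drop : StDrop := stDrop low exp stLine stCmp
theorem bdd : StBdd := stBdd stFlat grow
theorem mono : StMono := stMono stBr stLift
theorem bd : StBd := stBd bor fr
theorem cov : StCov := stCov stSmAn stPull stSub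
theorem d1 : StD1 := stD1 stFlat grow
theorem d2 : StD2 := stD2 d1 stKron
theorem d3 : StD3 := stD3 d1 d2 stSub
theorem minS : StMinS := stMinS d2 d3
theorem min : StMin := stMin minS stSub
theorem poin : StPoin := stPoin grow
theorem l1L : StL1L := stL1L grow
theorem l1 : StL1 := stL1 grow
theorem alId : StAlId := stAlId low
theorem alpha : StAlpha := stAlpha bd alId
theorem lim : StLim := stLim low exp

end Vale.Agent.P281Z.Hm.All
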