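import Vale.Agent.P281Z.Hm.Gl
import Vale.Agent.P281Z.Hm.Mono

/-!
# P281Z, the dichotomy at a boundary component (DICH)
-/

set_option linter.unusedSectionVars false

open scoped Matrix.Norms.Operator Topology Manifold ContDiff ComplexOrder
open Filter Set Matrix

noncomputable section

namespace Vale.Agent.P281Z.Hm

open Vale.Agent.P284Z (levi)

namespace Di

variable {p : ℕ} {Y : Type} [TopologicalSpace Y] [ChartedSpace (Fin p → ℂ) Y]
  [IsManifold 𝓘(ℂ, Fin p → ℂ) ω Y] {S : Snc p Y} {C : Cv Y S.U} {n : Type} [Fintype n]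
  [DecidableEq n] {V : GV p C n} {Lb : P285.H281.FD.Bd Y}

/-- the order of the logarithm at a point -/
def T (L : Ln V Lb) (s : ℝ) (l : Fin S.r) (y : Y) (k : ℕ) : Prop := ∃ i, y ∈ Lb.U i ∧ ∃ κ : ℝ,
  0 < κ ∧ Tendsto (fun x => L.hY i x / (S.ab y l (chartAt (Fin p → ℂ) y x) ^ s *
    (-Real.log (S.ab y l (chartAt (Fin p → ℂ) y x))) ^ k)) (𝓝[S.U] y) (𝓝 κ)

theorem T.uniq {L : Ln V Lb} {s : ℝ} {l : Fin S.r} {y : Y} {k k' : ℕ} (hy : y ∈ S.G l)
    (h : T L s l y k) (h' : T L s l y k') : k = k' := by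
  obtain ⟨i, hi, κ, hκ, h⟩ := h
  obtain ⟨j, hj, κ', hκ', h'⟩ := h'
  have := Gl.neBot_U C y
  refine Gl.uniq h h' hκ hκ' (((Gl.cont_g L.lb hi hj).norm.pow 2).mono_left nhdsWithin_le_nhds)
    (pow_pos (norm_pos_iff.2 (L.lb.ne_zero _ _ _ hi hj)) 2) ?_ (Gl.ab_zero hy)
  filter_upwards [mem_nhdsWithin_of_mem_nhds ((L.lb.isOpen i).mem_nhds hi),
    mem_nhdsWithin_of_mem_nhds ((L.lb.isOpen j).mem_nhds hj)] with x a b using L.hY_ch a b

theorem ev_T {L : Ln V Lb} {s : ℝ} {l : Fin S.r} {y : Y} {b : Fin p} {i : Lb.ι} {k : ℕ}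
    {κ : (Fin p → ℂ) → ℝ} (hy : y ∈ S.G l) (hb : S.lab y l = some b) (hi : y ∈ Lb.U i)
    (h : ∀ᶠ z in 𝓝 (chartAt (Fin p → ℂ) y y), (chartAt (Fin p → ℂ) y).symm z ∈ S.G0 l → 0 < κ z ∧
      Tendsto (fun x => L.hY i ((chartAt (Fin p → ℂ) y).symm x) /
        (‖x b‖ ^ s * (-Real.log ‖x b‖) ^ k)) (𝓝[{x | (chartAt (Fin p → ℂ) y).symm x ∈ S.U}] z)
        (𝓝 (κ z))) : ∀ᶠ y' in 𝓝 y, y' ∈ S.G0 l → T L s l y' k := by
  filter_upwards [((chartAt (Fin p → ℂ) y).continuousAt (mem_chart_source _ y)).eventually h,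
    chart_source_mem_nhds (Fin p → ℂ) y, (L.lb.isOpen i).mem_nhds hi,
    (S.ev_cut y).eventually_nhds] with y' a1 a2 a3 a4 a5
  rw [(chartAt (Fin p → ℂ) y).left_inv a2] at a1
  obtain ⟨c, hc, h1, -⟩ := stUnit p Y S y y' l a2 (a4.mono fun _ e => e l)
  refine ⟨i, a3, _, mul_pos (a1 a5).1 (Real.rpow_pos_of_pos hc s), Gl.tr ?_ ((h1 a5.1).mono_left
    (nhdsWithin_mono _ fun x hx => hx l)) hc (Gl.ab_zero a5.1)⟩
  refine ((a1 a5).2.comp (Gl.chart_U a2)).congr' ?_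
  filter_upwards [mem_nhdsWithin_of_mem_nhds ((chartAt (Fin p → ℂ) y).open_source.mem_nhds a2)]
    with x hx
  simp only [Function.comp, (chartAt (Fin p → ℂ) y).left_inv hx, S.ab_of_lab hy hb]

/-- transfer along a dilation -/
theorem aff {κ κ₀ : (Fin p → ℂ) → ℝ} {c : ℝ} {r : ℂ} {z : Fin p → ℂ} (hc : 0 < c)
    (e : ∀ x, κ x = c * κ₀ (r • (x - z))) (h : AnalyticAt ℝ κ₀ 0) (h0 : 0 < κ₀ 0) :
    AnalyticAt ℝ κ z ∧ ∀ v, levi (fun x => Real.log (κ x)) z v =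
      levi (fun x => Real.log (κ₀ x)) 0 (r • v) := by
  have a : HasFDerivAt (fun x : Fin p → ℂ => r • (x - z)) (r • ContinuousLinearMap.id ℂ _) z :=
    ((hasFDerivAt_id z).sub_const z).const_smul r
  have a' : AnalyticAt ℂ (fun x : Fin p → ℂ => r • (x - z)) z := by fun_prop
  have z0 : r • (z - z) = 0 := by simp
  have h1 : AnalyticAt ℝ (fun x => κ₀ (r • (x - z))) z :=
    h.comp_of_eq (a'.restrictScalars (𝕜 := ℝ)) z0
  have h2 : ContDiffAt ℝ 2 (fun x => Real.log (κ₀ x)) (r • (z - z)) :=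
    z0.symm ▸ h.contDiffAt.log h0.ne'
  refine ⟨funext e ▸ analyticAt_const.mul h1, fun v => ?_⟩
  have h3 : (fun x => Real.log (κ x)) =ᶠ[𝓝 z] fun x => Real.log c + Real.log (κ₀ (r • (x - z))) :=
    (h1.continuousAt.eventually_ne (y := 0) (by simpa using h0.ne')).mono fun x hx => by
      simp only [e, Real.log_mul hc.ne' hx]
  rw [levi_congr h3, levi_add contDiffAt_const (h1.contDiffAt.log (by simpa using h0.ne')), levi_const,
    zero_add, levi_comp (a := fun x => Real.log (κ₀ x)) (g := fun x => r • (x - z)) h2 a', a.fderiv, z0]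
  rfl

end Di

open Di in
/-- **DICH** -/
theorem stDich (hBd : StBd) (hPos : StPos) (hDrop : StDrop) (hScal : StScal) (hSc : StSc)
    (hAl : StAlId) (hLim : StLim) (hExp : StExp) : StDich := by
  intro p Y _ _ _ S C n _ _ V Lb L hS hM hMin α ν hα hν l
  by_cases hA : ∃ y ∈ S.G0 l, ∃ ρ f g, BdL S C y ρ f g ∧ ∀ i ∈ S.K y, g i ∈ V.Hg
  · obtain ⟨y, hy, ρ, f, g, h, hg⟩ := hA
    refine Or.inl (hSc p Y S C n V l fun y' hy' => ?_)
    obtain ⟨ρ', f', g', h', -⟩ := LiftH.exists_bdl C y' univ_mem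
    exact ⟨ρ', f', g', h', stMono stBr stLift p Y S C V.Hg V.hg_normal V.hg_ker l (hS l) y hy y' hy'
      ρ f g ρ' f' g' h h' hg⟩
  right
  have loc : ∀ y ∈ S.G l, ∀ b, S.lab y l = some b → ∀ i, y ∈ Lb.U i → ∃ k : ℕ,
      ∃ (κ : (Fin p → ℂ) → ℝ) (B : ℝ) (N : ℕ),
      (∀ᶠ z in 𝓝 (chartAt (Fin p → ℂ) y y), (chartAt (Fin p → ℂ) y).symm z ∈ S.G0 l → 0 < κ z ∧
        Tendsto (fun x => L.hY i ((chartAt (Fin p → ℂ) y).symm x) /
          (‖x b‖ ^ (2 * (α l : ℝ)) * (-Real.log ‖x b‖) ^ k))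
          (𝓝[{x | (chartAt (Fin p → ℂ) y).symm x ∈ S.U}] z) (𝓝 (κ z)) ∧
        κ z ≤ B * S.mon y (Function.update α l 0) z * S.plog y z ^ N) ∧
      (y ∈ S.G0 l → AnalyticAt ℝ κ (chartAt (Fin p → ℂ) y y) ∧
        (∀ v, v b = 0 → levi (fun x => Real.log (κ x)) (chartAt (Fin p → ℂ) y y) v ≤ 0) ∧
        Deg κ b ν (chartAt (Fin p → ℂ) y y)) := fun y hy b hb i hi => by
    obtain ⟨ρ, f, g, a, N, β, φ, h, hO, hB, hr⟩ := hBd p Y S C n V Lb L hM y i hi univ univ_mem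
    have hK : b ∈ S.K y := S.mem_K.2 ⟨l, hb, hy⟩
    obtain ⟨k, k1, k2⟩ := hPos n p _ _ _ _ _ _ _ _ _ _ _ hB b hK
    obtain ⟨κ, B, M, m1, m2⟩ := hLim p Y S C n V Lb L y i ρ f g a N β φ h (fun z hz => (hO z hz).2)
      hB b hK k k1 fun ζ hζ => (k2 ζ hζ).1
    have hal := (hAl p Y S C n V Lb L y i ρ f g a N β φ h (fun z hz => (hO z hz).2) hB).2 α hα
    refine ⟨k, κ, B, M, ?_, fun h0 => ?_⟩
    · filter_upwards [m1, Metric.ball_mem_nhds _ h.pos] with z a1 a2 a3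
      obtain ⟨-, j, e1, e2⟩ := (h.cut z a2 l).1 a3.1
      obtain rfl : b = j := Option.some.inj (hb.symm.trans e1)
      have e3 : S.mon y (Function.update α l 0) z =
          ∏ i ∈ (S.K y).erase b, ‖z i‖ ^ (2 * (β i / (a : ℝ))) := by
        rw [Snc.mon, S.prod_eq y (F' := fun i => if i = b then 1 else ‖z i‖ ^ (2 * (β i / (a : ℝ))))
          (fun l' hl => by rw [S.ab_of_not hl, Real.one_rpow]) fun l' i hl e => ?_,
          ← Finset.mul_prod_erase _ _ hK, if_pos rfl, one_mul]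
        · exact Finset.prod_congr rfl fun i hi => if_neg (Finset.ne_of_mem_erase hi)
        · by_cases c : l' = l
          · subst c
            simp [Option.some.inj (e.symm.trans hb)]
          · rw [Function.update_of_ne c, if_neg fun d : i = b => c (S.inj y l' l b (d ▸ e) hb),
              S.ab_of_lab hl e, hal l' i hl e]
      rw [hal l b hy hb, e3]
      refine a1 e2 fun i hi c => ?_
      obtain ⟨l', d1, d2⟩ := S.mem_K.1 (Finset.mem_of_mem_erase hi)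
      refine a3.2 l' (fun d => Finset.ne_of_mem_erase hi ?_) ((h.cut z a2 l').2 ⟨d2, i, d1, c⟩)
      exact Option.some.inj ((d ▸ d1).symm.trans hb)
    · have hK1 := S.K_eq_single h0 hb
      obtain ⟨c, hc, e⟩ := m2 hK1
      have z0 : (0 : Fin p → ℂ) ∈ Db (S.K y) b := hK1 ▸
        ⟨fun j hj => by simp [Finset.mem_singleton.1 hj], fun j hj => by
          simp [Function.update_of_ne (Finset.notMem_singleton.1 hj)]⟩
      obtain ⟨a1, a2⟩ := aff hc e ((hExp n p _ _ _ _ _ _ _ _ _ _ _ hB b hK).2.1 k 0 z0) (k2 0 z0).1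
      have hD : Deg (cf0 (S.K y) V.Q V.w a N φ b k) b ν 0 := by
        have h1 := ((stLift p Y S C).2.2 y ρ f g h).1
        have h2 := hO _ (LiftH.pt_mem h.pos _ ((DescH.mem_dm one_pos).1 (LiftH.bp_mem (S.K y))))
        rw [← h.eq _ (LiftH.bp_mem _)] at h2
        have h3 := (h1 _ (LiftH.bp_mem _)).2
        have h4 := hr ν hν
        rw [hK1] at hB k1 k2 z0 h4 ⊢
        rcases Nat.eq_zero_or_pos k with rfl | hk
        · by_contra hn
          obtain ⟨μ, hμ⟩ := hScal n p b _ _ _ _ _ _ _ _ _ _ hB ν h4 k1 k2 ⟨0, z0, hn⟩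
          refine hA ⟨y, h0, ρ, f, g, h, fun j hj => hMin _ ⟨μ, fun t x hx => ?_⟩⟩
          obtain rfl : j = b := Finset.mem_singleton.1 (hK1 ▸ hj)
          have := L.scal S.isOpen_U (A := cz (V.ρ (g j)) - μ • 1) h2.2 (h3.mono fun x hx => by
            obtain ⟨ζ, hζ, rfl⟩ := hx
            rw [sub_mulVec, hμ ζ (hK1 ▸ hζ), smul_mulVec, one_mulVec, sub_self]) t x hx
          rwa [sub_mulVec, smul_mulVec, one_mulVec, sub_eq_zero] at this
        · exact hDrop n p b _ _ _ _ _ _ _ _ _ _ hB k ν hk h4 k1 k2 0 z0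
      obtain ⟨W, w1, w2⟩ := hD
      exact ⟨a1, fun v hv => (a2 v).trans_le ((k2 0 z0).2 _ (by simp [hv])), W, w1, fun v hv =>
        ⟨(w2 v hv).1, (a2 v).trans (w2 _ (W.smul_mem _ hv)).2⟩⟩
  have ev : ∀ y ∈ S.G l, ∃ k, ∀ᶠ y' in 𝓝 y, y' ∈ S.G0 l → T L (2 * (α l : ℝ)) l y' k := fun y hy => by
    obtain ⟨b, -, hb⟩ := S.exists_lab hy
    obtain ⟨i, hi⟩ := L.lb.cover y
    obtain ⟨k, κ, B, N, h, -⟩ := loc y hy b hb i hi
    exact ⟨k, ev_T hy hb hi (h.mono fun z a c => ⟨(a c).1, (a c).2.1⟩)⟩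
  have cst : ∃ k, ∀ y ∈ S.G0 l, T L (2 * (α l : ℝ)) l y k := by
    rcases (S.G0 l).eq_empty_or_nonempty with e | ⟨y₀, h₀⟩
    · exact ⟨0, fun y hy => (e ▸ hy : y ∈ (∅ : Set Y)).elim⟩
    obtain ⟨k, hk⟩ := ev y₀ h₀.1
    refine ⟨k, fun y hy => (hS l).induction₂' (fun x x' => ∀ k, T L _ l x k → T L _ l x' k)
      (fun x hx => ?_) (fun _ _ _ _ _ _ a b k c => b k (a k c)) h₀ hy k (hk.self_of_nhds h₀)⟩
    obtain ⟨j, hj⟩ := ev x hx.1
    filter_upwards [self_mem_nhdsWithin, mem_nhdsWithin_of_mem_nhds hj] with x' a b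
    exact ⟨fun k c => (hj.self_of_nhds hx).uniq hx.1 c ▸ b a,
      fun k c => (b a).uniq a.1 c ▸ hj.self_of_nhds hx⟩
  obtain ⟨k, hk⟩ := cst
  refine ⟨k, fun y hy b hb i hi => ?_⟩
  obtain ⟨k', κ, B, N, h1, h2⟩ := loc y hy b hb i hi
  obtain ⟨O, -, -, -, hO⟩ := ConnH.loc S hy
  obtain ⟨y', a, -, c⟩ := mem_closure_iff_nhds.1 hO _
    (ev_T hy hb hi (h1.mono fun z a c => ⟨(a c).1, (a c).2.1⟩))
  obtain rfl : k' = k := (a c).uniq c.1 (hk y' c)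
  exact ⟨κ, B, N, h1, h2⟩

end Vale.Agent.P281Z.Hm
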