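import Vale.Agent.P281Z.Hm.Sk
import Mathlib.Analysis.Complex.PhragmenLindelof
import Mathlib.Analysis.Normed.Module.HahnBanach

/-!
# P281Z, abstract variations: the argument of Kwack
-/

open scoped Topology
open Filter Set Complex

noncomputable section

namespace Vale.Agent.P281Z.Hm

namespace KwH

theorem first {D : ℝ → ℝ} {y b₀ r : ℝ} (hD : ContinuousOn D (Icc y b₀)) (h : y ≤ b₀)
    (h1 : D y < r) (h2 : r ≤ D b₀) : ∃ b ∈ Ioc y b₀, D b = r ∧ ∀ s ∈ Icc y b, D s ≤ r := by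
  have hT : IsCompact (Icc y b₀ ∩ D ⁻¹' {r}) :=
    isCompact_Icc.of_isClosed_subset
      (hD.preimage_isClosed_of_isClosed isClosed_Icc isClosed_singleton) inter_subset_left
  obtain ⟨s, hs, hs'⟩ := intermediate_value_Icc h hD ⟨h1.le, h2⟩
  obtain ⟨b, ⟨hb, hb'⟩, hm⟩ := hT.exists_isLeast ⟨s, hs, hs'⟩
  have hb'' : D b = r := hb'
  refine ⟨b, ⟨lt_of_le_of_ne hb.1 fun e => ?_, hb.2⟩, hb'', fun s hs => le_of_not_gt fun k => ?_⟩
  · rw [← e] at hb''
    exact h1.ne hb''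
  · have h3 : Icc y s ⊆ Icc y b₀ := Icc_subset_Icc_right (hs.2.trans hb.2)
    obtain ⟨s', k1, k2⟩ := intermediate_value_Icc hs.1 (hD.mono h3) ⟨h1.le, k.le⟩
    have h4 : s = b := le_antisymm hs.2 ((hm ⟨h3 k1, k2⟩).trans k1.2)
    rw [h4, hb''] at k
    exact lt_irrefl _ k

theorem last {D : ℝ → ℝ} {y a₀ r : ℝ} (hD : ContinuousOn D (Icc a₀ y)) (h : a₀ ≤ y)
    (h1 : D y < r) (h2 : r ≤ D a₀) : ∃ a ∈ Ico a₀ y, D a = r ∧ ∀ s ∈ Icc a y, D s ≤ r := by
  obtain ⟨b, hb, k1, k2⟩ := first (D := fun s => D (-s)) (y := -y) (b₀ := -a₀) (r := r)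
    (hD.comp continuous_neg.continuousOn fun s hs => ⟨by linarith [hs.2], by linarith [hs.1]⟩)
    (by linarith) (by simpa using h1) (by simpa using h2)
  refine ⟨-b, ⟨by linarith [hb.2], by linarith [hb.1]⟩, k1, fun s hs => ?_⟩
  simpa using k2 (-s) ⟨by linarith [hs.2], by linarith [hs.1]⟩

/-- the maximum principle for a product of two linear forms -/
theorem strip {F : Type} [NormedAddCommGroup F] [NormedSpace ℂ F] {G : ℂ → F} {a b M m ε : ℝ}
    {p p' p'' : F} {t : ℂ} (hab : a < b)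
    (hG : ∀ s : ℂ, a ≤ s.im → s.im ≤ b → DifferentiableAt ℂ G s ∧ ‖G s‖ ≤ M)
    (h1 : ‖p'‖ ≤ M) (h2 : ‖p''‖ ≤ M) (ha : ∀ s : ℂ, s.im = a → ‖G s - p'‖ ≤ ε)
    (hb : ∀ s : ℂ, s.im = b → ‖G s - p''‖ ≤ ε) (hta : a ≤ t.im) (htb : t.im ≤ b)
    (ht : ‖G t - p‖ ≤ ε) (m1 : m ≤ ‖p - p'‖) (m2 : m ≤ ‖p - p''‖) (hε : ε ≤ m) :
    (m - ε) * (m - ε) ≤ 2 * M * ε := by
  obtain ⟨l₁, n1, e1⟩ := exists_dual_vector'' ℂ (p - p')
  obtain ⟨l₂, n2, e2⟩ := exists_dual_vector'' ℂ (p - p'')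
  have up : ∀ (l : StrongDual ℂ F) (v : F), ‖l‖ ≤ 1 → ‖l v‖ ≤ ‖v‖ := fun l v h =>
    (l.le_opNorm v).trans (mul_le_of_le_one_left (norm_nonneg _) h)
  have bd : ∀ (s : ℂ) (q : F), a ≤ s.im → s.im ≤ b → ‖q‖ ≤ M → ‖G s - q‖ ≤ 2 * M :=
    fun s q k1 k2 k3 => (norm_sub_le _ _).trans (by linarith [(hG s k1 k2).2])
  have lo : ∀ (l : StrongDual ℂ F) (q : F), ‖l‖ ≤ 1 → l (p - q) = ‖p - q‖ → m ≤ ‖p - q‖ →
      m - ε ≤ ‖l (G t - q)‖ := fun l q k1 k2 k3 => by
    have k4 : l (p - q) = l (G t - q) - l (G t - p) := by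
      rw [← map_sub]
      congr 1
      abel
    have k5 : ‖l (p - q)‖ = ‖p - q‖ := by rw [k2]; simp
    have k6 := norm_sub_le (l (G t - q)) (l (G t - p))
    rw [← k4, k5] at k6
    linarith [up l (G t - p) k1]
  have hM : 0 ≤ M := (norm_nonneg _).trans h1
  have hε0 : 0 ≤ ε := (norm_nonneg _).trans ht
  have key : ‖l₁ (G t - p') * l₂ (G t - p'')‖ ≤ 2 * M * ε := by
    refine PhragmenLindelof.horizontal_strip (f := fun s => l₁ (G s - p') * l₂ (G s - p''))
      (a := a) (b := b) (DifferentiableOn.diffContOnCl fun s hs => ?_)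
      ⟨0, div_pos Real.pi_pos (sub_pos.2 hab), 0, ?_⟩ (fun s hs => ?_) (fun s hs => ?_) hta htb
    · rw [closure_preimage_im, closure_Ioo hab.ne] at hs
      have := (hG s hs.1 hs.2).1
      exact DifferentiableAt.differentiableWithinAt (by fun_prop)
    · refine Asymptotics.IsBigO.of_bound (2 * M * (2 * M)) (eventually_inf_principal.2
        (Eventually.of_forall fun s hs => ?_))
      simp only [zero_mul, Real.exp_zero, norm_one, mul_one, norm_mul]
      exact mul_le_mul ((up _ _ n1).trans (bd s _ hs.1.le hs.2.le h1))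
        ((up _ _ n2).trans (bd s _ hs.1.le hs.2.le h2)) (norm_nonneg _) (by positivity)
    · rw [norm_mul, mul_comm (2 * M)]
      exact mul_le_mul ((up _ _ n1).trans (ha s hs))
        ((up _ _ n2).trans (bd s _ hs.ge (hs.le.trans hab.le) h2)) (norm_nonneg _) hε0
    · rw [norm_mul]
      exact mul_le_mul ((up _ _ n1).trans (bd s _ (hab.le.trans hs.ge) hs.le h1))
        ((up _ _ n2).trans (hb s hs)) (norm_nonneg _) (by positivity)
  rw [norm_mul] at key
  exact (mul_le_mul (lo l₁ _ n1 e1 m1) (lo l₂ _ n2 e2 m2) (sub_nonneg.2 hε) (norm_nonneg _)).trans key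

theorem freq {p : ℂ → Prop} (h : ∃ᶠ t in comap Complex.im atTop, p t) (y : ℝ) :
    ∃ t : ℂ, y ≤ t.im ∧ p t :=
  ((h.and_eventually (tendsto_comap.eventually (eventually_ge_atTop y))).mono
    fun _ k => ⟨k.2, k.1⟩).exists

end KwH

open KwH in
theorem stKw : StKw := by
  intro X _ F _ _ f A hA hf _ hfA hosc hg
  have hne : (comap Complex.im atTop).NeBot := comap_neBot_iff_frequently.2 (.of_forall Complex.im_surjective)
  obtain ⟨x, hx, hc⟩ := hA.exists_mapClusterPt_of_frequently (f := f) (l := comap Complex.im atTop)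
    ((tendsto_comap.eventually (eventually_ge_atTop (1 : ℝ))).mono hfA).frequently
  refine ⟨x, hx, Metric.tendsto_nhds.2 fun e he => by_contra fun hn => ?_⟩
  obtain ⟨δ, hδ, g, g1, g2, g3⟩ := hg x hx
  have hK : IsCompact (A ∩ Metric.closedBall x δ) := hA.inter_right Metric.isClosed_closedBall
  have hxK : x ∈ A ∩ Metric.closedBall x δ := ⟨hx, Metric.mem_closedBall_self hδ.le⟩
  set r := min e δ / 2 with hr
  have r0 : 0 < r := half_pos (lt_min he hδ)
  have r1 : 2 * r ≤ e := by linarith [min_le_left e δ]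
  have r2 : 2 * r ≤ δ := by linarith [min_le_right e δ]
  obtain ⟨M, hM⟩ := hK.exists_bound_of_continuousOn g1
  have hM0 : 0 ≤ M := (norm_nonneg _).trans (hM x hxK)
  obtain ⟨m, m0, hm⟩ := (hK.inter_right (Metric.isClosed_sphere (x := x) (ε := r))).exists_forall_le'
    (f := fun a => ‖g x - g a‖) (a := 0) ((continuousOn_const.sub g1).norm.mono inter_subset_left)
    fun a ha => norm_pos_iff.2 (sub_ne_zero.2 fun k => by
      have := ha.2
      rw [← g2 hxK ha.1 k, Metric.mem_sphere, dist_self] at this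
      exact r0.ne this)
  set ε := min (m / 2) (m ^ 2 / (8 * (M + 1))) with hε
  have ε0 : 0 < ε := lt_min (half_pos m0) (by positivity)
  obtain ⟨η₀, η0, hη⟩ := Metric.uniformContinuousOn_iff.1 (hK.uniformContinuousOn_of_continuous g1)
    ε ε0
  set η := min η₀ r / 2 with hη'
  have η1 : 0 < η := half_pos (lt_min η0 r0)
  have η2 : 2 * η ≤ η₀ := by linarith [min_le_left η₀ r]
  have η3 : 2 * η ≤ r := by linarith [min_le_right η₀ r]
  obtain ⟨Y₀, hY⟩ := hosc η η1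
  set Y := max Y₀ 2
  have o1 : ∀ t : ℂ, Y ≤ t.im → dist (f t) (f (t.im * I)) < η := fun t ht =>
    hY _ _ (by simpa using (le_max_left _ _).trans ht) (by simp)
  have hD : ∀ a b, Y ≤ a → ContinuousOn (fun s : ℝ => dist (f (s * I)) x) (Icc a b) :=
    fun a b ha => (continuous_id.dist (continuous_const (y := x))).comp_continuousOn
      (hf.comp (f := fun s : ℝ => (s : ℂ) * I) (s := Icc a b) (by fun_prop) fun s hs => by
        have := le_max_right Y₀ 2
        change 0 < ((s : ℂ) * I).im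
        simp only [mul_im, ofReal_re, I_im, mul_one, ofReal_im, I_re, mul_zero, add_zero]
        linarith [hs.1])
  have far : ∀ y, Y ≤ y → ∃ s, y ≤ s ∧ r ≤ dist (f ((s : ℝ) * I)) x := fun y hy => by
    obtain ⟨t, k1, k2⟩ := freq (not_eventually.1 hn) y
    refine ⟨t.im, k1, ?_⟩
    linarith [dist_triangle (f t) (f (t.im * I)) x, o1 t (hy.trans k1), not_lt.1 k2]
  obtain ⟨a₀, a1, a2⟩ := far Y le_rfl
  obtain ⟨t, t1, t2⟩ := freq (mapClusterPt_iff_frequently.1 hc _ (Metric.ball_mem_nhds x η1)) a₀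
  have t3 : dist (f (t.im * I)) x < r := by
    have := o1 t (a1.trans t1)
    rw [dist_comm] at this
    linarith [dist_triangle (f (t.im * I)) (f t) x, Metric.mem_ball.1 t2]
  obtain ⟨b₀, b1, b2⟩ := far t.im (a1.trans t1)
  obtain ⟨a, ha, ha1, ha2⟩ := last (hD a₀ t.im a1) t1 t3 a2
  obtain ⟨b, hb, hb1, hb2⟩ := first (hD t.im b₀ (a1.trans t1)) b1 t3 b2
  have hYa : Y ≤ a := a1.trans ha.1
  have in1 : ∀ s : ℂ, a ≤ s.im → s.im ≤ b → 1 < s.im ∧ dist (f s) x < δ := fun s k1 k2 => by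
    have k3 : dist (f (s.im * I)) x ≤ r := by
      rcases le_total s.im t.im with k | k
      · exact ha2 _ ⟨k1, k⟩
      · exact hb2 _ ⟨k, k2⟩
    exact ⟨by linarith [le_max_right Y₀ 2],
      by linarith [dist_triangle (f s) (f (s.im * I)) x, o1 s (hYa.trans k1)]⟩
  have in2 : ∀ s : ℂ, a ≤ s.im → s.im ≤ b → f s ∈ A ∩ Metric.closedBall x δ := fun s k1 k2 =>
    ⟨hfA s (in1 s k1 k2).1.le, (in1 s k1 k2).2.le⟩
  have hab : a < b := ha.2.trans hb.1
  have ia : f (a * I) ∈ A ∩ Metric.closedBall x δ := in2 _ (by simp) (by simpa using hab.le)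
  have ib : f (b * I) ∈ A ∩ Metric.closedBall x δ := in2 _ (by simpa using hab.le) (by simp)
  have key := strip (G := fun s => g (f s)) (p := g x) (p' := g (f (a * I)))
    (p'' := g (f (b * I))) (t := t) (ε := ε) (m := m) hab
    (fun s k1 k2 => ⟨g3 s (in1 s k1 k2).1 (in1 s k1 k2).2, hM _ (in2 s k1 k2)⟩) (hM _ ia) (hM _ ib)
    (fun s hs => by
      rw [← dist_eq_norm]
      have := o1 s (hYa.trans hs.ge)
      rw [hs] at this
      exact (hη _ (in2 s hs.ge (hs.le.trans hab.le)) _ ia (by linarith)).le)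
    (fun s hs => by
      rw [← dist_eq_norm]
      have := o1 s (hYa.trans (hab.le.trans hs.ge))
      rw [hs] at this
      exact (hη _ (in2 s (hab.le.trans hs.ge) hs.le) _ ib (by linarith)).le)
    ha.2.le hb.1.le (by
      rw [← dist_eq_norm]
      exact (hη _ (in2 t ha.2.le hb.1.le) _ hxK (by linarith [Metric.mem_ball.1 t2])).le)
    (hm _ ⟨ia, ha1⟩) (hm _ ⟨ib, hb1⟩) ((min_le_left _ _).trans (half_le_self m0.le))
  have e1 : ε ≤ m / 2 := min_le_left _ _
  have e2 : ε * (8 * (M + 1)) ≤ m ^ 2 := (le_div_iff₀ (by positivity)).1 (min_le_right _ _)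
  nlinarith

end Vale.Agent.P281Z.Hm
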