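import Vale.Agent.P281Z.Hm.Bdd
import Vale.Agent.P281Z.Hm.Cpt
import Vale.Agent.P281Z.Hm.Kw
import Mathlib.Analysis.Complex.Periodic
import Mathlib.Analysis.Complex.Liouville

/-!
# P281Z, trivial monodromy on the gradings: the period map extends (EXT)
-/

set_option linter.unusedSectionVars false

open scoped Matrix.Norms.Operator Topology ComplexOrder
open Filter Set Matrix Complex Asymptotics

noncomputable section

namespace Vale.Agent.P281Z.Hm

open MaxH BddH

namespace ExtH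

open Function.Periodic in
/-- the derivative of a bounded periodic function decays -/
theorem dec1 {f : ℂ → ℂ} {y M : ℝ} (hd : ∀ t, y < t.im → DifferentiableAt ℂ f t)
    (hp : ∀ t, y < t.im → f (t + 1) = f t) (hb : ∀ t, y < t.im → ‖f t‖ ≤ M) {t : ℂ}
    (ht : y + 1 ≤ t.im) : ‖deriv f t‖ ≤
      M / (Real.exp (-2 * Real.pi * y) / 2) * (2 * Real.pi) * Real.exp (-2 * Real.pi * t.im) := by
  set g := indicator {s : ℂ | y < s.im} f
  have e : ∀ s : ℂ, y < s.im → g =ᶠ[𝓝 s] f := fun s hs => by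
    filter_upwards [(isOpen_lt continuous_const continuous_im).mem_nhds hs] with r hr
      using indicator_of_mem (s := {s : ℂ | y < s.im}) hr f
  have h1 : Function.Periodic g (1 : ℝ) := fun s => by
    by_cases hs : y < s.im
    · rw [(e s hs).self_of_nhds, (e _ (by simpa using hs)).self_of_nhds, ofReal_one, hp s hs]
    · exact (indicator_of_notMem (s := {s : ℂ | y < s.im}) (by simpa using hs) f).trans
        (indicator_of_notMem (s := {s : ℂ | y < s.im}) hs f).symm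
  have h2 : ∀ s : ℂ, y < s.im → DifferentiableAt ℂ g s := fun s hs =>
    (hd s hs).congr_of_eventuallyEq (e s hs)
  have h3 : ∀ s : ℂ, y < s.im → ‖g s‖ ≤ M := fun s hs => (e s hs).self_of_nhds ▸ hb s hs
  have h4 : ∀ᶠ s in comap im atTop, y < s.im := tendsto_comap.eventually (eventually_gt_atTop y)
  set R := Real.exp (-2 * Real.pi * y) with hR
  have h5 : ∀ q : ℂ, q ≠ 0 → ‖q‖ < R → y < (invQParam 1 q).im := fun q h0 hq => by
    rw [← norm_qParam_lt_iff one_pos, qParam_right_inv one_ne_zero h0, div_one]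
    exact hq
  have h6 : ∀ q : ℂ, ‖q‖ < R → DifferentiableAt ℂ (cuspFunction 1 g) q := fun q hq => by
    rcases eq_or_ne q 0 with rfl | h0
    · exact differentiableAt_cuspFunction_zero one_pos h1 (h4.mono h2)
        (IsBigO.of_bound M (h4.mono fun s hs => by simpa using h3 s hs))
    · rw [← qParam_right_inv one_ne_zero h0]
      exact differentiableAt_cuspFunction one_ne_zero h1 (h2 _ (h5 q h0 hq))
  have hq : ‖qParam 1 t‖ = Real.exp (-2 * Real.pi * t.im) := by rw [norm_qParam, div_one]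
  have h7 : ‖qParam 1 t‖ < R / 2 := by
    have a := Real.add_one_le_exp (2 * Real.pi)
    have b : ‖qParam 1 t‖ * Real.exp (2 * Real.pi) ≤ R := by
      rw [hq, ← Real.exp_add, hR, Real.exp_le_exp]
      nlinarith [Real.pi_pos]
    nlinarith [Real.pi_gt_three, norm_pos_iff.2 (qParam_ne_zero (h := 1) t)]
  have h8 : ∀ q ∈ Metric.closedBall (qParam 1 t) (R / 2), ‖q‖ < R := fun q k => by
    linarith [norm_le_norm_add_norm_sub' q (qParam 1 t), mem_closedBall_iff_norm.1 k]
  have h0 : 0 < R / 2 := by positivity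
  have h9 : ‖deriv (cuspFunction 1 g) (qParam 1 t)‖ ≤ M / (R / 2) := by
    refine norm_deriv_le_of_forall_mem_sphere_norm_le h0 (DifferentiableOn.diffContOnCl ?_)
      fun q k => ?_
    · rw [closure_ball _ h0.ne']
      exact fun q k => (h6 q (h8 q k)).differentiableWithinAt
    · have k1 : q ≠ 0 := fun k1 => by
        rw [k1, mem_sphere_iff_norm, zero_sub, norm_neg] at k
        exact h7.ne k
      rw [cuspFunction_eq_of_nonzero _ _ k1]
      exact h3 _ (h5 q k1 (h8 q (Metric.sphere_subset_closedBall k)))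
  have h10 : HasDerivAt (qParam 1) (qParam 1 t * (2 * Real.pi * I)) t := by
    have := (((hasDerivAt_id t).const_mul (2 * Real.pi * I)).div_const ((1 : ℝ) : ℂ)).cexp
    rwa [mul_one, ofReal_one, div_one (2 * Real.pi * I), ← ofReal_one] at this
  have h11 := ((h6 _ (by linarith)).hasDerivAt.comp t h10).deriv
  rw [show cuspFunction 1 g ∘ qParam 1 = g from funext (eq_cuspFunction one_ne_zero h1),
    (e t (by linarith)).deriv_eq] at h11
  rw [h11, norm_mul, norm_mul, hq, mul_comm (Real.exp _), ← mul_assoc]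
  have h12 : ‖(2 * Real.pi * I : ℂ)‖ = 2 * Real.pi := by simp [Real.pi_pos.le]
  rw [h12]
  gcongr

theorem dec {F : Type} [NormedAddCommGroup F] [NormedSpace ℂ F] {f : ℂ → F} {y M : ℝ}
    (hd : ∀ t, y < t.im → DifferentiableAt ℂ f t) (hp : ∀ t, y < t.im → f (t + 1) = f t)
    (hb : ∀ t, y < t.im → ‖f t‖ ≤ M) {t : ℂ} (ht : y + 1 ≤ t.im) : ‖deriv f t‖ ≤
      M / (Real.exp (-2 * Real.pi * y) / 2) * (2 * Real.pi) * Real.exp (-2 * Real.pi * t.im) := by
  obtain ⟨L, h1, h2⟩ := exists_dual_vector'' ℂ (deriv f t)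
  have := dec1 (f := L ∘ f) (fun s hs => L.differentiableAt.comp s (hd s hs))
    (fun s hs => congrArg L (hp s hs))
    (fun s hs => (L.le_of_opNorm_le h1 _).trans ((one_mul _).trans_le (hb s hs))) ht
  rwa [(L.hasFDerivAt.comp_hasDerivAt t (hd t (by linarith)).hasDerivAt).deriv, h2,
    RCLike.norm_ofReal, abs_norm] at this

variable {p : ℕ} {n : Type} [Fintype n] [DecidableEq n] {Q : Mx n} {w : ℕ} {b : Fin p}

/-- the finite family of the projectors -/
def rs (w : ℕ) (π : Gr n) : Fin (w + 1) → Mx n := fun q => π q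

/-- extension by zero -/
def et (w : ℕ) (y : Fin (w + 1) → Mx n) : Gr n := fun q => if h : q < w + 1 then y ⟨q, h⟩ else 0

theorem et_rs {π : Gr n} (h : Hs Q w π) : et w (rs w π) = π := funext fun q => by
  unfold et
  split_ifs with k
  exacts [rfl, (h.top q (by omega)).symm]

theorem an_F (k : ℕ) (y : Fin (w + 1) → Mx n) : AnalyticAt ℂ (fun y => gF w (et w y) k) y :=
  Finset.analyticAt_fun_sum _ fun q _ => by
    unfold et
    split_ifs with h
    exacts [(ContinuousLinearMap.proj (R := ℂ) (⟨q, h⟩ : Fin (w + 1))).analyticAt y,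
      analyticAt_const]

theorem an_tm (π₀ : Gr n) (k : ℕ) (y : Fin (w + 1) → Mx n) :
    AnalyticAt ℂ (fun y => tm w π₀ (et w y) k) y :=
  (an_mul analyticAt_const (an_F k y)).add
    (an_mul analyticAt_const (analyticAt_const.sub (an_F k y)))

theorem cont_flag {π₀ : Gr n} {y : Fin (w + 1) → Mx n} (h : Near w π₀ (et w y)) (k : ℕ) :
    ContinuousAt (fun y => flag w π₀ (et w y) k) y :=
  (an_mul (an_inv (an_tm π₀ k y) (h k).ne_zero) analyticAt_const).continuousAt

theorem near_ev {π₀ : Gr n} {y : Fin (w + 1) → Mx n} (h : Near w π₀ (et w y)) :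
    ∀ᶠ y' in 𝓝 y, Near w π₀ (et w y') := by
  filter_upwards [(eventually_all_finset (Finset.range (w + 1))).2 fun k _ =>
    (an_det (an_tm π₀ k y)).continuousAt.eventually_ne (h k).ne_zero] with y' hy k
  by_cases hk : k < w + 1
  · exact (hy k (Finset.mem_range.2 hk)).isUnit
  · simp [tm, gF, Finset.Icc_eq_empty_of_lt (show w < k by omega)]

theorem In_convex (K : Finset (Fin p)) (η : ℝ) : Convex ℝ (In K η) := by
  have e : In K η = (⋂ i ∈ K, LinearMap.proj (R := ℝ) i ⁻¹' {t : ℂ | η ≤ t.im}) ∩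
      ⋂ i ∈ Kᶜ, LinearMap.proj (R := ℝ) i ⁻¹' Metric.closedBall (0 : ℂ) (1 - η) := by
    ext ζ
    simp [In]
  rw [e]
  exact (convex_iInter₂ fun i _ => (convex_halfSpace_im_ge η).linear_preimage _).inter
    (convex_iInter₂ fun i _ => (convex_closedBall _ _).linear_preimage _)

theorem fd_le {π : (Fin p → ℂ) → Gr n} {z : Fin p → ℂ} (h : LVAt Q w π z) {B : ℝ}
    (h1 : ∀ q, ‖π z q‖ ≤ B)
    (h2 : ∀ A : Mx n, ‖A‖ ^ 2 ≤ B * (trace (A * ad (gH Q w (π z)) A)).re) (v : Fin p → ℂ) (q : ℕ) :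
    ‖fderiv ℝ (fun x => π x q) z v‖ ≤ 4 * B * √(B * omH w π z v) := by
  have a : ‖th w π z v‖ ≤ √(B * omH w π z v) := Real.le_sqrt_of_sq_le (by
    rw [omH, omB, h.ts_eq]
    exact h2 _)
  have a' : ‖ts w π z v‖ ≤ √(B * omH w π z v) := Real.le_sqrt_of_sq_le (by
    have := h2 (ts w π z v)
    rwa [h.ts_eq, ad_ad h.hs0.pos, trace_mul_comm, ← h.ts_eq] at this)
  have c : ∀ A : Mx n, ‖A‖ ≤ √(B * omH w π z v) →
      ‖A * π z q - π z q * A‖ ≤ 2 * B * √(B * omH w π z v) := fun A hA => by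
    have c0 := (norm_nonneg _).trans (h1 q)
    have c1 := (norm_mul_le A (π z q)).trans
      (mul_le_mul hA (h1 q) (norm_nonneg _) (Real.sqrt_nonneg _))
    have c2 := (norm_mul_le (π z q) A).trans (mul_le_mul (h1 q) hA (norm_nonneg _) c0)
    linarith [norm_sub_le (A * π z q) (π z q * A)]
  rw [mfderiv_eq, h.dπ, h.bπ]
  linarith [norm_add_le (th w π z v * π z q - π z q * th w π z v)
    (ts w π z v * π z q - π z q * ts w π z v), c _ a, c _ a']

theorem lip (hG : StGrow) {π : (Fin p → ℂ) → Gr n} (lv : ∀ ζ ∈ Dm {b}, LVAt Q w π ζ) {η B : ℝ}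
    (hη : 0 < η) (h1 : ∀ ζ ∈ In {b} η, (∀ q, ‖π ζ q‖ ≤ B) ∧
      ∀ A : Mx n, ‖A‖ ^ 2 ≤ B * (trace (A * ad (gH Q w (π ζ)) A)).re) :
    ∃ C : ℝ, ∀ x ∈ In {b} η, ∀ x' ∈ In {b} η, (x' b).im = (x b).im →
      dist (rs w (π x')) (rs w (π x)) ≤
        C * √((‖x' b - x b‖ / (x b).im) ^ 2 + ∑ i ∈ {b}ᶜ, ‖x' i - x i‖ ^ 2) := by
  obtain ⟨B', h2⟩ := (hG n p {b} Q w π lv η hη).1
  refine ⟨4 * B * √(B * B'), fun x hx x' hx' e => dist_pi_le_iff'.2 fun q => ?_⟩
  have h3 := fun t => (In_convex {b} η).add_smul_sub_mem hx hx' (t := t)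
  have h0 := (norm_nonneg _).trans ((h1 x hx).1 0)
  have h4 := norm_image_sub_le_of_norm_deriv_le_segment_01'
    (f := fun t : ℝ => π (x + t • (x' - x)) q)
    (f' := fun t => fderiv ℝ (fun y => π y q) (x + t • (x' - x)) (x' - x))
    (C := 4 * B * √(B * B') *
      √((‖x' b - x b‖ / (x b).im) ^ 2 + ∑ i ∈ {b}ᶜ, ‖x' i - x i‖ ^ 2)) (fun t ht => ?_)
    fun t ht => ?_
  · rwa [one_smul, zero_smul, add_sub_cancel, add_zero, ← dist_eq_norm] at h4
  · have k := ((hasDerivAt_id t).smul_const (x' - x)).const_add x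
    rw [one_smul] at k
    exact ((((lv _ (In_sub hη (h3 t ht))).an q).differentiableAt.hasFDerivAt.comp_hasDerivAt t
      k)).hasDerivWithinAt
  · have k := h3 t (Ico_subset_Icc_self ht)
    have k1 := h2 _ k (x' - x)
    rw [Finset.sum_singleton, show ((x + t • (x' - x)) b).im = (x b).im by simp [e]] at k1
    refine (fd_le (lv _ (In_sub hη k)) (h1 _ k).1 (h1 _ k).2 _ _).trans ?_
    rw [mul_assoc (4 * B), ← Real.sqrt_mul' _ (by positivity), mul_assoc B]
    gcongr
    exact k1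

theorem T1 (b : Fin p) (ζ : Fin p → ℂ) {i : Fin p} (hi : i ≠ b) :
    Tendsto (fun x => x i) (toB b ζ) (𝓝 (ζ i)) := by
  have : Tendsto (fun x => Function.update x b 0) (toB b ζ) (𝓝 (Function.update ζ b 0)) :=
    tendsto_fst.comp tendsto_comap
  simpa only [Function.update_of_ne hi] using tendsto_pi_nhds.1 this i

theorem T2 (b : Fin p) (ζ : Fin p → ℂ) : Tendsto (fun x => (x b).im) (toB b ζ) atTop :=
  tendsto_snd.comp tendsto_comap

theorem slice {ζ : Fin p → ℂ} {P : (Fin p → ℂ) → Prop} (h : ∀ᶠ x in toB b ζ, P x) :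
    ∃ y : ℝ, ∀ᶠ x in toB b ζ, ∀ t : ℂ, y < t.im → P (Function.update x b t) := by
  obtain ⟨pa, h1, pb, h2, h3⟩ := eventually_prod_iff.1 (eventually_comap.1 h)
  obtain ⟨y, hy⟩ := eventually_atTop.1 h2
  refine ⟨y, ((tendsto_fst.comp tendsto_comap).eventually h1).mono fun x hx t ht => ?_⟩
  exact h3 hx (hy _ ht.le) _ (by simp)

theorem ev_In {ζ : Fin p → ℂ} {η : ℝ} (hη : 0 < η) (h : Function.update ζ b I ∈ In {b} η) :
    ∀ᶠ x in toB b ζ, x ∈ In {b} (η / 2) := by
  have h1 : ∀ᶠ x in toB b ζ, ∀ i, i ≠ b → ‖x i‖ ≤ 1 - η / 2 :=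
    eventually_all.2 fun i => eventually_imp_distrib_left.2 fun hi => by
      have := h.2 i (by simpa using hi)
      rw [Function.update_of_ne hi] at this
      exact (T1 b ζ hi).norm.eventually (eventually_le_nhds (by linarith))
  filter_upwards [h1, (T2 b ζ).eventually (eventually_ge_atTop (η / 2))] with x k1 k2
  exact ⟨fun i hi => Finset.mem_singleton.1 hi ▸ k2, fun i hi => k1 i (by simpa using hi)⟩

theorem bigO {α : Type} {l : Filter α} {f g : α → Mx n} {e : α → ℝ} {c : Mx n}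
    (hf : Tendsto f l (𝓝 c)) (hg : g =O[l] e) : (fun x => (1 - f x) * g x * f x) =O[l] e :=
  ((((hf.const_sub 1).isBigO_one ℝ).mul hg).mul (hf.isBigO_one ℝ)).congr_right
    fun _ => (mul_one _).trans (one_mul _)

theorem th_sum {π : Gr n} (h : Hs Q w π) {A : Mx n} {g : ℕ → Mx n} (e : ∀ k, A * π k = g k) :
    ∑ k ∈ Finset.range (w + 1), g k = A := by
  rw [← Matrix.mul_one A, ← h.sum, Finset.mul_sum]
  exact Finset.sum_congr rfl fun k _ => (e k).symm

variable {π : (Fin p → ℂ) → Gr n} (lv : ∀ ζ ∈ Dm {b}, LVAt Q w π ζ)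
  (per : ∀ ζ ∈ Dm {b}, π (ζ + Pi.single b 1) = π ζ) (hF : StFlag)
include lv per

theorem per_upd (x : Fin p → ℂ) {t : ℂ} (ht : Function.update x b t ∈ Dm {b}) :
    π (Function.update x b (t + 1)) = π (Function.update x b t) := by
  rw [← TorH.upd_add, per _ ht]

include hF

/-- the limit on a slice -/
theorem lim {ζ : Fin p → ℂ} {η B C : ℝ}
    (hD : ∀ t : ℂ, 0 < t.im → Function.update ζ b t ∈ Dm {b})
    (hU : ∀ t : ℂ, 1 ≤ t.im → Function.update ζ b t ∈ In {b} η)
    (h0 : ∀ ζ ∈ In {b} η, ∀ s, hn (gH Q w (π ζ)) s ≤ B * ‖s‖ ^ 2)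
    (hC : ∀ x ∈ In {b} η, ∀ x' ∈ In {b} η, (x' b).im = (x b).im →
      dist (rs w (π x')) (rs w (π x)) ≤
        C * √((‖x' b - x b‖ / (x b).im) ^ 2 + ∑ i ∈ {b}ᶜ, ‖x' i - x i‖ ^ 2)) :
    ∃ π₀, Hs Q w π₀ ∧
      Tendsto (fun t => rs w (π (Function.update ζ b t))) (comap im atTop) (𝓝 (rs w π₀)) := by
  refine (stKw _ (Fin (w + 1) → Mx n) (fun t => rs w (π (Function.update ζ b t))) _
    ((stCpt n Q w B).2.image (f := rs w) (continuous_pi fun _ => continuous_apply _))
    (fun t ht => (continuousAt_pi.2 fun q : Fin (w + 1) => ((lv _ (hD t ht)).an q).continuousAt.comp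
      (f := Function.update ζ b) (hasDerivAt_update ζ b t).continuousAt).continuousWithinAt)
    (fun t ht => congrArg _ (per_upd lv per ζ (hD t ht)))
    (fun t ht => ⟨_, ⟨(lv _ (hD t (one_pos.trans_le ht))).hs0, h0 _ (hU t ht)⟩, rfl⟩)
    (fun ε hε => ?_) ?_).elim fun _ ⟨⟨π₀, k, e⟩, h⟩ => ⟨π₀, k.1, e ▸ h⟩
  · refine ⟨max 1 (|C| / ε + 1), fun t t' ht e => ?_⟩
    have t1 := (le_max_left _ _).trans ht
    have t0 := one_pos.trans_le t1
    have a1 : Function.Periodic (fun r : ℝ => π (Function.update ζ b (t + r))) 1 := fun r => by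
      simp only [ofReal_add, ofReal_one, ← add_assoc]
      exact per_upd lv per ζ (hD _ (by simpa using t0))
    obtain ⟨r, hr, a2⟩ := a1.exists_mem_Ico₀ one_pos (t'.re - t.re)
    have a3 : t + ((t'.re - t.re : ℝ) : ℂ) = t' := Complex.ext (by simp) (by simp [e])
    rw [a3] at a2
    have a4 := hC _ (hU t t1) _ (hU (t + r) (by simpa using t1)) (by simp)
    rw [Finset.sum_eq_zero fun i hi => by
      simp [Function.update_of_ne (show i ≠ b by simpa using hi)], add_zero, Function.update_self,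
      Function.update_self, add_sub_cancel_left, Real.sqrt_sq (by positivity), norm_real,
      Real.norm_of_nonneg hr.1, ← a2, ← mul_div_assoc] at a4
    refine a4.trans_lt ((div_lt_iff₀ t0).2 ?_)
    have a5 := (div_lt_iff₀ hε).1 ((lt_add_one _).trans_le ((le_max_right _ _).trans ht))
    nlinarith [le_abs_self C, abs_nonneg C, hr.1, hr.2]
  · rintro _ ⟨π₀, ⟨k0, -⟩, rfl⟩
    obtain ⟨a1, -, -, a2⟩ := stFlagA n Q w π₀ k0
    obtain ⟨δ, hδ, a3⟩ := Metric.nhds_basis_closedBall.eventually_iff.1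
      (near_ev (y := rs w π₀) (by rwa [et_rs k0]))
    refine ⟨δ, hδ, fun y k => flag w π₀ (et w y) k, fun y hy => (continuousAt_pi.2
      fun k : Fin (w + 1) => cont_flag (a3 hy.2) k).continuousWithinAt, ?_, fun t ht e => ?_⟩
    · rintro _ ⟨⟨π₁, ⟨k1, -⟩, rfl⟩, b1⟩ _ ⟨⟨π₂, ⟨k2, -⟩, rfl⟩, b2⟩ e
      have c1 := a3 b1
      have c2 := a3 b2
      simp only [et_rs k1, et_rs k2] at c1 c2 e
      rw [a2 π₁ π₂ k1 k2 c1 c2 fun k hk => congrFun e ⟨k, by omega⟩]
    · have t0 := one_pos.trans ht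
      have c1 := a3 (Metric.mem_closedBall.2 e.le)
      rw [et_rs (lv _ (hD t t0)).hs0] at c1
      refine differentiableAt_pi.2 fun k => DifferentiableAt.congr_of_eventuallyEq
        (((hF n _ Q w π _ π₀ (lv _ (hD t t0)) k0 c1).2 k).1.differentiableAt.comp t
          (hasDerivAt_update ζ b t).differentiableAt) ?_
      filter_upwards [(isOpen_lt continuous_const continuous_im).mem_nhds t0] with s k
      rw [et_rs (lv _ (hD s k)).hs0]
      rfl

/-- the derivative of the flag coordinates decays -/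
theorem dG {ζ : Fin p → ℂ} {π₀ : Gr n} (k0 : Hs Q w π₀) (k : ℕ) {M : ℝ}
    (h : ∀ᶠ x in toB b ζ, (x ∈ Dm {b} ∧ Near w π₀ (π x)) ∧ ‖flag w π₀ (π x) k‖ ≤ M) :
    (fun x => fderiv ℂ (fun x => flag w π₀ (π x) k) x (Pi.single b 1)) =O[toB b ζ]
      fun x => Real.exp (-2 * Real.pi * (x b).im) := by
  obtain ⟨y, hy⟩ := slice h
  refine IsBigO.of_bound (M / (Real.exp (-2 * Real.pi * y) / 2) * (2 * Real.pi)) ?_
  filter_upwards [hy, h, (T2 b ζ).eventually (eventually_ge_atTop (y + 1))] with x a1 a2 a3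
  have a4 := fun x (hx : x ∈ Dm {b} ∧ Near w π₀ (π x)) =>
    ((hF n _ Q w π x π₀ (lv x hx.1) k0 hx.2).2 k).1.differentiableAt
  have a5 := dec (f := fun t => flag w π₀ (π (Function.update x b t)) k)
    (fun t ht => (a4 _ (a1 t ht).1).comp t (hasDerivAt_update x b t).differentiableAt)
    (fun t ht => by rw [per_upd lv per x (a1 t ht).1.1]) (fun t ht => (a1 t ht).2) a3
  have a6 := ((a4 x a2.1).hasFDerivAt.comp_hasDerivAt_of_eq (x b) (hasDerivAt_update x b (x b))
    (Function.update_eq_self b x).symm).deriv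
  rw [Real.norm_of_nonneg (Real.exp_pos _).le]
  exact (congrArg norm a6).ge.trans a5

theorem dth {ζ : Fin p → ℂ} {π₀ : Gr n} (k0 : Hs Q w π₀) (hI : ∀ᶠ x in toB b ζ, x ∈ Dm {b})
    (h3 : Tendsto (fun x => rs w (π x)) (toB b ζ) (𝓝 (rs w π₀))) :
    (fun x => th w π x (Pi.single b 1)) =O[toB b ζ]
      fun x => Real.exp (-2 * Real.pi * (x b).im) := by
  have h4 : Near w π₀ (et w (rs w π₀)) := by
    rw [et_rs k0]
    exact (stFlagA n Q w π₀ k0).1
  have h5 : ∀ᶠ x in toB b ζ, x ∈ Dm {b} ∧ Near w π₀ (π x) := by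
    filter_upwards [hI, h3.eventually (near_ev h4)] with x a1 a2
    exact ⟨a1, by rwa [et_rs (lv x a1).hs0] at a2⟩
  have h7 : ∀ k, Tendsto (fun x => gF w (π x) k) (toB b ζ) (𝓝 (gF w (et w (rs w π₀)) k)) :=
    fun k => ((an_F k _).continuousAt.tendsto.comp h3).congr' (hI.mono fun x hx => by
      simp only [Function.comp_apply, et_rs (lv x hx).hs0])
  have h6 : ∀ k, Tendsto (fun x => flag w π₀ (π x) k) (toB b ζ)
      (𝓝 (flag w π₀ (et w (rs w π₀)) k)) :=
    fun k => ((cont_flag h4 k).tendsto.comp h3).congr' (hI.mono fun x hx => by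
      simp only [Function.comp_apply, et_rs (lv x hx).hs0])
  have h8 := fun k => dG lv per hF k0 k (h5.and ((h6 k).norm.eventually
    (eventually_le_nhds (lt_add_one _))))
  refine (IsBigO.fun_sum (s := Finset.range (w + 1)) fun k _ => bigO (h7 k) (h8 k)).congr'
    (h5.mono fun x hx => ?_) .rfl
  exact th_sum (lv x hx.1).hs0 fun k => (((hF n _ Q w π x π₀ (lv x hx.1) k0 hx.2).2 k).2 _).1

end ExtH

open ExtH in
theorem stExt (hB : StBdd) (hG : StGrow) (hF : StFlag) : StExt := by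
  intro n _ _ p b Q w π lv per ζ hζ
  have hb := Finset.mem_singleton_self b
  obtain ⟨η, η0, η1, hη⟩ := ex_In hζ
  have η2 := half_pos η0
  obtain ⟨B₀, h0⟩ := hB n p b Q w π lv per _ η2
  obtain ⟨B, h1⟩ := (stCpt n Q w B₀).1
  have h2 := fun x hx => h1 (π x) (lv x (In_sub η2 hx)).hs0 (h0 x hx)
  obtain ⟨C, hC⟩ := lip hG lv η2 fun x hx => ⟨(h2 x hx).1, fun A => ((h2 x hx).2.2 A).1⟩
  have hI := ev_In η0 hη
  have hU : ∀ t : ℂ, 1 ≤ t.im → Function.update ζ b t ∈ In {b} (η / 2) := fun t ht => by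
    have := upd_In hη hb (η1.trans ht)
    rw [Function.update_idem] at this
    exact ⟨fun i k => (half_le_self η0.le).trans (this.1 i k),
      fun i k => (this.2 i k).trans (by linarith)⟩
  obtain ⟨π₀, k0, hL⟩ := lim lv per hF (fun t ht => by simpa using TorH.upd_mem hζ hb ht) hU h0 hC
  have h3 : Tendsto (fun x => rs w (π x)) (toB b ζ) (𝓝 (rs w π₀)) := by
    refine (hL.comp (tendsto_comap_iff.2 (T2 b ζ))).congr_dist (squeeze_zero'
      (.of_forall fun _ => dist_nonneg) (g := fun x => C * √(∑ i ∈ {b}ᶜ, ‖x i - ζ i‖ ^ 2)) ?_ ?_)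
    · filter_upwards [hI, (T2 b ζ).eventually (eventually_ge_atTop 1)] with x a1 a2
      have a4 := hC _ (hU _ a2) x a1 (by simp)
      rw [Function.update_self, sub_self, norm_zero, zero_div, zero_pow two_ne_zero, zero_add,
        Finset.sum_congr rfl fun i hi => by
          rw [Function.update_of_ne (show i ≠ b by simpa using hi)], dist_comm] at a4
      exact a4
    · simpa using (tendsto_finsetSum {b}ᶜ fun i hi => (((T1 b ζ (show i ≠ b by
        simpa using hi)).sub_const (ζ i)).norm.pow 2)).sqrt.const_mul C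
  obtain ⟨M, hM⟩ := (dth lv per hF k0 (hI.mono fun _ k => In_sub η2 k) h3).bound
  refine ⟨B * M ^ 2, ?_⟩
  filter_upwards [hM, hI] with x a1 a2
  have a3 := ((h2 x a2).2.2 (th w π x (Pi.single b 1))).2
  have a4 := (norm_nonneg _).trans ((h2 x a2).1 0)
  have a5 := pow_le_pow_left₀ (norm_nonneg _) a1 2
  rw [mul_pow, Real.norm_of_nonneg (Real.exp_pos _).le, ← Real.exp_nat_mul,
    show ((2 : ℕ) : ℝ) * (-2 * Real.pi * (x b).im) = -4 * Real.pi * (x b).im by
      push_cast; ring] at a5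
  rw [omH, omB, (lv x (In_sub η2 a2)).ts_eq, mul_assoc B]
  exact a3.trans (mul_le_mul_of_nonneg_left a5 a4)

end Vale.Agent.P281Z.Hm
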