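import Vale.Agent.P281Z.Hm.ScalA

/-!
# P281Z, abstract variations: the monodromy is scalar if the rank does not drop
-/

open scoped Matrix.Norms.Operator Topology ComplexOrder ComplexConjugate
open Filter Set Matrix Complex

noncomputable section

namespace Vale.Agent.P281Z.Hm

open Vale.Agent.P284Z (levi Psh)

namespace ScalH

variable {n : Type} [Fintype n] [DecidableEq n] {p : ℕ} {b : Fin p} {Q : Mx n}

theorem cf0_eq (Q : Mx n) (w a : ℕ) (N : Fin p → Mx n) (φ : (Fin p → ℂ) → n → ℂ) (j : ℕ)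
    (ζ : Fin p → ℂ) : cf0 {b} Q w a N φ b j ζ =
      hn (((-1 : ℂ) ^ w • Q) * ((2 * I) • N b) ^ j) (φ (pj b ζ)) / j.factorial := by
  have e : Function.update (ex {b} a ζ) b 0 = pj b ζ := by
    rw [pj_eq]
    funext i
    rcases eq_or_ne i b with rfl | h
    · simp
    · simp [ex, h]
  have e' : ((-1 : ℂ) ^ w) = (((-1 : ℝ) ^ w : ℝ) : ℂ) := by simp
  rw [cf0, cf, e, Finset.erase_singleton, Finset.sum_empty, IsNilpotent.exp_zero, Matrix.mul_one,
    hn, hn, smul_mul_assoc, smul_mulVec, dotProduct_smul, e', smul_eq_mul, re_ofReal_mul]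

theorem mem_db {ζ : Fin p → ℂ} : ζ ∈ Db {b} b ↔ pj b ζ ∈ Metric.ball (0 : Fin p → ℂ) 1 := by
  rw [mem_ball_zero_iff, pi_norm_lt_iff one_pos, pj_eq]
  refine ⟨fun h i => ?_, fun h => ⟨fun i hi => ?_, fun i hi => ?_⟩⟩
  · rcases eq_or_ne i b with rfl | k
    · simp
    · simpa [k] using h.2 i (by simpa using k)
  · simp [Finset.mem_singleton.1 hi]
  · have k : i ≠ b := by simpa using hi
    simpa [k] using h i

theorem ex_surj {a : ℕ} (ha : 0 < a) {x : Fin p → ℂ} (hx : x ∈ Metric.ball (0 : Fin p → ℂ) 1)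
    (h : x b ≠ 0) : ∃ ζ ∈ Dm {b}, ex {b} a ζ = x := by
  have e := DescH.ex_lb (K := {b}) ha (fun i hi => DescH.ex_zero i hi) (σ := x)
    fun i hi => by rwa [Finset.mem_singleton.1 hi]
  exact ⟨_, (DescH.mem_dm ha).2 (e.symm ▸ hx), e⟩

variable {w : ℕ} {π : (Fin p → ℂ) → Gr n} {T : Fin p → Matrix n n ℤ} {a : ℕ} {N : Fin p → Mx n}
  {ψ : (Fin p → ℂ) → n → ℂ} {lam : Fin p → ℂ} {β : Fin p → ℤ} {φ : (Fin p → ℂ) → n → ℂ}

/-- the kernel of the differential in terms of `φ` -/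
theorem ker_eq (h : Bd {b} Q w π T a N ψ lam β φ) {ζ v : Fin p → ℂ} (hζ : ζ ∈ Dm {b})
    (hv : v ∈ kerL ψ ζ) : ∃ μ : ℂ, μ • φ (ex {b} a ζ) = v b • (N b *ᵥ φ (ex {b} a ζ) +
      (2 * Real.pi * I / a * ex {b} a ζ b) • fderiv ℂ φ (ex {b} a ζ) (Pi.single b 1)) +
      fderiv ℂ φ (ex {b} a ζ) (pj b v) := by
  have hb := Finset.mem_singleton_self b
  have hφ := h.fr.an _ ((DescH.mem_dm h.un.pos).1 hζ)
  have h0 : ex {b} a ζ b ^ β b ≠ 0 := zpow_ne_zero _ (LiftH.ex_ne ζ hb)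
  have dg : DifferentiableAt ℂ (fun x => ex {b} a x b ^ β b) ζ :=
    (DescH.ex_diff ζ b).zpow (.inl (LiftH.ex_ne ζ hb))
  have e : ψ =ᶠ[𝓝 ζ] fun x => ex {b} a x b ^ β b • vf {b} a N φ x := by
    filter_upwards [(TorH.dm_open _).mem_nhds hζ] with x hx
    rw [h.fr.eq x hx, Finset.prod_singleton]
  obtain ⟨μ, k⟩ := Submodule.mem_span_singleton.1 (Submodule.mem_comap.1 hv)
  rw [ContinuousLinearMap.coe_coe, e.fderiv_eq, e.eq_of_nhds,
    fderiv_fun_smul dg (h.un.an_vf hφ).differentiableAt, _root_.add_apply,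
    _root_.smul_apply, ContinuousLinearMap.smulRight_apply, h.un.fderiv_vf hφ,
    vf_eq, Finset.sum_singleton] at k
  have e1 : fderiv ℂ (ex {b} a) ζ v =
      (v b * (2 * Real.pi * I / a * ex {b} a ζ b)) • Pi.single b 1 + pj b v := by
    funext i
    rw [fderiv_ex, pj_eq]
    rcases eq_or_ne i b with rfl | hi
    · simp [mul_comm]
    · simp [hi]
  have k1 := congrArg (fun s => (ex {b} a ζ b ^ β b)⁻¹ • nE {b} N (-ζ) *ᵥ s) k
  simp only [mulVec_add, mulVec_smul, mulVec_mulVec, ← Matrix.mul_assoc, h.un.nE_neg, one_mulVec,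
    Matrix.one_mul, smul_add, inv_smul_smul₀ h0, smul_comm μ, e1, map_add, map_smul,
    smul_mulVec] at k1
  refine ⟨μ - (ex {b} a ζ b ^ β b)⁻¹ * fderiv ℂ (fun x => ex {b} a x b ^ β b) ζ v, ?_⟩
  rw [sub_smul, k1]
  module

/-- the monodromy acts on `φ` -/
theorem rot (h : Bd {b} Q w π T a N ψ lam β φ) {x : Fin p → ℂ}
    (hx : x ∈ Metric.ball (0 : Fin p → ℂ) 1) (h0 : x b = 0) :
    exp (2 * Real.pi * I / a) ^ β b • IsNilpotent.exp (N b) *ᵥ φ x = lam b • cz (T b) *ᵥ φ x := by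
  have hb := Finset.mem_singleton_self b
  let R : (Fin p → ℂ) → Fin p → ℂ := fun y => Function.update y b (exp (2 * Real.pi * I / a) * y b)
  have hR : R x = x := Function.update_eq_self_iff.2 (by rw [h0, mul_zero])
  have cR : Continuous R := continuous_id.update b (by fun_prop)
  have c1 := (h.fr.an x hx).continuousAt
  have c2 : ContinuousAt (fun y => φ (R y)) x := c1.comp_of_eq cR.continuousAt hR
  have c3 : ∀ (c : ℂ) (A : Mx n) (f : (Fin p → ℂ) → n → ℂ), ContinuousAt f x →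
      ContinuousAt (fun y => c • A *ᵥ f y) x := fun c A f hf =>
    ((LinearMap.toContinuousLinearMap (mulVecLin A)).continuous.continuousAt.comp hf).const_smul c
  have := dens (b := b) (z := x)
    (f := fun y => exp (2 * Real.pi * I / a) ^ β b • IsNilpotent.exp (N b) *ᵥ φ (R y))
    (g := fun y => lam b • cz (T b) *ᵥ φ y) (c3 _ _ _ c2) (c3 _ _ _ c1) ?_
  · rwa [hR] at this
  filter_upwards [Metric.isOpen_ball.mem_nhds hx] with y hy k
  obtain ⟨ζ, hζ, rfl⟩ := ex_surj h.un.pos hy k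
  have e : ex {b} a (ζ + Pi.single b 1) = R (ex {b} a ζ) := by
    funext i
    rcases eq_or_ne i b with rfl | hi
    · simp [R, ex, ← exp_add, mul_add, add_div, add_comm]
    · simp [R, ex, hi]
  have k1 := h.bl.eqv b hb ζ hζ
  have c : Commute (cz (T b)) (nE {b} N ζ) := nexp_comm (h.un.nsum le_rfl _) (by
    rw [Finset.sum_singleton]
    exact (h.un.commT b hb).symm.smul_right _)
  rw [h.fr.eq _ (LiftH.add_mem hζ hb), h.fr.eq _ hζ, vf_eq, vf_eq, h.un.nE_add, Un.nE_single hb,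
    one_smul, e, Finset.prod_singleton, Finset.prod_singleton] at k1
  have k2 := congrArg (fun s => (ex {b} a ζ b ^ β b)⁻¹ • nE {b} N (-ζ) *ᵥ s) k1
  simp only [mulVec_smul, mulVec_mulVec, c.eq, ← Matrix.mul_assoc, h.un.nE_neg, Matrix.one_mul, R,
    Function.update_self, mul_zpow, mul_smul, smul_comm _ (ex {b} a ζ b ^ β b),
    smul_inv_smul₀ (zpow_ne_zero (β b) k)] at k2
  exact k2

end ScalH

open ScalH in
theorem stScal : StScal := by
  intro n _ _ p b Q w π T a N ψ lam β φ h ν hrk hj hp ⟨ζ₀, hζ₀, hD⟩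
  have hb := Finset.mem_singleton_self b
  have hQ : Q.IsHermitian := (h.bv.lv _ (LiftH.bp_mem _)).hs.self_of_nhds.herm
  set Q' : Mx n := (-1 : ℂ) ^ w • Q with eQ
  have hQ' : Q'.IsHermitian := by
    rw [IsHermitian, eQ, conjTranspose_smul, hQ.eq]
    simp
  have hz := mem_db.1 hζ₀
  have hφ := h.fr.an _ hz
  have e0 : cf0 {b} Q w a N φ b 0 = fun x => hn Q' (φ (pj b x)) := funext fun x => by
    simp [cf0_eq, eQ]
  have h0 : hn Q' (φ (pj b ζ₀)) ≠ 0 := by simpa [e0] using (hp _ hζ₀).1.ne'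
  obtain ⟨m, u, hm, hu, hG⟩ := gram (b := b) (ν := ν) hQ' (s := φ (pj b ζ₀)) (fderiv ℂ φ (pj b ζ₀))
    (by rw [ip_def, ← hn_ofReal hQ']; exact ofReal_ne_zero.2 h0) fun W hW =>
    not_le.1 fun k => hD ⟨W, k, fun v hv => ⟨(hW v hv).1, by
      rw [e0, levi_comp (a := fun x => Real.log (hn Q' (φ x))) (g := pj b)
        ((an_hn analyticAt_const (hφ.restrictScalars (𝕜 := ℝ))).contDiffAt.log h0)
        ((pj b).analyticAt _), (pj b).fderiv, pj_self (hW v hv).1]
      exact levi_zero hQ' hφ h0 (hW v hv).2⟩⟩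
  have hc : (2 * Real.pi * I / a : ℂ) ≠ 0 :=
    div_ne_zero two_pi_I_ne_zero (Nat.cast_ne_zero.2 h.un.pos.ne')
  have hO := Metric.isOpen_ball.mem_nhds hz
  obtain ⟨e, t, he, ht, hE⟩ := ode (b := b) (N := N b) (c := 2 * Real.pi * I / a) hφ hu hG
    (by
      filter_upwards [hO] with x hx k
      obtain ⟨ζ, hζ, rfl⟩ := ex_surj h.un.pos hx k
      let A : (Option (Fin m) → ℂ) →ₗ[ℂ] Fin p → ℂ :=
        Fintype.linearCombination ℂ fun o => o.elim (Pi.single b 1) u
      have hA : ∀ y, A y = y none • Pi.single b 1 + ∑ j, y (some j) • u j := fun y => by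
        simp [A, Fintype.linearCombination_apply, Fintype.sum_option]
      obtain ⟨y, k1, k2⟩ := (Submodule.ne_bot_iff _).1 (LinearMap.ker_ne_bot_of_finrank_lt
        (f := (kerL ψ ζ).mkQ.comp A) (by
          have := (kerL ψ ζ).finrank_quotient_add_finrank
          have := hrk ζ hζ
          simp only [Module.finrank_fintype_fun_eq_card, Fintype.card_option, Fintype.card_fin] at *
          omega))
      obtain ⟨μ, k3⟩ := ker_eq h hζ ((Submodule.Quotient.mk_eq_zero _).1 k1)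
      refine ⟨y, k2, μ, ?_⟩
      rw [k3, hA, map_add, map_smul, pj_self (x := ∑ j, y (some j) • u j) (by simp [hu])]
      simp [hu, pj])
    (by
      filter_upwards [hO] with x hx k
      have k1 := hj 1 one_pos x (mem_db.2 (by rwa [pj_self k]))
      have k2 : (Q' * ((2 * I) • N b)).IsHermitian := by
        rw [IsHermitian, conjTranspose_mul, hQ'.eq, conjTranspose_smul, smul_mul_assoc, eQ,
          mul_smul_comm, h.un.skew b hb, smul_mul_assoc, mul_smul_comm, smul_comm]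
        simp
      rw [cf0_eq, pj_self k, pow_one, Nat.factorial_one, Nat.cast_one, div_one, ← ofReal_eq_zero,
        hn_ofReal k2, mul_smul_comm, smul_mulVec, dotProduct_smul, ← mulVec_mulVec] at k1
      exact (smul_eq_zero.1 k1).resolve_left (mul_ne_zero two_ne_zero I_ne_zero))
  have hl : lam b ≠ 0 := fun k => by
    have := h.bl.pow b hb
    rw [k, zero_pow h.un.pos.ne'] at this
    exact zero_ne_one this
  let μ : ℂ := (lam b)⁻¹ * exp (2 * Real.pi * I / a) ^ β b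
  let S : Mx n := cz (T b) - μ • 1
  have hS : N b * S = S * N b :=
    (h.un.commT b hb).sub_right ((Commute.one_right _).smul_right _)
  have aS : AnalyticOnNhd ℂ (fun x => S *ᵥ φ x) (Metric.ball 0 1) := fun x hx =>
    an_mulVec analyticAt_const (h.fr.an x hx)
  have k1 := stOde n p b (N b) _ (fun x => S *ᵥ φ x) e t (pj b ζ₀) (h.un.nil b hb) hc (pj_b _)
    (aS _ hz) he ht (by
      filter_upwards [hO, hE] with x hx k
      have d : ∀ v, fderiv ℂ (fun x => S *ᵥ φ x) x v = S *ᵥ fderiv ℂ φ x v := fun v =>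
        congrArg (· v) ((LinearMap.toContinuousLinearMap (mulVecLin S)).hasFDerivAt.comp x
          (h.fr.an x hx).differentiableAt.hasFDerivAt).fderiv
      refine ⟨k.1, fun k0 => ⟨?_, (k.2.1 k0).2⟩, ?_⟩
      · have k2 := rot h hx k0
        rw [nexp_fix (h.un.nil b hb) (k.2.1 k0).1] at k2
        rw [sub_mulVec, smul_mulVec, one_mulVec, mul_smul, k2, inv_smul_smul₀ hl, sub_self]
      · rw [d, d, mulVec_mulVec, hS, ← mulVec_mulVec, ← mulVec_smul, ← mulVec_add, k.2.2,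
          mulVec_add, mulVec_smul])
  have k2 := aS.eqOn_zero_of_preconnected_of_eventuallyEq_zero (convex_ball _ _).isPreconnected
    hz k1
  refine ⟨μ, fun ζ hζ => ?_⟩
  have c : Commute (cz (T b)) (nE {b} N ζ) := nexp_comm (h.un.nsum le_rfl _) (by
    rw [Finset.sum_singleton]
    exact (h.un.commT b hb).symm.smul_right _)
  have k3 := k2 ((DescH.mem_dm h.un.pos).1 hζ)
  simp only [S, sub_mulVec, smul_mulVec, one_mulVec, Pi.zero_apply, sub_eq_zero] at k3
  rw [h.fr.eq ζ hζ, vf_eq, mulVec_smul, mulVec_mulVec, c.eq, ← mulVec_mulVec, k3, mulVec_smul,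
    smul_comm]

end Vale.Agent.P281Z.Hm
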