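import Vale.Agent.P281Z.Hm.All
import Vale.Agent.P281Z.Hm.Dich
import Vale.Agent.P281Z.Hm.Ext
import Vale.Agent.P281Z.Hm.Scal

/-!
# P281Z, abstract variations of Hodge structure: the dichotomy without hypotheses
-/

namespace Vale.Agent.P281Z.Hm.All

theorem ext : StExt := stExt bdd grow stFlag
theorem sc : StSc := stSc grow ext
theorem dich : StDich := stDich bd pos drop stScal sc alId lim exp

end Vale.Agent.P281Z.Hm.All
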