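import Vale.Agent.P281Z.Hm.Sk
import Vale.Agent.P284Y.Lib.GL
import Mathlib.Analysis.InnerProductSpace.EuclideanDist

/-!
# P281Z, abstract variations: positivity of the Levi form under uniform approximation
-/

open scoped Topology
open Filter Set Metric

noncomputable section

namespace Vale.Agent.P281Z.Hm

open Vale.Agent.P284Z (levi Psh LocSub locSub_iff psh_const lb_const LB)
open Vale.Agent.P284Y.Lib (levi_add levi_sub levi_const_mul)

namespace CmpH

variable {W : Type} [NormedAddCommGroup W] [NormedSpace ℝ W] [NormedSpace ℂ W] {z w : W}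
  {u : W → ℝ}

theorem levi_smul [IsScalarTower ℝ ℂ W] (t : ℝ) : levi u z (t • w) = t ^ 2 * levi u z w := by
  simp only [levi, smul_comm Complex.I t w, map_smul, smul_apply, smul_eq_mul]
  ring

theorem levi_contAt (hu : ContDiffAt ℝ 2 u z) :
    ContinuousAt (fun q : W × W => levi u q.1 q.2) (z, w) := by
  have h : ContinuousAt (fun q : W × W => fderiv ℝ (fderiv ℝ u) q.1) (z, w) :=
    ContinuousAt.comp (f := Prod.fst) (((hu.fderiv_right (m := 1) (by norm_num)).fderiv_right
      (m := 0) (by norm_num)).continuousAt) continuousAt_fst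
  have h' : ContinuousAt (fun q : W × W => Complex.I • q.2) (z, w) := by fun_prop
  exact ((h.clm_apply continuousAt_snd).clm_apply continuousAt_snd).add
    ((h.clm_apply h').clm_apply h')

/-- the Levi form at a local minimum -/
theorem levi_min [IsScalarTower ℝ ℂ W] (hu : ContDiffAt ℝ 2 u z) (h : ∀ᶠ x in 𝓝 z, u z ≤ u x)
    (w : W) : 0 ≤ levi u z w := by
  have hc : ContinuousOn u {x | ContDiffAt ℝ 2 u x ∧ u z ≤ u x} := fun x hx =>
    hx.1.continuousAt.continuousWithinAt
  exact (locSub_iff hu).1 (((psh_const (u z) univ).locSub univ_mem).of_le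
    ((hu.eventually (by simp)).and h) hc.upperSemicontinuousOn (.of_cont hc)
    upperSemicontinuousOn_const (lb_const _ _) (fun x hx => hx.2) le_rfl) w

end CmpH

open CmpH in
theorem stCmp : StCmp := by
  intro E _ _ _ _ _ u₀ z hu hp O hO
  have : FiniteDimensional ℝ E := FiniteDimensional.trans ℝ ℂ E
  have : ProperSpace E := FiniteDimensional.proper ℂ E
  let ρ : E → ℝ := fun x => ‖toEuclidean (x - z)‖ ^ 2
  have hρ : ContDiff ℝ 2 ρ :=
    (toEuclidean.contDiff.comp (contDiff_id.sub contDiff_const)).norm_sq ℝ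
  have h1 : ∀ᶠ q : ℝ × E in 𝓝 (0, z), ∀ v ∈ sphere (0 : E) 1,
      0 < levi u₀ q.2 v - q.1 * levi ρ q.2 v := by
    refine (isCompact_sphere (0 : E) 1).eventually_forall_of_forall_eventually fun v hv => ?_
    have a : ContinuousAt (fun q : (ℝ × E) × E => (q.1.2, q.2)) ((0, z), v) := by fun_prop
    have b : ContinuousAt (fun q : (ℝ × E) × E => levi u₀ q.1.2 q.2 - q.1.1 * levi ρ q.1.2 q.2)
        ((0, z), v) :=
      (ContinuousAt.comp (f := fun q : (ℝ × E) × E => (q.1.2, q.2)) (levi_contAt hu) a).sub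
        (continuousAt_fst.fst.mul (ContinuousAt.comp (f := fun q : (ℝ × E) × E => (q.1.2, q.2))
          (levi_contAt hρ.contDiffAt) a))
    exact b.eventually (lt_mem_nhds (by
      simpa using hp v (ne_zero_of_mem_unit_sphere ⟨v, hv⟩)))
  rw [nhds_prod_eq] at h1
  obtain ⟨pa, ha, pb, hb, h2⟩ := eventually_prod_iff.1 h1
  obtain ⟨ε, hε, ε0⟩ := ((ha.filter_mono (nhdsWithin_le_nhds (s := Ioi 0))).and
    self_mem_nhdsWithin).exists
  obtain ⟨r, r0, hr⟩ := nhds_basis_closedBall.eventually_iff.1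
    ((hb.and (hu.eventually (by simp))).and hO)
  obtain ⟨c, c0, hc⟩ := (isCompact_sphere z r).exists_forall_le' (f := ρ) (a := 0)
    hρ.continuous.continuousOn fun x hx => pow_pos (norm_pos_iff.2 fun k => by
      rw [toEuclidean.map_eq_zero_iff, sub_eq_zero] at k
      rw [k, mem_sphere, dist_self] at hx
      exact r0.ne hx) 2
  have ε1 : 0 < ε := ε0
  refine ⟨r, r0, ε * c / 3, by positivity, fun x hx => (hr hx).2, fun u h => ?_⟩
  have hg : ∀ x ∈ closedBall z r, ContDiffAt ℝ 2 (fun x => u x - u₀ x + ε * ρ x) x := fun x hx =>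
    ((h x hx).1.sub (hr hx).1.2).add (contDiffAt_const.mul hρ.contDiffAt)
  obtain ⟨x, hx, hm⟩ := (isCompact_closedBall z r).exists_isMinOn ⟨z, mem_closedBall_self r0.le⟩
    fun x hx => (hg x hx).continuousAt.continuousWithinAt
  have hx' : x ∈ ball z r := lt_of_le_of_ne hx fun e => by
    have a1 : u x - u₀ x + ε * ρ x ≤ u z - u₀ z + ε * ρ z := hm (mem_closedBall_self r0.le)
    have a2 : ρ z = 0 := by simp [ρ]
    have a3 := mul_le_mul_of_nonneg_left (hc x e) ε1.le
    rw [a2] at a1
    linarith [(abs_le.1 (h x hx).2).1, (abs_le.1 (h z (mem_closedBall_self r0.le)).2).2,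
      mul_pos ε1 c0]
  refine ⟨x, hx', fun v hv => ?_⟩
  have a1 := levi_min (hg x hx) (mem_of_superset (isOpen_ball.mem_nhds hx')
    fun y hy => hm (ball_subset_closedBall hy)) v
  rw [levi_add ((h x hx).1.sub (hr hx).1.2) (contDiffAt_const.mul hρ.contDiffAt),
    levi_sub (h x hx).1 (hr hx).1.2, levi_const_mul hρ.contDiffAt] at a1
  have hn := norm_pos_iff.2 hv
  have a2 := h2 hε (hr hx).1.1 (‖v‖⁻¹ • v) (by simp [norm_smul, inv_mul_cancel₀ hn.ne'])
  simp only [levi_smul] at a2
  have a3 : 0 < levi u₀ x v - ε * levi ρ x v :=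
    pos_of_mul_pos_left (b := ‖v‖⁻¹ ^ 2) (by linarith) (sq_nonneg _)
  linarith

end Vale.Agent.P281Z.Hm
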