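import Vale.Agent.P281Z.Hm.Defs

/-!
# P281Z: the connected covering attached to a locally constant cocycle
-/

open scoped Topology
open Filter Set

noncomputable section

namespace Vale.Agent.P281Z.Hm

/-- a locally constant cocycle with values in a group -/
structure Coc {Y : Type} [TopologicalSpace Y] (U : Set Y) (G : Type) [Group G] where
  N : Y → Set Y
  g : Y → Y → Y → G
  opn : ∀ a, IsOpen (N a)
  mem : ∀ a ∈ U, a ∈ N a
  sub : ∀ a, N a ⊆ U
  lc : ∀ a b, ∀ t ∈ N a, t ∈ N b → ∀ᶠ s in 𝓝 t, g a b s = g a b t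
  coc : ∀ a b c, ∀ t ∈ N a, t ∈ N b → t ∈ N c → g a b t * g b c t = g a c t

namespace Coc

variable {Y : Type} [TopologicalSpace Y] {U : Set Y} {G : Type} [Group G] (D : Coc U G)

theorem one {a t : Y} (h : t ∈ D.N a) : D.g a a t = 1 :=
  mul_eq_left.1 (D.coc a a a t h h h)

/-- the total space -/
@[ext] structure Tot (D : Coc U G) where
  y : Y
  hy : y ∈ U
  c : G

variable {D}

/-- the fibre coordinate in the frame `a` -/
def crd (a : Y) (x : D.Tot) : G := x.c * D.g x.y a x.y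

theorem Tot.mem (x : D.Tot) : x.y ∈ D.N x.y := D.mem _ x.hy

theorem crd_self (x : D.Tot) : crd x.y x = x.c := by rw [crd, D.one x.mem, mul_one]

theorem crd_ch {a b : Y} {x : D.Tot} (ha : x.y ∈ D.N a) (hb : x.y ∈ D.N b) :
    crd b x = crd a x * D.g a b x.y := by
  rw [crd, crd, mul_assoc, D.coc _ _ _ _ x.mem ha hb]

instance : TopologicalSpace D.Tot where
  IsOpen S := ∀ x ∈ S, ∀ᶠ t in 𝓝 x.y, ∀ x' : D.Tot, x'.y = t → crd x.y x' = x.c → x' ∈ S
  isOpen_univ _ _ := Eventually.of_forall fun _ _ _ _ => trivial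
  isOpen_inter _ _ h h' x hx := ((h x hx.1).and (h' x hx.2)).mono fun _ k x' a b =>
    ⟨k.1 x' a b, k.2 x' a b⟩
  isOpen_sUnion _ h x := fun ⟨S, hS, hx⟩ => (h S hS x hx).mono fun _ k x' a b => ⟨S, hS, k x' a b⟩

theorem ev_crd {a : Y} (x : D.Tot) (ha : x.y ∈ D.N a) : ∀ᶠ t in 𝓝 x.y, ∀ x' : D.Tot, x'.y = t →
    (crd x.y x' = x.c ↔ crd a x' = crd a x) := by
  filter_upwards [(D.opn a).mem_nhds ha, (D.opn _).mem_nhds x.mem, D.lc _ a _ x.mem ha]
    with t h1 h2 h3
  rintro x' rfl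
  rw [crd_ch h2 h1, h3, crd_ch x.mem ha, crd_self, mul_left_inj]

theorem ev_iff (x : D.Tot) {P : D.Tot → Prop} : (∀ᶠ x' in 𝓝 x, P x') ↔
    ∀ᶠ t in 𝓝 x.y, ∀ x' : D.Tot, x'.y = t → crd x.y x' = x.c → P x' := by
  refine ⟨fun h => ?_, fun h => ?_⟩
  · obtain ⟨S, h1, h2, h3⟩ := eventually_nhds_iff.1 h
    exact (h2 x h3).mono fun _ k x' a b => h1 _ (k x' a b)
  · obtain ⟨O, h1, h2, h3⟩ := eventually_nhds_iff.1 (h.and ((D.opn _).mem_nhds x.mem))
    refine eventually_nhds_iff.2 ⟨{x' | x'.y ∈ O ∧ crd x.y x' = x.c},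
      fun x' k => (h1 _ k.1).1 x' rfl k.2, fun x' k => ?_, h3, crd_self x⟩
    filter_upwards [h2.mem_nhds k.1, ev_crd x' (h1 _ k.1).2] with t a b
    rintro x'' rfl c
    exact ⟨a, ((b x'' rfl).1 c).trans k.2⟩

theorem cont_y : Continuous (Tot.y : D.Tot → Y) :=
  continuous_iff_continuousAt.2 fun x _ hO => (ev_iff x).2
    (Eventually.mono hO fun _ h _ e _ => e ▸ h)

theorem crd_lc {a : Y} (x : D.Tot) (ha : x.y ∈ D.N a) : ∀ᶠ x' in 𝓝 x, crd a x' = crd a x :=
  (ev_iff x).2 ((ev_crd x ha).mono fun _ h x' e k => (h x' e).1 k)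

theorem contAt {A : Type} [TopologicalSpace A] {s : A → D.Tot} {t : A} {a : Y}
    (h1 : ContinuousAt (fun u => (s u).y) t) (ha : (s t).y ∈ D.N a)
    (h2 : ∀ᶠ u in 𝓝 t, crd a (s u) = crd a (s t)) : ContinuousAt s t := by
  intro S hS
  exact ((h1.eventually ((ev_iff (s t)).1 hS)).and ((h1.eventually (ev_crd (s t) ha)).and h2)).mono
    fun _ k => k.1 _ rfl ((k.2.1 _ rfl).2 k.2.2)

instance : MulAction G D.Tot where
  smul γ x := ⟨x.y, x.hy, γ * x.c⟩
  one_smul _ := Tot.ext rfl (one_mul _)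
  mul_smul _ _ _ := Tot.ext rfl (mul_assoc _ _ _)

theorem smul_y (γ : G) (x : D.Tot) : (γ • x).y = x.y := rfl

theorem smul_c (γ : G) (x : D.Tot) : (γ • x).c = γ * x.c := rfl

theorem crd_smul (a : Y) (γ : G) (x : D.Tot) : crd a (γ • x) = γ * crd a x := mul_assoc _ _ _

theorem cont_smul (γ : G) : Continuous fun x : D.Tot => γ • x :=
  continuous_iff_continuousAt.2 fun x => contAt (a := x.y) cont_y.continuousAt x.mem
    ((crd_lc x x.mem).mono fun x' h => by rw [crd_smul, crd_smul, h])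

/-- the flat section over `N a` -/
def sec (D : Coc U G) (a : Y) (k : G) (t : D.N a) : D.Tot := ⟨t, D.sub a t.2, k * D.g a t t⟩

theorem crd_sec (a : Y) (k : G) (t : D.N a) : crd a (D.sec a k t) = k := by
  change k * D.g a t t * D.g t a t = k
  rw [mul_assoc, D.coc _ _ _ _ t.2 (D.mem _ (D.sub a t.2)) t.2, D.one t.2, mul_one]

theorem sec_crd {a : Y} (x : D.Tot) (ha : x.y ∈ D.N a) : D.sec a (crd a x) ⟨x.y, ha⟩ = x :=
  Tot.ext rfl ((crd_ch ha x.mem).symm.trans (crd_self x))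

theorem cont_sec (a : Y) (k : G) : Continuous (D.sec a k) :=
  continuous_iff_continuousAt.2 fun t => contAt (a := a) continuous_subtype_val.continuousAt t.2
    (Eventually.of_forall fun _ => by rw [crd_sec, crd_sec])

theorem sheet {a : Y} {W : Set Y} (hW : IsPreconnected W) (hs : W ⊆ D.N a) (k : G) {t t' : Y}
    (ht : t ∈ W) (ht' : t' ∈ W) :
    D.sec a k ⟨t', hs ht'⟩ ∈ connectedComponent (D.sec a k ⟨t, hs ht⟩) := by
  have := Subtype.preconnectedSpace hW
  have h := isPreconnected_range ((cont_sec a k).comp (continuous_inclusion hs))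
  exact h.subset_connectedComponent ⟨⟨t, ht⟩, rfl⟩ ⟨⟨t', ht'⟩, rfl⟩

theorem sheet' {x₀ : D.Tot} {a : Y} {W : Set Y} (hW : IsPreconnected W) (hs : W ⊆ D.N a) {k : G}
    {t t' : Y} (ht : t ∈ W) (ht' : t' ∈ W) (h : D.sec a k ⟨t, hs ht⟩ ∈ connectedComponent x₀) :
    D.sec a k ⟨t', hs ht'⟩ ∈ connectedComponent x₀ :=
  connectedComponent_eq h ▸ sheet hW hs k ht ht'

theorem even [TopologicalSpace G] [DiscreteTopology G] (x₀ : D.Tot) {a : Y} {W : Set Y}
    (hW : IsPreconnected W) (ho : IsOpen W) (hs : W ⊆ D.N a) (ha : a ∈ W) :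
    IsEvenlyCovered (fun x : connectedComponent x₀ => x.1.y) a
      {k : G // D.sec a k ⟨a, hs ha⟩ ∈ connectedComponent x₀} := by
  refine ⟨inferInstance, W, ha, ho, ho.preimage (cont_y.comp continuous_subtype_val),
    { toFun := fun x => (⟨x.1.1.y, x.2⟩, ⟨crd a x.1.1, sheet' hW hs x.2 ha
        ((sec_crd x.1.1 (hs x.2)).symm ▸ x.1.2)⟩)
      invFun := fun q => ⟨⟨D.sec a q.2.1 ⟨q.1.1, hs q.1.2⟩, sheet' hW hs ha q.1.2 q.2.2⟩, q.1.2⟩
      left_inv := fun x => Subtype.ext (Subtype.ext (sec_crd x.1.1 (hs x.2)))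
      right_inv := fun q => Prod.ext rfl (Subtype.ext (crd_sec _ _ _))
      continuous_toFun := ?_
      continuous_invFun := ?_ }, fun _ => rfl⟩
  · have hv : Continuous fun x : (fun x : connectedComponent x₀ => x.1.y) ⁻¹' W => x.1.1 :=
      continuous_subtype_val.comp continuous_subtype_val
    refine ((cont_y.comp hv).subtype_mk _).prodMk (Continuous.subtype_mk ?_ _)
    exact continuous_iff_continuousAt.2 fun x => continuousAt_const.congr
      ((hv.continuousAt.eventually (crd_lc x.1.1 (hs x.2))).mono fun _ h => h.symm)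
  · refine (Continuous.subtype_mk ?_ _).subtype_mk _
    exact continuous_prod_of_discrete_right.2 fun k =>
      (cont_sec a k.1).comp (continuous_inclusion hs)

theorem nbhd [LocallyConnectedSpace Y] (D : Coc U G) {a : Y} (ha : a ∈ U) :
    ∃ W : Set Y, IsPreconnected W ∧ IsOpen W ∧ W ⊆ D.N a ∧ a ∈ W :=
  ⟨connectedComponentIn (D.N a) a, isPreconnected_connectedComponentIn,
    (D.opn a).connectedComponentIn, connectedComponentIn_subset _ _,
    mem_connectedComponentIn (D.mem a ha)⟩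

theorem cov [LocallyConnectedSpace Y] (x₀ : D.Tot) :
    IsCoveringMapOn (fun x : connectedComponent x₀ => x.1.y) U := by
  intro a ha
  obtain ⟨W, h1, h2, h3, h4⟩ := D.nbhd ha
  let _ : TopologicalSpace G := ⊥
  have : DiscreteTopology G := ⟨rfl⟩
  exact (even x₀ h1 h2 h3 h4).to_isEvenlyCovered_preimage

theorem surj [LocallyConnectedSpace Y] (hU : IsPreconnected U) (x₀ : D.Tot) {y : Y} (hy : y ∈ U) :
    ∃ x : connectedComponent x₀, x.1.y = y := by
  refine hU.induction₂' (fun t t' => (∃ x : connectedComponent x₀, x.1.y = t) →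
    ∃ x : connectedComponent x₀, x.1.y = t') (fun a ha => ?_)
    (fun _ _ _ _ _ _ h h' k => h' (h k)) x₀.hy hy ⟨⟨x₀, mem_connectedComponent⟩, rfl⟩
  obtain ⟨W, h1, h2, h3, h4⟩ := D.nbhd ha
  have key : ∀ t ∈ W, ∀ t' ∈ W, (∃ x : connectedComponent x₀, x.1.y = t) →
      ∃ x : connectedComponent x₀, x.1.y = t' := by
    rintro _ ht t' ht' ⟨x, rfl⟩
    exact ⟨⟨_, sheet' h1 h3 ht ht' ((sec_crd x.1 (h3 ht)).symm ▸ x.2)⟩, rfl⟩
  filter_upwards [mem_nhdsWithin_of_mem_nhds (h2.mem_nhds h4)] with t ht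
  exact ⟨key a h4 t ht, key t ht a h4⟩

theorem smul_mem {x₀ x x' : D.Tot} {γ : G} (hx : x ∈ connectedComponent x₀)
    (h : γ • x ∈ connectedComponent x₀) (hx' : x' ∈ connectedComponent x₀) :
    γ • x' ∈ connectedComponent x₀ := by
  rw [connectedComponent_eq h]
  exact (cont_smul γ).mapsTo_connectedComponent x (connectedComponent_eq hx ▸ hx')

/-- the stabiliser of a component -/
def stab (x₀ : D.Tot) : Subgroup G where
  carrier := {γ | γ • x₀ ∈ connectedComponent x₀}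
  one_mem' := by simpa using mem_connectedComponent
  mul_mem' ha hb := by
    change _ ∈ connectedComponent x₀
    rw [mul_smul]
    exact smul_mem mem_connectedComponent ha hb
  inv_mem' ha := smul_mem ha (by simpa using mem_connectedComponent) mem_connectedComponent

/-- its action on the component -/
@[reducible] def act (x₀ : D.Tot) : MulAction (stab x₀) (connectedComponent x₀) where
  smul γ x := ⟨γ.1 • x.1, smul_mem mem_connectedComponent γ.2 x.2⟩
  one_smul x := Subtype.ext (one_smul G x.1)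
  mul_smul γ γ' x := Subtype.ext (mul_smul γ.1 γ'.1 x.1)

/-- the covering -/
def cv [LocallyConnectedSpace Y] (hU : IsPreconnected U) (x₀ : D.Tot) : Cv Y U where
  X := connectedComponent x₀
  conn := Subtype.connectedSpace isConnected_connectedComponent
  π x := x.1.y
  cov := cov x₀
  mem x := x.1.hy
  surj _ hy := surj hU x₀ hy
  Γ := stab x₀
  act := act x₀
  csm γ := ((cont_smul γ.1).comp continuous_subtype_val).subtype_mk _
  inv _ _ := rfl
  tr x x' h := by
    have e : (x'.1.c * x.1.c⁻¹) • x.1 = x'.1 := Tot.ext h (inv_mul_cancel_right _ _)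
    exact ⟨⟨_, smul_mem x.2 (e.symm ▸ x'.2) mem_connectedComponent⟩, Subtype.ext e.symm⟩

theorem exists_cv [LocallyConnectedSpace Y] (D : Coc U G) (hU : IsConnected U) :
    ∃ (C : Cv Y U) (ρ : C.Γ →* G) (c : C.X → G), Function.Injective ρ ∧
      (∀ (γ : C.Γ) x, c (γ • x) = ρ γ * c x) ∧ ∀ x a, C.π x ∈ D.N a → ∀ᶠ x' in 𝓝 x,
        c x' * D.g (C.π x') a (C.π x') = c x * D.g (C.π x) a (C.π x) := by
  obtain ⟨y, hy⟩ := hU.nonempty
  exact ⟨cv hU.isPreconnected ⟨y, hy, 1⟩, (stab _).subtype, fun x => x.1.c, Subtype.val_injective,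
    fun _ _ => rfl, fun x a ha => continuous_subtype_val.continuousAt.eventually (crd_lc x.1 ha)⟩

end Coc

end Vale.Agent.P281Z.Hm
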