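import Vale.Agent.P281Z.Hm.Div
import Vale.Agent.P281Z.Hm.Tor

/-!
# P281Z, descent of periodic holomorphic functions to the polydisc (DESC)
-/

open scoped Topology
open Filter Set Metric Complex

noncomputable section

namespace Vale.Agent.P281Z.Hm

namespace DescH

variable {p : ℕ} {K : Finset (Fin p)} {a : ℕ}

theorem norm_e (a : ℕ) (t : ℂ) :
    ‖exp (2 * Real.pi * I * t / a)‖ = Real.exp (-(2 * Real.pi / a * t.im)) := by
  have e : 2 * Real.pi * I * t / a = ((2 * Real.pi / a : ℝ) : ℂ) * (I * t) := by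
    push_cast
    ring
  rw [norm_exp, e, re_ofReal_mul]
  simp

theorem e_log (ha : 0 < a) {s : ℂ} (hs : s ≠ 0) (c : ℂ) :
    exp (2 * Real.pi * I * (c + a * log s / (2 * Real.pi * I)) / a) =
      exp (2 * Real.pi * I * c / a) * s := by
  have h1 : (a : ℂ) ≠ 0 := Nat.cast_ne_zero.2 ha.ne'
  have h2 := two_pi_I_ne_zero
  rw [← exp_log hs, ← exp_add, exp_log hs]
  congr 1
  field_simp

theorem mem_dm (ha : 0 < a) {ζ : Fin p → ℂ} : ζ ∈ Dm K ↔ ex K a ζ ∈ ball (0 : Fin p → ℂ) 1 := by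
  have hc : 0 < 2 * Real.pi / a := by positivity
  rw [mem_ball_zero_iff, pi_norm_lt_iff one_pos]
  refine ⟨fun h i => ?_, fun h => ⟨fun i hi => ?_, fun i hi => ?_⟩⟩
  · unfold ex
    split_ifs with hi
    · rw [norm_e a, Real.exp_lt_one_iff, neg_lt_zero]
      exact mul_pos hc (h.1 i hi)
    · exact h.2 i hi
  · have := h i
    rw [ex, if_pos hi, norm_e a, Real.exp_lt_one_iff, neg_lt_zero] at this
    exact (mul_pos_iff_of_pos_left hc).1 this
  · have := h i
    rwa [ex, if_neg hi] at this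

/-- the branch of the inverse of `ex` through `c` at `s` -/
def lb (K : Finset (Fin p)) (a : ℕ) (c s σ : Fin p → ℂ) : Fin p → ℂ :=
  fun i => if i ∈ K then c i + a * log (σ i / s i) / (2 * Real.pi * I) else σ i

theorem ex_lb (ha : 0 < a) {c s σ : Fin p → ℂ} (hs : ∀ i ∈ K, ex K a c i = s i)
    (hσ : ∀ i ∈ K, σ i ≠ 0) : ex K a (lb K a c s σ) = σ := by
  funext i
  unfold ex lb
  split_ifs with hi
  · have h1 := hs i hi
    rw [ex, if_pos hi] at h1
    have h2 : s i ≠ 0 := h1 ▸ exp_ne_zero _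
    rw [e_log ha (div_ne_zero (hσ i hi) h2), h1, mul_div_cancel₀ _ h2]
  · rfl

/-- periodic functions only depend on `ex` -/
theorem per_eq {F : Type} {G : (Fin p → ℂ) → F} (ha : 0 < a)
    (per : ∀ i ∈ K, ∀ ζ ∈ Dm K, G (ζ + Pi.single i (a : ℂ)) = G ζ) {ζ ζ' : Fin p → ℂ}
    (hζ : ζ ∈ Dm K) (e : ex K a ζ' = ex K a ζ) : G ζ' = G ζ := by
  have hk : ∀ i ∈ K, ∃ k : ℤ, ζ' i = ζ i + k * a := fun i hi => by
    have h := congrFun e i
    rw [ex, ex, if_pos hi, if_pos hi, exp_eq_exp_iff_exists_int] at h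
    obtain ⟨k, h⟩ := h
    have h1 : (a : ℂ) ≠ 0 := Nat.cast_ne_zero.2 ha.ne'
    refine ⟨k, mul_left_cancel₀ two_pi_I_ne_zero ?_⟩
    rw [div_eq_iff h1, add_mul, div_mul_cancel₀ _ h1] at h
    rw [h]
    ring
  have key : ∀ S : Finset (Fin p), S ⊆ K → S.piecewise ζ' ζ ∈ Dm K ∧ G (S.piecewise ζ' ζ) = G ζ := by
    intro S
    induction S using Finset.induction_on with
    | empty => exact fun _ => ⟨hζ, rfl⟩
    | insert j S hj ih =>
      intro hS
      have hjK := hS (Finset.mem_insert_self j S)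
      obtain ⟨h1, h2⟩ := ih ((Finset.subset_insert j S).trans hS)
      obtain ⟨k, hk⟩ := hk j hjK
      have h3 : ∀ x : ℝ, 0 < (ζ j + x).im := fun x => by simpa using hζ.1 j hjK
      have h4 : Function.Periodic
          (fun x : ℝ => G (Function.update (S.piecewise ζ' ζ) j (ζ j + x))) a := fun x => by
        refine Eq.trans (congrArg G ?_) (per j hjK _ (TorH.upd_mem h1 hjK (h3 x)))
        rw [TorH.upd_add]
        congr 1
        push_cast
        ring
      have h5 := h4.int_mul_eq k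
      have h6 : ζ' j = ζ j + ((k * a : ℝ) : ℂ) := by rw [hk]; push_cast; rfl
      rw [Finset.piecewise_insert, h6]
      refine ⟨TorH.upd_mem h1 hjK (h3 _), h5.trans (Eq.trans (congrArg G ?_) h2)⟩
      rw [ofReal_zero, add_zero, ← Finset.piecewise_eq_of_notMem S ζ' ζ hj,
        Function.update_eq_self]
  refine Eq.trans (congrArg G (funext fun i => ?_)) (key K subset_rfl).2
  by_cases hi : i ∈ K
  · rw [Finset.piecewise_eq_of_mem _ _ _ hi]
  · have h := congrFun e i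
    rw [ex, ex, if_neg hi, if_neg hi] at h
    rw [Finset.piecewise_eq_of_notMem _ _ _ hi, h]

theorem ex_zero (i : Fin p) (hi : i ∈ K) : ex K a 0 i = (1 : Fin p → ℂ) i := by simp [ex, hi]

theorem lb_diff {c s : Fin p → ℂ} (hs : ∀ i ∈ K, s i ≠ 0) : DifferentiableAt ℂ (lb K a c s) s := by
  refine differentiableAt_pi.2 fun i => ?_
  unfold lb
  split_ifs with hi
  · have h : DifferentiableAt ℂ (fun σ : Fin p → ℂ => log (σ i / s i)) s :=
      DifferentiableAt.clog (by simp only [div_eq_mul_inv]; fun_prop)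
        (by rw [div_self (hs i hi)]; exact one_mem_slitPlane)
    simp only [div_eq_mul_inv _ (2 * Real.pi * I : ℂ)]
    exact ((h.const_mul _).mul_const _).const_add _
  · fun_prop

theorem ex_diff (ζ : Fin p → ℂ) (i : Fin p) : DifferentiableAt ℂ (fun ζ => ex K a ζ i) ζ := by
  unfold ex
  split_ifs <;> fun_prop

theorem lb_st (ha : 0 < a) {η : ℝ} {σ : Fin p → ℂ} (hσ : ∀ i ∈ K, σ i ≠ 0)
    (h1 : ‖σ‖ ≤ Real.exp (-(2 * Real.pi / a * η))) (h2 : ‖σ‖ ≤ 1 - η) :
    lb K a 0 1 σ ∈ St K a η := by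
  have hc : 0 < 2 * Real.pi / a := by positivity
  refine ⟨⟨fun i hi => ?_, fun i hi => ?_⟩, fun i hi => ?_⟩
  · have h := (norm_le_pi_norm σ i).trans h1
    rw [← ex_lb ha (K := K) ex_zero hσ, ex, if_pos hi, norm_e a, Real.exp_le_exp,
      neg_le_neg_iff] at h
    exact le_of_mul_le_mul_left h hc
  · rw [lb, if_neg hi]
    exact (norm_le_pi_norm σ i).trans h2
  · have e : lb K a 0 1 σ i = ((a / (2 * Real.pi) : ℝ) : ℂ) * (-I * log (σ i)) := by
      have := two_pi_I_ne_zero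
      rw [lb, if_pos hi, Pi.zero_apply, Pi.one_apply, div_one, zero_add, div_eq_iff this]
      have h3 : (Real.pi : ℂ) ≠ 0 := ofReal_ne_zero.2 Real.pi_ne_zero
      push_cast
      field_simp
      rw [I_sq]
      ring
    have h3 : (-I * log (σ i)).re = arg (σ i) := by simp [log_im]
    have h4 := Real.pi_pos
    rw [e, re_ofReal_mul, h3, abs_mul, abs_of_nonneg (by positivity), div_mul_eq_mul_div,
      div_le_iff₀ (by positivity)]
    exact mul_le_mul_of_nonneg_left ((abs_arg_le_pi _).trans (by linarith)) (Nat.cast_nonneg a)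

end DescH

open DescH in
/-- **DESC** -/
theorem stDesc : StDesc := by
  intro n _ p K a F M ha hF per hb
  let G : (Fin p → ℂ) → n → ℂ := fun ζ => (∏ i ∈ K, ex K a ζ i ^ M) • F ζ
  have hG : ∀ ζ ∈ Dm K, ∀ ζ', ex K a ζ' = ex K a ζ → G ζ' = G ζ := fun ζ hζ ζ' e => by
    simp only [G, e, per_eq ha per hζ e]
  have hd : ∀ ζ ∈ Dm K, DifferentiableAt ℂ G ζ := fun ζ hζ =>
    (HasFDerivAt.finsetProd fun i _ => ((ex_diff ζ i).fun_pow M).hasFDerivAt).differentiableAt.fun_smul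
      (hF ζ hζ).differentiableAt
  have h1 : ∀ σ : Fin p → ℂ, ∏ i ∈ K, σ i ≠ 0 → ex K a (lb K a 0 1 σ) = σ := fun σ h =>
    ex_lb ha ex_zero (Finset.prod_ne_zero_iff.1 h)
  obtain ⟨φ, h2, h3⟩ := DivH.riem (g := fun σ : Fin p → ℂ => ∏ i ∈ K, σ i)
    (u := fun σ => G (lb K a 0 1 σ)) isOpen_ball (by fun_prop) (DivH.dense_ne K)
    (fun s hs h0 => by
      have e1 : ∀ i ∈ K, ex K a (lb K a 0 1 s) i = s i := fun i _ => congrFun (h1 s h0) i
      have e2 := ex_lb ha e1 (Finset.prod_ne_zero_iff.1 h0)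
      refine ((hd _ ((mem_dm ha).2 (e2.symm ▸ hs))).comp s
        (lb_diff (c := lb K a 0 1 s) (Finset.prod_ne_zero_iff.1 h0))).congr_of_eventuallyEq ?_
      have hc : ContinuousAt (fun σ : Fin p → ℂ => ∏ i ∈ K, σ i) s := by fun_prop
      filter_upwards [hc.eventually_ne h0, isOpen_ball.mem_nhds hs] with σ b c
      have e3 := ex_lb ha e1 (Finset.prod_ne_zero_iff.1 b)
      exact hG _ ((mem_dm ha).2 (e3.symm ▸ c)) _ ((h1 σ b).trans e3.symm))
    fun q hq => by
      have hq' := mem_ball_zero_iff.1 hq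
      have c1 : ContinuousAt (fun η : ℝ => Real.exp (-(2 * Real.pi / a * η))) 0 := by fun_prop
      have c2 : ContinuousAt (fun η : ℝ => 1 - η) 0 := by fun_prop
      obtain ⟨η, ⟨b1, b2⟩, hη⟩ := ((((c1.eventually (lt_mem_nhds (a := ‖q‖) (by simpa using hq'))).and
        (c2.eventually (lt_mem_nhds (a := ‖q‖) (by simpa using hq')))).filter_mono
          (nhdsWithin_le_nhds (s := Ioi 0))).and self_mem_nhdsWithin).exists
      obtain ⟨B, hB⟩ := hb η hη
      refine ⟨B, ?_⟩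
      filter_upwards [continuous_norm.continuousAt.eventually (gt_mem_nhds b1),
        continuous_norm.continuousAt.eventually (gt_mem_nhds b2)] with σ d1 d2 d3
      exact hB _ (lb_st ha (Finset.prod_ne_zero_iff.1 d3) d1.le d2.le)
  refine ⟨φ, h2, fun ζ hζ => ?_⟩
  have h0 : ∏ i ∈ K, ex K a ζ i ≠ 0 := Finset.prod_ne_zero_iff.2 fun i hi => by
    rw [ex, if_pos hi]
    exact exp_ne_zero _
  exact (h3 _ ((mem_dm ha).1 hζ) h0).trans (hG ζ hζ _ (h1 _ h0))

end Vale.Agent.P281Z.Hm
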