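import Vale.Agent.P281Z.Hm.Sk
import Vale.Agent.P267.H338.Riem

/-!
# P281Z, the global Riemann extension theorem and division by monomials (DIV)
-/

open scoped Topology
open Filter Set Metric

noncomputable section

namespace Vale.Agent.P281Z.Hm

namespace DivH

/-- the Riemann extension theorem on an open set -/
theorem riem {E F : Type} [NormedAddCommGroup E] [NormedSpace ℂ E] [FiniteDimensional ℂ E]
    [NormedAddCommGroup F] [NormedSpace ℂ F] [CompleteSpace F] {g : E → ℂ} {u : E → F} {V : Set E}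
    (hV : IsOpen V) (hg : DifferentiableOn ℂ g V) (hne : Dense {x | g x ≠ 0})
    (hu : ∀ x ∈ V, g x ≠ 0 → DifferentiableAt ℂ u x)
    (hb : ∀ q ∈ V, ∃ C : ℝ, ∀ᶠ x in 𝓝 q, g x ≠ 0 → ‖u x‖ ≤ C) :
    ∃ U : E → F, AnalyticOnNhd ℂ U V ∧ ∀ x ∈ V, g x ≠ 0 → U x = u x := by
  refine ⟨extendFrom {x | g x ≠ 0} u, fun q hq => ?_, fun x hx h0 =>
    extendFrom_eq (hne x) ((hu x hx h0).continuousAt.tendsto.mono_left nhdsWithin_le_nhds)⟩
  obtain ⟨C, hC⟩ := hb q hq
  obtain ⟨O, hO, ho, hqO⟩ := _root_.eventually_nhds_iff.1 (hC.and (hV.eventually_mem hq))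
  obtain ⟨W, hW, hqW, -, U, hU, e⟩ := P267.H338.riemann_extension (u := u) (C := C) ho hqO
    (hg.mono fun x hx => (hO x hx).2) (mem_closure_iff_frequently.1 (hne q))
    (fun x hx => (hu x (hO x hx.1).2 hx.2).differentiableWithinAt) fun x hx => (hO x hx).1
  refine (P268.analyticAt_of_differentiableOn hW hU hqW).congr ?_
  filter_upwards [hW.mem_nhds hqW] with x hx
  refine (extendFrom_eq (hne x) (((hU.continuousOn.continuousAt (hW.mem_nhds hx)).tendsto.mono_left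
    nhdsWithin_le_nhds).congr' ?_)).symm
  filter_upwards [self_mem_nhdsWithin, mem_nhdsWithin_of_mem_nhds (hW.mem_nhds hx)] with y h1 h2
    using e y h2 h1

variable {p : ℕ} {F : Type} [NormedAddCommGroup F] [NormedSpace ℂ F] [CompleteSpace F]

theorem dense_ne (K : Finset (Fin p)) : Dense {σ : Fin p → ℂ | ∏ i ∈ K, σ i ≠ 0} :=
  Dense.mono (s₁ := Set.pi univ fun _ => {0}ᶜ)
    (fun _ h => Finset.prod_ne_zero_iff.2 fun i _ => h i (mem_univ i))
    (dense_pi univ fun _ _ => dense_compl_singleton (0 : ℂ))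

theorem upd_ball {σ : Fin p → ℂ} (hσ : σ ∈ ball (0 : Fin p → ℂ) 1) (i : Fin p) {t : ℂ}
    (ht : ‖t‖ < 1) : Function.update σ i t ∈ ball (0 : Fin p → ℂ) 1 := by
  rw [mem_ball_zero_iff, pi_norm_lt_iff one_pos] at hσ ⊢
  intro j
  rcases eq_or_ne j i with rfl | h
  · rwa [Function.update_self]
  · rw [Function.update_of_ne h]
    exact hσ j

/-- division by one coordinate -/
theorem div1 {φ : (Fin p → ℂ) → F} (hφ : AnalyticOnNhd ℂ φ (ball 0 1)) (i : Fin p)
    (h0 : ∀ σ ∈ ball (0 : Fin p → ℂ) 1, σ i = 0 → φ σ = 0) :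
    ∃ ψ : (Fin p → ℂ) → F, AnalyticOnNhd ℂ ψ (ball 0 1) ∧
      ∀ σ ∈ ball (0 : Fin p → ℂ) 1, φ σ = σ i • ψ σ := by
  have hu : ∀ x ∈ ball (0 : Fin p → ℂ) 1, x i ≠ 0 →
      DifferentiableAt ℂ (fun σ : Fin p → ℂ => (σ i)⁻¹ • φ σ) x := fun x hx h =>
    (DifferentiableAt.inv (h := fun σ : Fin p → ℂ => σ i) (differentiableAt_apply i x) h).smul
      (hφ x hx).differentiableAt
  obtain ⟨ψ, h1, h2⟩ := riem (g := fun σ : Fin p → ℂ => σ i) (u := fun σ => (σ i)⁻¹ • φ σ)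
    isOpen_ball (by fun_prop) (by simpa using dense_ne {i}) hu fun q hq => by
      rcases eq_or_ne (q i) 0 with h | h
      · obtain ⟨L, t, ht, hL⟩ := ((hφ q hq).contDiffAt (n := 1)).exists_lipschitzOnWith
        have hc : Tendsto (fun x : Fin p → ℂ => Function.update x i 0) (𝓝 q) (𝓝 q) := by
          have : ContinuousAt (fun x : Fin p → ℂ => Function.update x i 0) q := by fun_prop
          rwa [ContinuousAt, ← h, Function.update_eq_self, h] at this
        refine ⟨L, ?_⟩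
        filter_upwards [ht, hc.eventually_mem ht, isOpen_ball.mem_nhds hq] with x a b c d
        have h3 := hL.norm_sub_le a b
        have h4 : ‖x - Function.update x i 0‖ ≤ ‖x i‖ :=
          (pi_norm_le_iff_of_nonneg (norm_nonneg _)).2 fun j => by
            rcases eq_or_ne j i with rfl | e
            · simp
            · simp [e]
        rw [h0 _ (upd_ball c i (by simp)) (Function.update_self ..), sub_zero] at h3
        rw [norm_smul, norm_inv, inv_mul_le_iff₀ (norm_pos_iff.2 d), mul_comm]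
        exact h3.trans (mul_le_mul_of_nonneg_left h4 L.2)
      · exact ⟨_, ((hu q hq h).continuousAt.norm.eventually (gt_mem_nhds (lt_add_one _))).mono
          fun x hx _ => hx.le⟩
  refine ⟨ψ, h1, fun σ hσ => ?_⟩
  rcases eq_or_ne (σ i) 0 with h | h
  · rw [h0 σ hσ h, h, zero_smul]
  · rw [h2 σ hσ h, smul_inv_smul₀ h]

theorem ord {σ₀ : Fin p → ℂ} (h₀ : σ₀ ∈ ball (0 : Fin p → ℂ) 1) (i : Fin p) {g : ℂ → F}
    (hg : ContinuousAt g 0) (hg0 : g 0 ≠ 0) (m : ℕ) : ∀ φ : (Fin p → ℂ) → F,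
    AnalyticOnNhd ℂ φ (ball 0 1) → (∀ᶠ t in 𝓝[≠] (0 : ℂ), φ (Function.update σ₀ i t) = t ^ m • g t) →
    ∃ (k : ℕ) (ψ : (Fin p → ℂ) → F), AnalyticOnNhd ℂ ψ (ball 0 1) ∧
      (∀ σ ∈ ball (0 : Fin p → ℂ) 1, φ σ = σ i ^ k • ψ σ) ∧
      ∃ σ ∈ ball (0 : Fin p → ℂ) 1, σ i = 0 ∧ ψ σ ≠ 0 := by
  have hm : Function.update σ₀ i 0 ∈ ball (0 : Fin p → ℂ) 1 := upd_ball h₀ i (by simp)
  induction m with
  | zero =>
    intro φ hφ h
    refine ⟨0, φ, hφ, fun σ _ => by simp, _, hm, Function.update_self .., ?_⟩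
    have hc : ContinuousAt (fun t : ℂ => φ (Function.update σ₀ i t)) 0 :=
      ContinuousAt.comp (f := fun t : ℂ => Function.update σ₀ i t) (hφ _ hm).continuousAt
        (by fun_prop)
    exact (tendsto_nhds_unique_of_eventuallyEq (hc.tendsto.mono_left nhdsWithin_le_nhds)
      (hg.tendsto.mono_left nhdsWithin_le_nhds) (h.mono fun t ht => by simpa using ht)).trans_ne hg0
  | succ m ih =>
    intro φ hφ h
    by_cases e : ∃ σ ∈ ball (0 : Fin p → ℂ) 1, σ i = 0 ∧ φ σ ≠ 0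
    · exact ⟨0, φ, hφ, fun σ _ => by simp, e⟩
    obtain ⟨φ₁, h1, h2⟩ := div1 hφ i fun σ a b => not_not.1 fun c => e ⟨σ, a, b, c⟩
    obtain ⟨k, ψ, h3, h4, h5⟩ := ih φ₁ h1 (by
      filter_upwards [h, self_mem_nhdsWithin,
        mem_nhdsWithin_of_mem_nhds (ball_mem_nhds (0 : ℂ) one_pos)] with t a b c
      rw [h2 _ (upd_ball h₀ i (mem_ball_zero_iff.1 c)), Function.update_self, pow_succ',
        mul_smul] at a
      exact smul_right_injective F b a)
    exact ⟨k + 1, ψ, h3, fun σ hσ => by rw [h2 σ hσ, h4 σ hσ, pow_succ', mul_smul], h5⟩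

theorem divk {φ : (Fin p → ℂ) → F} (hφ : AnalyticOnNhd ℂ φ (ball 0 1)) (i : Fin p)
    {σ₀ : Fin p → ℂ} (h₀ : σ₀ ∈ ball (0 : Fin p → ℂ) 1) (hne : φ σ₀ ≠ 0) :
    ∃ (k : ℕ) (ψ : (Fin p → ℂ) → F), AnalyticOnNhd ℂ ψ (ball 0 1) ∧
      (∀ σ ∈ ball (0 : Fin p → ℂ) 1, φ σ = σ i ^ k • ψ σ) ∧
      ∃ σ ∈ ball (0 : Fin p → ℂ) 1, σ i = 0 ∧ ψ σ ≠ 0 := by
  have ha : AnalyticOnNhd ℂ (fun t : ℂ => φ (Function.update σ₀ i t)) (ball 0 1) :=
    DifferentiableOn.analyticOnNhd (fun t ht => (DifferentiableAt.comp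
      (f := fun t : ℂ => Function.update σ₀ i t) t
      (hφ _ (upd_ball h₀ i (mem_ball_zero_iff.1 ht))).differentiableAt
      (hasFDerivAt_update σ₀ t).differentiableAt).differentiableWithinAt) isOpen_ball
  have hi : σ₀ i ∈ ball (0 : ℂ) 1 :=
    mem_ball_zero_iff.2 ((norm_le_pi_norm σ₀ i).trans_lt (mem_ball_zero_iff.1 h₀))
  obtain ⟨m, g, h1, h2, h3⟩ :=
    (ha 0 (mem_ball_self one_pos)).exists_eventuallyEq_pow_smul_nonzero_iff.2 fun h => hne (by
      simpa using ha.eqOn_zero_of_preconnected_of_eventuallyEq_zero (convex_ball _ _).isPreconnected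
        (mem_ball_self one_pos) h hi)
  exact ord h₀ i h1.continuousAt h2 m φ hφ
    ((h3.filter_mono nhdsWithin_le_nhds).mono fun t ht => by simpa using ht)

end DivH

/-- **DIV** -/
theorem stDiv : StDiv := by
  intro n _ p K φ hφ ⟨σ₀, h₀, hne⟩
  induction K using Finset.induction_on with
  | empty => exact ⟨0, φ, hφ, fun σ _ => by simp, by simp⟩
  | insert j S hj ih =>
    obtain ⟨β, φ', h1, h2, h3⟩ := ih
    obtain ⟨k, ψ, h4, h5, h6⟩ := DivH.divk h1 j h₀ fun e => hne (by rw [h2 σ₀ h₀, e, smul_zero])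
    refine ⟨Function.update β j k, ψ, h4, fun σ hσ => ?_, fun i hi => ?_⟩
    · rw [Finset.prod_insert hj, Function.update_self, h2 σ hσ, h5 σ hσ, smul_smul, mul_comm]
      congr 2
      exact Finset.prod_congr rfl fun i hi => by
        rw [Function.update_of_ne fun e : i = j => hj (e ▸ hi)]
    · rcases Finset.mem_insert.1 hi with rfl | hi
      · exact h6
      · obtain ⟨σ, a, b, c⟩ := h3 i hi
        exact ⟨σ, a, b, fun e => c (by rw [h5 σ a, e, smul_zero])⟩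

end Vale.Agent.P281Z.Hm
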