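import Vale.Agent.P281Z.Hm.Id
import Mathlib.Analysis.SpecialFunctions.Complex.Analytic

/-!
# P281Z, the Levi form of the logarithm of a determinant
-/

open scoped Matrix.Norms.Operator Topology ComplexConjugate
open Filter Set Matrix Complex

noncomputable section

namespace Vale.Agent.P281Z.Hm

theorem an_log_ne {E : Type} [NormedAddCommGroup E] [NormedSpace ℝ E] {a : E → ℝ} {z : E}
    (ha : AnalyticAt ℝ a z) (h0 : a z ≠ 0) : AnalyticAt ℝ (fun x => Real.log (a x)) z := by
  rcases h0.lt_or_gt with h | h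
  · exact ((analyticAt_log (neg_pos.2 h)).comp_of_eq ha.neg rfl).congr
      (.of_forall fun x => Real.log_neg_eq_log (a x))
  · exact (analyticAt_log h).comp ha

theorem stGram : StGram := fun k _ _ E _ _ _ _ g z hg hH h0 => by
  have e1 : ∀ᶠ x in 𝓝 z, (((g x).det.re : ℝ) : ℂ) = (g x).det := hH.mono fun x hx =>
    conj_eq_iff_re.1 ((det_conjTranspose (g x)).symm.trans (congrArg det hx.eq))
  have e2 : (fun x => Real.log (g x).det.re) =ᶠ[𝓝 z] fun x => Real.log ‖(g x).det‖ :=
    e1.mono fun x hx => by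
      have e : ‖(g x).det‖ = |(g x).det.re| := by
        rw [← Real.norm_eq_abs, ← norm_real, hx]
      simp only [e, Real.log_abs]
  have h1 : ∀ {c : ℂ}, ((c.re : ℝ) : ℂ) = c → c ≠ 0 → c.re ≠ 0 := fun e hc h =>
    hc (by rw [← e, h, ofReal_zero])
  have hl := an_log_ne (an_re (an_det hg)) (h1 e1.self_of_nhds h0)
  refine ⟨hl.congr e2, fun v => ?_⟩
  have e3 : wd v (fun x => (Real.log (g x).det.re : ℂ)) =ᶠ[𝓝 z]
      fun x => trace ((g x)⁻¹ * wd v g x) := by
    filter_upwards [hg.eventually_analyticAt, e1.eventually_nhds,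
      (an_det hg).continuousAt.eventually_ne h0] with x a b c
    rw [wd_log (an_re (an_det a)).differentiableAt (h1 b.self_of_nhds c), wd_congr b,
      wd_det a.differentiableAt c, b.self_of_nhds, inv_mul_cancel_left₀ c]
  have d := hg.differentiableAt
  have d' := (an_wd hg v).differentiableAt
  rw [← levi_congr e2, levi_eq hl.contDiffAt, wb_congr e3, wb_trace (df_mul (df_inv d h0) d'),
    wb_mul (df_inv d h0) d', wb_minv d h0, trace_add, Matrix.neg_mul, trace_neg, neg_add_eq_sub]

end Vale.Agent.P281Z.Hm
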