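import Vale.Agent.P281Z.Hm.Lift
import Vale.Agent.P281Z.Hm.Id

/-!
# P281Z, the limit metric in a chart (LIM)
-/

open scoped Matrix.Norms.Operator Topology Manifold ContDiff
open Filter Set Metric Complex

noncomputable section

namespace Vale.Agent.P281Z.Hm

open DescH LiftH

namespace LimH

variable {p : ℕ} {K : Finset (Fin p)} {b : Fin p}

theorem norm_ex (ζ : Fin p → ℂ) {i : Fin p} (hi : i ∈ K) :
    ‖ex K 1 ζ i‖ = Real.exp (-(2 * Real.pi * (ζ i).im)) := by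
  rw [ex, if_pos hi, norm_e 1, Nat.cast_one, div_one]

theorem im_eq (ζ : Fin p → ℂ) {i : Fin p} (hi : i ∈ K) :
    (ζ i).im = -Real.log ‖ex K 1 ζ i‖ / (2 * Real.pi) := by
  rw [norm_ex ζ hi, Real.log_exp]
  field_simp

theorem exp_sum (r : Fin p → ℝ) (ζ : Fin p → ℂ) :
    Real.exp (-4 * Real.pi * ∑ i ∈ K, r i * (ζ i).im) = ∏ i ∈ K, ‖ex K 1 ζ i‖ ^ (2 * r i) := by
  rw [Finset.mul_sum, Real.exp_sum]
  refine Finset.prod_congr rfl fun i hi => ?_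
  rw [norm_ex ζ hi, ← Real.exp_mul]
  congr 1
  ring

theorem cf0_congr {n : Type} [Fintype n] [DecidableEq n] (Q : Mx n) (w a : ℕ) (N : Fin p → Mx n)
    (φ : (Fin p → ℂ) → n → ℂ) (j : ℕ) {ζ ζ' : Fin p → ℂ} (h : ∀ i, i ≠ b → ζ i = ζ' i) :
    cf0 K Q w a N φ b j ζ = cf0 K Q w a N φ b j ζ' := by
  have e1 : Function.update (ex K a ζ) b 0 = Function.update (ex K a ζ') b 0 := by
    funext i
    rcases eq_or_ne i b with rfl | hi
    · simp
    · simp [hi, ex, h i hi]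
  have e2 : ∑ i ∈ K.erase b, (2 * I * (ζ i).im) • N i =
      ∑ i ∈ K.erase b, (2 * I * (ζ' i).im) • N i :=
    Finset.sum_congr rfl fun i hi => by rw [h i (Finset.ne_of_mem_erase hi)]
  rw [cf0, cf0, cf, cf, e1, e2]

/-- the principal branch -/
def lg (K : Finset (Fin p)) (s : Fin p → ℂ) : Fin p → ℂ := lb K 1 0 1 s

/-- the branch near a point of the component `b` -/
def br (K : Finset (Fin p)) (b : Fin p) (s : Fin p → ℂ) : (Fin p → ℂ) → Fin p → ℂ :=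
  lb K 1 (Function.update (lg K s) b 0) (Function.update s b 1)

variable {s : Fin p → ℂ}

theorem ex_lg (hs : ∀ i ∈ K.erase b, s i ≠ 0) {i : Fin p} (hi : i ≠ b) :
    ex K 1 (lg K s) i = s i := by
  have h := congrFun (ex_lb (K := K.erase b) one_pos (c := 0) (s := 1) ex_zero hs) i
  simpa [ex, lb, lg, hi] using h

theorem ex_br (hs : ∀ i ∈ K.erase b, s i ≠ 0) {σ : Fin p → ℂ} (hσ : ∀ i ∈ K, σ i ≠ 0) :
    ex K 1 (br K b s σ) = σ := by
  refine ex_lb one_pos (fun i hi => ?_) hσ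
  rcases eq_or_ne i b with rfl | h
  · simp [ex, hi]
  · rw [Function.update_of_ne h, ← ex_lg hs h, ex, ex, Function.update_of_ne h]

theorem lg_db (hb : b ∈ K) (hs : ∀ i ∈ K.erase b, s i ≠ 0) (h1 : ‖s‖ < 1) : lg K s ∈ Db K b := by
  refine ⟨fun i hi => ?_, fun i hi => ?_⟩
  · rcases eq_or_ne i b with rfl | h
    · simp
    · rw [Function.update_of_ne h, im_eq _ hi, ex_lg hs h]
      exact div_pos (neg_pos.2 (Real.log_neg (norm_pos_iff.2 (hs i (Finset.mem_erase.2 ⟨h, hi⟩)))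
        ((norm_le_pi_norm s i).trans_lt h1))) Real.two_pi_pos
  · rw [Function.update_of_ne (ne_of_mem_of_not_mem hb hi).symm, lg, lb, if_neg hi]
    exact (norm_le_pi_norm s i).trans_lt h1

theorem lg_in (hb : b ∈ K) (hs : ∀ i ∈ K.erase b, s i ≠ 0) {η : ℝ}
    (h1 : ‖s‖ ≤ Real.exp (-(2 * Real.pi * η))) (h2 : ‖s‖ ≤ 1 - η) :
    Function.update (lg K s) b (η * I) ∈ In K η := by
  refine ⟨fun i hi => ?_, fun i hi => ?_⟩
  · rcases eq_or_ne i b with rfl | h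
    · simp
    · have k := (norm_le_pi_norm s i).trans h1
      rw [← ex_lg hs h, norm_ex _ hi, Real.exp_le_exp, neg_le_neg_iff] at k
      rw [Function.update_of_ne h]
      exact le_of_mul_le_mul_left k Real.two_pi_pos
  · rw [Function.update_of_ne (ne_of_mem_of_not_mem hb hi).symm, lg, lb, if_neg hi]
    exact (norm_le_pi_norm s i).trans h2

theorem log_top {A : Type} {F : Filter A} {u : A → ℂ} (h : Tendsto u F (𝓝 0))
    (h0 : ∀ᶠ x in F, u x ≠ 0) : Tendsto (fun x => -Real.log ‖u x‖) F atTop :=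
  tendsto_neg_atBot_atTop.comp (Real.tendsto_log_nhdsGT_zero.comp
    (tendsto_nhdsWithin_iff.2 ⟨by simpa using h.norm, h0.mono fun _ k => norm_pos_iff.2 k⟩))

theorem br_tendsto (hb : b ∈ K) (hs : ∀ i ∈ K.erase b, s i ≠ 0) (h0 : s b = 0) {A : Type}
    {F : Filter A} {σ : A → Fin p → ℂ} (h : Tendsto σ F (𝓝 s))
    (hσ : ∀ᶠ x in F, ∀ i ∈ K, σ x i ≠ 0) :
    Tendsto (fun x => br K b s (σ x)) F (toB b (lg K s)) := by
  refine tendsto_comap_iff.2 (Tendsto.prodMk (tendsto_pi_nhds.2 fun i => ?_) ?_)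
  · rcases eq_or_ne i b with rfl | hi
    · simp only [Function.update_self]
      exact tendsto_const_nhds
    · have k := tendsto_pi_nhds.1 h i
      simp only [Function.update_of_ne hi, br, lb]
      split_ifs with hK
      · have k1 := hs i (Finset.mem_erase.2 ⟨hi, hK⟩)
        have k2 := (k.div_const (s i)).clog (by rw [div_self k1]; exact one_mem_slitPlane)
        rw [div_self k1, log_one] at k2
        simpa using ((k2.const_mul ((1 : ℕ) : ℂ)).div_const (2 * Real.pi * I)).const_add (lg K s i)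
      · rwa [lg, lb, if_neg hK]
  · refine ((log_top (h0 ▸ tendsto_pi_nhds.1 h b) (hσ.mono fun _ k => k b hb)).atTop_div_const
      Real.two_pi_pos).congr' ?_
    filter_upwards [hσ] with x k
    rw [im_eq _ hb, ex_br hs k]

theorem ratio {A : Type} {F : Filter A} {L : A → ℝ} (h : Tendsto L F atTop) (c d : ℝ) :
    Tendsto (fun x => (L x + c) / d / L x) F (𝓝 (1 / d)) := by
  have k := ((h.const_div_atTop c).const_add 1).div_const d
  rw [add_zero] at k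
  refine k.congr' ?_
  filter_upwards [h.eventually_gt_atTop 0] with x hx
  field_simp

theorem pl_le {ρ : ℝ} (hρ : 0 < ρ) {z : Fin p → ℂ} (hs : ∀ i ∈ K.erase b, s i ≠ 0)
    (hz : ∀ i ∈ K, ‖s i‖ = ‖z i‖ / ρ) (hb : b ∈ K) : |pl (K.erase b) (lg K s)| ≤
      (1 + |Real.log ρ|) ^ (K.erase b).card * ∏ i ∈ K, (1 + |Real.log ‖z i‖|) := by
  rw [pl, Finset.abs_prod, ← Finset.mul_prod_erase K _ hb]
  refine le_trans ?_ (mul_le_mul_of_nonneg_left (le_mul_of_one_le_left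
    (Finset.prod_nonneg fun _ _ => by positivity) (le_add_of_nonneg_right (abs_nonneg _)))
    (by positivity))
  rw [← Finset.prod_const, ← Finset.prod_mul_distrib]
  refine Finset.prod_le_prod (fun _ _ => abs_nonneg _) fun i hi => ?_
  have hK := Finset.mem_of_mem_erase hi
  have h1 : ‖z i‖ ≠ 0 := fun e => hs i hi (norm_eq_zero.1 (by rw [hz i hK, e, zero_div]))
  have h2 : |(lg K s i).im| ≤ |Real.log ‖z i‖| + |Real.log ρ| := by
    rw [im_eq _ hK, ex_lg hs (Finset.ne_of_mem_erase hi), hz i hK, Real.log_div h1 hρ.ne', abs_div,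
      abs_neg, abs_of_pos Real.two_pi_pos]
    refine (div_le_self (abs_nonneg _) (by linarith [Real.pi_gt_three])).trans (abs_sub _ _)
  refine (abs_add_le _ _).trans ?_
  rw [abs_one]
  nlinarith [abs_nonneg (Real.log ‖z i‖), abs_nonneg (Real.log ρ)]

variable {Y : Type} [TopologicalSpace Y] [ChartedSpace (Fin p → ℂ) Y] {S : Snc p Y}
  {C : Cv Y S.U} {y : Y} {ρ : ℝ} {f : (Fin p → ℂ) → C.X} {g : Fin p → C.Γ}

/-- normalised coordinates -/
def nc (y : Y) (ρ : ℝ) (z : Fin p → ℂ) : Fin p → ℂ := (ρ : ℂ)⁻¹ • (z - chartAt (Fin p → ℂ) y y)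

theorem nc_cont (y : Y) (ρ : ℝ) : Continuous (nc (p := p) y ρ) := by
  unfold nc
  fun_prop

theorem norm_nc (hρ : 0 < ρ) (z : Fin p → ℂ) {i : Fin p} (hi : i ∈ S.K y) :
    ‖nc y ρ z i‖ = ‖z i‖ / ρ := by
  rw [nc, Pi.smul_apply, Pi.sub_apply, S.zero_K hi, sub_zero, smul_eq_mul, norm_mul, norm_inv,
    norm_real, Real.norm_of_nonneg hρ.le, inv_mul_eq_div]

theorem nc_ne (hρ : 0 < ρ) {z : Fin p → ℂ} {i : Fin p} (hi : i ∈ S.K y) (h : z i ≠ 0) :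
    nc y ρ z i ≠ 0 :=
  norm_pos_iff.1 (norm_nc hρ z hi ▸ div_pos (norm_pos_iff.2 h) hρ)

theorem nc_small (y : Y) (ρ : ℝ) {ε : ℝ} (hε : 0 < ε) :
    ∀ᶠ z in 𝓝 (chartAt (Fin p → ℂ) y y), ‖nc y ρ z‖ < ε :=
  (nc_cont y ρ).norm.continuousAt.eventually_lt continuousAt_const (by simpa [nc] using hε)

theorem nc_mem (hρ : 0 < ρ) {z : Fin p → ℂ} (h : ‖nc y ρ z‖ < 1) :
    z ∈ ball (chartAt (Fin p → ℂ) y y) ρ :=
  pt_inv hρ (chartAt (Fin p → ℂ) y y) z ▸ pt_mem hρ _ (mem_ball_zero_iff.2 h)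

theorem ne_of_U (h : BdL S C y ρ f g) {z : Fin p → ℂ} (h1 : ‖nc y ρ z‖ < 1)
    (hU : (chartAt (Fin p → ℂ) y).symm z ∈ S.U) {i : Fin p} (hi : i ∈ S.K y) : z i ≠ 0 := by
  obtain ⟨l, c, d⟩ := S.mem_K.1 hi
  exact fun e => hU l ((h.cut z (nc_mem h.pos h1) l).2 ⟨d, i, c, e⟩)

/-- the limit, for a function given on the model -/
theorem lim (h : BdL S C y ρ f g) (hb : b ∈ S.K y) {H : Y → ℝ} {u : (Fin p → ℂ) → ℝ}
    {r : Fin p → ℝ} {k : ℕ} {m : ℝ} {z : Fin p → ℂ}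
    (hH : ∀ ζ ∈ Dm (S.K y), H (C.π (f ζ)) =
      Real.exp (-4 * Real.pi * ∑ i ∈ S.K y, r i * (ζ i).im) * u ζ)
    (h1 : ‖nc y ρ z‖ < 1) (h0 : z b = 0) (hz : ∀ i ∈ (S.K y).erase b, z i ≠ 0)
    (hu : Tendsto (fun x => u x / (x b).im ^ k) (toB b (lg (S.K y) (nc y ρ z))) (𝓝 m)) :
    Tendsto (fun x => H ((chartAt (Fin p → ℂ) y).symm x) /
      (‖x b‖ ^ (2 * r b) * (-Real.log ‖x b‖) ^ k))
      (𝓝[{x | (chartAt (Fin p → ℂ) y).symm x ∈ S.U}] z)
      (𝓝 ((∏ i ∈ S.K y, (ρ ^ (2 * r i))⁻¹) * (1 / (2 * Real.pi)) ^ k * m *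
        ∏ i ∈ (S.K y).erase b, ‖z i‖ ^ (2 * r i))) := by
  have hρ := h.pos
  set F := 𝓝[{x | (chartAt (Fin p → ℂ) y).symm x ∈ S.U}] z
  have hF : Tendsto id F (𝓝 z) := tendsto_id'.2 nhdsWithin_le_nhds
  have hs : ∀ i ∈ (S.K y).erase b, nc y ρ z i ≠ 0 := fun i hi =>
    nc_ne hρ (Finset.mem_of_mem_erase hi) (hz i hi)
  have k1 : ∀ᶠ x in F, ‖nc y ρ x‖ < 1 :=
    hF.eventually ((nc_cont y ρ).norm.continuousAt.eventually_lt continuousAt_const h1)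
  have k2 : ∀ᶠ x in F, ∀ i ∈ S.K y, x i ≠ 0 :=
    (k1.and self_mem_nhdsWithin).mono fun x a i hi => ne_of_U h a.1 a.2 hi
  have k3 : ∀ᶠ x in F, ∀ i ∈ S.K y, nc y ρ x i ≠ 0 := k2.mono fun x a i hi => nc_ne hρ hi (a i hi)
  have k4 := hu.comp (br_tendsto hb hs (norm_eq_zero.1 (by rw [norm_nc hρ z hb, h0]; simp))
    ((nc_cont y ρ).continuousAt.tendsto.comp hF) k3)
  have k5 := log_top (u := fun x : Fin p → ℂ => x b) (h0 ▸ tendsto_pi_nhds.1 hF b)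
    (k2.mono fun _ a => a b hb)
  have k6 : Tendsto (fun x : Fin p → ℂ => ∏ i ∈ (S.K y).erase b, ‖x i‖ ^ (2 * r i)) F
      (𝓝 (∏ i ∈ (S.K y).erase b, ‖z i‖ ^ (2 * r i))) :=
    tendsto_finsetProd _ fun i hi =>
      (tendsto_pi_nhds.1 hF i).norm.rpow_const (Or.inl (norm_ne_zero_iff.2 (hz i hi)))
  refine ((((ratio k5 (Real.log ρ) (2 * Real.pi)).pow k).const_mul _).mul k4).mul k6 |>.congr' ?_
  filter_upwards [k1, k2, k3, k5.eventually_gt_atTop 0] with x a1 a2 a3 a4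
  have e1 := ex_br hs a3
  have e2 : br (S.K y) b (nc y ρ z) (nc y ρ x) ∈ Dm (S.K y) :=
    (mem_dm one_pos).2 (e1.symm ▸ mem_ball_zero_iff.2 a1)
  have e3 := hH _ e2
  rw [h.eq _ e2, exp_sum, e1, show _ + (ρ : ℂ) • nc y ρ x = x from pt_inv hρ _ x] at e3
  have e4 : ∏ i ∈ S.K y, ‖nc y ρ x i‖ ^ (2 * r i) = (∏ i ∈ S.K y, (ρ ^ (2 * r i))⁻¹) *
      (‖x b‖ ^ (2 * r b) * ∏ i ∈ (S.K y).erase b, ‖x i‖ ^ (2 * r i)) := by
    rw [Finset.mul_prod_erase (S.K y) (fun i => ‖x i‖ ^ (2 * r i)) hb, ← Finset.prod_mul_distrib]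
    exact Finset.prod_congr rfl fun i hi => by
      rw [norm_nc hρ x hi, Real.div_rpow (norm_nonneg _) hρ.le, inv_mul_eq_div]
  have e5 : (-Real.log ‖x b‖ + Real.log ρ) / (2 * Real.pi) =
      (br (S.K y) b (nc y ρ z) (nc y ρ x) b).im := by
    rw [im_eq _ hb, e1, norm_nc hρ x hb, Real.log_div (norm_ne_zero_iff.2 (a2 b hb)) hρ.ne']
    ring
  have e6 := (e2.1 b hb).ne'
  have e7 : ‖x b‖ ^ (2 * r b) ≠ 0 := (Real.rpow_pos_of_pos (norm_pos_iff.2 (a2 b hb)) _).ne'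
  have e8 := a4.ne'
  simp only [Function.comp_apply, id_eq]
  rw [e3, e4, e5, div_pow]
  field_simp

end LimH

open LimH in
/-- **LIM** -/
theorem stLim (h1 : StLow) (h2 : StExp) : StLim := by
  intro p Y _ _ _ S C n _ _ V Lb L y t ρ f g a N β φ h ht hB b hb k hk hp
  obtain ⟨-, -, e1, e2⟩ := h2 _ _ _ _ _ _ _ _ _ _ _ _ _ hB b hb
  obtain ⟨B, M, e1⟩ := e1 k (1 / 2) one_half_pos
  have hρ := h.pos
  obtain ⟨c, hc⟩ : ∃ c : ℝ, c = (∏ i ∈ S.K y, (ρ ^ (2 * (β i / (a : ℝ))))⁻¹) *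
    (1 / (2 * Real.pi)) ^ k := ⟨_, rfl⟩
  have c0 : 0 < c := hc ▸ mul_pos (Finset.prod_pos fun _ _ => by positivity) (by positivity)
  refine ⟨fun z => c * cf0 (S.K y) V.Q V.w a N φ b k (lg (S.K y) (nc y ρ z)) *
    ∏ i ∈ (S.K y).erase b, ‖z i‖ ^ (2 * (β i / (a : ℝ))),
    c * |B| * ((1 + |Real.log ρ|) ^ ((S.K y).erase b).card) ^ M, M, ?_,
    fun e => ⟨c, c0, fun z => ?_⟩⟩
  · filter_upwards [nc_small y ρ one_half_pos,
      nc_small y ρ (Real.exp_pos (-(2 * Real.pi * (1 / 2))))] with z a1 a2 a3 a4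
    have a5 : ‖nc y ρ z‖ < 1 := a1.trans one_half_lt_one
    have hs : ∀ i ∈ (S.K y).erase b, nc y ρ z i ≠ 0 := fun i hi =>
      nc_ne hρ (Finset.mem_of_mem_erase hi) (a4 i hi)
    have hP : 0 < ∏ i ∈ (S.K y).erase b, ‖z i‖ ^ (2 * (β i / (a : ℝ))) :=
      Finset.prod_pos fun i hi => Real.rpow_pos_of_pos (norm_pos_iff.2 (a4 i hi)) _
    refine ⟨mul_pos (mul_pos c0 (hp _ (lg_db hb hs a5))) hP, ?_, ?_⟩
    · rw [hc]
      refine lim h hb (r := fun i => β i / (a : ℝ)) (fun ζ hζ => ?_) a5 a3 a4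
        (e2 k hk _ (lg_db hb hs a5))
      rw [L.hY_eq (h.eq ζ hζ ▸ ht _ (pt_mem hρ _ ((mem_dm one_pos).1 hζ)))]
      exact ((h1 _ _ _ _ _ _ _ _ _ _ _ _ _ hB).1 ζ hζ).2.2.1
    · have k1 := (le_abs_self _).trans
        ((e1 _ (lg_in hb hs a2.le (by linarith))).trans (le_abs_self _))
      rw [abs_mul, abs_pow] at k1
      have k2 := k1.trans (mul_le_mul_of_nonneg_left (pow_le_pow_left₀ (abs_nonneg _)
        (pl_le hρ hs (fun i hi => norm_nc hρ z hi) hb) M) (abs_nonneg B))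
      rw [Snc.plog, S.prod_ab y z (fun x => 1 + |Real.log x|) (by simp)]
      refine (mul_le_mul_of_nonneg_right (mul_le_mul_of_nonneg_left k2 c0.le) hP.le).trans_eq ?_
      rw [mul_pow]
      ring
  · have e3 : (S.K y).erase b = ∅ := by rw [e, Finset.erase_singleton]
    beta_reduce
    rw [e3, Finset.prod_empty, mul_one]
    congr 1
    exact cf0_congr _ _ _ _ _ _ fun i hi => by
      rw [lg, lb, if_neg (by rw [e, Finset.mem_singleton]; exact hi)]; rfl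

end Vale.Agent.P281Z.Hm
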