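import Vale.Agent.P281Z.Hm.Id
import Vale.Agent.P281Z.Hm.Lift

/-!
# P281Z, exponentials of nilpotent matrices
-/

set_option linter.unusedSectionVars false

open scoped Matrix.Norms.Operator Topology ComplexConjugate
open Filter Set Matrix Complex

noncomputable section

namespace Vale.Agent.P281Z.Hm

variable {n : Type} [Fintype n] [DecidableEq n] {N M A Q : Mx n}

theorem nil_pow (h : IsNilpotent N) : N ^ Fintype.card n = 0 := by
  have e := (Matrix.isNilpotent_charpoly_sub_pow_of_isNilpotent h).eq_zero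
  have := N.aeval_self_charpoly
  rwa [sub_eq_zero.1 e, map_pow, Polynomial.aeval_X] at this

theorem nexp_sum {k : ℕ} (h : N ^ k = 0) :
    IsNilpotent.exp N = ∑ j ∈ Finset.range k, (j.factorial : ℂ)⁻¹ • N ^ j := by
  rw [IsNilpotent.exp_eq_sum h]
  refine Finset.sum_congr rfl fun j _ => ?_
  rw [← Rat.cast_smul_eq_qsmul ℂ]
  simp

theorem nil_le (h : IsNilpotent N) {k : ℕ} (hk : Fintype.card n ≤ k) : N ^ k = 0 :=
  pow_eq_zero_of_le hk (nil_pow h)

theorem nexp_eq (h : IsNilpotent N) : IsNilpotent.exp N =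
    ∑ j ∈ Finset.range (Fintype.card n + 1), (j.factorial : ℂ)⁻¹ • N ^ j :=
  nexp_sum (nil_le h (Nat.le_succ _))

theorem pow_intw (e : A * N = M * A) (j : ℕ) : A * N ^ j = M ^ j * A := by
  induction j with
  | zero => simp
  | succ j ih => rw [pow_succ, ← Matrix.mul_assoc, ih, Matrix.mul_assoc, e, pow_succ, Matrix.mul_assoc]

theorem nexp_intw (h : IsNilpotent N) (h' : IsNilpotent M) (e : A * N = M * A) :
    A * IsNilpotent.exp N = IsNilpotent.exp M * A := by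
  rw [nexp_eq h, nexp_eq h', Finset.mul_sum, Finset.sum_mul]
  exact Finset.sum_congr rfl fun j _ => by rw [mul_smul_comm, smul_mul_assoc, pow_intw e]

theorem nexp_comm (h : IsNilpotent N) (c : Commute A N) : Commute A (IsNilpotent.exp N) :=
  nexp_intw h h c

theorem nil_ct (h : IsNilpotent N) : IsNilpotent Nᴴ :=
  ⟨_, by rw [← conjTranspose_pow, nil_pow h, conjTranspose_zero]⟩

theorem nexp_ct (h : IsNilpotent N) : (IsNilpotent.exp N)ᴴ = IsNilpotent.exp Nᴴ := by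
  rw [nexp_eq h, nexp_eq (nil_ct h), conjTranspose_sum]
  exact Finset.sum_congr rfl fun j _ => by simp [conjTranspose_pow]

theorem nexp_adj (h : IsNilpotent N) (h' : IsNilpotent M) (e : Nᴴ * Q = Q * M) :
    (IsNilpotent.exp N)ᴴ * Q = Q * IsNilpotent.exp M := by
  rw [nexp_ct h, nexp_intw h' (nil_ct h) e.symm]

theorem nexp_fix (h : IsNilpotent N) {s : n → ℂ} (e : N *ᵥ s = 0) :
    IsNilpotent.exp N *ᵥ s = s := by
  rw [nexp_eq h, Finset.sum_range_succ', add_mulVec, Matrix.sum_mulVec, Finset.sum_eq_zero]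
  · simp
  · intro j _
    rw [smul_mulVec, pow_succ, ← mulVec_mulVec, e, mulVec_zero, smul_zero]

theorem mnorm_one : ‖(1 : Mx n)‖ ≤ 1 := by
  rw [← diagonal_one, linfty_opNorm_diagonal]
  exact (pi_norm_le_iff_of_nonneg zero_le_one).2 fun _ => by simp

theorem mnorm_pow (N : Mx n) (j : ℕ) : ‖N ^ j‖ ≤ ‖N‖ ^ j := by
  rcases j with _ | j
  · simpa using mnorm_one
  · exact norm_pow_le' _ j.succ_pos

theorem norm_nexp (h : IsNilpotent N) :
    ‖IsNilpotent.exp N‖ ≤ (Fintype.card n + 1) * (1 + ‖N‖) ^ Fintype.card n := by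
  rw [nexp_eq h]
  refine (norm_sum_le _ _).trans ((Finset.sum_le_card_nsmul _ _ ((1 + ‖N‖) ^ Fintype.card n)
    fun j hj => ?_).trans (by simp))
  have h1 : (1 : ℝ) ≤ 1 + ‖N‖ := le_add_of_nonneg_right (norm_nonneg _)
  have h2 : ‖(j.factorial : ℂ)⁻¹‖ ≤ 1 := by
    rw [norm_inv, Complex.norm_natCast]
    exact inv_le_one_of_one_le₀ (by exact_mod_cast j.factorial_pos)
  calc ‖(j.factorial : ℂ)⁻¹ • N ^ j‖ ≤ 1 * ‖N‖ ^ j := by
        rw [norm_smul]; exact mul_le_mul h2 (mnorm_pow N j) (norm_nonneg _) zero_le_one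
    _ ≤ (1 + ‖N‖) ^ j := by
        rw [one_mul]; exact pow_le_pow_left₀ (norm_nonneg _) (by linarith) _
    _ ≤ _ := pow_le_pow_right₀ h1 (Nat.lt_succ_iff.1 (Finset.mem_range.1 hj))

theorem an_nexp {𝕜 E : Type} [NontriviallyNormedField 𝕜] [NormedAlgebra 𝕜 ℂ] [NormedAddCommGroup E]
    [NormedSpace 𝕜 E] {f : E → Mx n} {z : E} (hf : AnalyticAt 𝕜 f z)
    (hn : ∀ᶠ x in 𝓝 z, IsNilpotent (f x)) : AnalyticAt 𝕜 (fun x => IsNilpotent.exp (f x)) z := by
  have hp : ∀ j : ℕ, AnalyticAt 𝕜 (fun x => f x ^ j) z := fun j => by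
    induction j with
    | zero => simpa using analyticAt_const
    | succ j ih => simpa only [pow_succ] using an_mul ih hf
  refine AnalyticAt.congr (f := fun x => ∑ j ∈ Finset.range (Fintype.card n + 1),
    (j.factorial : ℂ)⁻¹ • f x ^ j) ?_ (hn.mono fun x hx => (nexp_eq hx).symm)
  exact Finset.analyticAt_fun_sum _ fun j _ => an_msmul _ (hp j)

theorem nexp_deriv (h : IsNilpotent N) :
    HasDerivAt (fun t : ℂ => IsNilpotent.exp (t • N)) N 0 := by
  have e : (fun t : ℂ => IsNilpotent.exp (t • N)) = fun t => ∑ j ∈ Finset.range (Fintype.card n + 2),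
      t ^ j • ((j.factorial : ℂ)⁻¹ • N ^ j) := funext fun t => by
    rw [nexp_sum (nil_le (h.smul t) (Nat.le_add_right _ 2))]
    exact Finset.sum_congr rfl fun j _ => by rw [_root_.smul_pow, smul_comm]
  rw [e]
  have := HasDerivAt.fun_sum (u := Finset.range (Fintype.card n + 2)) fun j _ =>
    (hasDerivAt_pow j (0 : ℂ)).smul_const ((j.factorial : ℂ)⁻¹ • N ^ j)
  refine this.congr_deriv ?_
  rw [Finset.sum_range_succ', Finset.sum_range_succ']
  simp

/-! ### commuting families -/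

variable {p : ℕ} {K : Finset (Fin p)} {T : Fin p → Matrix n n ℤ} {a : ℕ} {N : Fin p → Mx n}

/-- the untwisting matrix -/
def nE (K : Finset (Fin p)) (N : Fin p → Mx n) (ζ : Fin p → ℂ) : Mx n :=
  IsNilpotent.exp (∑ i ∈ K, ζ i • N i)

theorem vf_eq (φ : (Fin p → ℂ) → n → ℂ) (ζ : Fin p → ℂ) :
    vf K a N φ ζ = nE K N ζ *ᵥ φ (ex K a ζ) := rfl

theorem nE_zero : nE K N 0 = 1 := by simp [nE]

namespace Un
variable (h : Un K Q T a N)
include h

theorem csum {s : Finset (Fin p)} (hs : s ⊆ K) (c : Fin p → ℂ) {i : Fin p} (hi : i ∈ K) :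
    Commute (N i) (∑ j ∈ s, c j • N j) :=
  Commute.sum_right _ _ _ fun j hj => (h.comm i hi j (hs hj)).smul_right _

theorem csums {s t : Finset (Fin p)} (hs : s ⊆ K) (ht : t ⊆ K) (c d : Fin p → ℂ) :
    Commute (∑ j ∈ s, c j • N j) (∑ j ∈ t, d j • N j) :=
  Commute.sum_left _ _ _ fun _ hj => (h.csum ht d (hs hj)).smul_left _

theorem nsum {s : Finset (Fin p)} (hs : s ⊆ K) (c : Fin p → ℂ) :
    IsNilpotent (∑ j ∈ s, c j • N j) :=
  Commute.isNilpotent_sum (fun j hj => (h.nil j (hs hj)).smul _) fun i j hi hj =>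
    ((h.comm i (hs hi) j (hs hj)).smul_right _).smul_left _

theorem nE_add (ζ ξ : Fin p → ℂ) : nE K N (ζ + ξ) = nE K N ζ * nE K N ξ := by
  rw [nE, nE, nE, ← IsNilpotent.exp_add_of_commute (h.csums le_rfl le_rfl _ _) (h.nsum le_rfl _)
    (h.nsum le_rfl _), ← Finset.sum_add_distrib]
  simp [add_smul]

theorem nE_neg (ζ : Fin p → ℂ) : nE K N (-ζ) * nE K N ζ = 1 := by
  rw [← h.nE_add, neg_add_cancel, nE_zero]

theorem nE_neg' (ζ : Fin p → ℂ) : nE K N ζ * nE K N (-ζ) = 1 := by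
  rw [← h.nE_add, add_neg_cancel, nE_zero]

theorem nE_comm (ζ : Fin p → ℂ) {i : Fin p} (hi : i ∈ K) : Commute (N i) (nE K N ζ) :=
  nexp_comm (h.nsum le_rfl _) (h.csum le_rfl _ hi)

omit h in
theorem nE_single {i : Fin p} (hi : i ∈ K) (t : ℂ) :
    nE K N (Pi.single i t) = IsNilpotent.exp (t • N i) := by
  rw [nE, Finset.sum_eq_single_of_mem i hi fun j _ hj => by simp [hj], Pi.single_eq_same]

theorem nE_a {i : Fin p} (hi : i ∈ K) : nE K N (Pi.single i (a : ℂ)) = cz (T i) ^ a := by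
  rw [nE_single hi, h.exp i hi]

theorem an_nE (ζ : Fin p → ℂ) : AnalyticAt ℂ (nE K N) ζ :=
  an_nexp (Finset.analyticAt_fun_sum _ fun i _ =>
    ((ContinuousLinearMap.proj (R := ℂ) (φ := fun _ : Fin p => ℂ) i).analyticAt ζ).smul
      analyticAt_const) (Eventually.of_forall fun _ => h.nsum le_rfl _)

theorem wd_nE (ζ v : Fin p → ℂ) : wd v (nE K N) ζ = nE K N ζ * ∑ i ∈ K, v i • N i := by
  have d := (h.an_nE ζ).differentiableAt
  rw [wd_hol d]
  have l : HasDerivAt (fun t : ℂ => ζ + t • v) v 0 := by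
    simpa using ((hasDerivAt_id (0 : ℂ)).smul_const v).const_add ζ
  have h1 := d.hasFDerivAt.comp_hasDerivAt_of_eq 0 l (by simp)
  have h2 := (nexp_deriv (h.nsum (s := K) le_rfl v)).const_mul (nE K N ζ)
  refine h1.unique (h2.congr_of_eventuallyEq (Eventually.of_forall fun t => ?_))
  simp only [Function.comp, h.nE_add]
  simp [nE, Finset.smul_sum, smul_smul]

theorem nE_adj (ζ : Fin p → ℂ) : (nE K N ζ)ᴴ * Q = Q * nE K N (-star ζ) := by
  refine nexp_adj (h.nsum le_rfl _) (h.nsum le_rfl _) ?_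
  rw [conjTranspose_sum, Finset.sum_mul, Finset.mul_sum]
  exact Finset.sum_congr rfl fun i hi => by simp [h.skew i hi]

theorem nE_Q (ζ : Fin p → ℂ) :
    (nE K N ζ)ᴴ * Q * nE K N ζ = Q * nE K N fun i => 2 * I * (ζ i).im := by
  rw [h.nE_adj, Matrix.mul_assoc, ← h.nE_add]
  congr 2
  funext i
  simp [neg_add_eq_sub, sub_conj]
  ring

/-- polynomial growth -/
theorem norm_nE : ∃ B : ℝ, 0 ≤ B ∧ ∀ ζ : Fin p → ℂ,
    ‖nE K N ζ‖ ≤ B * (∏ i ∈ K, (1 + ‖ζ i‖)) ^ Fintype.card n := by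
  refine ⟨(Fintype.card n + 1) * (1 + ∑ i ∈ K, ‖N i‖) ^ Fintype.card n, by positivity, fun ζ => ?_⟩
  refine (norm_nexp (h.nsum le_rfl _)).trans ?_
  rw [mul_assoc, ← mul_pow]
  have h1 : (1 : ℝ) ≤ ∏ i ∈ K, (1 + ‖ζ i‖) :=
    Finset.one_le_prod fun i _ => le_add_of_nonneg_right (norm_nonneg _)
  have h2 : ∀ i ∈ K, ‖ζ i‖ ≤ ∏ i ∈ K, (1 + ‖ζ i‖) := fun i hi => by
    rw [← Finset.mul_prod_erase _ _ hi]
    have : (1 : ℝ) ≤ ∏ i ∈ K.erase i, (1 + ‖ζ i‖) :=
      Finset.one_le_prod fun i _ => le_add_of_nonneg_right (norm_nonneg _)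
    nlinarith [norm_nonneg (ζ i)]
  gcongr
  rw [add_mul, one_mul, Finset.sum_mul]
  refine add_le_add h1 ((norm_sum_le _ _).trans (Finset.sum_le_sum fun i hi => ?_))
  rw [norm_smul, mul_comm]
  exact mul_le_mul_of_nonneg_left (h2 i hi) (norm_nonneg _)

/-- the untwisted section is periodic -/
theorem per {ψ : (Fin p → ℂ) → n → ℂ} {lam : Fin p → ℂ}
    (e : ∀ i ∈ K, ∀ ζ ∈ Dm K, ψ (ζ + Pi.single i 1) = lam i • (cz (T i) *ᵥ ψ ζ))
    (hl : ∀ i ∈ K, lam i ^ a = 1) {i : Fin p} (hi : i ∈ K) {ζ : Fin p → ℂ} (hζ : ζ ∈ Dm K) :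
    nE K N (-(ζ + Pi.single i (a : ℂ))) *ᵥ ψ (ζ + Pi.single i (a : ℂ)) = nE K N (-ζ) *ᵥ ψ ζ := by
  have h1 : ∀ k : ℕ, ζ + Pi.single i (k : ℂ) ∈ Dm K ∧
      ψ (ζ + Pi.single i (k : ℂ)) = lam i ^ k • (cz (T i) ^ k *ᵥ ψ ζ) := fun k => by
    induction k with
    | zero => simpa using hζ
    | succ k ih =>
      rw [Nat.cast_succ, Pi.single_add, ← add_assoc]
      refine ⟨LiftH.add_mem ih.1 hi, ?_⟩
      rw [e i hi _ ih.1, ih.2, mulVec_smul, smul_smul, mulVec_mulVec, ← pow_succ', ← pow_succ']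
  rw [(h1 a).2, hl i hi, one_smul, mulVec_mulVec, ← h.nE_a hi, ← h.nE_add]
  congr 2
  abel

theorem an_vf {φ : (Fin p → ℂ) → n → ℂ} {ζ : Fin p → ℂ} (hφ : AnalyticAt ℂ φ (ex K a ζ)) :
    AnalyticAt ℂ (vf K a N φ) ζ :=
  an_mulVec (h.an_nE ζ) (hφ.comp (LiftH.ex_an a ζ))

/-- the derivative of the normalised frame -/
theorem fderiv_vf {φ : (Fin p → ℂ) → n → ℂ} {ζ : Fin p → ℂ} (hφ : AnalyticAt ℂ φ (ex K a ζ))
    (v : Fin p → ℂ) : fderiv ℂ (vf K a N φ) ζ v = nE K N ζ *ᵥ ((∑ i ∈ K, v i • N i) *ᵥ φ (ex K a ζ) +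
      fderiv ℂ φ (ex K a ζ) (fderiv ℂ (ex K a) ζ v)) := by
  have d := (hφ.comp (LiftH.ex_an (K := K) a ζ)).differentiableAt
  rw [← wd_hol (h.an_vf hφ).differentiableAt]
  refine (wd_mulVec ((h.an_nE ζ).differentiableAt.restrictScalars ℝ) (d.restrictScalars ℝ) v).trans ?_
  rw [h.wd_nE, wd_hol d, fderiv_comp ζ hφ.differentiableAt (LiftH.ex_an a ζ).differentiableAt,
    mulVec_add, mulVec_mulVec]
  rfl

end Un

theorem fderiv_ex (ζ v : Fin p → ℂ) (i : Fin p) : fderiv ℂ (ex K a) ζ v i =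
    if i ∈ K then 2 * Real.pi * I / a * ex K a ζ i * v i else v i := by
  have d := (LiftH.ex_an (K := K) a ζ).differentiableAt
  have e : fderiv ℂ (ex K a) ζ v i = fderiv ℂ (fun x => ex K a x i) ζ v := by
    rw [fderiv_apply d]; rfl
  have l := (ContinuousLinearMap.proj (R := ℂ) (φ := fun _ : Fin p => ℂ) i).hasFDerivAt (x := ζ)
  rw [e]
  by_cases hi : i ∈ K
  · have := ((l.const_mul (2 * Real.pi * I)).mul_const (a : ℂ)⁻¹).cexp
    simp only [ex, if_pos hi, div_eq_mul_inv]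
    refine (congrArg (· v) this.fderiv).trans ?_
    simp
    ring
  · simp only [ex, if_neg hi]
    exact congrArg (· v) l.fderiv

end Vale.Agent.P281Z.Hm
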