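import Vale.Agent.P281Z.Hm.Sk
import Vale.Agent.P277Z.Hir.IA
import Mathlib.Analysis.Analytic.Order

/-!
# P281Z, abstract variations: uniqueness for a regular singular equation
-/

open scoped Topology
open Filter Set Matrix

noncomputable section

namespace Vale.Agent.P281Z.Hm

namespace OdeH

variable {n : Type} [Fintype n] {p : ℕ} {b : Fin p} {z : Fin p → ℂ}

theorem an_b (b : Fin p) (x : Fin p → ℂ) : AnalyticAt ℂ (fun y : Fin p → ℂ => y b) x :=
  (ContinuousLinearMap.proj (R := ℂ) (φ := fun _ : Fin p => ℂ) b).analyticAt x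

/-- division by a coordinate -/
theorem div {g : (Fin p → ℂ) → n → ℂ} (hz : z b = 0) (hg : AnalyticAt ℂ g z)
    (h : ∀ᶠ x in 𝓝 z, x b = 0 → g x = 0) :
    ∃ g' : (Fin p → ℂ) → n → ℂ, AnalyticAt ℂ g' z ∧ ∀ᶠ x in 𝓝 z, g x = x b • g' x := by
  let l : (Fin p → ℂ) →L[ℂ] ℂ := ContinuousLinearMap.proj b
  choose g' h1 h2 using fun i => P277Z.Hir.IH.hadamard (l := l) (Pi.single b 1) hz
    (analyticAt_pi_iff.1 hg i)
  refine ⟨fun x i => g' i x, analyticAt_pi_iff.2 h1, ?_⟩
  filter_upwards [(P277Z.Hir.IH.tendsto_pj (l := l) (Pi.single b 1) hz).eventually h] with x hx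
  funext i
  have := h2 i x
  rw [hx (by simp [P277Z.Hir.IH.pj, l])] at this
  simpa [l] using this

/-- a germ which is divisible by all the powers of a coordinate is zero -/
theorem flat {ξ : (Fin p → ℂ) → n → ℂ} (hz : z b = 0) (hξ : AnalyticAt ℂ ξ z)
    (h : ∀ m : ℕ, ∃ g : (Fin p → ℂ) → n → ℂ, AnalyticAt ℂ g z ∧ ∀ᶠ x in 𝓝 z, ξ x = x b ^ m • g x) :
    ∀ᶠ x in 𝓝 z, ξ x = 0 := by
  obtain ⟨r, r0, hr⟩ := Metric.eventually_nhds_iff_ball.1 hξ.eventually_analyticAt
  filter_upwards [Metric.ball_mem_nhds z r0] with x hx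
  let γ : ℂ → Fin p → ℂ := fun s => z + s • (x - z)
  have hγ : ∀ s, AnalyticAt ℂ γ s := fun s => by fun_prop
  have h0 : γ 0 = z := by simp [γ]
  have ht : Tendsto γ (𝓝 0) (𝓝 z) := h0 ▸ (hγ 0).continuousAt
  have ha : AnalyticAt ℂ (fun s => ξ (γ s)) 0 := hξ.fun_comp_of_eq (hγ 0) h0
  have h1 : analyticOrderAt (fun s => ξ (γ s)) 0 = ⊤ := by
    refine ENat.eq_top_iff_forall_ge.2 fun m => (natCast_le_analyticOrderAt ha).2 ?_
    obtain ⟨g, g1, g2⟩ := h m
    refine ⟨fun s => (x b) ^ m • g (γ s),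
      (analyticAt_const (v := x b ^ m)).smul (g1.fun_comp_of_eq (hγ 0) h0), ?_⟩
    filter_upwards [ht.eventually g2] with s hs
    rw [hs, smul_smul, ← mul_pow]
    simp [γ, hz]
  have h2 : Convex ℝ (γ ⁻¹' Metric.ball z r) := fun s hs s' hs' a a' k1 k2 k3 => by
    have e : γ (a • s + a' • s') = a • γ s + a' • γ s' := by
      simp only [γ, smul_add, add_smul, smul_assoc]
      rw [add_add_add_comm, ← add_smul, k3, one_smul]
    rw [mem_preimage, e]
    exact convex_ball z r hs hs' k1 k2 k3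
  have h3 := AnalyticOnNhd.eqOn_zero_of_preconnected_of_eventuallyEq_zero
    (f := fun s => ξ (γ s)) (U := γ ⁻¹' Metric.ball z r)
    (fun s hs => (hr _ hs).fun_comp (hγ s)) h2.isPreconnected (z₀ := 0)
    (by rw [mem_preimage, h0]; exact Metric.mem_ball_self r0) (analyticOrderAt_eq_top.1 h1)
    (x := 1) (by simpa [γ] using hx)
  simpa [γ] using h3

theorem nil_zero [DecidableEq n] {N : Mx n} (hN : IsNilpotent N) {c : ℂ} (hc : c ≠ 0) {v : n → ℂ}
    (h : N *ᵥ v + c • v = 0) : v = 0 := by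
  obtain ⟨k, hk⟩ := hN
  have h1 : ∀ j : ℕ, (N ^ j) *ᵥ v = (-c) ^ j • v := fun j => by
    induction j with
    | zero => simp
    | succ j ih =>
      rw [pow_succ, ← mulVec_mulVec, eq_neg_of_add_eq_zero_left h, ← neg_smul, mulVec_smul, ih,
        smul_smul, pow_succ']
  have h2 := h1 k
  rw [hk, zero_mulVec] at h2
  exact (smul_eq_zero.1 h2.symm).resolve_left (pow_ne_zero _ (neg_ne_zero.2 hc))

end OdeH

open OdeH in
theorem stOde : StOde := by
  intro n _ _ p b N c ξ e t z hN hc hz hξ he ht h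
  refine flat hz hξ fun m => ?_
  induction m with
  | zero => exact ⟨ξ, hξ, .of_forall fun x => by simp⟩
  | succ m ih =>
    obtain ⟨g, g1, g2⟩ := ih
    suffices k : ∀ᶠ x in 𝓝 z, x b = 0 → g x = 0 by
      obtain ⟨g', k1, k2⟩ := div hz g1 k
      refine ⟨g', k1, ?_⟩
      filter_upwards [g2, k2] with x a1 a2
      rw [a1, a2, smul_smul, pow_succ]
    rcases m with _ | m
    · filter_upwards [g2, h] with x a1 a2 hx
      simpa [(a2.2.1 hx).1] using a1.symm
    let R : (Fin p → ℂ) → n → ℂ := fun x => N *ᵥ g x + (c * (m + 1)) • g x +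
      (c * x b) • fderiv ℂ g x (Pi.single b 1) - e x • g x - fderiv ℂ g x (t x)
    have hR : AnalyticAt ℂ R z := by
      have a1 : AnalyticAt ℂ (fun x => N *ᵥ g x) z :=
        ((LinearMap.toContinuousLinearMap (mulVecLin N)).analyticAt _).fun_comp g1
      have a2 : ∀ v : (Fin p → ℂ) → Fin p → ℂ, AnalyticAt ℂ v z →
          AnalyticAt ℂ (fun x => fderiv ℂ g x (v x)) z := fun v hv =>
        (((ContinuousLinearMap.id ℂ ((Fin p → ℂ) →L[ℂ] n → ℂ)).analyticAt_bilinear _).comp₂
          g1.fderiv hv)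
      exact (((a1.add ((analyticAt_const (v := c * (m + 1))).smul g1)).add
        ((analyticAt_const.mul (an_b b z)).smul
        (a2 _ analyticAt_const))).sub (he.smul g1)).sub (a2 t ht)
    have h1 : ∀ᶠ x in 𝓝 z, x b ≠ 0 → R x = 0 := by
      filter_upwards [g2.eventually_nhds, g1.eventually_analyticAt, h] with x a1 a2 a3 hx
      have d1 : HasFDerivAt (fun y : Fin p → ℂ => y b ^ (m + 1))
          ((((m + 1 : ℕ) : ℂ) * x b ^ m) •
            ContinuousLinearMap.proj (R := ℂ) (φ := fun _ : Fin p => ℂ) b) x := by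
        simpa using (ContinuousLinearMap.proj (R := ℂ) (φ := fun _ : Fin p => ℂ) b).hasFDerivAt.pow
          (m + 1)
      have d2 : ∀ w, fderiv ℂ ξ x w =
          x b ^ (m + 1) • fderiv ℂ g x w + (((m + 1 : ℕ) : ℂ) * x b ^ m * w b) • g x := fun w => by
        rw [EventuallyEq.fderiv_eq a1, (d1.fun_smul a2.differentiableAt.hasFDerivAt).fderiv]
        simp
      have a4 := a3.2.2
      rw [d2, d2, a3.1, a1.self_of_nhds, mulVec_smul] at a4
      refine (smul_eq_zero.1 (?_ : x b ^ (m + 1) • R x = 0)).resolve_left (pow_ne_zero _ hx)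
      funext i
      have a5 := congrFun a4 i
      simp only [R, Pi.add_apply, Pi.sub_apply, Pi.smul_apply, smul_eq_mul, Pi.zero_apply,
        Pi.single_eq_same] at a5 ⊢
      push_cast at a5
      linear_combination a5
    have hd : Dense {x : Fin p → ℂ | x b ≠ 0} :=
      (dense_compl_singleton (0 : ℂ)).preimage (isOpenMap_eval b)
    filter_upwards [h1.eventually_nhds, hR.eventually_analyticAt, h] with x a1 a2 a3 hx
    have a4 : R x = 0 := tendsto_nhds_unique_of_frequently_eq a2.continuousAt tendsto_const_nhds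
      (((mem_closure_iff_frequently.1 (hd x)).and_eventually a1).mono fun y k => k.2 k.1)
    obtain ⟨-, a5, a6⟩ := a3.2.1 hx
    refine nil_zero hN (mul_ne_zero hc (Nat.cast_add_one_ne_zero m)) ?_
    simpa [R, hx, a5, a6] using a4

end Vale.Agent.P281Z.Hm
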