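import Vale.Agent.P281Z.Hm.NExp
import Vale.Agent.P281Z.Hm.Ode

/-!
# P281Z, abstract variations: Gram matrices and the regular singular equation
-/

open scoped Matrix.Norms.Operator Topology ComplexOrder ComplexConjugate
open Filter Set Matrix Complex

noncomputable section

namespace Vale.Agent.P281Z.Hm

open Vale.Agent.P284Z (levi Psh)

namespace ScalH

variable {n : Type} [Fintype n] {p m : ℕ} {b : Fin p} {z : Fin p → ℂ} {Q : Mx n}

/-- the form of `Q`, linear in the second variable -/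
def ip (Q : Mx n) (s : n → ℂ) : (n → ℂ) →ₗ[ℂ] ℂ where
  toFun t := star s ⬝ᵥ Q *ᵥ t
  map_add' t t' := by rw [mulVec_add, dotProduct_add]
  map_smul' c t := by rw [mulVec_smul, dotProduct_smul, RingHom.id_apply]

theorem ip_def (Q : Mx n) (s t : n → ℂ) : ip Q s t = star s ⬝ᵥ Q *ᵥ t := rfl

theorem ip_symm (hQ : Q.IsHermitian) (s t : n → ℂ) : conj (ip Q s t) = ip Q t s := by
  rw [ip_def, ip_def, ← star_def, ← star_dotProduct_star, star_star, star_mulVec, hQ.eq,
    dotProduct_mulVec]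

/-- the matrix with the columns `s`, `D (w j)` -/
def cols (s : n → ℂ) (D : (Fin p → ℂ) →L[ℂ] n → ℂ) (w : Fin m → Fin p → ℂ) :
    Matrix n (Option (Fin m)) ℂ := of fun i o => o.elim s (fun j => D (w j)) i

omit [Fintype n] in
theorem cols_mulVec (s : n → ℂ) (D : (Fin p → ℂ) →L[ℂ] n → ℂ) (w : Fin m → Fin p → ℂ)
    (x : Option (Fin m) → ℂ) :
    cols s D w *ᵥ x = x none • s + D (∑ j, x (some j) • w j) := by
  funext i
  simp [cols, mulVec, dotProduct, Fintype.sum_option, mul_comm]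

theorem cols_ct (s : n → ℂ) (D : (Fin p → ℂ) →L[ℂ] n → ℂ) (w : Fin m → Fin p → ℂ) (t : n → ℂ)
    (o : Option (Fin m)) :
    (((cols s D w)ᴴ * Q) *ᵥ t) o = ip Q (o.elim s fun j => D (w j)) t := by
  rw [← mulVec_mulVec]
  rfl

/-- the Levi form of the logarithm, up to a factor -/
def bl (Q : Mx n) (s : n → ℂ) (D : (Fin p → ℂ) →L[ℂ] n → ℂ) (t : Fin p → ℂ) :
    (Fin p → ℂ) →ₗ[ℂ] ℂ :=
  ip Q s s • (ip Q (D t)).comp (D : (Fin p → ℂ) →ₗ[ℂ] n → ℂ) -
    ip Q (D t) s • (ip Q s).comp (D : (Fin p → ℂ) →ₗ[ℂ] n → ℂ)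

theorem bl_def (s : n → ℂ) (D : (Fin p → ℂ) →L[ℂ] n → ℂ) (t t' : Fin p → ℂ) :
    bl Q s D t t' = ip Q s s * ip Q (D t) (D t') - ip Q (D t) s * ip Q s (D t') := rfl

theorem bl_symm (hQ : Q.IsHermitian) {s : n → ℂ} {D : (Fin p → ℂ) →L[ℂ] n → ℂ} {t t' : Fin p → ℂ}
    (h : bl Q s D t t' = 0) : bl Q s D t' t = 0 := by
  have := congrArg conj h
  rw [bl_def, map_sub, map_mul, map_mul, ip_symm hQ, ip_symm hQ, ip_symm hQ, ip_symm hQ,
    map_zero] at this
  rw [bl_def, ← this, mul_comm (ip Q s (D t))]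

/-- a complement of the radical -/
theorem rad {V : Type} [AddCommGroup V] [Module ℂ V] [FiniteDimensional ℂ V] (B : V → V →ₗ[ℂ] ℂ)
    (hB : ∀ t t', B t t' = 0 → B t' t = 0) : ∃ (W : Submodule ℂ V) (m : ℕ) (w : Fin m → V),
    (∀ v ∈ W, B v v = 0) ∧ Module.finrank ℂ W + m = Module.finrank ℂ V ∧
    ∀ x : Fin m → ℂ, (∀ j, B (w j) (∑ j, x j • w j) = 0) → x = 0 := by
  let W : Submodule ℂ V := ⨅ t, LinearMap.ker (B t)
  have hW : ∀ v, v ∈ W ↔ ∀ t, B t v = 0 := fun v => by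
    simp only [W, Submodule.mem_iInf, LinearMap.mem_ker]
  obtain ⟨C, hC⟩ := W.exists_isCompl
  let β := Module.finBasis ℂ C
  refine ⟨W, _, fun j => β j, fun v hv => (hW v).1 hv v, Submodule.finrank_add_eq_of_isCompl hC,
    fun x hx => ?_⟩
  let t : C := ∑ j, x j • β j
  have ht : ∑ j, x j • (β j : V) = t := by simp [t]
  rw [ht] at hx
  have e3 : ∀ c : C, B t c = 0 := fun c => LinearMap.congr_fun
    (β.ext (f₁ := (B t).comp C.subtype) (f₂ := 0) fun j => hB _ _ (hx j)) c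
  have e4 : (t : V) ∈ W := (hW _).2 fun u => hB _ _ <| by
    obtain ⟨y, hy, c, hc, rfl⟩ := Submodule.mem_sup.1 (hC.sup_eq_top ▸ Submodule.mem_top (x := u))
    rw [map_add, (hW y).1 hy, e3 ⟨c, hc⟩, add_zero]
  have e5 : t = 0 := Subtype.ext ((Submodule.disjoint_def.1 hC.disjoint) _ e4 t.2)
  exact funext (Fintype.linearIndependent_iff.1 β.linearIndependent _ e5)

/-- a large family with an invertible Gram matrix -/
theorem gram (hQ : Q.IsHermitian) {s : n → ℂ} (D : (Fin p → ℂ) →L[ℂ] n → ℂ) (h0 : ip Q s s ≠ 0)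
    {ν : ℕ} (h : ∀ W : Submodule ℂ (Fin p → ℂ), (∀ v ∈ W, v b = 0 ∧ bl Q s D v v = 0) →
      Module.finrank ℂ W + ν < p) :
    ∃ (m : ℕ) (w : Fin m → Fin p → ℂ), ν ≤ m ∧ (∀ j, w j b = 0) ∧
      ((cols s D w)ᴴ * Q * cols s D w).det ≠ 0 := by
  let l : (Fin p → ℂ) →ₗ[ℂ] ℂ := LinearMap.proj b
  obtain ⟨W, m, w, k1, k2, k3⟩ := rad (V := LinearMap.ker l)
    (fun t => (bl Q s D t).comp (LinearMap.ker l).subtype) fun t t' => bl_symm hQ
  refine ⟨m, fun j => w j, ?_, fun j => (w j).2, fun hd => ?_⟩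
  · have h1 := h (W.map (LinearMap.ker l).subtype) (by
      rintro _ ⟨v, hv, rfl⟩
      exact ⟨v.2, k1 v hv⟩)
    have h3 := l.finrank_range_add_finrank_ker
    have h4 := (LinearMap.range l).finrank_le
    rw [Submodule.finrank_map_subtype_eq] at h1
    rw [Module.finrank_fin_fun] at h3
    rw [Module.finrank_self] at h4
    omega
  obtain ⟨x, hx, e⟩ := Matrix.exists_mulVec_eq_zero_iff.2 hd
  rw [← mulVec_mulVec, cols_mulVec] at e
  have e0 := congrFun e none
  rw [cols_ct, map_add, map_smul] at e0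
  have e1 := k3 (fun j => x (some j)) fun j => by
    have e2 := congrFun e (some j)
    rw [cols_ct, map_add, map_smul] at e2
    simp only [Option.elim, smul_eq_mul, Pi.zero_apply] at e0 e2
    rw [LinearMap.comp_apply, Submodule.subtype_apply, Submodule.coe_sum, bl_def]
    simp only [Submodule.coe_smul]
    linear_combination ip Q s s * e2 - ip Q (D (w j)) s * e0
  have e2 : ∀ j, x (some j) = 0 := congrFun e1
  refine hx (funext fun o => ?_)
  rcases o with _ | j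
  · simpa [e2, h0] using e0
  · exact e2 j

/-- derivatives of the form of two holomorphic sections -/
theorem wb_ip {φ χ : (Fin p → ℂ) → n → ℂ} (hφ : DifferentiableAt ℂ φ z)
    (hχ : DifferentiableAt ℂ χ z) (v : Fin p → ℂ) :
    wb v (fun x => ip Q (φ x) (χ x)) z = ip Q (fderiv ℂ φ z v) (χ z) := by
  have d1 := hφ.restrictScalars ℝ
  have d2 := hχ.restrictScalars ℝ
  simp only [ip_def]
  rw [wb_dot (df_star d1) (df_mulVec (differentiableAt_const Q) d2), wb_star d1,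
    wb_mulVec (differentiableAt_const Q) d2, wd_hol hφ, wb_hol hχ]
  simp

theorem wd_ip {φ χ : (Fin p → ℂ) → n → ℂ} (hφ : DifferentiableAt ℂ φ z)
    (hχ : DifferentiableAt ℂ χ z) (v : Fin p → ℂ) :
    wd v (fun x => ip Q (φ x) (χ x)) z = ip Q (φ z) (fderiv ℂ χ z v) := by
  have d1 := hφ.restrictScalars ℝ
  have d2 := hχ.restrictScalars ℝ
  simp only [ip_def]
  rw [wd_dot (df_star d1) (df_mulVec (differentiableAt_const Q) d2), wd_star d1,
    wd_mulVec (differentiableAt_const Q) d2, wb_hol hφ, wd_hol hχ]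
  simp

theorem an_fd {φ : (Fin p → ℂ) → n → ℂ} (hφ : AnalyticAt ℂ φ z) {v : (Fin p → ℂ) → Fin p → ℂ}
    (hv : AnalyticAt ℂ v z) : AnalyticAt ℂ (fun x => fderiv ℂ φ x (v x)) z :=
  ((ContinuousLinearMap.id ℂ ((Fin p → ℂ) →L[ℂ] n → ℂ)).analyticAt_bilinear _).comp₂ hφ.fderiv hv

/-- the projection on the hyperplane -/
def pj (b : Fin p) : (Fin p → ℂ) →L[ℂ] Fin p → ℂ := ContinuousLinearMap.id ℂ _ -
  (ContinuousLinearMap.proj (R := ℂ) (φ := fun _ : Fin p => ℂ) b).smulRight (Pi.single b 1)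

theorem pj_eq (x : Fin p → ℂ) : pj b x = Function.update x b 0 := by
  funext i
  rcases eq_or_ne i b with rfl | h
  · simp [pj]
  · simp [pj, h]

theorem pj_self {x : Fin p → ℂ} (h : x b = 0) : pj b x = x := by simp [pj, h]

theorem pj_b (x : Fin p → ℂ) : pj b x b = 0 := by simp [pj]

theorem dens {F : Type} [TopologicalSpace F] [T2Space F] {f g : (Fin p → ℂ) → F}
    (hf : ContinuousAt f z) (hg : ContinuousAt g z) (h : ∀ᶠ x in 𝓝 z, x b ≠ 0 → f x = g x) :
    f z = g z :=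
  tendsto_nhds_unique_of_frequently_eq hf hg (((mem_closure_iff_frequently.1
    ((dense_compl_singleton (0 : ℂ)).preimage (isOpenMap_eval b) z)).and_eventually h).mono
      fun _ k => k.2 k.1)

/-- the regular singular equation -/
theorem ode {N : Mx n} {c : ℂ} {φ : (Fin p → ℂ) → n → ℂ} (hφ : AnalyticAt ℂ φ z)
    {w : Fin m → Fin p → ℂ} (hw : ∀ j, w j b = 0)
    (hG : ((cols (φ z) (fderiv ℂ φ z) w)ᴴ * Q * cols (φ z) (fderiv ℂ φ z) w).det ≠ 0)
    (hX : ∀ᶠ x in 𝓝 z, x b ≠ 0 → ∃ y : Option (Fin m) → ℂ, y ≠ 0 ∧ ∃ μ : ℂ,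
      μ • φ x = y none • (N *ᵥ φ x + (c * x b) • fderiv ℂ φ x (Pi.single b 1)) +
        fderiv ℂ φ x (∑ j, y (some j) • w j))
    (hA : ∀ᶠ x in 𝓝 z, x b = 0 → ip Q (φ x) (N *ᵥ φ x) = 0) :
    ∃ (e : (Fin p → ℂ) → ℂ) (t : (Fin p → ℂ) → Fin p → ℂ), AnalyticAt ℂ e z ∧ AnalyticAt ℂ t z ∧
      ∀ᶠ x in 𝓝 z, t x b = 0 ∧ (x b = 0 → N *ᵥ φ x = 0 ∧ e x = 0 ∧ t x = 0) ∧
        N *ᵥ φ x + (c * x b) • fderiv ℂ φ x (Pi.single b 1) = e x • φ x + fderiv ℂ φ x (t x) := by
  let M : (Fin p → ℂ) → Matrix n (Option (Fin m)) ℂ := fun x => cols (φ x) (fderiv ℂ φ x) w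
  let X : (Fin p → ℂ) → n → ℂ := fun x => N *ᵥ φ x + (c * x b) • fderiv ℂ φ x (Pi.single b 1)
  let u : (Fin p → ℂ) → Option (Fin m) → ℂ := fun x =>
    ((M z)ᴴ * Q * M x)⁻¹ *ᵥ ((M z)ᴴ * Q) *ᵥ X x
  have aM : AnalyticAt ℂ M z := an_of fun i o => by
    rcases o with _ | j
    exacts [an_crd hφ i, an_crd (an_fd hφ analyticAt_const) i]
  have aN : AnalyticAt ℂ (fun x => N *ᵥ φ x) z := an_mulVec analyticAt_const hφ
  have aX : AnalyticAt ℂ X z :=
    aN.add ((analyticAt_const.mul (OdeH.an_b b z)).smul (an_fd hφ analyticAt_const))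
  have aL : AnalyticAt ℂ (fun x => (M z)ᴴ * Q * M x) z := an_mul analyticAt_const aM
  have au : AnalyticAt ℂ u z := an_mulVec (an_inv aL hG) (an_mulVec analyticAt_const aX)
  have rM := aM.restrictScalars (𝕜 := ℝ)
  have d1 := (an_det aL).continuousAt.eventually_ne hG
  have d2 := (an_det (an_mul (an_mul (an_ct rM) (analyticAt_const (v := Q))) rM)
    ).continuousAt.eventually_ne hG
  have h1 : ∀ᶠ x in 𝓝 z, x b ≠ 0 → X x = M x *ᵥ u x := by
    filter_upwards [d1, hX] with x k1 k2 hx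
    obtain ⟨y, hy, μ, k3⟩ := k2 hx
    have k4 : ∀ s, ((M z)ᴴ * Q * M x)⁻¹ *ᵥ ((M z)ᴴ * Q) *ᵥ M x *ᵥ s = s := fun s => by
      rw [mulVec_mulVec s, mulVec_mulVec s, nonsing_inv_mul _ k1.isUnit, one_mulVec]
    have k5 : y none • X x = M x *ᵥ fun o => o.elim μ fun j => -y (some j) := by
      simp only [M, cols_mulVec, Option.elim, neg_smul, Finset.sum_neg_distrib, map_neg, k3]
      exact (add_neg_cancel_right _ _).symm
    have k6 : y none ≠ 0 := fun k => hy <| funext fun o => by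
      have k7 := k4 fun o => o.elim μ fun j => -y (some j)
      rw [← k5, k, zero_smul, mulVec_zero, mulVec_zero] at k7
      rcases o with _ | j
      exacts [k, neg_eq_zero.1 (congrFun k7 (some j)).symm]
    have k8 : X x = M x *ᵥ ((y none)⁻¹ • fun o => o.elim μ fun j => -y (some j)) := by
      rw [mulVec_smul, ← k5, inv_smul_smul₀ k6]
    simp only [u]
    rw [k8, k4]
  have h2 : ∀ᶠ x in 𝓝 z, X x = M x *ᵥ u x := by
    filter_upwards [h1.eventually_nhds, aX.eventually_analyticAt,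
      (an_mulVec aM au).eventually_analyticAt] with x k1 k2 k3
    exact dens k2.continuousAt k3.continuousAt k1
  let L := pj b
  have hL : ∀ x, x b = 0 → L x = x := fun x => pj_self
  refine ⟨fun x => u x none, fun x => ∑ j, u x (some j) • w j, an_crd au _,
    Finset.analyticAt_fun_sum _ fun j _ => (an_crd au _).smul analyticAt_const, ?_⟩
  filter_upwards [h2, d2, hA.eventually_nhds, hφ.eventually_analyticAt, aN.eventually_analyticAt]
    with x k1 k2 k3 k4 k5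
  refine ⟨by simp [hw], fun hx => ?_, k1.trans (cols_mulVec _ _ _ _)⟩
  have k6 : X x = N *ᵥ φ x := by simp [X, hx]
  have k7 : ((M x)ᴴ * Q) *ᵥ X x = 0 := funext fun o => by
    rw [k6, cols_ct]
    rcases o with _ | j
    · exact k3.self_of_nhds hx
    have k8 : (fun y => ip Q (φ (L y)) (N *ᵥ φ (L y))) =ᶠ[𝓝 x] fun _ => 0 :=
      ((L.continuous.tendsto' x x (hL x hx)).eventually k3).mono fun y hy => hy (pj_b y)
    have k9 : AnalyticAt ℂ φ (L x) := (hL x hx).symm ▸ k4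
    have k10 := wb_congr k8 (w j)
    have k11 : AnalyticAt ℂ (fun y => φ (L y)) x := k9.fun_comp (L.analyticAt x)
    rw [wb_ip k11.differentiableAt (an_mulVec analyticAt_const k11).differentiableAt, wb_const,
      fderiv_fun_comp x k9.differentiableAt L.differentiableAt, L.fderiv,
      ContinuousLinearMap.comp_apply, hL x hx, hL _ (hw j)] at k10
    exact k10
  have k12 : u x = 0 := by
    rw [k1, mulVec_mulVec] at k7
    exact eq_zero_of_mulVec_eq_zero k2 k7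
  refine ⟨by rw [← k6, k1, k12, mulVec_zero], by simp [k12], by simp [k12]⟩

variable [DecidableEq n]

theorem levi_zero (hQ : Q.IsHermitian) {φ : (Fin p → ℂ) → n → ℂ} (hφ : AnalyticAt ℂ φ z)
    (h0 : hn Q (φ z) ≠ 0) {v : Fin p → ℂ} (h : bl Q (φ z) (fderiv ℂ φ z) v v = 0) :
    levi (fun x => Real.log (hn Q (φ x))) z v = 0 := by
  have h2 : ContDiffAt ℝ 2 (fun x => hn Q (φ x)) z :=
    (an_hn analyticAt_const (hφ.restrictScalars (𝕜 := ℝ))).contDiffAt
  have e : (fun x => (hn Q (φ x) : ℂ)) = fun x => ip Q (φ x) (φ x) :=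
    funext fun x => hn_ofReal hQ _
  have e1 : wd v (fun x => ip Q (φ x) (φ x)) =ᶠ[𝓝 z] fun x => ip Q (φ x) (fderiv ℂ φ x v) :=
    hφ.eventually_analyticAt.mono fun x hx => wd_ip hx.differentiableAt hx.differentiableAt v
  rw [levi_log h2 h0, levi_eq h2, e, wb_congr e1, e1.eq_of_nhds,
    wb_ip hφ.differentiableAt (an_fd hφ analyticAt_const).differentiableAt]
  rw [bl_def, ← ip_symm hQ (φ z) (fderiv ℂ φ z v), conj_mul', ip_def Q (φ z) (φ z),
    ← hn_ofReal hQ] at h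
  have h3 := congrArg re h
  rw [sub_re, re_ofReal_mul, ← ofReal_pow, ofReal_re, zero_re] at h3
  field_simp
  linear_combination 4 * h3

end ScalH

end Vale.Agent.P281Z.Hm
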