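import Vale.Agent.P281Z.Hm.Defs
import Vale.Agent.P281Z.Hg.Out

/-!
# P281Z, abstract variations of Hodge structure: the statements of the rows
-/

open scoped Matrix.Norms.Operator Topology ComplexOrder Manifold ContDiff Kronecker
open Filter Set Matrix Complex

noncomputable section

namespace Vale.Agent.P281Z.Hm

open Vale.Agent.P284Z (levi Psh)

/-! ### matrix calculus -/

def StId : Prop := ∀ (n : Type) [Fintype n] [DecidableEq n] (E : Type) [NormedAddCommGroup E]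
  [NormedSpace ℝ E] [NormedSpace ℂ E] [IsScalarTower ℝ ℂ E] (Q : Mx n) (w : ℕ) (π : E → Gr n)
  (z : E), LVAt Q w π z → Id Q w π z

/-- the Levi form of the logarithm of a determinant -/
def StGram : Prop := ∀ (k : Type) [Fintype k] [DecidableEq k] (E : Type) [NormedAddCommGroup E]
  [NormedSpace ℝ E] [NormedSpace ℂ E] [IsScalarTower ℝ ℂ E] (g : E → Mx k) (z : E),
  AnalyticAt ℝ g z → (∀ᶠ x in 𝓝 z, (g x).IsHermitian) → (g z).det ≠ 0 →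
  AnalyticAt ℝ (fun x => Real.log ‖(g x).det‖) z ∧ ∀ v, levi (fun x => Real.log ‖(g x).det‖) z v =
    4 * (trace ((g z)⁻¹ * wb v (wd v g) z) - trace ((g z)⁻¹ * wb v g z * (g z)⁻¹ * wd v g z)).re

/-- flat subbundles -/
def StFlat : Prop := ∀ (n : Type) [Fintype n] [DecidableEq n] (E : Type) [NormedAddCommGroup E]
  [NormedSpace ℝ E] [NormedSpace ℂ E] [IsScalarTower ℝ ℂ E] (Q : Mx n) (w : ℕ) (π : E → Gr n)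
  (z : E), LVAt Q w π z → ∀ (k : Type) [Fintype k] [DecidableEq k] (B : Matrix n k ℂ),
  Function.Injective B.mulVec →
  AnalyticAt ℝ (fun x => Real.log ‖(Bᴴ * gH Q w (π x) * B).det‖) z ∧ ∀ v,
    0 ≤ levi (fun x => Real.log ‖(Bᴴ * gH Q w (π x) * B).det‖) z v ∧
    (levi (fun x => Real.log ‖(Bᴴ * gH Q w (π x) * B).det‖) z v = 0 →
      (∃ M : Mx k, th w π z v * B = B * M) ∧ ∃ M : Mx k, ts w π z v * B = B * M)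

/-- the Ricci curvature of the Hodge metric -/
def StRic : Prop := ∀ (n : Type) [Fintype n] [DecidableEq n] (E : Type) [NormedAddCommGroup E]
  [NormedSpace ℝ E] [NormedSpace ℂ E] [IsScalarTower ℝ ℂ E] (Q : Mx n) (w : ℕ) (π : E → Gr n)
  (z : E), LVAt Q w π z → ∀ (k : Type) [Fintype k] [DecidableEq k] (v : k → E),
  LinearIndependent ℂ (fun i => th w π z (v i)) →
  (of fun i j => omB w π z (v j) (v i)).PosDef ∧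
  AnalyticAt ℝ (fun x => Real.log ‖(of fun i j => omB w π x (v j) (v i)).det‖) z ∧ ∀ u,
    0 ≤ levi (fun x => Real.log ‖(of fun i j => omB w π x (v j) (v i)).det‖) z u ∧
    (th w π z u ∈ Submodule.span ℂ (range fun i => th w π z (v i)) →
      4 / kap w n * omH w π z u ≤
        levi (fun x => Real.log ‖(of fun i j => omB w π x (v j) (v i)).det‖) z u)

/-- the curvature of the line -/
def StLine : Prop := ∀ (n : Type) [Fintype n] [DecidableEq n] (E : Type) [NormedAddCommGroup E]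
  [NormedSpace ℝ E] [NormedSpace ℂ E] [IsScalarTower ℝ ℂ E] (Q : Mx n) (w : ℕ) (π : E → Gr n)
  (ψ : E → n → ℂ) (z : E), LVAt Q w π z → LnAt w π ψ z →
  AnalyticAt ℝ (fun x => hn (gH Q w (π x)) (ψ x)) z ∧ 0 < hn (gH Q w (π z)) (ψ z) ∧ ∀ v,
    levi (fun x => -Real.log (hn (gH Q w (π x)) (ψ x))) z v =
      4 * (hn (gH Q w (π z)) (th w π z v *ᵥ ψ z) / hn (gH Q w (π z)) (ψ z)) ∧
    hn (gH Q w (π z)) (th w π z v *ᵥ ψ z) ≤ omH w π z v * hn (gH Q w (π z)) (ψ z) ∧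
    (th w π z v *ᵥ ψ z = 0 ↔ v ∈ kerL ψ z)

/-- the curvature of the determinant of `F^k` -/
def StGrif : Prop := ∀ (n : Type) [Fintype n] [DecidableEq n] (E : Type) [NormedAddCommGroup E]
  [NormedSpace ℝ E] [NormedSpace ℂ E] [IsScalarTower ℝ ℂ E] (Q : Mx n) (w : ℕ) (π : E → Gr n)
  (z : E), LVAt Q w π z → (∀ v, ∑ q ∈ Finset.range (w + 1),
    (trace (th w π z v * π z q * ts w π z v)).re = omH w π z v) ∧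
  ∀ q, (∀ v, 0 ≤ (trace (th w π z v * π z q * ts w π z v)).re) ∧
  ∀ (k : Type) [Fintype k] [DecidableEq k] (B : E → Matrix n k ℂ), AnalyticAt ℂ B z →
    Function.Injective (B z).mulVec → (∀ᶠ x in 𝓝 z, gF w (π x) q * B x = B x) →
    (∃ B' : Matrix k n ℂ, gF w (π z) q = B z * B') → ((B z)ᴴ * Q * B z).det ≠ 0 ∧
    AnalyticAt ℝ (fun x => Real.log ‖((B x)ᴴ * Q * B x).det‖) z ∧ ∀ v,
      levi (fun x => -Real.log ‖((B x)ᴴ * Q * B x).det‖) z v =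
        4 * (trace (th w π z v * π z q * ts w π z v)).re

/-- flag coordinates, algebra -/
def StFlagA : Prop := ∀ (n : Type) [Fintype n] [DecidableEq n] (Q : Mx n) (w : ℕ) (π₀ : Gr n),
  Hs Q w π₀ → Near w π₀ π₀ ∧ (∀ k, flag w π₀ π₀ k = gF w π₀ k) ∧
  (∀ π, Hs Q w π → Near w π₀ π → ∀ k, gF w π k * flag w π₀ π k = flag w π₀ π k ∧
    flag w π₀ π k * gF w π k = gF w π k ∧ flag w π₀ π k * gF w π₀ k = flag w π₀ π k ∧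
    gF w π₀ k * flag w π₀ π k = gF w π₀ k) ∧
  ∀ π π', Hs Q w π → Hs Q w π' → Near w π₀ π → Near w π₀ π' →
    (∀ k ≤ w, flag w π₀ π k = flag w π₀ π' k) → π = π'

/-- flag coordinates are holomorphic -/
def StFlag : Prop := ∀ (n : Type) [Fintype n] [DecidableEq n] (E : Type) [NormedAddCommGroup E]
  [NormedSpace ℝ E] [NormedSpace ℂ E] [IsScalarTower ℝ ℂ E] [FiniteDimensional ℂ E] (Q : Mx n)
  (w : ℕ) (π : E → Gr n) (z : E) (π₀ : Gr n), LVAt Q w π z → Hs Q w π₀ → Near w π₀ (π z) →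
  (∀ᶠ x in 𝓝 z, Near w π₀ (π x)) ∧ ∀ k, AnalyticAt ℂ (fun x => flag w π₀ (π x) k) z ∧ ∀ v,
    th w π z v * π z k =
      (1 - gF w (π z) k) * fderiv ℂ (fun x => flag w π₀ (π x) k) z v * gF w (π z) k ∧
    fderiv ℂ (fun x => flag w π₀ (π x) k) z v =
      (1 - flag w π₀ (π z) k) * th w π z v * π z k * flag w π₀ (π z) k

/-- smooth variations are real analytic -/
def StSmAn : Prop := ∀ (p n w : ℕ) (Q : Hg.Mt n) (Pr : ℕ → (Fin p → ℂ) → Hg.Mt n) (t : Fin p → ℂ),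
  (∀ᶠ s in 𝓝 t, Hg.PVAt w Q Pr s) → LVAt ((-1 : ℂ) ^ w • Q) w (fun x q => Pr q x) t

/-- holomorphic pull-back -/
def StPull : Prop := ∀ (n : Type) [Fintype n] [DecidableEq n] (E : Type) [NormedAddCommGroup E]
  [NormedSpace ℝ E] [NormedSpace ℂ E] [IsScalarTower ℝ ℂ E] (E' : Type) [NormedAddCommGroup E']
  [NormedSpace ℝ E'] [NormedSpace ℂ E'] [IsScalarTower ℝ ℂ E'] (Q : Mx n) (w : ℕ) (π : E → Gr n)
  (g : E' → E) (z : E'), AnalyticAt ℂ g z → LVAt Q w π (g z) →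
  LVAt Q w (fun x => π (g x)) z ∧
  (∀ v, th w (fun x => π (g x)) z v = th w π (g z) (fderiv ℂ g z v) ∧
    ts w (fun x => π (g x)) z v = ts w π (g z) (fderiv ℂ g z v)) ∧
  ∀ ψ : E → n → ℂ, LnAt w π ψ (g z) → LnAt w (fun x => π (g x)) (fun x => ψ (g x)) z

/-- restriction to a flat graded subspace (or change of the frame) -/
def StSub : Prop := ∀ (n : Type) [Fintype n] [DecidableEq n] (E : Type) [NormedAddCommGroup E]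
  [NormedSpace ℝ E] [NormedSpace ℂ E] [IsScalarTower ℝ ℂ E] (Q : Mx n) (w : ℕ) (π : E → Gr n)
  (z : E) (k : Type) [Fintype k] [DecidableEq k] (B : Matrix n k ℂ) (B' : Matrix k n ℂ),
  LVAt Q w π z → B' * B = 1 → (∀ᶠ x in 𝓝 z, ∀ q, π x q * B = B * (B' * π x q * B)) →
  LVAt (Bᴴ * Q * B) w (fun x q => B' * π x q * B) z ∧
  (∀ v, th w π z v * B = B * th w (fun x q => B' * π x q * B) z v) ∧
  ∀ ψ : E → n → ℂ, LnAt w π ψ z → (∀ᶠ x in 𝓝 z, B *ᵥ (B' *ᵥ ψ x) = ψ x) →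
    LnAt w (fun x q => B' * π x q * B) (fun x => B' *ᵥ ψ x) z

/-- direct sum of copies -/
def StKron : Prop := ∀ (n : Type) [Fintype n] [DecidableEq n] (E : Type) [NormedAddCommGroup E]
  [NormedSpace ℝ E] [NormedSpace ℂ E] [IsScalarTower ℝ ℂ E] (Q : Mx n) (w : ℕ) (π : E → Gr n)
  (z : E) (ι : Type) [Fintype ι] [DecidableEq ι], LVAt Q w π z →
  LVAt (Q ⊗ₖ (1 : Mx ι)) w (fun x q => π x q ⊗ₖ (1 : Mx ι)) z ∧ ∀ v,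
    th w (fun x q => π x q ⊗ₖ (1 : Mx ι)) z v = th w π z v ⊗ₖ (1 : Mx ι) ∧
    ts w (fun x q => π x q ⊗ₖ (1 : Mx ι)) z v = ts w π z v ⊗ₖ (1 : Mx ι)

/-- tensor powers, algebra -/
def StTensA : Prop := ∀ (n : Type) [Fintype n] [DecidableEq n] (Q : Mx n) (w k : ℕ) (π : Gr n),
  Hs Q w π → Hs (tens fun _ : Fin k => Q) (k * w) (tensG k w π) ∧
  gH (tens fun _ : Fin k => Q) (k * w) (tensG k w π) = tens (fun _ : Fin k => gH Q w π) ∧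
  gJ (k * w) (tensG k w π) = ∑ i : Fin k, tens (Function.update (fun _ => 1) i (gJ w π)) ∧
  tensG k w π (k * w) = tens (fun _ : Fin k => π w) ∧
  ∀ (A : Mx n) (u : Fin k → n → ℂ),
    tens (fun _ : Fin k => A) *ᵥ altT u = altT (fun j => A *ᵥ u j) ∧
    hn (tens fun _ : Fin k => A) (altT u) =
      k.factorial * (of fun i j => star (u i) ⬝ᵥ A *ᵥ u j).det.re

/-- tensor powers and the determinant line of a subbundle of the top piece -/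
def StTens : Prop := ∀ (n : Type) [Fintype n] [DecidableEq n] (E : Type) [NormedAddCommGroup E]
  [NormedSpace ℝ E] [NormedSpace ℂ E] [IsScalarTower ℝ ℂ E] (Q : Mx n) (w k : ℕ) (π : E → Gr n)
  (z : E), LVAt Q w π z → LVAt (tens fun _ : Fin k => Q) (k * w) (fun x => tensG k w (π x)) z ∧
  (∀ v, th (k * w) (fun x => tensG k w (π x)) z v =
    ∑ i : Fin k, tens (Function.update (fun _ => 1) i (th w π z v))) ∧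
  ∀ u : E → Fin k → n → ℂ, AnalyticAt ℂ u z → LinearIndependent ℂ (u z) →
    (∀ᶠ x in 𝓝 z, ∀ j, π x w *ᵥ u x j = u x j) →
    (∀ᶠ x in 𝓝 z, ∀ v j, π x w *ᵥ fderiv ℂ u x v j ∈ Submodule.span ℂ (range (u x))) →
    LnAt (k * w) (fun x => tensG k w (π x)) (fun x => altT (u x)) z

/-- the lemma of Ahlfors and Schwarz -/
def StAhl : Prop := ∀ (n : Type) [Fintype n] [DecidableEq n] (E : Type) [NormedAddCommGroup E]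
  [NormedSpace ℝ E] [NormedSpace ℂ E] [IsScalarTower ℝ ℂ E] (Q : Mx n) (w : ℕ) (π : E → Gr n)
  (z v : E) (R : ℝ), 0 < R → (∀ t : ℂ, ‖t‖ < R → LVAt Q w π (z + t • v)) →
  omH w π z v ≤ 2 * kap w n / R ^ 2

/-- `omH` is a Hermitian form; first derivatives of norms of flat sections and of projectors -/
def StLip : Prop := ∀ (n : Type) [Fintype n] [DecidableEq n] (E : Type) [NormedAddCommGroup E]
  [NormedSpace ℝ E] [NormedSpace ℂ E] [IsScalarTower ℝ ℂ E] (Q : Mx n) (w : ℕ) (π : E → Gr n)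
  (z : E), LVAt Q w π z → (∀ v, 0 ≤ omH w π z v) ∧ (∀ v, omH w π z v = 0 ↔ th w π z v = 0) ∧
  (∀ (c : ℂ) v, omH w π z (c • v) = ‖c‖ ^ 2 * omH w π z v) ∧
  (∀ u v, √(omH w π z (u + v)) ≤ √(omH w π z u) + √(omH w π z v)) ∧
  (∀ v s, hn (gH Q w (π z)) (th w π z v *ᵥ s) ≤ omH w π z v * hn (gH Q w (π z)) s ∧
    hn (gH Q w (π z)) (ts w π z v *ᵥ s) ≤ omH w π z v * hn (gH Q w (π z)) s) ∧
  ∀ s, AnalyticAt ℝ (fun x => hn (gH Q w (π x)) s) z ∧ ∀ v,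
    |fderiv ℝ (fun x => hn (gH Q w (π x)) s) z v| ≤ 4 * √(omH w π z v) * hn (gH Q w (π z)) s

/-! ### algebra -/

/-- rational subspaces -/
def StRat : Prop := ∀ (n : Type) [Fintype n] [DecidableEq n] (A : Set (Matrix n n ℤ)),
  ∃ (k : ℕ) (B : Matrix n (Fin k) ℤ) (B' : Matrix (Fin k) n ℂ), B' * cz B = 1 ∧
    (∀ s : n → ℂ, (∀ a ∈ A, cz a *ᵥ s = 0) ↔ ∃ t, s = cz B *ᵥ t) ∧
    ∀ g : Matrix n n ℤ, (∃ M : Mx (Fin k), cz g * cz B = cz B * M) →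
      ∃ M : Matrix (Fin k) (Fin k) ℤ, g * B = B * M

/-- properness -/
def StProp : Prop := ∀ (n : Type) [Fintype n] [DecidableEq n] (Q : Mx n) (w : ℕ) (B : ℝ),
  {g : Matrix n n ℤ | (cz g)ᴴ * Q * cz g = Q ∧ ∃ π π' : Gr n, Hs Q w π ∧ Hs Q w π' ∧
    (∀ q, ‖π q‖ ≤ B ∧ ‖π' q‖ ≤ B) ∧ ∀ q, π' q * cz g = cz g * π q}.Finite

/-- logarithms -/
def StLog : Prop := ∀ (n : Type) [Fintype n] [DecidableEq n] (p : ℕ) (K : Finset (Fin p)) (Q : Mx n)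
  (T : Fin p → Matrix n n ℤ) (a : ℕ), 0 < a → (∀ i ∈ K, IsNilpotent (cz (T i) ^ a - 1)) →
  (∀ i ∈ K, ∀ j ∈ K, Commute (cz (T i) ^ a) (cz (T j) ^ a)) →
  (∀ i ∈ K, (cz (T i))ᴴ * Q * cz (T i) = Q) → ∃ N, Un K Q T a N

/-- compactness of bounded sets of gradings -/
def StCpt : Prop := ∀ (n : Type) [Fintype n] [DecidableEq n] (Q : Mx n) (w : ℕ) (B : ℝ),
  (∃ B' : ℝ, ∀ π : Gr n, Hs Q w π → (∀ s, hn (gH Q w π) s ≤ B * ‖s‖ ^ 2) →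
    (∀ q, ‖π q‖ ≤ B') ∧ (∀ s, ‖s‖ ^ 2 ≤ B' * hn (gH Q w π) s) ∧
    ∀ A : Mx n, ‖A‖ ^ 2 ≤ B' * (trace (A * ((gH Q w π)⁻¹ * Aᴴ * gH Q w π))).re ∧
      (trace (A * ((gH Q w π)⁻¹ * Aᴴ * gH Q w π))).re ≤ B' * ‖A‖ ^ 2) ∧
  IsCompact {π : Gr n | Hs Q w π ∧ ∀ s, hn (gH Q w π) s ≤ B * ‖s‖ ^ 2}

/-! ### analysis on the model -/

/-- the maximum principle across the boundary -/
def StTor : Prop := ∀ (p : ℕ) (K : Finset (Fin p)) (a : ℕ) (u : (Fin p → ℂ) → ℝ), 0 < a →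
  ContinuousOn u (Dm K) → Psh u (Dm K) →
  (∀ i ∈ K, ∀ ζ ∈ Dm K, u (ζ + Pi.single i (a : ℂ)) = u ζ) →
  (∀ j ∈ K, ∀ ζ ∈ Dm K, ∀ ε > (0 : ℝ), ∃ ζ' ∈ Dm K, dist ζ' ζ < ε ∧ ∀ δ > (0 : ℝ), ∃ B : ℝ,
    ∀ t : ℂ, 1 ≤ t.im → u (Function.update ζ' j t) ≤ B + δ * t.im) →
  ∀ η > (0 : ℝ), ∀ ζ ∈ Dm K, (∀ i ∈ K, η ≤ (ζ i).im) → ∃ τ : Fin p → ℂ,
    (∀ i ∈ K, (τ i).im = η ∧ (τ i).re ∈ Icc (0 : ℝ) a) ∧ (∀ i ∉ K, τ i = ζ i) ∧ u ζ ≤ u τ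

/-- logarithmic growth of the Hodge metric -/
def StGrow : Prop := ∀ (n : Type) [Fintype n] [DecidableEq n] (p : ℕ) (K : Finset (Fin p))
  (Q : Mx n) (w : ℕ) (π : (Fin p → ℂ) → Gr n), (∀ ζ ∈ Dm K, LVAt Q w π ζ) →
  ∀ η > (0 : ℝ), (∃ B : ℝ, ∀ ζ ∈ In K η, ∀ v,
    omH w π ζ v ≤ B * (∑ i ∈ K, (‖v i‖ / (ζ i).im) ^ 2 + ∑ i ∈ Kᶜ, ‖v i‖ ^ 2)) ∧
  ∀ R : ℝ, ∃ (B : ℝ) (N : ℕ), ∀ ζ ∈ St K R η, ∀ s,
    hn (gH Q w (π ζ)) s ≤ B * pl K ζ ^ N * ‖s‖ ^ 2 ∧ ‖s‖ ^ 2 ≤ B * pl K ζ ^ N * hn (gH Q w (π ζ)) s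

/-- the monodromy theorem -/
def StBor : Prop := ∀ (n : Type) [Fintype n] [DecidableEq n] (p : ℕ) (K : Finset (Fin p))
  (Q : Mx n) (w : ℕ) (π : (Fin p → ℂ) → Gr n) (T : Fin p → Matrix n n ℤ), BV K Q w π T →
  ∃ a, 0 < a ∧ ∀ i ∈ K, ∀ b, IsNilpotent (cz (T i) ^ (a * b) - 1)

/-- strict positivity of the Levi form survives somewhere under uniform approximation -/
def StCmp : Prop := ∀ (E : Type) [NormedAddCommGroup E] [NormedSpace ℝ E] [NormedSpace ℂ E]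
  [IsScalarTower ℝ ℂ E] [FiniteDimensional ℂ E] (u₀ : E → ℝ) (z : E), ContDiffAt ℝ 2 u₀ z →
  (∀ v, v ≠ 0 → 0 < levi u₀ z v) → ∀ O ∈ 𝓝 z, ∃ r > (0 : ℝ), ∃ δ > (0 : ℝ),
    Metric.closedBall z r ⊆ O ∧ ∀ u : E → ℝ,
      (∀ x ∈ Metric.closedBall z r, ContDiffAt ℝ 2 u x ∧ |u x - u₀ x| ≤ δ) →
      ∃ x ∈ Metric.ball z r, ∀ v, v ≠ 0 → 0 < levi u x v

/-- periodic holomorphic functions of exponential growth are meromorphic on the polydisc -/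
def StDesc : Prop := ∀ (n : Type) [Fintype n] (p : ℕ) (K : Finset (Fin p)) (a : ℕ)
  (F : (Fin p → ℂ) → n → ℂ) (M : ℕ), 0 < a → AnalyticOnNhd ℂ F (Dm K) →
  (∀ i ∈ K, ∀ ζ ∈ Dm K, F (ζ + Pi.single i (a : ℂ)) = F ζ) →
  (∀ η > (0 : ℝ), ∃ B : ℝ, ∀ ζ ∈ St K a η, ‖(∏ i ∈ K, ex K a ζ i ^ M) • F ζ‖ ≤ B) →
  ∃ φ : (Fin p → ℂ) → n → ℂ, AnalyticOnNhd ℂ φ (Metric.ball 0 1) ∧
    ∀ ζ ∈ Dm K, φ (ex K a ζ) = (∏ i ∈ K, ex K a ζ i ^ M) • F ζ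

/-- division by the largest monomial -/
def StDiv : Prop := ∀ (n : Type) [Fintype n] (p : ℕ) (K : Finset (Fin p))
  (φ : (Fin p → ℂ) → n → ℂ), AnalyticOnNhd ℂ φ (Metric.ball 0 1) →
  (∃ σ ∈ Metric.ball (0 : Fin p → ℂ) 1, φ σ ≠ 0) →
  ∃ (β : Fin p → ℕ) (φ' : (Fin p → ℂ) → n → ℂ), AnalyticOnNhd ℂ φ' (Metric.ball 0 1) ∧
    (∀ σ ∈ Metric.ball (0 : Fin p → ℂ) 1, φ σ = (∏ i ∈ K, σ i ^ β i) • φ' σ) ∧
    ∀ i ∈ K, ∃ σ ∈ Metric.ball (0 : Fin p → ℂ) 1, σ i = 0 ∧ φ' σ ≠ 0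

/-- uniqueness for a regular singular equation -/
def StOde : Prop := ∀ (n : Type) [Fintype n] [DecidableEq n] (p : ℕ) (b : Fin p) (N : Mx n) (c : ℂ)
  (ξ : (Fin p → ℂ) → n → ℂ) (e : (Fin p → ℂ) → ℂ) (t : (Fin p → ℂ) → Fin p → ℂ) (z : Fin p → ℂ),
  IsNilpotent N → c ≠ 0 → z b = 0 → AnalyticAt ℂ ξ z → AnalyticAt ℂ e z → AnalyticAt ℂ t z →
  (∀ᶠ x in 𝓝 z, t x b = 0 ∧ (x b = 0 → ξ x = 0 ∧ e x = 0 ∧ t x = 0) ∧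
    N *ᵥ ξ x + (c * x b) • fderiv ℂ ξ x (Pi.single b 1) = e x • ξ x + fderiv ℂ ξ x (t x)) →
  ∀ᶠ x in 𝓝 z, ξ x = 0

/-- the frame -/
def StFr : Prop := ∀ (n : Type) [Fintype n] [DecidableEq n] (p : ℕ) (K : Finset (Fin p))
  (Q : Mx n) (w : ℕ) (π : (Fin p → ℂ) → Gr n) (T : Fin p → Matrix n n ℤ) (a : ℕ) (N : Fin p → Mx n)
  (ψ : (Fin p → ℂ) → n → ℂ) (lam : Fin p → ℂ), BV K Q w π T → Un K Q T a N →
  BL K Q w π T a ψ lam → ∃ β φ, Fr K a N ψ β φ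

/-- the norm of the normalised frame -/
def StLow : Prop := ∀ (n : Type) [Fintype n] [DecidableEq n] (p : ℕ) (K : Finset (Fin p))
  (Q : Mx n) (w : ℕ) (π : (Fin p → ℂ) → Gr n) (T : Fin p → Matrix n n ℤ) (a : ℕ) (N : Fin p → Mx n)
  (ψ : (Fin p → ℂ) → n → ℂ) (lam : Fin p → ℂ) (β : Fin p → ℤ) (φ : (Fin p → ℂ) → n → ℂ),
  Bd K Q w π T a N ψ lam β φ →
  (∀ ζ ∈ Dm K, LnAt w π (vf K a N φ) ζ ∧ kerL (vf K a N φ) ζ = kerL ψ ζ ∧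
    hn (gH Q w (π ζ)) (ψ ζ) = Real.exp (-4 * Real.pi * ∑ i ∈ K, β i / (a : ℝ) * (ζ i).im) *
      hn (gH Q w (π ζ)) (vf K a N φ ζ) ∧
    ∀ i ∈ K, hn (gH Q w (π (ζ + Pi.single i 1))) (vf K a N φ (ζ + Pi.single i 1)) =
      hn (gH Q w (π ζ)) (vf K a N φ ζ)) ∧
  ∀ η > (0 : ℝ), ∃ (c B : ℝ) (M : ℕ), 0 < c ∧ ∀ ζ ∈ In K η,
    c ≤ hn (gH Q w (π ζ)) (vf K a N φ ζ) ∧ hn (gH Q w (π ζ)) (vf K a N φ ζ) ≤ B * pl K ζ ^ M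

/-- the expansion of the norm at the component `b` -/
def StExp : Prop := ∀ (n : Type) [Fintype n] [DecidableEq n] (p : ℕ) (K : Finset (Fin p))
  (Q : Mx n) (w : ℕ) (π : (Fin p → ℂ) → Gr n) (T : Fin p → Matrix n n ℤ) (a : ℕ) (N : Fin p → Mx n)
  (ψ : (Fin p → ℂ) → n → ℂ) (lam : Fin p → ℂ) (β : Fin p → ℤ) (φ : (Fin p → ℂ) → n → ℂ),
  Bd K Q w π T a N ψ lam β φ → ∀ b ∈ K,
  (∀ ζ ∈ Dm K, hn (gH Q w (π ζ)) (vf K a N φ ζ) = ∑ j ∈ Finset.range (Fintype.card n + 1),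
    (ζ b).im ^ j * cf K Q w N b j (φ (ex K a ζ)) ζ) ∧
  (∀ j, AnalyticOnNhd ℝ (cf0 K Q w a N φ b j) (Db K b)) ∧
  (∀ j, ∀ η > (0 : ℝ), ∃ (B : ℝ) (M : ℕ), ∀ ζ, Function.update ζ b (η * I) ∈ In K η →
    |cf0 K Q w a N φ b j ζ| ≤ B * pl (K.erase b) ζ ^ M) ∧
  ∀ k, (∀ j, k < j → ∀ ζ ∈ Db K b, cf0 K Q w a N φ b j ζ = 0) → ∀ ζ ∈ Db K b,
    Tendsto (fun x => hn (gH Q w (π x)) (vf K a N φ x) / (x b).im ^ k) (toB b ζ)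
      (𝓝 (cf0 K Q w a N φ b k ζ))

/-- the leading coefficient is positive everywhere -/
def StPos : Prop := ∀ (n : Type) [Fintype n] [DecidableEq n] (p : ℕ) (K : Finset (Fin p))
  (Q : Mx n) (w : ℕ) (π : (Fin p → ℂ) → Gr n) (T : Fin p → Matrix n n ℤ) (a : ℕ) (N : Fin p → Mx n)
  (ψ : (Fin p → ℂ) → n → ℂ) (lam : Fin p → ℂ) (β : Fin p → ℤ) (φ : (Fin p → ℂ) → n → ℂ),
  Bd K Q w π T a N ψ lam β φ → ∀ b ∈ K, ∃ k,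
  (∀ j, k < j → ∀ ζ ∈ Db K b, cf0 K Q w a N φ b j ζ = 0) ∧ ∀ ζ ∈ Db K b,
    0 < cf0 K Q w a N φ b k ζ ∧
    ∀ v, v b = 0 → levi (fun x => Real.log (cf0 K Q w a N φ b k x)) ζ v ≤ 0

/-- the rank drops if the norm is unbounded -/
def StDrop : Prop := ∀ (n : Type) [Fintype n] [DecidableEq n] (p : ℕ) (b : Fin p)
  (Q : Mx n) (w : ℕ) (π : (Fin p → ℂ) → Gr n) (T : Fin p → Matrix n n ℤ) (a : ℕ) (N : Fin p → Mx n)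
  (ψ : (Fin p → ℂ) → n → ℂ) (lam : Fin p → ℂ) (β : Fin p → ℤ) (φ : (Fin p → ℂ) → n → ℂ),
  Bd {b} Q w π T a N ψ lam β φ → ∀ k ν, 1 ≤ k →
  (∀ ζ ∈ Dm {b}, p ≤ Module.finrank ℂ (kerL ψ ζ) + ν) →
  (∀ j, k < j → ∀ ζ ∈ Db {b} b, cf0 {b} Q w a N φ b j ζ = 0) →
  (∀ ζ ∈ Db {b} b, 0 < cf0 {b} Q w a N φ b k ζ ∧
    ∀ v, v b = 0 → levi (fun x => Real.log (cf0 {b} Q w a N φ b k x)) ζ v ≤ 0) →
  ∀ ζ ∈ Db {b} b, Deg (cf0 {b} Q w a N φ b k) b ν ζ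

/-- the monodromy is scalar if the rank does not drop -/
def StScal : Prop := ∀ (n : Type) [Fintype n] [DecidableEq n] (p : ℕ) (b : Fin p)
  (Q : Mx n) (w : ℕ) (π : (Fin p → ℂ) → Gr n) (T : Fin p → Matrix n n ℤ) (a : ℕ) (N : Fin p → Mx n)
  (ψ : (Fin p → ℂ) → n → ℂ) (lam : Fin p → ℂ) (β : Fin p → ℤ) (φ : (Fin p → ℂ) → n → ℂ),
  Bd {b} Q w π T a N ψ lam β φ → ∀ ν,
  (∀ ζ ∈ Dm {b}, p ≤ Module.finrank ℂ (kerL ψ ζ) + ν) →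
  (∀ j, 0 < j → ∀ ζ ∈ Db {b} b, cf0 {b} Q w a N φ b j ζ = 0) →
  (∀ ζ ∈ Db {b} b, 0 < cf0 {b} Q w a N φ b 0 ζ ∧
    ∀ v, v b = 0 → levi (fun x => Real.log (cf0 {b} Q w a N φ b 0 x)) ζ v ≤ 0) →
  (∃ ζ ∈ Db {b} b, ¬Deg (cf0 {b} Q w a N φ b 0) b ν ζ) →
  ∃ c : ℂ, ∀ ζ ∈ Dm {b}, cz (T b) *ᵥ ψ ζ = c • ψ ζ

/-- the argument of Kwack -/
def StKw : Prop := ∀ (X : Type) [NormedAddCommGroup X] (F : Type) [NormedAddCommGroup F]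
  [NormedSpace ℂ F] (f : ℂ → X) (A : Set X), IsCompact A → ContinuousOn f {t | 0 < t.im} →
  (∀ t, 0 < t.im → f (t + 1) = f t) → (∀ t, 1 ≤ t.im → f t ∈ A) →
  (∀ ε > (0 : ℝ), ∃ y : ℝ, ∀ t t' : ℂ, y ≤ t.im → t'.im = t.im → dist (f t') (f t) < ε) →
  (∀ x ∈ A, ∃ δ > (0 : ℝ), ∃ g : X → F, ContinuousOn g (A ∩ Metric.closedBall x δ) ∧
    InjOn g (A ∩ Metric.closedBall x δ) ∧
    ∀ t, 1 < t.im → dist (f t) x < δ → DifferentiableAt ℂ (fun s => g (f s)) t) →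
  ∃ x ∈ A, Tendsto f (comap Complex.im atTop) (𝓝 x)

/-- trivial monodromy on the gradings: the Hodge metric is bounded -/
def StBdd : Prop := ∀ (n : Type) [Fintype n] [DecidableEq n] (p : ℕ) (b : Fin p)
  (Q : Mx n) (w : ℕ) (π : (Fin p → ℂ) → Gr n), (∀ ζ ∈ Dm {b}, LVAt Q w π ζ) →
  (∀ ζ ∈ Dm {b}, π (ζ + Pi.single b 1) = π ζ) → ∀ η > (0 : ℝ), ∃ B : ℝ, ∀ ζ ∈ In {b} η, ∀ s,
    hn (gH Q w (π ζ)) s ≤ B * ‖s‖ ^ 2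

/-- and the period map extends -/
def StExt : Prop := ∀ (n : Type) [Fintype n] [DecidableEq n] (p : ℕ) (b : Fin p)
  (Q : Mx n) (w : ℕ) (π : (Fin p → ℂ) → Gr n), (∀ ζ ∈ Dm {b}, LVAt Q w π ζ) →
  (∀ ζ ∈ Dm {b}, π (ζ + Pi.single b 1) = π ζ) → ∀ ζ ∈ Db {b} b, ∃ B : ℝ, ∀ᶠ x in toB b ζ,
    omH w π x (Pi.single b 1) ≤ B * Real.exp (-4 * Real.pi * (x b).im)

/-! ### global statements -/

/-- connected components -/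
def StConn : Prop := ∀ (p : ℕ) (Y : Type) [TopologicalSpace Y] [T2Space Y] [CompactSpace Y]
  [ChartedSpace (Fin p → ℂ) Y] (S : Snc p Y),
  ∃ S' : Snc p Y, S'.U = S.U ∧ S'.Conn ∧ ∀ l', ∃ l, S'.G l' ⊆ S.G l

/-- local equations in two charts differ by a unit -/
def StUnit : Prop := ∀ (p : ℕ) (Y : Type) [TopologicalSpace Y] [ChartedSpace (Fin p → ℂ) Y]
  [IsManifold 𝓘(ℂ, Fin p → ℂ) ω Y] (S : Snc p Y) (y y' : Y) (l : Fin S.r),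
  y' ∈ (chartAt (Fin p → ℂ) y).source → (∀ᶠ x in 𝓝 y', x ∈ S.G l ↔ y ∈ S.G l ∧
    ∃ i, S.lab y l = some i ∧ chartAt (Fin p → ℂ) y x i = 0) → ∃ c : ℝ, 0 < c ∧ (y' ∈ S.G l →
    Tendsto (fun x => S.ab y l (chartAt (Fin p → ℂ) y x) / S.ab y' l (chartAt (Fin p → ℂ) y' x))
      (𝓝[(S.G l)ᶜ] y') (𝓝 c)) ∧ (y' ∉ S.G l →
    Tendsto (fun x => S.ab y l (chartAt (Fin p → ℂ) y x)) (𝓝 y') (𝓝 c))

/-- local sections and lifts -/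
def StBr : Prop := ∀ (p : ℕ) (Y : Type) [TopologicalSpace Y] [ChartedSpace (Fin p → ℂ) Y]
  [IsManifold 𝓘(ℂ, Fin p → ℂ) ω Y] (U : Set Y) (C : Cv Y U), IsOpen U → Continuous C.π ∧
  (∀ y x, C.π x ∈ (chartAt (Fin p → ℂ) y).source → ∃ σ : (Fin p → ℂ) → C.X,
    C.Br y σ (chartAt (Fin p → ℂ) y (C.π x)) ∧ σ (chartAt (Fin p → ℂ) y (C.π x)) = x ∧
    ∀ᶠ x' in 𝓝 x, σ (chartAt (Fin p → ℂ) y (C.π x')) = x') ∧
  (∀ y (σ : (Fin p → ℂ) → C.X) z, C.Br y σ z → C.Lift p σ z) ∧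
  (∀ (E : Type) [NormedAddCommGroup E] [NormedSpace ℂ E] (f : E → C.X) (t : E) y
    (σ : (Fin p → ℂ) → C.X), C.Lift p f t → C.π (f t) ∈ (chartAt (Fin p → ℂ) y).source →
    C.Br y σ (chartAt (Fin p → ℂ) y (C.π (f t))) → σ (chartAt (Fin p → ℂ) y (C.π (f t))) = f t →
    AnalyticAt ℂ (fun s => chartAt (Fin p → ℂ) y (C.π (f s))) t ∧ (∀ᶠ s in 𝓝 t, C.Lift p f s) ∧
      ∀ᶠ s in 𝓝 t, f s = σ (chartAt (Fin p → ℂ) y (C.π (f s)))) ∧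
  (∀ (g : C.Γ) (x : C.X), g • x = x → ∀ x' : C.X, g • x' = x') ∧
  (∀ (F : Type) (u : C.X → F), (∀ y (σ : (Fin p → ℂ) → C.X) z, C.Br y σ z →
    ∀ᶠ s in 𝓝 z, u (σ s) = u (σ z)) → ∀ x x', u x = u x') ∧
  ∀ (F : Type) [NormedAddCommGroup F] [NormedSpace ℝ F] (u : C.X → F),
    (∀ y (σ : (Fin p → ℂ) → C.X) z, C.Br y σ z → AnalyticAt ℝ (fun s => u (σ s)) z) →
    ∀ x, (∀ᶠ x' in 𝓝 x, u x' = 0) → ∀ x', u x' = 0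

/-- lifts of punctured polydiscs -/
def StLift : Prop := ∀ (p : ℕ) (Y : Type) [TopologicalSpace Y] [ChartedSpace (Fin p → ℂ) Y]
  [IsManifold 𝓘(ℂ, Fin p → ℂ) ω Y] (S : Snc p Y) (C : Cv Y S.U), IsOpen S.U ∧
  (∀ y, ∀ O ∈ 𝓝 y, ∃ ρ f g, BdL S C y ρ f g ∧
    ∀ z ∈ Metric.ball (chartAt (Fin p → ℂ) y y) ρ, (chartAt (Fin p → ℂ) y).symm z ∈ O) ∧
  ∀ y ρ f g, BdL S C y ρ f g → (∀ ζ ∈ Dm (S.K y), C.Lift p f ζ ∧ ∀ᶠ x in 𝓝 (f ζ), x ∈ f '' Dm (S.K y)) ∧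
    (∀ i ∈ S.K y, ∀ j ∈ S.K y, ∀ x : C.X, (g i * g j) • x = (g j * g i) • x) ∧
    ∀ η > (0 : ℝ), η < 1 → ∀ᶠ y' in 𝓝 y, y' ∈ S.U → ∃ ζ ∈ St (S.K y) 1 η, C.π (f ζ) = y'

/-- the local monodromy along a component -/
def StMono : Prop := ∀ (p : ℕ) (Y : Type) [TopologicalSpace Y] [ChartedSpace (Fin p → ℂ) Y]
  [IsManifold 𝓘(ℂ, Fin p → ℂ) ω Y] (S : Snc p Y) (C : Cv Y S.U) (H : Subgroup C.Γ), H.Normal →
  (∀ g : C.Γ, (∀ x : C.X, g • x = x) → g ∈ H) → ∀ l, IsPreconnected (S.G0 l) →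
  ∀ y ∈ S.G0 l, ∀ y' ∈ S.G0 l, ∀ ρ f g ρ' f' g', BdL S C y ρ f g → BdL S C y' ρ' f' g' →
    (∀ i ∈ S.K y, g i ∈ H) → ∀ i ∈ S.K y', g' i ∈ H

/-- the maximum principle on `Y` -/
def StMax : Prop := ∀ (p : ℕ) (Y : Type) [TopologicalSpace Y] [CompactSpace Y]
  [ChartedSpace (Fin p → ℂ) Y] [IsManifold 𝓘(ℂ, Fin p → ℂ) ω Y] (S : Snc p Y) (C : Cv Y S.U)
  (u : C.X → ℝ), (∀ (g : C.Γ) x, u (g • x) = u x) →
  (∀ (f : (Fin p → ℂ) → C.X) z, C.Lift p f z →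
    ContDiffAt ℝ 2 (fun s => u (f s)) z ∧ ∀ v, 0 ≤ levi (fun s => u (f s)) z v) →
  (∀ y ρ f g, BdL S C y ρ f g → ∀ η > (0 : ℝ), ∃ B M : ℝ, ∀ ζ ∈ St (S.K y) 1 η,
    u (f ζ) ≤ B + M * Real.log (pl (S.K y) ζ)) → ∀ x x', u x = u x'

/-- powers of the local monodromies commute -/
def StComm : Prop := ∀ (p : ℕ) (Y : Type) [TopologicalSpace Y] [ChartedSpace (Fin p → ℂ) Y]
  (U : Set Y) (C : Cv Y U) (n : Type) [Fintype n] [DecidableEq n] (V : GV p C n),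
  (∀ x, Hs V.Q V.w (V.gr x)) → ∃ a, 0 < a ∧ ∀ g g' : C.Γ, (∀ x : C.X, (g * g') • x = (g' * g) • x) →
    Commute (cz (V.ρ g) ^ a) (cz (V.ρ g') ^ a)

/-- the boundary data of a global variation -/
def StBd : Prop := ∀ (p : ℕ) (Y : Type) [TopologicalSpace Y] [ChartedSpace (Fin p → ℂ) Y]
  [IsManifold 𝓘(ℂ, Fin p → ℂ) ω Y] (S : Snc p Y) (C : Cv Y S.U) (n : Type) [Fintype n]
  [DecidableEq n] (V : GV p C n) (Lb : P285.H281.FD.Bd Y) (L : Ln V Lb), L.Mod →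
  ∀ y t, y ∈ Lb.U t → ∀ O ∈ 𝓝 y, ∃ ρ f g a N β φ, BdL S C y ρ f g ∧
    (∀ z ∈ Metric.ball (chartAt (Fin p → ℂ) y y) ρ,
      (chartAt (Fin p → ℂ) y).symm z ∈ O ∩ Lb.U t) ∧
    Bd (S.K y) V.Q V.w (fun ζ => V.gr (f ζ)) (fun i => V.ρ (g i)) a N (fun ζ => L.ψ t (f ζ))
      (fun i => L.lam (g i)) β φ ∧
    ∀ ν, L.RkLe ν → ∀ ζ ∈ Dm (S.K y), p ≤ Module.finrank ℂ (kerL (fun ζ => L.ψ t (f ζ)) ζ) + ν

/-- fixed part, subspaces -/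
def StD1 : Prop := ∀ (p : ℕ) (Y : Type) [TopologicalSpace Y] [CompactSpace Y]
  [ChartedSpace (Fin p → ℂ) Y] [IsManifold 𝓘(ℂ, Fin p → ℂ) ω Y] (S : Snc p Y) (C : Cv Y S.U)
  (n : Type) [Fintype n] [DecidableEq n] (V : GV p C n) (k : Type) [Fintype k] [DecidableEq k]
  (B : Matrix n k ℂ), Function.Injective B.mulVec →
  (∀ g, ∃ M : Mx k, cz (V.ρ g) * B = B * M ∧ ‖M.det‖ = 1) →
  ∀ (f : (Fin p → ℂ) → C.X) z, C.Lift p f z → ∀ v,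
    (∃ M : Mx k, th V.w (fun s => V.gr (f s)) z v * B = B * M) ∧
    ∃ M : Mx k, ts V.w (fun s => V.gr (f s)) z v * B = B * M

/-- fixed part, endomorphisms -/
def StD2 : Prop := ∀ (p : ℕ) (Y : Type) [TopologicalSpace Y] [CompactSpace Y]
  [ChartedSpace (Fin p → ℂ) Y] [IsManifold 𝓘(ℂ, Fin p → ℂ) ω Y] (S : Snc p Y) (C : Cv Y S.U)
  (n : Type) [Fintype n] [DecidableEq n] (V : GV p C n) (A : Mx n),
  (∀ g, Commute (cz (V.ρ g)) A) →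
  (∀ (f : (Fin p → ℂ) → C.X) z, C.Lift p f z → ∀ v,
    Commute (th V.w (fun s => V.gr (f s)) z v) A ∧ Commute (ts V.w (fun s => V.gr (f s)) z v) A) ∧
  (∃ A₁, (∀ g, Commute (cz (V.ρ g)) A₁) ∧ ∀ x, gJ V.w (V.gr x) * A - A * gJ V.w (V.gr x) = A₁) ∧
  (∃ A₂, (∀ g, Commute (cz (V.ρ g)) A₂) ∧
    ∀ x, gH V.Q V.w (V.gr x) * A₂ = Aᴴ * gH V.Q V.w (V.gr x)) ∧
  ((∀ A', (∀ g, Commute (cz (V.ρ g)) A') → Commute A A') → ∀ x q, Commute A (V.gr x q))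

/-- invariants of a normal set of integer matrices form a subvariation -/
def StD3 : Prop := ∀ (p : ℕ) (Y : Type) [TopologicalSpace Y] [CompactSpace Y]
  [ChartedSpace (Fin p → ℂ) Y] [IsManifold 𝓘(ℂ, Fin p → ℂ) ω Y] (S : Snc p Y) (C : Cv Y S.U)
  (n : Type) [Fintype n] [DecidableEq n] (V : GV p C n) (A : Set C.Γ),
  (∀ a ∈ A, ∀ g, g * a * g⁻¹ ∈ A) → ∃ (k : ℕ) (V' : GV p C (Fin k)) (B : Matrix n (Fin k) ℤ)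
    (B' : Matrix (Fin k) n ℂ), B' * cz B = 1 ∧
    (∀ s : n → ℂ, (∀ a ∈ A, cz (V.ρ a) *ᵥ s = s) ↔ ∃ t, s = cz B *ᵥ t) ∧
    V'.w = V.w ∧ V'.Q = (cz B)ᴴ * V.Q * cz B ∧ (∀ g, V.ρ g * B = B * V'.ρ g) ∧
    ∀ x q, V.gr x q * cz B = cz B * V'.gr x q ∧ V'.gr x q = B' * V.gr x q * cz B

/-- output: the minimal variation -/
def StMin : Prop := ∀ (p : ℕ) (Y : Type) [TopologicalSpace Y] [CompactSpace Y]
  [ChartedSpace (Fin p → ℂ) Y] [IsManifold 𝓘(ℂ, Fin p → ℂ) ω Y] (S : Snc p Y) (C : Cv Y S.U)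
  (n : Type) [Fintype n] [DecidableEq n] (V : GV p C n) (Lb : P285.H281.FD.Bd Y) (L : Ln V Lb),
  ∃ (k : ℕ) (V' : GV p C (Fin k)) (L' : Ln V' Lb) (B : Matrix n (Fin k) ℤ), L'.Min ∧
    Function.Injective (cz B).mulVec ∧ V'.w = V.w ∧ V'.Q = (cz B)ᴴ * V.Q * cz B ∧
    (∀ g, V.ρ g * B = B * V'.ρ g) ∧ (∀ x q, V.gr x q * cz B = cz B * V'.gr x q) ∧
    (∀ i x, C.π x ∈ Lb.U i → L.ψ i x = cz B *ᵥ L'.ψ i x ∧ L'.h i x = L.h i x) ∧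
    (∀ i, ∀ y ∈ Lb.U i, L'.hY i y = L.hY i y) ∧ L'.lam = L.lam ∧ L'.m = L.m ∧ L'.Nn = L.Nn ∧
    (L.Mod → L'.Mod)

/-- output (a) -/
def StPoin : Prop := ∀ (p : ℕ) (Y : Type) [TopologicalSpace Y] [ChartedSpace (Fin p → ℂ) Y]
  [IsManifold 𝓘(ℂ, Fin p → ℂ) ω Y] (S : Snc p Y) (C : Cv Y S.U) (n : Type) [Fintype n]
  [DecidableEq n] (V : GV p C n), V.Poin

/-- moderate growth from integrability -/
def StL1 : Prop := ∀ (p : ℕ) (Y : Type) [TopologicalSpace Y] [ChartedSpace (Fin p → ℂ) Y]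
  [IsManifold 𝓘(ℂ, Fin p → ℂ) ω Y] (S : Snc p Y) (C : Cv Y S.U) (n : Type) [Fintype n]
  [DecidableEq n] (V : GV p C n) (Lb : P285.H281.FD.Bd Y) (L : Ln V Lb), L.ModL1 → L.Mod

/-- output (c) -/
def StAlpha : Prop := ∀ (p : ℕ) (Y : Type) [TopologicalSpace Y] [ChartedSpace (Fin p → ℂ) Y]
  [IsManifold 𝓘(ℂ, Fin p → ℂ) ω Y] (S : Snc p Y) (C : Cv Y S.U) (n : Type) [Fintype n]
  [DecidableEq n] (V : GV p C n) (Lb : P285.H281.FD.Bd Y) (L : Ln V Lb), S.Conn → L.Mod →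
  ∃ α, L.Alpha α

/-- the exponents are those of the frames -/
def StAlId : Prop := ∀ (p : ℕ) (Y : Type) [TopologicalSpace Y] [ChartedSpace (Fin p → ℂ) Y]
  [IsManifold 𝓘(ℂ, Fin p → ℂ) ω Y] (S : Snc p Y) (C : Cv Y S.U) (n : Type) [Fintype n]
  [DecidableEq n] (V : GV p C n) (Lb : P285.H281.FD.Bd Y) (L : Ln V Lb) y t ρ f g a N β φ,
  BdL S C y ρ f g →
  (∀ z ∈ Metric.ball (chartAt (Fin p → ℂ) y y) ρ, (chartAt (Fin p → ℂ) y).symm z ∈ Lb.U t) →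
  Bd (S.K y) V.Q V.w (fun ζ => V.gr (f ζ)) (fun i => V.ρ (g i)) a N (fun ζ => L.ψ t (f ζ))
    (fun i => L.lam (g i)) β φ →
  (∃ (c B : ℝ) (M : ℕ), 0 < c ∧ ∀ᶠ y' in 𝓝 y, y' ∈ S.U →
    c * ∏ i ∈ S.K y, ‖chartAt (Fin p → ℂ) y y' i‖ ^ (2 * (β i / (a : ℝ))) ≤ L.hY t y' ∧
    L.hY t y' ≤ B * (∏ i ∈ S.K y, ‖chartAt (Fin p → ℂ) y y' i‖ ^ (2 * (β i / (a : ℝ)))) *
      S.plog y (chartAt (Fin p → ℂ) y y') ^ M) ∧
  ∀ α, L.Alpha α → ∀ l i, y ∈ S.G l → S.lab y l = some i → (α l : ℝ) = β i / (a : ℝ)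

/-- the limit metric in a chart -/
def StLim : Prop := ∀ (p : ℕ) (Y : Type) [TopologicalSpace Y] [ChartedSpace (Fin p → ℂ) Y]
  [IsManifold 𝓘(ℂ, Fin p → ℂ) ω Y] (S : Snc p Y) (C : Cv Y S.U) (n : Type) [Fintype n]
  [DecidableEq n] (V : GV p C n) (Lb : P285.H281.FD.Bd Y) (L : Ln V Lb) y t ρ f g a N β φ,
  BdL S C y ρ f g →
  (∀ z ∈ Metric.ball (chartAt (Fin p → ℂ) y y) ρ, (chartAt (Fin p → ℂ) y).symm z ∈ Lb.U t) →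
  Bd (S.K y) V.Q V.w (fun ζ => V.gr (f ζ)) (fun i => V.ρ (g i)) a N (fun ζ => L.ψ t (f ζ))
    (fun i => L.lam (g i)) β φ → ∀ b ∈ S.K y, ∀ k,
  (∀ j, k < j → ∀ ζ ∈ Db (S.K y) b, cf0 (S.K y) V.Q V.w a N φ b j ζ = 0) →
  (∀ ζ ∈ Db (S.K y) b, 0 < cf0 (S.K y) V.Q V.w a N φ b k ζ) →
  ∃ (κ : (Fin p → ℂ) → ℝ) (B : ℝ) (M : ℕ),
    (∀ᶠ z in 𝓝 (chartAt (Fin p → ℂ) y y), z b = 0 → (∀ i ∈ (S.K y).erase b, z i ≠ 0) → 0 < κ z ∧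
      Tendsto (fun x => L.hY t ((chartAt (Fin p → ℂ) y).symm x) /
        (‖x b‖ ^ (2 * (β b / (a : ℝ))) * (-Real.log ‖x b‖) ^ k))
        (𝓝[{x | (chartAt (Fin p → ℂ) y).symm x ∈ S.U}] z) (𝓝 (κ z)) ∧
      κ z ≤ B * (∏ i ∈ (S.K y).erase b, ‖z i‖ ^ (2 * (β i / (a : ℝ)))) * S.plog y z ^ M) ∧
    (S.K y = {b} → ∃ c : ℝ, 0 < c ∧ ∀ z, κ z =
      c * cf0 (S.K y) V.Q V.w a N φ b k ((ρ : ℂ)⁻¹ • (z - chartAt (Fin p → ℂ) y y)))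

/-- output (d), the scalar case -/
def StSc : Prop := ∀ (p : ℕ) (Y : Type) [TopologicalSpace Y] [ChartedSpace (Fin p → ℂ) Y]
  [IsManifold 𝓘(ℂ, Fin p → ℂ) ω Y] (S : Snc p Y) (C : Cv Y S.U) (n : Type) [Fintype n]
  [DecidableEq n] (V : GV p C n) (l : Fin S.r),
  (∀ y ∈ S.G0 l, ∃ ρ f g, BdL S C y ρ f g ∧
    ∀ i ∈ S.K y, ∀ x q, Commute (cz (V.ρ (g i))) (V.gr x q)) → V.Scalar l

/-- output (d) -/
def StDich : Prop := ∀ (p : ℕ) (Y : Type) [TopologicalSpace Y] [ChartedSpace (Fin p → ℂ) Y]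
  [IsManifold 𝓘(ℂ, Fin p → ℂ) ω Y] (S : Snc p Y) (C : Cv Y S.U) (n : Type) [Fintype n]
  [DecidableEq n] (V : GV p C n) (Lb : P285.H281.FD.Bd Y) (L : Ln V Lb), S.Conn → L.Mod →
  L.Min → ∀ α ν, L.Alpha α → L.RkLe ν → ∀ l, V.Scalar l ∨ L.Drop α ν l

/-- from the cocycle form to the covering: a point of the covering is a point `π x` of `U` and a
change `b x` from the frame of the covering to the frame at `π x` -/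
def StCov : Prop := ∀ (p n w : ℕ) (Y : Type) [TopologicalSpace Y] [ChartedSpace (Fin p → ℂ) Y]
  [IsManifold 𝓘(ℂ, Fin p → ℂ) ω Y] (U : Set Y) (D : Hg.Loc p n w U), IsOpen U → IsConnected U →
  ∃ (C : Cv Y U) (V : GV p C (Fin n)) (b b' : C.X → Matrix (Fin n) (Fin n) ℤ), V.w = w ∧
    (∀ x, b x * b' x = 1 ∧ b' x * b x = 1) ∧
    (∀ x, V.Q = (-1 : ℂ) ^ w • ((cz (b x))ᴴ * D.Q (C.π x) * cz (b x))) ∧
    (∀ x q, V.gr x q = cz (b' x) * D.Pr (C.π x) q (C.π x) * cz (b x)) ∧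
    (∀ (g : C.Γ) x, b' (g • x) = V.ρ g * b' x) ∧
    (∀ x a, C.π x ∈ D.N a → ∀ᶠ x' in 𝓝 x,
      b' x' * D.g (C.π x') a (C.π x') = b' x * D.g (C.π x) a (C.π x)) ∧
    (∀ g g' : C.Γ, V.ρ g = V.ρ g' → g = g') ∧
    ∀ O ψ, IsOpen O → D.Sec O ψ → ∀ (E : Type) [NormedAddCommGroup E] [NormedSpace ℂ E]
      (f : E → C.X) (z : E), C.Lift p f z → C.π (f z) ∈ O →
      AnalyticAt ℂ (fun s => cz (b' (f s)) *ᵥ ψ (C.π (f s)) (C.π (f s))) z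

end Vale.Agent.P281Z.Hm
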