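import Vale.Agent.P281Z.Hm.Sk
import Mathlib.Analysis.Matrix.Order

/-!
# P281Z: tensor powers of a polarised grading
-/

open scoped Matrix.Norms.Operator Topology ComplexOrder Manifold ContDiff
open Filter Set Matrix Complex

noncomputable section

namespace Vale.Agent.P281Z.Hm

namespace TA

section gen
variable {ι m n r : Type} [Fintype ι] [DecidableEq ι]

lemma tens_mul [Fintype n] (A : ι → Matrix m n ℂ) (B : ι → Matrix n r ℂ) :
    tens A * tens B = tens fun i => A i * B i := by
  ext a c
  simp only [tens, mul_apply, of_apply, ← Finset.prod_mul_distrib]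
  exact (Fintype.prod_sum fun i j => A i (a i) j * B i j (c i)).symm

omit [DecidableEq ι] in
lemma tens_one [DecidableEq n] : tens (fun _ : ι => (1 : Mx n)) = 1 := by
  ext a b
  by_cases h : a = b
  · subst h
    simp [tens]
  · obtain ⟨i, hi⟩ := Function.ne_iff.mp h
    rw [one_apply_ne h]
    exact Finset.prod_eq_zero (Finset.mem_univ i) (one_apply_ne hi)

omit [DecidableEq ι] in
lemma tens_conj (A : ι → Matrix m n ℂ) : (tens A)ᴴ = tens fun i => (A i)ᴴ := by
  ext a b
  simp [tens]

lemma tens_sum {κ : Type} (s : ι → Finset κ) (A : ι → κ → Matrix m n ℂ) :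
    tens (fun i => ∑ j ∈ s i, A i j) = ∑ d ∈ Fintype.piFinset s, tens fun i => A i (d i) := by
  ext a b
  simp only [tens, of_apply, Matrix.sum_apply]
  exact Finset.prod_univ_sum _ _

omit [DecidableEq ι] in
lemma tens_smul (c : ι → ℂ) (A : ι → Matrix m n ℂ) :
    tens (fun i => c i • A i) = (∏ i, c i) • tens A := by
  ext a b
  simp [tens, Finset.prod_mul_distrib]

omit [DecidableEq ι] in
lemma tens_zero (A : ι → Matrix m n ℂ) (i : ι) (h : A i = 0) : tens A = 0 := by
  ext a b
  exact Finset.prod_eq_zero (Finset.mem_univ i) (by simp [h])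

lemma tens_posDef [Fintype n] [DecidableEq n] {H : Mx n} (h : H.PosDef) :
    (tens fun _ : ι => H).PosDef := by
  have hu : IsUnit (tens fun _ : ι => H) := by
    refine IsUnit.of_mul_eq_one (tens fun _ : ι => H⁻¹) ?_
    rw [tens_mul, mul_nonsing_inv _ ((isUnit_iff_isUnit_det _).mp h.isUnit), tens_one]
  refine (PosSemidef.posDef_iff_isUnit ?_).mpr hu
  open scoped MatrixOrder in
  obtain ⟨S, rfl⟩ := CStarAlgebra.nonneg_iff_eq_star_mul_self.mp h.posSemidef.nonneg
  rw [star_eq_conjTranspose, ← tens_mul (fun _ => Sᴴ) fun _ => S, ← tens_conj]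
  exact posSemidef_conjTranspose_mul_self _

/-- the pure tensor of a family of vectors -/
def pt (u : ι → n → ℂ) : (ι → n) → ℂ := fun a => ∏ i, u i (a i)

lemma tens_pt [Fintype n] (A : ι → Matrix m n ℂ) (u : ι → n → ℂ) :
    tens A *ᵥ pt u = pt fun i => A i *ᵥ u i := by
  ext a
  simp only [tens, pt, mulVec, dotProduct, of_apply, ← Finset.prod_mul_distrib]
  exact (Fintype.prod_sum fun i j => A i (a i) j * u i j).symm

lemma pt_dot [Fintype n] (u v : ι → n → ℂ) :
    star (pt u) ⬝ᵥ pt v = ∏ i, star (u i) ⬝ᵥ v i := by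
  simp only [pt, dotProduct, Pi.star_apply, star_prod, ← Finset.prod_mul_distrib]
  exact (Fintype.prod_sum fun i j => star (u i j) * v i j).symm

end gen

section alt
variable {n : Type} {k : ℕ}

lemma altT_eq (u : Fin k → n → ℂ) :
    altT u = ∑ σ : Equiv.Perm (Fin k), ((Equiv.Perm.sign σ : ℤ) : ℂ) • pt fun i => u (σ i) := by
  ext a
  rw [altT, ← det_transpose, det_apply']
  simp [pt]

variable [Fintype n]

lemma tens_altT (A : Mx n) (u : Fin k → n → ℂ) :
    tens (fun _ : Fin k => A) *ᵥ altT u = altT fun j => A *ᵥ u j := by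
  simp only [altT_eq, mulVec_sum, mulVec_smul, tens_pt]

lemma altT_dot (u v : Fin k → n → ℂ) :
    star (altT u) ⬝ᵥ altT v = k.factorial * (of fun i j => star (u i) ⬝ᵥ v j).det := by
  have h : ∀ τ : Equiv.Perm (Fin k), star (altT u) ⬝ᵥ (pt fun i => v (τ i)) =
      ((Equiv.Perm.sign τ : ℤ) : ℂ) * (of fun i j => star (u i) ⬝ᵥ v j).det := by
    intro τ
    rw [← det_permute', det_apply', altT_eq, star_sum, sum_dotProduct]
    refine Finset.sum_congr rfl fun σ _ => ?_
    rw [star_smul, smul_dotProduct, pt_dot]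
    simp
  have h2 : ∀ τ : Equiv.Perm (Fin k),
      ((Equiv.Perm.sign τ : ℤ) : ℂ) * ((Equiv.Perm.sign τ : ℤ) : ℂ) = 1 := by
    intro τ
    rw [← Int.cast_mul, ← Units.val_mul, Int.units_mul_self]
    simp
  rw [altT_eq v, dotProduct_sum]
  simp only [dotProduct_smul, h, smul_eq_mul, ← mul_assoc, h2, one_mul]
  simp [Fintype.card_perm]

end alt

section gr
variable {n : Type} [Fintype n] [DecidableEq n] {Q : Mx n} {w k : ℕ} {π : Gr n}

/-- the multi-degrees -/
abbrev D (k w : ℕ) : Finset (Fin k → ℕ) := Fintype.piFinset fun _ : Fin k => Finset.range (w + 1)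

lemma sum_le {d : Fin k → ℕ} (hd : d ∈ D k w) : ∑ i, d i ≤ k * w := by
  have h : ∀ i ∈ (Finset.univ : Finset (Fin k)), d i ≤ w := fun i _ =>
    Nat.lt_succ_iff.mp (Finset.mem_range.mp (Fintype.mem_piFinset.mp hd i))
  simpa using Finset.sum_le_card_nsmul _ _ _ h

omit [Fintype n] [DecidableEq n] in
lemma sum_tensG (g : ℕ → ℂ) : ∑ q ∈ Finset.range (k * w + 1), g q • tensG k w π q =
    ∑ d ∈ D k w, g (∑ i, d i) • tens fun i => π (d i) := by
  rw [← Finset.sum_fiberwise_of_maps_to (s := D k w) (t := Finset.range (k * w + 1))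
    (g := fun d => ∑ i, d i) fun d hd => Finset.mem_range.mpr (Nat.lt_succ_of_le (sum_le hd))]
  refine Finset.sum_congr rfl fun q _ => ?_
  rw [tensG, Finset.smul_sum]
  refine Finset.sum_congr rfl fun d hd => ?_
  rw [(Finset.mem_filter.mp hd).2]

omit [Fintype n] [DecidableEq n] in
lemma gC_tens : gC (k * w) (tensG k w π) = tens fun _ : Fin k => gC w π := by
  simp only [gC]
  rw [sum_tensG fun q => (-1 : ℂ) ^ q, tens_sum]
  refine Finset.sum_congr rfl fun d _ => ?_
  rw [tens_smul, Finset.prod_pow_eq_pow_sum]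

omit [DecidableEq n] in
lemma gH_tens : gH (tens fun _ : Fin k => Q) (k * w) (tensG k w π) =
    tens fun _ : Fin k => gH Q w π := by
  rw [gH, gC_tens, tens_mul]
  rfl

lemma gJ_tens (h : Hs Q w π) : gJ (k * w) (tensG k w π) =
    ∑ i : Fin k, tens (Function.update (fun _ => 1) i (gJ w π)) := by
  have h1 : ∀ i : Fin k, tens (Function.update (fun _ => (1 : Mx n)) i (gJ w π)) =
      ∑ d ∈ D k w, (d i : ℂ) • tens fun i => π (d i) := by
    intro i
    have : Function.update (fun _ : Fin k => (1 : Mx n)) i (gJ w π) =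
        fun j => ∑ q ∈ Finset.range (w + 1), (if j = i then (q : ℂ) else 1) • π q := by
      funext j
      by_cases hj : j = i
      · subst hj
        simp [gJ]
      · simp [hj, h.sum]
    rw [this, tens_sum]
    refine Finset.sum_congr rfl fun d _ => ?_
    rw [tens_smul]
    simp
  simp only [h1]
  rw [gJ, sum_tensG fun q => (q : ℂ), Finset.sum_comm]
  refine Finset.sum_congr rfl fun d _ => ?_
  rw [Nat.cast_sum, Finset.sum_smul]

lemma orth_tens (h : Hs Q w π) (d d' : Fin k → ℕ) :
    (tens fun i => π (d i)) * (tens fun i => π (d' i)) =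
      if d = d' then tens fun i => π (d i) else 0 := by
  rw [tens_mul]
  split_ifs with hd
  · subst hd
    simp [h.orth]
  · obtain ⟨i, hi⟩ := Function.ne_iff.mp hd
    exact tens_zero _ i (by simp [h.orth, hi])

lemma hs_tens (h : Hs Q w π) : Hs (tens fun _ : Fin k => Q) (k * w) (tensG k w π) where
  sum := by
    have := sum_tensG (k := k) (w := w) (π := π) fun _ => 1
    simp only [one_smul] at this
    rw [this, ← tens_sum (fun _ => Finset.range (w + 1)) fun _ q => π q, h.sum, tens_one]
  orth q q' := by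
    simp only [tensG, Finset.sum_mul_sum, orth_tens h, Finset.sum_ite_eq]
    split_ifs with hq
    · subst hq
      exact Finset.sum_congr rfl fun d hd => if_pos hd
    · refine Finset.sum_eq_zero fun d hd => if_neg fun hd' => hq ?_
      rw [← (Finset.mem_filter.mp hd).2, (Finset.mem_filter.mp hd').2]
  top q hq := by
    refine Finset.sum_eq_zero fun d hd => ?_
    have h1 := sum_le (Finset.mem_filter.mp hd).1
    have h2 := (Finset.mem_filter.mp hd).2
    omega
  adj q := by
    simp only [tensG, Finset.mul_sum, Finset.sum_mul, conjTranspose_sum, tens_conj, tens_mul,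
      h.adj]
  pos := by
    rw [gH_tens]
    exact tens_posDef h.pos

omit [Fintype n] [DecidableEq n] in
lemma top_tens : tensG k w π (k * w) = tens fun _ : Fin k => π w := by
  rw [tensG, Finset.sum_eq_single_of_mem fun _ => w]
  · simp
  · intro d hd hne
    refine absurd ?_ hne
    obtain ⟨h1, h2⟩ := Finset.mem_filter.mp hd
    have h : ∀ i ∈ (Finset.univ : Finset (Fin k)), d i ≤ w := fun i _ =>
      Nat.lt_succ_iff.mp (Finset.mem_range.mp (Fintype.mem_piFinset.mp h1 i))
    funext i
    exact (Finset.sum_eq_sum_iff_of_le h).mp (by simpa using h2) i (Finset.mem_univ i)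

end gr

end TA

theorem stTensA : StTensA := by
  intro n _ _ Q w k π h
  refine ⟨TA.hs_tens h, TA.gH_tens, TA.gJ_tens h, TA.top_tens, fun A u => ⟨TA.tens_altT A u, ?_⟩⟩
  rw [hn, TA.tens_altT, TA.altT_dot]
  simp

end Vale.Agent.P281Z.Hm
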